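import Vale.Agent.P330.Sim

/-! The small bits are moved into blocks (task Absorb); apply the simulation lemma `sim` (`Sim.lean`,
definitions and tools in `SimDefs.lean`, words in `Word.lean`) to the data `absD` below.
Plan. `n = σ / k0 + 1` control blocks. New blocks: the old `b` blocks, the control blocks
`b, …, b + n - 1`, the helper block `b + n`, the track block `b + n + 1`. Small bit `i` sits at
coordinate `i % k0` of control block `b + i / k0`; all other bits of the new blocks are padding.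
`absW l s` adds `g ^ s e = ofN β (2 ^ s)` to block `l` (`actBW_rep_wh`, `mulBlk_addBlk`,
`mulBlk_mulBlk`, `GoodG.pw`); it has `12 s + 1` letters, `s = i % k0 ≤ i < σ`, so the word of `Tr v`
has at most `σ (12 σ + 1) < 13 (σ + 1) ^ 2` letters (`Nat.lt_size_self`; `2 ^ size m ≤ 2 m`).
`word` for `Tr v`: induction over `range σ`: each factor adds `up (0, Pi.single i 1)`
(`addBlk_eq_add`), and `act (Tr v) a + a = (0, ofN σ v)`. For `E`, `N` in range:
`blk (dn c).1 l = blk c.1 l` for `l < b`, `up (addBlk 0 l v, 0) = (addBlk 0 l v, 0)`.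
Polynomial time: `pt_idx` with `bitA_unidx`, `bitA_blk`, `bitA_small`, `pos_cases`; `pt_opCases`;
`gtab` is unchanged (`rfl`); `2 ^ (b' β) ≤ nA * pad ^ 3` (`PU.of_le`, `pt_two_pow`). `C = 104`. -/

namespace Vale.Agent.P330.Amp

open Vale.Agent.Lib.H23 Vale.Agent.P333 Vale.Agent.P325 Finset Matrix
open scoped BigOperators

/-- add the basis vector number `s` to block `l`, with the helper block `h`. -/
def absW (h l s : ℕ) : List Op := rep s (dwInv l h) ++ (Op.N l :: rep s (dw l h))

/-- the simulation data. -/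
def absD (G : Inst 2) : SimD G where
  b := G.b + (G.σ / G.k0 + 1) + 2
  β := G.β
  lam := (13 * (G.σ + 1) ^ 2).size
  h := G.b + (G.σ / G.k0 + 1) + 1
  gens := G.gens
  up a := (fun l j => if l.val < G.b then blk a.1 l j else
    if h : j.val < G.k0 ∧ (l.val - G.b) * G.k0 + j.val < G.σ then a.2 ⟨_, h.2⟩ else 0, 0)
  dn c := (fun l => blk c.1 l, fun i => b2 ((toN (blk c.1 (G.b + i.val / G.k0))).testBit (i.val % G.k0)))
  wd o := match o with
    | .E l l' ρ => [.E l l' ρ]
    | .N l => [.N l]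
    | .Tr v => (List.range G.σ).flatMap fun i =>
        if v.testBit i then absW (G.b + (G.σ / G.k0 + 1)) (G.b + i / G.k0) (i % G.k0) else []

theorem abs_size {m : ℕ} (hm : 0 < m) : 2 ^ m.size ≤ 2 * m := by
  have h1 : 0 < m.size := Nat.size_pos.2 hm
  have h2 : 2 ^ (m.size - 1) ≤ m := Nat.lt_size.1 (by omega)
  rw [show m.size = m.size - 1 + 1 by omega, pow_succ]
  omega

theorem abs_add_self {b β σ : ℕ} (a : Addr b β σ) : a + a = 0 :=
  Prod.ext (funext fun l => vec_add_self (a.1 l)) (vec_add_self a.2)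

theorem abs_length (h l s : ℕ) : (absW h l s).length = 12 * s + 1 := by
  simp only [absW, List.length_append, List.length_cons, length_rep, dw, dwInv, wh,
    List.length_nil]
  omega

theorem abs_avoid {h l s k : ℕ} (hh : h ≠ k) (hl : l ≠ k) {o : Op} (ho : o ∈ absW h l s) :
    o.Avoid k := by
  have key : ∀ ρ ρ' : Fin 7, o ∈ wh l h ρ ρ' → o.Avoid k := by
    intro ρ ρ' h1
    simp only [wh, List.mem_cons, List.not_mem_nil, or_false] at h1
    rcases h1 with rfl | rfl | rfl | rfl | rfl | rfl <;> first | exact hl | exact hh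
  rw [absW, List.mem_append, List.mem_cons] at ho
  rcases ho with h1 | rfl | h1
  · exact key _ _ (mem_rep h1)
  · exact hl
  · exact key _ _ (mem_rep h1)

theorem abs_act {b β k0 : ℕ} {g : Fin 7 → Mat β} (hg : GoodG k0 g) {h l s : ℕ} (hl : l < b)
    (hh : h < b) (hne : l ≠ h) (hs : s < k0) (x : Big b β) :
    actBW g (absW h l s) x = addBlk x l (ofN β (2 ^ s)) := by
  have h21 : g 2 * g 1 = 1 := mul_eq_one_comm.mp hg.g12
  have hc : Commute (g 1) (g 2) := hg.g12.trans h21.symm
  rw [absW, actBW_append, actBW_cons, dw, dwInv, actBW_rep_wh hg.g0 hg.g12 hl hh hne,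
    actBW_rep_wh hg.g0 h21 hl hh hne, actB_N, mulBlk_addBlk, mulBlk_mulBlk, ← hc.mul_pow,
    ← hc.symm.mul_pow, hg.g12, h21, one_pow, mulBlk_one, hg.pw s hs]

theorem abs_ofN_succ (σ v m : ℕ) : ofN σ (v % 2 ^ (m + 1)) =
    (if v.testBit m then ofN σ (2 ^ m) else 0) + ofN σ (v % 2 ^ m) := by
  funext i
  rcases lt_trichotomy (i : ℕ) m with h | h | h
  · have h1 : m ≠ i := by omega
    have h2 : (i : ℕ) < m + 1 := by omega
    split_ifs <;> simp [ofN, h, h1, h2, b2]
  · split_ifs with h1 <;> simp [ofN, h, h1, b2]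
  · have h1 : m ≠ i := by omega
    have h2 : ¬ (i : ℕ) < m + 1 := by omega
    have h3 : ¬ (i : ℕ) < m := by omega
    split_ifs <;> simp [ofN, h1, h2, h3, b2]

section

variable {b β σ k B : ℕ}

/-- the embedding of the old addresses. -/
def aUp (k B : ℕ) (a : Addr b β σ) : Addr B β 0 :=
  (fun l j => if l.val < b then blk a.1 l j else
    if h : j.val < k ∧ (l.val - b) * k + j.val < σ then a.2 ⟨_, h.2⟩ else 0, 0)

/-- the projection to the old addresses. -/
def aDn (b σ k : ℕ) (c : Addr B β 0) : Addr b β σ :=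
  (fun l => blk c.1 l, fun i => b2 ((toN (blk c.1 (b + i.val / k))).testBit (i.val % k)))

theorem aUp_add (a a' : Addr b β σ) : aUp k B (a + a') = aUp k B a + aUp k B a' := by
  refine Prod.ext (funext fun l => funext fun j => ?_) (Subsingleton.elim _ _)
  simp only [aUp, Prod.fst_add, Pi.add_apply, blk_add, Prod.snd_add]
  split_ifs
  · rfl
  · rfl
  · exact (add_zero _).symm

theorem aUp_zero : aUp k B (0 : Addr b β σ) = 0 := by
  have h := aUp_add (k := k) (B := B) (0 : Addr b β σ) 0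
  rw [add_zero] at h
  rw [h, abs_add_self]

theorem aUp_addBlk {l : ℕ} (hl : l < b) (v : Vec β) :
    aUp k B ((addBlk 0 l v, 0) : Addr b β σ) = (addBlk 0 l v, 0) := by
  refine Prod.ext (funext fun l' => funext fun j => ?_) (Subsingleton.elim _ _)
  simp only [aUp]
  split_ifs with h1 h2
  · rw [blk_of_lt _ h1]
    rfl
  · rw [addBlk, if_neg (by omega)]
    rfl
  · rw [addBlk, if_neg (by omega)]
    rfl

theorem aUp_pow (hk : 0 < k) {m : ℕ} (hm : m < σ) :
    aUp k B ((0, ofN σ (2 ^ m)) : Addr b β σ) =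
      (addBlk 0 (b + m / k) (ofN β (2 ^ (m % k))), 0) := by
  have h0 := Nat.div_add_mod' m k
  have h0' := Nat.mod_lt m hk
  have h0'' := Nat.zero_le (m / k)
  refine Prod.ext (funext fun l => funext fun j => ?_) (Subsingleton.elim _ _)
  simp only [aUp, addBlk]
  by_cases h1 : l.val < b
  · rw [if_pos h1, if_neg (by omega), blk_zero]
    rfl
  · rw [if_neg h1]
    by_cases h2 : l.val = b + m / k
    · rw [if_pos h2]
      have h3 : l.val - b = m / k := by omega
      simp only [Pi.zero_apply, zero_add, ofN, Nat.testBit_two_pow, h3]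
      split_ifs with h4
      · exact congrArg b2 (decide_eq_decide.2 (by omega))
      · rw [decide_eq_false (by omega)]
        rfl
    · rw [if_neg h2]
      split_ifs with h4
      · simp only [ofN, Nat.testBit_two_pow]
        rw [decide_eq_false]
        · rfl
        · intro h5
          refine h2 ?_
          rw [h5, add_comm (_ * _), Nat.add_mul_div_right _ _ hk, Nat.div_eq_of_lt h4.1]
          omega
      · rfl

theorem aUp_high (hk : 0 < k) (a : Addr b β σ) {h : ℕ} (hh : b + σ / k < h) :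
    blk (aUp k B a).1 h = 0 := by
  have h0 := Nat.zero_le (σ / k)
  have h1 : σ < (h - b) * k := (Nat.lt_mul_div_succ σ hk).trans_le (by
    rw [mul_comm]
    exact Nat.mul_le_mul_right _ (by omega))
  by_cases h2 : h < B
  · rw [blk_of_lt _ h2]
    funext j
    simp only [aUp]
    rw [if_neg (by omega), dif_neg (by omega)]
    rfl
  · exact blk_of_le _ (by omega)

theorem aDn_blk (c : Addr B β 0) {l : ℕ} (hl : l < b) : blk (aDn b σ k c).1 l = blk c.1 l :=
  blk_of_lt _ hl

theorem aDn_snd (hk : 0 < k) (hβ : k ≤ β) (c : Addr B β 0) (i : Fin σ) :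
    (aDn b σ k c).2 i = blk c.1 (b + i / k) ⟨i % k, (Nat.mod_lt _ hk).trans_le hβ⟩ := by
  rw [← b2_decide (blk c.1 _ _), ← testBit_toN]
  rfl

theorem aDn_add (hk : 0 < k) (hβ : k ≤ β) (c c' : Addr B β 0) :
    aDn b σ k (c + c') = aDn b σ k c + aDn b σ k c' := by
  refine Prod.ext (funext fun l => blk_add _ _ _) (funext fun i => ?_)
  rw [Prod.snd_add, Pi.add_apply, aDn_snd hk hβ, aDn_snd hk hβ, aDn_snd hk hβ, Prod.fst_add,
    blk_add, Pi.add_apply]

theorem aDn_aUp (hk : 0 < k) (hβ : k ≤ β) (hB : b + σ / k < B) (a : Addr b β σ) :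
    aDn b σ k (aUp k B a) = a := by
  have h0 := Nat.zero_le (σ / k)
  refine Prod.ext (funext fun l => ?_) (funext fun i => ?_)
  · have h1 : l.val < B := by have := l.2; omega
    refine (blk_of_lt _ h1).trans (funext fun j => ?_)
    exact (if_pos l.2).trans (congrFun (blk_val _ _) j)
  · have h1 : i.val / k ≤ σ / k := Nat.div_le_div_right i.2.le
    have h2 := Nat.div_add_mod' i.val k
    have h3 := i.2
    have h4 := Nat.zero_le (i.val / k)
    rw [aDn_snd hk hβ, blk_of_lt _ (show b + i.val / k < B by omega)]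
    simp only [aUp]
    rw [if_neg (by omega), dif_pos ⟨Nat.mod_lt _ hk, by rw [Nat.add_sub_cancel_left]; omega⟩]
    exact congrArg a.2 (Fin.ext (by simp only [Nat.add_sub_cancel_left]; omega))

theorem aDn_high (hk : 0 < k) (hβ : k ≤ β) {h : ℕ} (hh : b + σ / k < h) (v : Vec β) :
    aDn b σ k ((addBlk 0 h v, 0) : Addr B β 0) = 0 := by
  have h0 := Nat.zero_le (σ / k)
  refine Prod.ext (funext fun l => ?_) (funext fun i => ?_)
  · have := l.2
    exact (blk_addBlk_ne' _ (show l.val ≠ h by omega) _).trans (blk_zero _)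
  · have h1 : i.val / k ≤ σ / k := Nat.div_le_div_right i.2.le
    rw [aDn_snd hk hβ, blk_addBlk_ne' _ (show b + i.val / k ≠ h by omega), blk_zero]
    rfl

theorem abs_word_add (c : Addr B β 0) {l : ℕ} (hl : l < b) (v : Vec β) :
    (addBlk c.1 l v, c.2) =
      c + aUp k B ((addBlk (aDn b σ k c).1 l v, (aDn b σ k c).2) + aDn b σ k c) := by
  have e : (addBlk (aDn b σ k c).1 l v, (aDn b σ k c).2) = aDn b σ k c + (addBlk 0 l v, 0) :=
    Prod.ext (addBlk_eq_add _ _ _) (add_zero _).symm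
  rw [e, add_right_comm, abs_add_self, zero_add, aUp_addBlk hl]
  exact Prod.ext (addBlk_eq_add _ _ _) (Subsingleton.elim _ _)

theorem abs_word_E (g : Fin 7 → Mat β) (c : Addr B β 0) {l l' : ℕ} (hl : l < b) (hl' : l' < b)
    (ρ : Fin 7) :
    act g (.E l l' ρ) c = c + aUp k B (act g (.E l l' ρ) (aDn b σ k c) + aDn b σ k c) := by
  by_cases h : l = l'
  · have e1 : act g (.E l l' ρ) (aDn b σ k c) = aDn b σ k c := Prod.ext (if_pos h) rfl
    rw [e1, abs_add_self, aUp_zero, add_zero]
    exact Prod.ext (if_pos h) rfl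
  · have e1 : act g (.E l l' ρ) (aDn b σ k c) =
        (addBlk (aDn b σ k c).1 l (g ρ *ᵥ blk c.1 l'), (aDn b σ k c).2) := by
      rw [← aDn_blk (σ := σ) (k := k) c hl']
      exact Prod.ext (if_neg h) rfl
    rw [e1, ← abs_word_add c hl]
    exact Prod.ext (if_neg h) rfl

theorem abs_word_tr {g : Fin 7 → Mat β} (hg : GoodG k g) {h : ℕ} (hh : b + σ / k < h)
    (hB : h < B) (v : ℕ) {m : ℕ} (hm : m ≤ σ) (c : Addr B β 0) :
    actW g ((List.range m).flatMap fun i => if v.testBit i then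
      absW h (b + i / k) (i % k) else []) c =
      c + aUp k B ((0, ofN σ (v % 2 ^ m)) : Addr b β σ) := by
  induction m generalizing c with
  | zero =>
    rw [pow_zero, Nat.mod_one, ofN_zero]
    exact ((congrArg (c + ·) aUp_zero).trans (add_zero c)).symm
  | succ m ih =>
    have h1 : m / k ≤ σ / k := Nat.div_le_div_right (by omega)
    have e : ((0, ofN σ (v % 2 ^ (m + 1))) : Addr b β σ) =
        (0, if v.testBit m then ofN σ (2 ^ m) else 0) + (0, ofN σ (v % 2 ^ m)) :=
      Prod.ext (add_zero _).symm (abs_ofN_succ _ _ _)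
    rw [List.range_succ, List.flatMap_append, actW_append, ih (by omega), e, aUp_add,
      ← add_assoc, List.flatMap_singleton]
    congr 1
    split_ifs
    · rw [aUp_pow hg.one_le (by omega), actW_zero, abs_act hg (by omega) hB (by omega)
        (Nat.mod_lt _ hg.one_le)]
      exact Prod.ext (addBlk_eq_add _ _ _) (Subsingleton.elim _ _)
    · exact ((congrArg (c + ·) aUp_zero).trans (add_zero c)).symm

theorem abs_word_Tr {g : Fin 7 → Mat β} (hg : GoodG k g) {h : ℕ} (hh : b + σ / k < h)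
    (hB : h < B) (v : ℕ) (c : Addr B β 0) :
    actW g ((List.range σ).flatMap fun i => if v.testBit i then
      absW h (b + i / k) (i % k) else []) c =
      c + aUp k B (act g (.Tr v) (aDn b σ k c) + aDn b σ k c) := by
  have e1 : act g (.Tr v) (aDn b σ k c) = aDn b σ k c + (0, ofN σ v) :=
    Prod.ext (add_zero _).symm rfl
  rw [e1, add_right_comm, abs_add_self, zero_add, ← ofN_mod]
  exact abs_word_tr hg hh hB v le_rfl c

theorem bitA_aUp (m : ℕ) {j : ℕ} (hj : j < 0 + B * β) :
    bitA (aUp k B (unidx b β σ m)) j = if j / β < b then m.testBit (σ + j) else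
      decide (j % β < k) && (decide ((j / β - b) * k + j % β < σ) &&
        m.testBit ((j / β - b) * k + j % β)) := by
  obtain ⟨i, -⟩ | ⟨l, i, rfl⟩ := pos_cases hj
  · exact i.elim0
  have hi : i.val < β := i.2
  have e1 : (0 + l.val * β + i.val) / β = l := by
    rw [zero_add, add_comm, Nat.add_mul_div_right _ _ (by omega), Nat.div_eq_of_lt hi, zero_add]
  have e2 : (0 + l.val * β + i.val) % β = i := by
    rw [zero_add, add_comm, Nat.add_mul_mod_self_right, Nat.mod_eq_of_lt hi]
  rw [bitA_blk, e1, e2]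
  simp only [aUp]
  split_ifs with h1 h2
  · rw [blk_of_lt _ h1, zero_add, ← add_assoc]
    exact decide_b2 _
  · rw [decide_eq_true h2.1, decide_eq_true h2.2, Bool.true_and, Bool.true_and]
    exact decide_b2 _
  · rw [← Bool.and_assoc, ← Bool.decide_and, decide_eq_false h2, Bool.false_and]
    rfl

theorem bitA_aDn (hk : 0 < k) (hβ : k ≤ β) (hB : b + σ / k < B) (m : ℕ) {j : ℕ}
    (hj : j < σ + b * β) :
    bitA (aDn b σ k (unidx B β 0 m)) j =
      if j < σ then m.testBit ((b + j / k) * β + j % k) else m.testBit (j - σ) := by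
  have h0 := Nat.zero_le (σ / k)
  obtain ⟨i, rfl⟩ | ⟨l, i, rfl⟩ := pos_cases hj
  · have h1 : i.val / k ≤ σ / k := Nat.div_le_div_right i.2.le
    rw [bitA_small, if_pos i.2, aDn_snd hk hβ, blk_of_lt _ (show b + i.val / k < B by omega)]
    refine (decide_b2 _).trans ?_
    rw [zero_add]
  · have h1 : l.val < b := l.2
    rw [bitA_blk, if_neg (by omega)]
    change decide (blk (unidx B β 0 m).1 l i = 1) = _
    rw [blk_of_lt _ (show l.val < B by omega)]
    refine (decide_b2 _).trans (congrArg m.testBit ?_)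
    change 0 + l.val * β + i.val = _
    omega

end

theorem absD_ok {G : Inst 2} (hG : G.Good) : (absD G).OK := by
  have hk : 0 < G.k0 := hG.one_le
  have h0 := Nat.zero_le (G.σ / G.k0)
  have hlam : 13 * (G.σ + 1) ^ 2 < 2 ^ (absD G).lam := Nat.lt_size_self _
  have hB : G.b + G.σ / G.k0 < G.b + (G.σ / G.k0 + 1) + 2 := by omega
  have hh : G.b + G.σ / G.k0 < G.b + (G.σ / G.k0 + 1) + 1 := by omega
  refine ⟨hG.one_le.trans hG.le, Nat.lt_succ_self _, aUp_add, aDn_add hk hG.le,
    aDn_aUp hk hG.le hB, fun a => aUp_high hk a hh, aDn_high hk hG.le hh, fun o _ => ?_,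
    fun o ho o' ho' => ?_, fun o ho c => ?_⟩
  · refine le_trans ?_ hlam.le
    have hpos : 0 < (G.σ + 1) ^ 2 := by positivity
    cases o with
    | E l l' ρ => simp only [absD, List.length_singleton]; omega
    | N l => simp only [absD, List.length_singleton]; omega
    | Tr v =>
      have h1 : ((absD G).wd (.Tr v)).length ≤ G.σ * (12 * G.σ + 1) := by
        simp only [absD, List.length_flatMap]
        refine (List.sum_le_card_nsmul _ (12 * G.σ + 1) fun x hx => ?_).trans (by simp)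
        obtain ⟨i, hi, rfl⟩ := List.mem_map.1 hx
        have h2 := List.mem_range.1 hi
        have h3 := Nat.mod_le i G.k0
        split_ifs
        · rw [abs_length]; omega
        · exact Nat.zero_le _
      nlinarith
  · cases o with
    | E l l' ρ =>
      obtain rfl := List.mem_singleton.1 ho'
      exact show l ≠ G.b + (G.σ / G.k0 + 1) + 1 by have := ho.1; omega
    | N l =>
      obtain rfl := List.mem_singleton.1 ho'
      exact show l ≠ G.b + (G.σ / G.k0 + 1) + 1 by have : l < G.b := ho; omega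
    | Tr v =>
      obtain ⟨i, hi, h1⟩ := List.mem_flatMap.1 ho'
      have h2 : i / G.k0 ≤ G.σ / G.k0 := Nat.div_le_div_right (List.mem_range.1 hi).le
      split_ifs at h1
      · exact abs_avoid (Nat.succ_ne_self _).symm
          (show _ ≠ G.b + (G.σ / G.k0 + 1) + 1 by omega) h1
      · exact absurd h1 List.not_mem_nil
  · cases o with
    | E l l' ρ => exact abs_word_E G.gens c ho.1 ho.2 ρ
    | N l => exact abs_word_add c ho _
    | Tr v =>
      exact abs_word_Tr (h := G.b + (G.σ / G.k0 + 1)) hG (Nat.lt_succ_self _)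
        (Nat.lt_add_of_pos_right two_pos) v c

theorem absorb : AbsorbStmt := by
  have hlam : ∀ G : Inst 2, 2 ^ (absD G).lam ≤ 26 * (G.σ + 1) ^ 2 := fun G =>
    (abs_size (by positivity)).trans_eq (by ring)
  refine ⟨104, fun x => (absD x.1.1).inst, fun x => ⟨x.2.1, rfl, rfl, rfl,
    Nat.succ_le_succ ((Nat.le_add_right _ _).trans (Nat.le_succ _)),
    show x.1.1.b + (x.1.1.σ / x.1.1.k0 + 1) + 2 ≤ _ by omega, ?_⟩, ?_⟩
  · change 2 ^ (x.1.1.τ + (absD x.1.1).lam) ≤ _
    rw [pow_add, mul_comm]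
    exact Nat.mul_le_mul_right _ ((hlam _).trans (Nat.mul_le_mul_right _ (by omega)))
  have hs : PT fun x : AbsIn => x.1.1 := (pt_val PT.id).fst
  have hpad : PU fun x : AbsIn => x.1.2.length := PU.len (pt_val PT.id).snd
  have hb0 := pu_b hs
  have hβ := pu_β hs
  have hσ := pu_σ hs
  have hk := pt_k0 hs
  have hn : PU fun x : AbsIn => x.1.1.σ / x.1.1.k0 + 1 :=
    (PU.of_le hσ (hσ.pt.div hk) fun _ => Nat.div_le_self _ _).add (PU.const 1)
  have hb : PU fun x : AbsIn => (absD x.1.1).b := (hb0.add hn).add (PU.const 2)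
  have hsq := (hσ.add (PU.const 1)).pow 2
  have j2 : PT fun q : (AbsIn × ℕ) × ℕ => q.1.1 := PT.fst'.fst
  have jb := hb0.pt.comp j2
  have jβ := hβ.pt.comp j2
  have jσ := hσ.pt.comp j2
  have jk := hk.comp j2
  have jm : PT fun q : (AbsIn × ℕ) × ℕ => q.1.2 := PT.fst'.snd
  have jj : PT fun q : (AbsIn × ℕ) × ℕ => q.2 := PT.snd'
  refine (sim (src := fun x : AbsIn => x.1.1) (fun x => absD x.1.1) (fun x => absD_ok x.2.1) hs hb
    hβ ?_ ?_ ((hb0.add hn).add (PU.const 1)).pt ((pt_gtab hs).congr fun _ => rfl) ?_ ?_ ?_).mono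
    fun x v' v hv' _ h => h.trans (mul_le_mul_of_nonneg_right ?_ hv')
  · exact PU.of_le ((PU.const 26).mul hsq) (pt_two_pow (pu_size ((PU.const 13).mul hsq).pt))
      fun x => hlam _
  · refine PU.of_le ((pu_nA hs).mul (hpad.pow 3)) (pt_two_pow (hb.mul hβ)) fun x => ?_
    have h1 : 2 ^ (x.1.1.b * x.1.1.β) ≤ x.1.1.nA :=
      Nat.pow_le_pow_right (by omega) (Nat.le_add_left _ _)
    have h2 : 2 ^ x.1.1.β ≤ x.1.2.length := (Nat.pow_le_pow_right (by omega)
      (Nat.le_mul_of_pos_left _ (Nat.succ_pos _))).trans x.2.2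
    change 2 ^ ((x.1.1.b + (x.1.1.σ / x.1.1.k0 + 1) + 2) * x.1.1.β) ≤ _
    rw [add_mul, add_mul, pow_add, pow_add, mul_assoc, mul_comm 2 x.1.1.β, pow_mul 2 x.1.1.β 2,
      pow_succ' x.1.2.length 2]
    exact Nat.mul_le_mul h1 (Nat.mul_le_mul x.2.2 (Nat.pow_le_pow_left h2 2))
  · refine (pt_opCases (X := AbsIn × Op) PT.snd' (fE := fun _ l l' ρ => [Op.E l l' ρ])
      (fN := fun _ l => [Op.N l]) (fT := fun p v => (absD p.1.1.1).wd (.Tr v))
      (fun ρ => (pt_opE PT.snd'.fst PT.snd'.snd ρ).cons (PT.const _))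
      ((pt_opN PT.snd').cons (PT.const _)) ?_).congr fun p => ?_
    · have j : PT fun q : ((AbsIn × Op) × ℕ) × ℕ => q.1.1.1 := PT.fst'.fst.fst
      have hs' : PU fun q : ((AbsIn × Op) × ℕ) × ℕ => q.2 % q.1.1.1.1.1.k0 :=
        PU.of_le (hβ.comp j) (pt_mod PT.snd' (hk.comp j)) fun q =>
          (Nat.mod_lt _ q.1.1.1.2.1.one_le).le.trans q.1.1.1.2.1.le
      have hh : PT fun q : ((AbsIn × Op) × ℕ) × ℕ =>
          q.1.1.1.1.1.b + (q.1.1.1.1.1.σ / q.1.1.1.1.1.k0 + 1) := (hb0.add hn).pt.comp j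
      have hl : PT fun q : ((AbsIn × Op) × ℕ) × ℕ => q.1.1.1.1.1.b + q.2 / q.1.1.1.1.1.k0 :=
        (hb0.pt.comp j).add (PT.snd'.div (hk.comp j))
      have hwh : ∀ ρ ρ' : Fin 7, PT fun q : ((AbsIn × Op) × ℕ) × ℕ =>
          rep (q.2 % q.1.1.1.1.1.k0) (wh (q.1.1.1.1.1.b + q.2 / q.1.1.1.1.1.k0)
            (q.1.1.1.1.1.b + (q.1.1.1.1.1.σ / q.1.1.1.1.1.k0 + 1)) ρ ρ') := fun ρ ρ' =>
        pt_flatMap (PT.comp ((pt_opE hl hh 0).cons ((pt_opE hh hl 0).cons ((pt_opE hl hh 0).cons
          ((pt_opE hl hh ρ).cons ((pt_opE hh hl ρ').cons ((pt_opE hl hh ρ).cons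
            (PT.const []))))))) PT.fst') hs'.range
      exact pt_flatMap (pt_ite ((pt_testBit PT.fst'.snd PT.snd').congr fun _ => Bool.decide_eq_true)
        ((hwh 2 1).append ((pt_opN hl).cons (hwh 1 2))) (PT.const []))
        (hσ.comp PT.fst'.fst).range
    · obtain ⟨x, o⟩ := p
      cases o <;> rfl
  · have e := (((jj.div jβ).sub jb).mul jk).add (pt_mod jj jβ)
    exact pt_idx (((PU.const 0).add (hb.mul hβ)).comp PT.fst')
      (pt_ite (pt_decLt (jj.div jβ) jb) (pt_testBit jm (jσ.add jj))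
        ((pt_decLt (pt_mod jj jβ) jk).and ((pt_decLt e jσ).and (pt_testBit jm e))))
      fun p j hj => bitA_aUp p.2 hj
  · exact pt_idx ((hσ.add (hb0.mul hβ)).comp PT.fst')
      (pt_ite (pt_decLt jj jσ) (pt_testBit jm (((jb.add (jj.div jk)).mul jβ).add (pt_mod jj jk)))
        (pt_testBit jm (jj.sub jσ)))
      fun p j hj => bitA_aDn p.1.2.1.one_le p.1.2.1.le
        ((Nat.lt_succ_self _).trans (Nat.lt_add_of_pos_right two_pos)) p.2 hj
  · have h1 : ((2 ^ (absD x.1.1).lam : ℕ) : ℝ) ≤ ((26 * (x.1.1.σ + 1) ^ 2 : ℕ) : ℝ) :=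
      Nat.cast_le.2 (hlam _)
    push_cast at h1 ⊢
    linarith

end Vale.Agent.P330.Amp
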