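import Vale.Agent.P330.InstPT

/-! Gap amplification for pure circuits from its parts (task AmpTop): compose `Seq`, `Compile`
(fan-in 3), `Iter`, `Out`; choose `d` with `c / d ≤ γ`. -/

namespace Vale.Agent.P330.Amp

open Vale.Agent.Lib.H23 Vale.Agent.P333 Vale.Agent.P325 Finset Matrix
open scoped BigOperators

theorem ampTop (hS : SeqStmt) (hC : CompileStmt) (hI : IterStmt) (hO : OutStmt) : AmpStmt := by
  obtain ⟨R1, D1, hR1, hD1, h1⟩ := hS
  obtain ⟨K, R2, h2, hR2, D2, hD2, h2'⟩ := hC 3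
  obtain ⟨γ, R3, hγ, hR3, D3, hD3, h3⟩ := hI
  obtain ⟨c, R4, D4, hR4, hD4, h4⟩ := hO
  obtain ⟨d, hd⟩ := exists_nat_gt ((c : ℝ) / γ)
  have hd0 : (0 : ℝ) < d := lt_of_le_of_lt (by positivity) hd
  let j : PC → {G : Inst 2 // G.b = 0} := fun C => ⟨R2 (R1 C), (h2 _).1.trans (h1 C).1⟩
  have hj : PT j := pt_sub (hR2.comp hR1) _
  refine ⟨d, fun C => R4 (R3 (j C)),
    fun p => D1 (p.1, D2 (R1 p.1, D3 (j p.1, D4 (R3 (j p.1), p.2)))), Nat.cast_pos.1 hd0,
    hR4.comp (hR3.comp hj), ?_, fun C hC => ⟨(h4 _).1, fun x hx => (h1 C).2 hC _ ?_⟩⟩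
  · exact hD1.comp (PT.fst'.pair (hD2.comp ((hR1.comp PT.fst').pair (hD3.comp
      ((hj.comp PT.fst').pair (hD4.comp ((hR3.comp (hj.comp PT.fst')).pair PT.snd')))))))
  · have hl : (0 : ℝ) < (R4 (R3 (j C))).length :=
      Nat.cast_pos.2 (List.length_pos_iff.2 (h4 _).1.1)
    have h5 := (h4 (R3 (j C))).2 x
    have h6 : (d : ℝ) * (R4 (R3 (j C))).bad x ≤ (R4 (R3 (j C))).length := by exact_mod_cast hx
    have h7 : (R3 (j C)).violA (D4 (R3 (j C), x)) * d ≤ c := by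
      refine le_of_mul_le_mul_right ?_ hl
      have h8 := mul_le_mul_of_nonneg_left h6 (Nat.cast_nonneg (α := ℝ) c)
      have h9 := mul_le_mul_of_nonneg_left h5 hd0.le
      nlinarith
    have h8 := h3 (j C) (D4 (R3 (j C), x)) (by
      rw [div_lt_iff₀ hγ] at hd
      refine le_of_mul_le_mul_right ?_ hd0
      linarith [mul_comm γ d])
    have h9 := h2' (R1 C) (D3 (j C, D4 (R3 (j C), x)))
    rw [show (R2 (R1 C)).violA (D3 (j C, D4 (R3 (j C), x))) = 0 from h8, mul_zero] at h9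
    exact le_antisymm h9 (Inst.viol_nonneg _ _)

end Vale.Agent.P330.Amp
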