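import Vale.Agent.P330.Reg

/-! The bitonic sorting network on bits (task Bitonic).
Plan. Zero-one proof. Call a Boolean function of the rank `i < 2 ^ n` bitonic if it is the indicator
of an interval or of the complement of an interval. Merge lemma (induction on `n`): the half
cleaner (compare `i` with `i + 2 ^ (n-1)`) turns a bitonic sequence into two bitonic halves, one
of which is constant on the right side, and keeps the number of ones; so the stages
`j = n-1, ..., 0` sort it. Round `i` of `stages` merges blocks of `2 ^ (i+1)` ranks, descending if the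
bit `i+1` of the rank is zero (or `i + 1 = n`), ascending otherwise; a descending block followed
by an ascending block is bitonic. It is convenient to prove this for functions on numbers
(`g ∘ (point of rank i)`) and transport by `rank`. `cst_step`: pair the points along the bit. -/

namespace Vale.Agent.P330.Amp

open Vale.Agent.Lib.H23 Vale.Agent.P325 Finset
open scoped BigOperators

variable {σ : ℕ}

/-- one stage of comparators on a Boolean array. -/
def cst (orc : ℕ → Vec σ → Bool) (s : ℕ × Cond) (g : Vec σ → Bool) (z : Vec σ) : Bool :=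
  if xor (decide (fld z s.1 1 = 1)) (s.2.ev orc z) then
    g (put z s.1 1 (ofN _ 0)) && g (put z s.1 1 (ofN _ 1))
  else g (put z s.1 1 (ofN _ 0)) || g (put z s.1 1 (ofN _ 1))

variable {orc : ℕ → Vec σ → Bool} {bs : List ℕ}

theorem length_stages (bs : List ℕ) : (stages bs).length ≤ bs.length ^ 2 := by
  rw [stages, List.length_flatMap, sq]
  refine (List.sum_le_card_nsmul _ bs.length fun x hx => ?_).trans (by simp)
  obtain ⟨i, hi, rfl⟩ := List.mem_map.1 hx
  simpa using List.mem_range.1 hi

theorem stages_mem (hb : bs.Nodup) {s : ℕ × Cond} (hs : s ∈ stages bs) :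
    s.1 ∈ bs ∧ ∀ z z' : Vec σ, (∀ j ∈ bs, j ≠ s.1 → fld z j 1 = fld z' j 1) →
      s.2.ev orc z = s.2.ev orc z' := by
  obtain ⟨i, hi, hs⟩ := List.mem_flatMap.1 hs
  obtain ⟨j, hj, rfl⟩ := List.mem_map.1 hs
  have hi := List.mem_range.1 hi
  have hj := List.mem_range.1 (List.mem_reverse.1 hj)
  have hj' : j < bs.length := by omega
  simp only [List.getD_eq_getElem _ _ hj']
  refine ⟨List.getElem_mem _, fun z z' h => ?_⟩
  split_ifs with h1
  · rw [List.getD_eq_getElem _ _ h1, Cond.ev, Cond.ev, h _ (List.getElem_mem _) fun e => ?_]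
    have := (List.Nodup.getElem_inj_iff hb).1 e
    omega
  · rw [Cond.ev_ff, Cond.ev_ff]

theorem rank_lt (bs : List ℕ) (z : Vec σ) : rank bs z < 2 ^ bs.length := by
  exact Nat.ofBits_lt_two_pow _

theorem bit_lt (z : Vec σ) (b : ℕ) : fld z b 1 < 2 := fld_lt

theorem rank_cons (b : ℕ) (bs : List ℕ) (z : Vec σ) :
    rank (b :: bs) z = fld z b 1 + 2 * rank bs z := by
  have h : rank (b :: bs) z = 2 * rank bs z + (decide (fld z b 1 = 1)).toNat := Nat.ofBits_succ _
  have := bit_lt z b
  rw [h]
  by_cases e : fld z b 1 = 1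
  · simp [e, add_comm]
  · simp only [e, decide_false, Bool.toNat_false]
    omega

theorem rank_append (bs bs' : List ℕ) (z : Vec σ) :
    rank (bs ++ bs') z = rank bs z + 2 ^ bs.length * rank bs' z := by
  induction bs with
  | nil => simp [rank]
  | cons b bs ih =>
    rw [List.cons_append, rank_cons, rank_cons, ih, List.length_cons, pow_succ]
    ring

theorem rank_range' (p w : ℕ) (z : Vec σ) : rank (List.range' p w) z = fld z p w := by
  induction w generalizing p with
  | zero => exact (Nat.lt_one_iff.1 (fld_lt (z := z) (p := p) (w := 0))).symm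
  | succ w ih => rw [List.range'_succ, rank_cons, ih, add_comm w 1, fld_add, pow_one]

theorem rank_congr {z z' : Vec σ} (h : ∀ j ∈ bs, fld z j 1 = fld z' j 1) : rank bs z = rank bs z' := by
  induction bs with
  | nil => rfl
  | cons b bs ih =>
    rw [rank_cons, rank_cons, h b List.mem_cons_self, ih fun j hj => h j (List.mem_cons_of_mem _ hj)]

theorem bit_put {b : ℕ} (hb : b < σ) (z : Vec σ) {t : ℕ} (ht : t < 2) :
    fld (put z b 1 (ofN 1 t)) b 1 = t := fld_put hb ht

theorem rank_snoc (L : List ℕ) (b : ℕ) (z : Vec σ) :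
    rank (L ++ [b]) z = rank L z + 2 ^ L.length * fld z b 1 := by
  rw [rank_append, rank_cons]
  rfl

theorem rank_put {L : List ℕ} {b : ℕ} (hb : b ∉ L) (z : Vec σ) (t : Vec 1) :
    rank L (put z b 1 t) = rank L z := by
  refine rank_congr fun j hj => ?_
  have : j ≠ b := fun e => hb (e ▸ hj)
  rw [fld, fld, get_put_disj (by omega)]

theorem av_bit {b : ℕ} (hb : b < σ) (f : Vec σ → ℝ) (z : Vec σ) :
    av (Set.Ico b (b + 1)) f z = (f (put z b 1 (ofN 1 0)) + f (put z b 1 (ofN 1 1))) / 2 := by
  rw [av_Ico hb, expect_vec]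
  exact (Fintype.expect_eq_sum_div_card (ι := Fin 2) _).trans (by simp)

theorem inR_snoc {L : List ℕ} {b : ℕ} {z y : Vec σ} (h : InR {j | j ∈ L} z y) (t : Vec 1) :
    InR {j | j ∈ L ++ [b]} z (put y b 1 t) :=
  (h.mono fun _ hj => List.mem_append_left _ hj).put
    (fun j h1 h2 => List.mem_append_right _ (List.mem_singleton.2 (by omega))) t

theorem inR_bit {L : List ℕ} {b : ℕ} (hb : b ∉ L) {z y : Vec σ} (h : InR {j | j ∈ L} z y) :
    fld y b 1 = fld z b 1 := by
  rw [fld, fld, h.get (p := b) (w := 1) fun j h1 h2 hj => hb (show b ∈ L from (show j = b by omega) ▸ hj)]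

/-- the merging stages sort a cyclic interval. -/
theorem bit_merge (c : Cond) (d : Bool) (L : List ℕ) : L.Nodup → (∀ j ∈ L, j < σ) →
    ∀ (g : Vec σ → Bool) (z : Vec σ) (s n : ℕ), s ≤ 2 ^ L.length → n ≤ 2 ^ L.length →
    (∀ y, InR {j | j ∈ L} z y → c.ev orc y = d) →
    (∀ y, InR {j | j ∈ L} z y → (g y = true ↔
      (s ≤ rank L y ∧ rank L y < s + n) ∨ rank L y + 2 ^ L.length < s + n)) →
    ((L.reverse.map fun j => (j, c)).foldl (fun g s => cst orc s g) g z = true ↔
      if d then 2 ^ L.length ≤ rank L z + n else rank L z < n) := by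
  induction L using List.reverseRecOn with
  | nil =>
    intro _ _ g z s n hs hn _ hg
    have := hg z InR.refl
    simp only [rank, List.length_nil, Nat.ofBits_zero, pow_zero] at this hs hn ⊢
    rw [List.reverse_nil, List.map_nil, List.foldl_nil, this]
    split_ifs <;> omega
  | append_singleton L b ih =>
    intro hn hσ g z s n hs hn' hc hg
    obtain ⟨h1, -, h2⟩ := List.nodup_append.1 hn
    have hb : b ∉ L := fun h => h2 b h b List.mem_cons_self rfl
    have hbσ : b < σ := hσ b (by simp)
    have hσ' : ∀ j ∈ L, j < σ := fun j hj => hσ j (List.mem_append_left _ hj)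
    rw [List.length_append, List.length_singleton, pow_succ] at hs hn' hg ⊢
    have hc' : ∀ y, InR {j | j ∈ L} z y → c.ev orc y = d := fun y hy =>
      hc y (hy.mono fun _ hj => List.mem_append_left _ hj)
    have hr := rank_lt L z
    have hz := bit_lt z b
    rw [List.reverse_append, List.reverse_singleton, List.singleton_append, List.map_cons,
      List.foldl_cons, rank_snoc]
    generalize hN : 2 ^ L.length = N at *
    have key : ∀ y, InR {j | j ∈ L} z y → rank L y < N ∧
        (g (put y b 1 (ofN 1 0)) = true ↔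
          (s ≤ rank L y ∧ rank L y < s + n) ∨ rank L y + N * 2 < s + n) ∧
        (g (put y b 1 (ofN 1 1)) = true ↔
          (s ≤ rank L y + N ∧ rank L y + N < s + n) ∨ rank L y + N + N * 2 < s + n) := by
      intro y hy
      refine ⟨hN ▸ rank_lt L y, ?_, ?_⟩
      · rw [hg _ (inR_snoc hy _), rank_snoc, rank_put hb, bit_put hbσ y (by omega), mul_zero, add_zero]
      · rw [hg _ (inR_snoc hy _), rank_snoc, rank_put hb, bit_put hbσ y (by omega), mul_one, hN]
    by_cases hx : xor (decide (fld z b 1 = 1)) d = true
    · rw [ih h1 hσ' _ z (if s ≤ N then s else s - N) (n - N) (by split_ifs <;> omega) (by omega) hc']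
      · obtain e | e : fld z b 1 = 0 ∨ fld z b 1 = 1 := by omega
        all_goals
          rw [e] at hx ⊢
          cases d <;> simp at hx ⊢ <;> omega
      · intro y hy
        obtain ⟨k0, k1, k2⟩ := key y hy
        rw [cst, inR_bit hb hy, hc' y hy, if_pos hx, Bool.and_eq_true, k1, k2]
        split_ifs <;> omega
    · rw [ih h1 hσ' _ z (if s ≤ N then s else s - N) (min n N) (by split_ifs <;> omega) (by omega) hc']
      · obtain e | e : fld z b 1 = 0 ∨ fld z b 1 = 1 := by omega
        all_goals
          rw [e] at hx ⊢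
          cases d <;> simp at hx ⊢ <;> omega
      · intro y hy
        obtain ⟨k0, k1, k2⟩ := key y hy
        rw [cst, inR_bit hb hy, hc' y hy, if_neg hx, Bool.or_eq_true, k1, k2]
        split_ifs <;> omega

/-- the network with a given direction of the last round. -/
def bitSt (L : List ℕ) (c : Cond) : List (ℕ × Cond) :=
  (List.range L.length).flatMap fun i => (List.range (i + 1)).reverse.map fun j =>
    (L.getD j 0, if i + 1 < L.length then .eq (L.getD (i + 1) 0) 1 1 else c)

theorem bitSt_snoc (L : List ℕ) (b : ℕ) (c : Cond) : bitSt (L ++ [b]) c =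
    bitSt L (.eq b 1 1) ++ (L ++ [b]).reverse.map fun j => (j, c) := by
  rw [bitSt, List.length_append, List.length_singleton, List.range_succ, List.flatMap_append,
    List.flatMap_singleton, if_neg (lt_irrefl _)]
  refine congrArg₂ (· ++ ·) (List.flatMap_congr fun i hi => List.map_congr_left fun j hj => ?_) ?_
  · have hi := List.mem_range.1 hi
    have hj := List.mem_range.1 (List.mem_reverse.1 hj)
    rw [List.getD_append _ _ _ _ (by omega : j < L.length), if_pos (by omega)]
    split_ifs with h
    · rw [List.getD_append _ _ _ _ h]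
    · rw [List.getD_append_right _ _ _ _ (by omega), show i + 1 - L.length = 0 by omega]
      rfl
  · rw [List.map_reverse, List.map_reverse]
    refine congrArg _ (List.ext_getElem (by simp) fun i h1 h2 => ?_)
    rw [List.getElem_map, List.getElem_map, List.getElem_range, List.getD_eq_getElem]

theorem bit_sort (L : List ℕ) : L.Nodup → (∀ j ∈ L, j < σ) →
    ∀ (c : Cond) (d : Bool) (g : Vec σ → Bool) (z : Vec σ),
    (∀ y, InR {j | j ∈ L} z y → c.ev orc y = d) → ∃ n : ℕ, n ≤ 2 ^ L.length ∧
      (n : ℝ) = 2 ^ L.length * av {j | j ∈ L} (fun y => ind (g y = true)) z ∧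
      ∀ y, InR {j | j ∈ L} z y → ((bitSt L c).foldl (fun g s => cst orc s g) g y = true ↔
        if d then 2 ^ L.length ≤ rank L y + n else rank L y < n) := by
  induction L using List.reverseRecOn with
  | nil =>
    intro _ _ c d g z _
    refine ⟨if g z = true then 1 else 0, by split_ifs <;> simp, ?_, fun y hy => ?_⟩
    · rw [show {j | j ∈ ([] : List ℕ)} = ∅ by simp, av_empty]
      simp [ind]
    · obtain rfl : y = z := funext fun j => hy j (by simp)
      cases d <;> cases h : g y <;> simp [bitSt, rank, h]
  | append_singleton L b ih =>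
    intro hn hσ c d g z hc
    obtain ⟨h1, -, h2⟩ := List.nodup_append.1 hn
    have hb : b ∉ L := fun h => h2 b h b List.mem_cons_self rfl
    have hbσ : b < σ := hσ b (by simp)
    have hσ' : ∀ j ∈ L, j < σ := fun j hj => hσ j (List.mem_append_left _ hj)
    obtain ⟨n0, a0, b0, c0⟩ := ih h1 hσ' (.eq b 1 1) false g (put z b 1 (ofN 1 0)) fun y hy => by
      rw [Cond.ev, inR_bit hb hy, bit_put hbσ z (by omega)]
      rfl
    obtain ⟨n1, a1, b1, c1⟩ := ih h1 hσ' (.eq b 1 1) true g (put z b 1 (ofN 1 1)) fun y hy => by
      rw [Cond.ev, inR_bit hb hy, bit_put hbσ z (by omega)]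
      rfl
    have hl : 2 ^ (L ++ [b]).length = 2 ^ L.length * 2 := by
      rw [List.length_append, List.length_singleton, pow_succ]
    refine ⟨n0 + n1, by omega, ?_, fun y hy => ?_⟩
    · rw [av_set (Q := Set.Ico b (b + 1) ∪ {j | j ∈ L}) fun j _ => by
        simp only [Set.mem_ofPred_eq, List.mem_append, List.mem_singleton, Set.mem_union, Set.mem_Ico]
        exact or_comm.trans (or_congr_left (by omega)), ← av_av, av_bit hbσ, Nat.cast_add, b0, b1,
        List.length_append, List.length_singleton, pow_succ]
      ring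
    · rw [bitSt_snoc, List.foldl_append]
      refine bit_merge c d _ hn hσ _ y (2 ^ L.length * 2 - n1) (n0 + n1) (by omega) (by omega)
        (fun x hx => hc x (hy.trans hx)) fun x hx => ?_
      have hx' : InR {j | j ∈ L} (put z b 1 (ofN 1 (fld x b 1))) x := fun j hj => by
        rw [ofN_fld]
        by_cases e : j.val = b
        · rw [← put_get (z := x) (p := b) (w := 1), get_put hbσ, put, put, dif_pos (by omega),
            dif_pos (by omega)]
        · rw [put, dif_neg (by omega)]
          exact hy.trans hx j fun h => (List.mem_append.1 h).elim hj fun h => e (List.mem_singleton.1 h)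
      have hr := rank_lt L x
      have hz := bit_lt x b
      rw [rank_snoc, hl]
      obtain e | e : fld x b 1 = 0 ∨ fld x b 1 = 1 := by omega
      · rw [e] at hx' ⊢
        rw [c0 x hx', if_neg (by simp)]
        omega
      · rw [e] at hx' ⊢
        rw [c1 x hx', if_pos rfl]
        omega

open Classical in
/-- the network sorts in descending order. -/
theorem bitonic (hb : bs.Nodup) (hσ : ∀ j ∈ bs, j < σ) (g : Vec σ → Bool) (z : Vec σ) :
    (stages bs).foldl (fun g s => cst orc s g) g z =
      decide ((rank bs z : ℝ) < 2 ^ bs.length * av {j | j ∈ bs} (fun y => ind (g y = true)) z) := by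
  obtain ⟨n, -, h1, h2⟩ := bit_sort (orc := orc) bs hb hσ .ff false g z fun y _ => Cond.ev_ff y
  have h3 := h2 z InR.refl
  rw [if_neg (by simp)] at h3
  rw [← h1, Bool.eq_iff_iff, decide_eq_true_iff, Nat.cast_lt]
  exact h3

/-- comparators do not increase the number of one-sided mismatches. -/
theorem cst_step {P : Set ℕ} {s : ℕ × Cond} (hP : s.1 ∈ P) (hσ : s.1 < σ)
    (hs : ∀ z t, s.2.ev orc (put z s.1 1 t) = s.2.ev orc z) (f g : Vec σ → Bool) (z0 : Vec σ) :
    av P (fun z => ind (cst orc s f z = true ∧ cst orc s g z = false)) z0 ≤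
      av P (fun z => ind (f z = true ∧ g z = false)) z0 := by
  have e : ∀ F : Vec σ → ℝ, av P F z0 = av P (av (Set.Ico s.1 (s.1 + 1)) F) z0 := fun F => by
    rw [av_av]
    refine av_set fun j _ => ⟨Or.inl, fun h => h.elim id fun h => ?_⟩
    rwa [show j = s.1 by have := h.1; have := h.2; omega]
  rw [e, e fun z => ind (f z = true ∧ g z = false)]
  refine av_mono fun z _ => ?_
  rw [av_bit hσ, av_bit hσ]
  simp only [cst, hs, put_put, bit_put hσ z (show 0 < 2 by omega), bit_put hσ z (show 1 < 2 by omega)]
  cases s.2.ev orc z <;> cases f (put z s.1 1 (ofN 1 0)) <;> cases f (put z s.1 1 (ofN 1 1)) <;>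
    cases g (put z s.1 1 (ofN 1 0)) <;> cases g (put z s.1 1 (ofN 1 1)) <;> simp [ind]

theorem bit_tri (a b c : Bool) :
    ind (a = true ∧ c = false) ≤ ind (a = true ∧ b = false) + ind (b = true ∧ c = false) := by
  cases a <;> cases b <;> cases c <;> simp [ind]

/-- noisy networks: `R g g' e` is a noisy stage; lower bound. -/
theorem noisy_lower {P : Set ℕ} {z0 : Vec σ} (l : List (ℕ × Cond)) (hP : ∀ s ∈ l, s.1 ∈ P ∧ s.1 < σ ∧
      ∀ z t, s.2.ev orc (put z s.1 1 t) = s.2.ev orc z) (g : ℕ → Vec σ → Bool) {e : ℝ}
    (h : ∀ t, ∀ ht : t < l.length,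
      av P (fun z => ind (cst orc l[t] (g t) z = true ∧ g (t + 1) z = false)) z0 ≤ e) :
    av P (fun z => ind (l.foldl (fun g s => cst orc s g) (g 0) z = true ∧ g l.length z = false)) z0
      ≤ l.length * e := by
  induction l using List.reverseRecOn with
  | nil => simp only [List.foldl_nil, List.length_nil, Nat.cast_zero, zero_mul]
           exact av_le fun z _ => by simp [ind]
  | append_singleton l s ih =>
    have h1 := ih (fun s hs => hP s (List.mem_append_left _ hs)) fun t ht => by
      have := h t (by simp; omega)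
      rwa [List.getElem_append_left ht] at this
    have h2 := h l.length (by simp)
    rw [List.getElem_concat_length rfl] at h2
    obtain ⟨k1, k2, k3⟩ := hP s (by simp)
    have h3 := cst_step k1 k2 k3 (l.foldl (fun g s => cst orc s g) (g 0)) (g l.length) z0
    rw [List.foldl_append, List.foldl_cons, List.foldl_nil, List.length_append, List.length_singleton]
    refine (av_mono fun z _ => bit_tri _ (cst orc s (g l.length) z) _).trans ?_
    rw [av_add]
    push_cast
    linarith

theorem noisy_upper {P : Set ℕ} {z0 : Vec σ} (l : List (ℕ × Cond)) (hP : ∀ s ∈ l, s.1 ∈ P ∧ s.1 < σ ∧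
      ∀ z t, s.2.ev orc (put z s.1 1 t) = s.2.ev orc z) (g : ℕ → Vec σ → Bool) {e : ℝ}
    (h : ∀ t, ∀ ht : t < l.length,
      av P (fun z => ind (g (t + 1) z = true ∧ cst orc l[t] (g t) z = false)) z0 ≤ e) :
    av P (fun z => ind (g l.length z = true ∧ l.foldl (fun g s => cst orc s g) (g 0) z = false)) z0
      ≤ l.length * e := by
  induction l using List.reverseRecOn with
  | nil => simp only [List.foldl_nil, List.length_nil, Nat.cast_zero, zero_mul]
           exact av_le fun z _ => by simp [ind]
  | append_singleton l s ih =>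
    have h1 := ih (fun s hs => hP s (List.mem_append_left _ hs)) fun t ht => by
      have := h t (by simp; omega)
      rwa [List.getElem_append_left ht] at this
    have h2 := h l.length (by simp)
    rw [List.getElem_concat_length rfl] at h2
    obtain ⟨k1, k2, k3⟩ := hP s (by simp)
    have h3 := cst_step k1 k2 k3 (g l.length) (l.foldl (fun g s => cst orc s g) (g 0)) z0
    rw [List.foldl_append, List.foldl_cons, List.foldl_nil, List.length_append, List.length_singleton]
    refine (av_mono fun z _ => bit_tri _ (cst orc s (g l.length) z) _).trans ?_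
    rw [av_add]
    push_cast
    linarith

/-- the intermediate states of a run of a program given blockwise. -/
theorem runs_flatMap {α : Type} {κ : ℕ} {S : Vec σ → Prop} (l : List α) (f : α → List Ins)
    {X Y : Vec σ → Val} (h : Runs κ orc S (l.flatMap f) X Y) :
    ∃ Z : ℕ → Vec σ → Val, Z 0 = X ∧ Z l.length = Y ∧
      ∀ t, ∀ ht : t < l.length, Runs κ orc S (f l[t]) (Z t) (Z (t + 1)) := by
  induction l generalizing X with
  | nil => exact ⟨fun _ => X, rfl, h, fun t ht => absurd ht (by simp)⟩
  | cons a l ih =>
    rw [List.flatMap_cons, runs_append] at h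
    obtain ⟨W, h1, h2⟩ := h
    obtain ⟨Z, e0, e1, e2⟩ := ih h2
    refine ⟨fun t => Nat.casesOn t X Z, rfl, e1, fun t ht => ?_⟩
    cases t with
    | zero => exact (e0 ▸ h1 : Runs κ orc S (f a) X (Z 0))
    | succ t => exact e2 t (by simpa using ht)

end Vale.Agent.P330.Amp
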