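import Vale.Agent.P330.Small

/-! Fields, regions, averages, runs (task Reg; add whatever is useful, never change a statement). -/

namespace Vale.Agent.P330.Amp

open Vale.Agent.Lib.H23 Vale.Agent.P325 Finset
open scoped BigOperators

variable {σ : ℕ}

section fields

variable {z z0 z1 : Vec σ} {p w p' w' : ℕ} {P Q : Set ℕ}

theorem put_in (s : Vec w) {j : Fin σ} (h : p ≤ j ∧ j < p + w) :
    put z p w s j = s ⟨j - p, by omega⟩ := dif_pos h
theorem put_out (s : Vec w) {j : Fin σ} (h : ¬ (p ≤ j ∧ j < p + w)) : put z p w s j = z j :=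
  dif_neg h
theorem get_add (y y' : Vec σ) : get (y + y') p w = get y p w + get y' p w := by
  funext i
  simp only [get, Pi.add_apply]
  split_ifs
  · rfl
  · rfl
theorem get_put (h : p + w ≤ σ) (s : Vec w) : get (put z p w s) p w = s := by
  funext i
  have h1 : p + i < σ := by omega
  have h2 : p ≤ p + i ∧ p + i < p + w := ⟨by omega, by omega⟩
  simp only [get, put, dif_pos h1, dif_pos h2]
  exact congrArg s (Fin.ext (Nat.add_sub_cancel_left _ _))
theorem put_get : put z p w (get z p w) = z := by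
  funext j
  by_cases h : p ≤ j ∧ j < p + w
  · have h1 : p + (j - p) < σ := by omega
    rw [put_in _ h]
    simp only [get, dif_pos h1]
    exact congrArg z (Fin.ext (by dsimp only; omega))
  · exact put_out _ h
theorem put_put (s s' : Vec w) : put (put z p w s) p w s' = put z p w s' := by
  funext j
  by_cases h : p ≤ j ∧ j < p + w
  · rw [put_in _ h, put_in _ h]
  · rw [put_out _ h, put_out _ h, put_out _ h]
theorem put_comm (h : p + w ≤ p' ∨ p' + w' ≤ p) (s : Vec w) (s' : Vec w') :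
    put (put z p w s) p' w' s' = put (put z p' w' s') p w s := by
  funext j
  by_cases h1 : p ≤ j ∧ j < p + w
  · rw [put_out _ (by omega), put_in _ h1, put_in _ h1]
  · by_cases h2 : p' ≤ j ∧ j < p' + w'
    · rw [put_in _ h2, put_out _ h1, put_in _ h2]
    · rw [put_out _ h2, put_out _ h1, put_out _ h1, put_out _ h2]
theorem get_put_disj (h : p + w ≤ p' ∨ p' + w' ≤ p) (s : Vec w) :
    get (put z p w s) p' w' = get z p' w' := by
  funext i
  simp only [get]
  split_ifs with h1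
  · exact put_out _ (by dsimp only; omega)
  · rfl
theorem put_zero (s : Vec 0) : put z p 0 s = z := funext fun j => put_out _ (by omega)
theorem fld_lt : fld z p w < 2 ^ w := toN_lt _
theorem ofN_fld : ofN w (fld z p w) = get z p w := ofN_toN _
theorem fld_put (h : p + w ≤ σ) {a : ℕ} (ha : a < 2 ^ w) : fld (put z p w (ofN w a)) p w = a := by
  rw [fld, get_put h, toN_ofN, Nat.mod_eq_of_lt ha]
theorem fld_eq' : fld z p w = toN z / 2 ^ p % 2 ^ w := by
  refine Nat.eq_of_testBit_eq fun i => ?_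
  rw [Nat.testBit_mod_two_pow, Nat.testBit_div_two_pow]
  by_cases hi : i < w
  · rw [fld, testBit_toN _ ⟨i, hi⟩, decide_eq_true hi, Bool.true_and, Nat.add_comm i p]
    by_cases h : p + i < σ
    · rw [testBit_toN z ⟨p + i, h⟩]
      simp only [get, dif_pos h]
    · rw [Nat.testBit_lt_two_pow ((toN_lt z).trans_le (Nat.pow_le_pow_right two_pos (by omega)))]
      simp only [get, dif_neg h]
      decide
  · rw [decide_eq_false hi, Bool.false_and]
    exact Nat.testBit_lt_two_pow (fld_lt.trans_le (Nat.pow_le_pow_right two_pos (by omega)))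
theorem fld_low (h : w ≤ w') : fld z p w = fld z p w' % 2 ^ w := by
  rw [fld_eq', fld_eq', Nat.mod_mod_of_dvd _ (pow_dvd_pow 2 h)]
theorem fld_add : fld z p (w + w') = fld z p w + 2 ^ w * fld z (p + w) w' := by
  rw [fld_eq', fld_eq', fld_eq', pow_add, pow_add, Nat.mod_mul, Nat.div_div_eq_div_mul]
theorem fld_eq : fld z p w = toN z / 2 ^ p % 2 ^ w := fld_eq'
/-- a wide field as two fields. -/
theorem put_split (a c : ℕ) (ha : a < 2 ^ w) :
    put z p (w + w') (ofN _ (a + 2 ^ w * c)) = put (put z p w (ofN _ a)) (p + w) w' (ofN _ c) := by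
  funext j
  by_cases h1 : p ≤ j ∧ j < p + w
  · rw [put_in _ ⟨h1.1, by omega⟩, put_out _ (by omega), put_in _ h1]
    simp only [ofN]
    rw [Nat.add_comm a, Nat.testBit_two_pow_mul_add _ ha, if_pos (by omega)]
  · by_cases h2 : p + w ≤ j ∧ j < p + w + w'
    · rw [put_in _ ⟨by omega, by omega⟩, put_in _ h2]
      simp only [ofN]
      rw [Nat.add_comm a, Nat.testBit_two_pow_mul_add _ ha, if_neg (by omega), Nat.sub_sub]
    · rw [put_out _ (by omega), put_out _ h2, put_out _ h1]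
theorem Home.put_reg {u : ℕ} (h : Home u z) : put z 0 2 0 = z := by
  funext j
  by_cases h1 : 0 ≤ j.val ∧ j.val < 0 + 2
  · rw [put_in _ h1]
    exact (h j (by omega)).symm
  · exact put_out _ h1
theorem Home.get_reg {u : ℕ} (h : Home u z) : get z 0 2 = 0 := by
  funext i
  simp only [get]
  split_ifs with h1
  · exact h _ (by dsimp only; omega)
  · rfl

theorem InR.refl : InR P z z := fun _ _ => rfl
theorem InR.symm (h : InR P z0 z) : InR P z z0 := fun j hj => (h j hj).symm
theorem InR.trans (h : InR P z0 z) (h' : InR P z z1) : InR P z0 z1 := fun j hj => (h' j hj).trans (h j hj)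
theorem InR.mono (h : InR P z0 z) (hP : P ⊆ Q) : InR Q z0 z := fun j hj => h j fun a => hj (hP a)
theorem InR.put (h : InR P z0 z) (hp : ∀ j, p ≤ j → j < p + w → j ∈ P) (s : Vec w) :
    InR P z0 (put z p w s) := fun j hj =>
  (put_out s fun a => hj (hp j a.1 a.2)).trans (h j hj)
theorem InR.put_put (h : InR P z0 z) (s : Vec w) : InR P (Amp.put z0 p w s) (Amp.put z p w s) := by
  intro j hj
  by_cases h1 : p ≤ j ∧ j < p + w
  · rw [put_in _ h1, put_in _ h1]
  · rw [put_out _ h1, put_out _ h1, h j hj]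
theorem InR.get (h : InR P z0 z) (hp : ∀ j, p ≤ j → j < p + w → j ∉ P) :
    get z p w = get z0 p w := by
  funext i
  simp only [Amp.get]
  split_ifs with h1
  · exact h _ (hp _ (by dsimp only; omega) (by dsimp only; omega))
  · rfl
theorem InR.home {u : ℕ} (h : InR P z0 z) (hP : ∀ j ∈ P, u + 2 ≤ j) (h0 : Home u z0) :
    Home u z := fun j hj =>
  (h j fun a => absurd (hP _ a) (by omega)).trans (h0 j hj)
theorem mix_in {y : Vec σ} {j : Fin σ} (h : j.val ∈ P) : mix P z y j = y j := if_pos h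
theorem mix_out {y : Vec σ} {j : Fin σ} (h : j.val ∉ P) : mix P z y j = z j := if_neg h
theorem InR.mix_eq (h : InR P z0 z) : mix P z0 z = z := by
  funext j
  by_cases hj : j.val ∈ P
  · exact mix_in hj
  · rw [mix_out hj, h j hj]
theorem inR_mix (y : Vec σ) : InR P z (mix P z y) := fun _ hj => mix_out hj
/-- a point of the region of a union is reached in two steps. -/
theorem InR.union (h : InR (P ∪ Q) z0 z) : ∃ y, InR P z0 y ∧ InR Q y z := by
  refine ⟨mix P z0 z, inR_mix z, fun j hj => ?_⟩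
  by_cases h1 : j.val ∈ P
  · exact (mix_in h1).symm
  · rw [mix_out h1]
    exact h j fun a => a.elim h1 hj

end fields

section av

variable {z z0 : Vec σ} {p w : ℕ} {P Q : Set ℕ} {f g : Vec σ → ℝ}

theorem av_mono (h : ∀ z, InR P z0 z → f z ≤ g z) : av P f z0 ≤ av P g z0 :=   expect_le_expect fun y _ => h _ (inR_mix y)
theorem av_congr (h : ∀ z, InR P z0 z → f z = g z) : av P f z0 = av P g z0 :=   expect_congr rfl fun y _ => h _ (inR_mix y)
theorem av_const (c : ℝ) : av P (fun _ => c) z0 = c := expect_const univ_nonempty c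
theorem av_nonneg (h : ∀ z, 0 ≤ f z) : 0 ≤ av P f z0 := expect_nonneg fun _ _ => h _
theorem av_le {c : ℝ} (h : ∀ z, InR P z0 z → f z ≤ c) : av P f z0 ≤ c :=   (av_mono h).trans (av_const c).le
theorem av_add : av P (fun z => f z + g z) z0 = av P f z0 + av P g z0 := expect_add_distrib _ _ _
theorem av_sub : av P (fun z => f z - g z) z0 = av P f z0 - av P g z0 := expect_sub_distrib _ _ _
theorem av_mul (c : ℝ) : av P (fun z => c * f z) z0 = c * av P f z0 := (mul_expect _ _ c).symm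
theorem av_sum {ι : Type} (s : Finset ι) (F : ι → Vec σ → ℝ) :
    av P (fun z => ∑ i ∈ s, F i z) z0 = ∑ i ∈ s, av P (F i) z0 := expect_sum_comm _ _ _
theorem av_expect {ι : Type} [Fintype ι] (F : ι → Vec σ → ℝ) :
    av P (fun z => 𝔼 i, F i z) z0 = 𝔼 i, av P (F i) z0 := expect_comm _ _ _
theorem av_base (h : InR P z0 z) : av P f z = av P f z0 := by
  refine expect_congr rfl fun y _ => congrArg f (funext fun j => ?_)
  by_cases hj : j.val ∈ P
  · rw [mix_in hj, mix_in hj]
  · rw [mix_out hj, mix_out hj, h j hj]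
theorem expect_shift {n : ℕ} (f : Vec n → ℝ) (t : Vec n) : (𝔼 z, f (z + t)) = 𝔼 z, f z :=
  Fintype.expect_equiv (Equiv.addRight t) _ _ fun _ => rfl
theorem expect_av' : (𝔼 z, av P f z) = 𝔼 z, f z := by
  have h1 : ∀ z, av P f z = 𝔼 y, f (z + mix P 0 y) := fun z => by
    refine (expect_shift (fun y => f (mix P z y)) z).symm.trans
      (expect_congr rfl fun y _ => congrArg f (funext fun j => ?_))
    by_cases hj : j.val ∈ P
    · rw [Pi.add_apply, mix_in hj, mix_in hj, Pi.add_apply, add_comm]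
    · rw [Pi.add_apply, mix_out hj, mix_out hj, Pi.zero_apply, add_zero]
  rw [expect_congr rfl fun z _ => h1 z, expect_comm,
    expect_congr rfl fun y _ => expect_shift f (mix P 0 y)]
  exact expect_const univ_nonempty _
theorem av_av : av P (av Q f) z0 = av (P ∪ Q) f z0 := by
  refine Eq.trans ?_ (expect_av' (P := Q) (f := fun y => f (mix (P ∪ Q) z0 y)))
  refine expect_congr rfl fun y _ => expect_congr rfl fun y' _ => congrArg f (funext fun j => ?_)
  by_cases h1 : j.val ∈ Q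
  · rw [mix_in h1, mix_in (Or.inr h1), mix_in h1]
  · by_cases h2 : j.val ∈ P
    · rw [mix_out h1, mix_in h2, mix_in (Or.inl h2), mix_out h1]
    · rw [mix_out h1, mix_out h2, mix_out fun a => a.elim h2 h1]
theorem av_empty : av ∅ f z0 = f z0 := by
  refine (av_congr (g := fun _ => f z0) fun z h => congrArg f (funext fun j => h j id)).trans
    (av_const _)
theorem av_set (h : ∀ j < σ, j ∈ P ↔ j ∈ Q) : av P f z0 = av Q f z0 := by
  refine expect_congr rfl fun y _ => congrArg f (funext fun j => ?_)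
  by_cases hj : j.val ∈ P
  · rw [mix_in hj, mix_in ((h j j.2).1 hj)]
  · rw [mix_out hj, mix_out fun a => hj ((h j j.2).2 a)]
theorem expect_av : (𝔼 z, av P f z) = 𝔼 z, f z := expect_av'
theorem av_all (h : ∀ j < σ, j ∈ P) : av P f z0 = 𝔼 z, f z :=   expect_congr rfl fun _ _ => congrArg f (funext fun j => mix_in (h j j.2))
theorem expect_get (h : p + w ≤ σ) (g : Vec w → ℝ) :
    (𝔼 y : Vec σ, g (get y p w)) = 𝔼 s, g s := by
  have h1 : ∀ s : Vec w, (𝔼 y : Vec σ, g (get y p w)) = 𝔼 y : Vec σ, g (s + get y p w) :=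
    fun s => by
      refine (expect_shift (fun y => g (get y p w)) (put 0 p w s)).symm.trans
        (expect_congr rfl fun y _ => ?_)
      rw [get_add, get_put h, add_comm]
  rw [← expect_const (univ_nonempty (α := Vec w)) (𝔼 y : Vec σ, g (get y p w)),
    expect_congr rfl fun s _ => h1 s, expect_comm,
    expect_congr rfl fun y _ => expect_shift g (get y p w)]
  exact expect_const univ_nonempty _
theorem av_Ico (h : p + w ≤ σ) : av (Set.Ico p (p + w)) f z0 = 𝔼 s, f (put z0 p w s) := by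
  refine Eq.trans ?_ (expect_get h fun s => f (put z0 p w s))
  refine expect_congr rfl fun y _ => congrArg f (funext fun j => ?_)
  by_cases hj : p ≤ j ∧ j < p + w
  · rw [mix_in (P := Set.Ico p (p + w)) hj, put_in _ hj, ← put_in (z := y) (get y p w) hj, put_get]
  · rw [mix_out (P := Set.Ico p (p + w)) hj, put_out _ hj]
theorem le_av_one (hf : ∀ z, 0 ≤ f z) (a : ℕ) : f z ≤ 2 * av {a} f z := by
  by_cases ha : a + 1 ≤ σ
  · rw [av_set (Q := Set.Ico a (a + 1)) fun j _ => by simp; omega, av_Ico ha, expect_eq_sum_div_card]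
    have h1 := single_le_sum (f := fun s : Vec 1 => f (put z a 1 s)) (fun s _ => hf _)
      (mem_univ (get z a 1))
    have h2 : ((univ : Finset (Vec 1)).card : ℝ) = 2 := by simp
    rw [put_get] at h1
    rw [h2]
    linarith
  · rw [av_set (Q := ∅) fun j hj => iff_of_false (fun h => by rw [Set.mem_singleton_iff] at h; omega)
      id, av_empty]
    linarith [hf z]
theorem le_av_list (hf : ∀ z, 0 ≤ f z) (l : List ℕ) (R : Set ℕ) (hR : ∀ j ∈ R, j ∈ l) :
    f z ≤ 2 ^ l.length * av R f z := by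
  induction l generalizing R with
  | nil =>
    rw [av_set (Q := ∅) fun j _ => iff_of_false (fun h => by simpa using hR j h) id, av_empty]
    simp
  | cons a l ih =>
    have h1 := ih (R \ {a}) fun j hj => (List.mem_cons.1 (hR j hj.1)).resolve_left hj.2
    have h0 : (0 : ℝ) ≤ 2 ^ l.length := by positivity
    rw [List.length_cons, pow_succ, mul_assoc]
    refine h1.trans (mul_le_mul_of_nonneg_left ?_ h0)
    by_cases ha : a ∈ R
    · have h2 := le_av_one (f := av (R \ {a}) f) (z := z) (fun _ => av_nonneg hf) a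
      rwa [av_av, Set.union_sdiff_cancel (Set.singleton_subset_iff.2 ha)] at h2
    · rw [Set.sdiff_singleton_eq_self ha]
      linarith [av_nonneg (P := R) (z0 := z) hf]
/-- a slice has at most `2 ^ n` times the density. -/
theorem av_slice (hf : ∀ z, 0 ≤ f z) (l : List ℕ) (hQ : ∀ j ∈ Q, j ∈ P ∨ j ∈ l) (hP : P ⊆ Q)
    (h : InR Q z0 z) : av P f z ≤ 2 ^ l.length * av Q f z0 := by
  have h1 := le_av_list (f := av P f) (z := z) (fun _ => av_nonneg hf) l (Q \ P)
    fun j hj => (hQ j hj.1).resolve_left hj.2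
  rwa [av_av, Set.sdiff_union_of_subset hP, av_base h] at h1
theorem av_put_le (hf : ∀ z, 0 ≤ f z) (hp : ∀ j, p ≤ j → j < p + w → j ∈ P) (s : Vec w) :
    av P (fun z => f (put z p w s)) z0 ≤ 2 ^ w * av P f z0 := by
  have h1 : ∀ z, f (put z p w s) ≤ 2 ^ w * av (Set.Ico p (p + w)) f z := fun z => by
    have h2 := le_av_list (z := put z p w s) hf (List.range' p w) (Set.Ico p (p + w))
      fun j hj => List.mem_range'_1.2 hj
    rwa [List.length_range', av_base (InR.refl.put (P := Set.Ico p (p + w))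
      (fun j a b => ⟨a, b⟩) s)] at h2
  refine (av_mono fun z _ => h1 z).trans ?_
  rw [av_mul, av_av, Set.union_eq_self_of_subset_right fun j hj => hp j hj.1 hj.2]
theorem av_put (hp : ∀ j, p ≤ j → j < p + w → j ∉ P) (s : Vec w) :
    av P (fun z => f (put z p w s)) z0 = av P f (put z0 p w s) := by
  refine expect_congr rfl fun y _ => congrArg f (funext fun j => ?_)
  by_cases h1 : p ≤ j ∧ j < p + w
  · rw [put_in _ h1, mix_out (hp _ h1.1 h1.2), put_in _ h1]
  · rw [put_out _ h1]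
    by_cases h2 : j.val ∈ P
    · rw [mix_in h2, mix_in h2]
    · rw [mix_out h2, mix_out h2, put_out _ h1]
theorem av_bij (φ : Vec σ → Vec σ) (h1 : ∀ z, InR P z0 z → InR P z0 (φ z))
    (h2 : ∀ z z', InR P z0 z → InR P z0 z' → φ z = φ z' → z = z') :
    av P (fun z => f (φ z)) z0 = av P f z0 := by
  have e : ∀ y, mix P z0 (mix P y (φ (mix P z0 y))) = φ (mix P z0 y) := fun y => by
    funext j
    by_cases hj : j.val ∈ P
    · rw [mix_in hj, mix_in hj]
    · rw [mix_out hj, h1 _ (inR_mix y) j hj]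
  have hi : Function.Injective fun y => mix P y (φ (mix P z0 y)) := fun y y' h => by
    have h3 := congrArg (mix P z0) h
    dsimp only at h3
    rw [e, e] at h3
    have h4 := h2 _ _ (inR_mix y) (inR_mix y') h3
    funext j
    by_cases hj : j.val ∈ P
    · rw [← mix_in (z := z0) (y := y) hj, h4, mix_in hj]
    · have h5 := congrFun h j
      dsimp only at h5
      rwa [mix_out hj, mix_out hj] at h5
  exact Fintype.expect_bijective _ (Finite.injective_iff_bijective.1 hi) _ _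
    fun y => congrArg f (e y).symm
theorem av_markov (hf : ∀ z, 0 ≤ f z) {s : ℝ} (hs : 0 < s) :
    av P (fun z => ind (s ≤ f z)) z0 ≤ av P f z0 / s := by
  rw [div_eq_inv_mul, ← av_mul]
  refine av_mono fun z _ => ?_
  rw [← div_eq_inv_mul, le_div_iff₀ hs]
  by_cases h : s ≤ f z
  · rwa [ind_of h, one_mul]
  · rw [ind_of_not h, zero_mul]
    exact hf z
theorem exists_of_av_lt {c : ℝ} (h : av P f z0 < c) : ∃ z, InR P z0 z ∧ f z < c := by
  by_contra hc
  refine absurd h (not_lt.2 ((av_const c).ge.trans (av_mono fun z hz => ?_)))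
  exact not_lt.1 fun a => hc ⟨z, hz, a⟩
theorem av_ind_le_one (q : Vec σ → Prop) : av P (fun z => ind (q z)) z0 ≤ 1 :=   av_le fun _ _ => ind_le_one _
theorem av_ind_nonneg (q : Vec σ → Prop) : 0 ≤ av P (fun z => ind (q z)) z0 :=   av_nonneg fun _ => ind_nonneg _
/-- fault density on a home slice. -/
theorem av_le_flt {u : ℕ} (S : Vec σ → Prop) :
    av P (fun y => ind (S y)) z ≤ 2 ^ (u + 2) * flt u S P z := by
  have h := av_slice (P := P) (Q := P ∪ Set.Iio (u + 2)) (z := z) (z0 := z)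
    (f := fun y => ind (S y)) (fun _ => ind_nonneg _) (List.range (u + 2))
    (fun j hj => hj.imp id List.mem_range.2) Set.subset_union_left InR.refl
  rwa [List.length_range] at h
theorem flt_nonneg {u : ℕ} (S : Vec σ → Prop) : 0 ≤ flt u S P z := av_ind_nonneg _
theorem av_flt {u : ℕ} (S : Vec σ → Prop) : av Q (flt u S P) z = flt u S (Q ∪ P) z := by
  unfold flt
  rw [Set.union_assoc]
  exact av_av
theorem flt_base {u : ℕ} (S : Vec σ → Prop) (h : InR P z0 z) : flt u S P z = flt u S P z0 :=   av_base (h.mono Set.subset_union_left)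
theorem flt_slice {u : ℕ} (S : Vec σ → Prop) (l : List ℕ) (hQ : ∀ j ∈ Q, j ∈ P ∨ j ∈ l)
    (hP : P ⊆ Q) (h : InR Q z0 z) : flt u S P z ≤ 2 ^ l.length * flt u S Q z0 :=   av_slice (fun _ => ind_nonneg _) l
    (fun j hj => hj.elim (fun a => (hQ j a).imp Or.inl id) fun a => Or.inl (Or.inr a))
    (Set.union_subset_union_left _ hP) (h.mono Set.subset_union_left)

end av

section dims

variable {κ u : ℕ} {ds ds' : List Dim} {e : Dim} {z z0 : Vec σ} {X : Vec σ → Val}
  {F : Vec σ → ZMod 2} {ε ε' : ℝ} {d : ℕ}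

theorem pos_nil : pos [] = ∅ := Set.eq_empty_of_forall_notMem fun _ ⟨_, h, _⟩ => by cases h
theorem pos_cons : pos (e :: ds) = Set.Ico e.2.1 (e.2.1 + e.2.2) ∪ pos ds := by
  ext j
  simp only [pos, List.mem_cons, exists_eq_or_imp, Set.mem_ofPred_eq, Set.mem_union, Set.mem_Ico]
theorem pos_append : pos (ds ++ ds') = pos ds ∪ pos ds' := by
  ext j
  simp only [pos, List.mem_append, or_and_right, exists_or, Set.mem_ofPred_eq, Set.mem_union]
theorem pos_mono (h : ∀ e ∈ ds, e ∈ ds') : pos ds ⊆ pos ds' :=   fun _ ⟨e, he, hj⟩ => ⟨e, h e he, hj⟩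
theorem mem_bitsOf {j : ℕ} : j ∈ bitsOf ds ↔ j ∈ pos ds := by
  simp only [bitsOf, pos, List.mem_flatMap, List.mem_range'_1, Set.mem_ofPred_eq]
theorem Lay.nodup (h : Lay σ κ u ds) : (bitsOf ds).Nodup := by
  refine List.nodup_flatMap.2 ⟨fun e _ => List.nodup_range', h.2.imp fun {a b} hab j h1 h2 => ?_⟩
  rw [List.mem_range'_1] at h1 h2
  omega
theorem Lay.length_bitsOf (h : Lay σ κ u ds) : (bitsOf ds).length ≤ ds.length * 2 ^ κ := by
  have h1 : ∀ e ∈ ds, e.2.2 ≤ 2 ^ κ := fun e he => (h.1 e he).2.2.2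
  clear h
  induction ds with
  | nil => simp [bitsOf]
  | cons e ds ih =>
    have h2 := ih fun e he => h1 e (List.mem_cons_of_mem _ he)
    have h3 := h1 e List.mem_cons_self
    unfold bitsOf at h2 ⊢
    rw [List.flatMap_cons, List.length_append, List.length_range', List.length_cons, Nat.succ_mul]
    omega
theorem length_bitsOf_vd (qs : List ℕ) : (bitsOf (qs.map (vd κ))).length = qs.length * κ := by
  induction qs with
  | nil => simp [bitsOf]
  | cons q qs ih =>
    unfold bitsOf at ih ⊢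
    rw [List.map_cons, List.flatMap_cons, List.length_append, List.length_range', ih,
      List.length_cons, Nat.succ_mul, Nat.add_comm]
    rfl
theorem Lay.perm (h : Lay σ κ u ds) (hp : ds.Perm ds') : Lay σ κ u ds' :=   ⟨fun e he => h.1 e (hp.mem_iff.2 he), (hp.pairwise_iff fun a => a.symm).1 h.2⟩
theorem Lay.sublist (h : Lay σ κ u ds) (hp : ds'.Sublist ds) : Lay σ κ u ds' :=   ⟨fun e he => h.1 e (hp.subset he), h.2.sublist hp⟩
theorem Lay.mem_pos (h : Lay σ κ u ds) {j : ℕ} (hj : j ∈ pos ds) : u + 2 ≤ j ∧ j < σ := by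
  obtain ⟨e, he, h1⟩ := hj
  have h2 := h.1 e he
  omega
theorem Lay.disj (h : Lay σ κ u (ds ++ ds')) {j : ℕ} (hj : j ∈ pos ds) : j ∉ pos ds' := by
  rintro ⟨e', he', h1⟩
  obtain ⟨e, he, h2⟩ := hj
  have h3 := (List.pairwise_append.1 h.2).2.2 e he e' he'
  omega
theorem Lay.home (h : Lay σ κ u ds) (h0 : Home u z0) (hz : InR (pos ds) z0 z) : Home u z :=   hz.home (fun _ hj => (h.mem_pos hj).1) h0
theorem PolyD.base (h : PolyD d ds z0 F) (hz : InR (pos ds) z0 z) : PolyD d ds z F :=   fun e he z' hz' => h e he z' (hz.trans hz')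
theorem PolyL.base (h : PolyL ds z0 F) (hz : InR (pos ds) z0 z) : PolyL ds z F :=   fun e he z' hz' => h e he z' (hz.trans hz')
theorem PolyD.sub (h : PolyD d ds z0 F) (hs : ∀ e ∈ ds', e ∈ ds) (hz : InR (pos ds) z0 z) :
    PolyD d ds' z F := fun e he z' hz' => h e (hs e he) z' (hz.trans (hz'.mono (pos_mono hs)))
theorem PolyL.sub (h : PolyL ds z0 F) (hs : ∀ e ∈ ds', e ∈ ds) (hz : InR (pos ds) z0 z) :
    PolyL ds' z F := fun e he z' hz' => h e (hs e he) z' (hz.trans (hz'.mono (pos_mono hs)))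
theorem InR.put_dim (hz : InR (pos ds) z0 z) (he : e ∈ ds) (s : Vec e.2.2) :
    InR (pos ds) z0 (Amp.put z e.2.1 e.2.2 s) := hz.put (fun _ a b => ⟨e, he, a, b⟩) s
theorem line_congr {F' : Vec σ → ZMod 2} (hF : ∀ z, InR (pos ds) z0 z → F' z = F z) (he : e ∈ ds)
    (hz : InR (pos ds) z0 z) : line F' z e = line F z e :=
  funext fun s => hF _ (hz.put_dim he s)
theorem PolyD.congr {F' : Vec σ → ZMod 2} (h : PolyD d ds z0 F)
    (hF : ∀ z, InR (pos ds) z0 z → F' z = F z) : PolyD d ds z0 F' := fun e he z hz => by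
  rw [line_congr hF he hz]
  exact h e he z hz
theorem PolyL.congr {F' : Vec σ → ZMod 2} (h : PolyL ds z0 F)
    (hF : ∀ z, InR (pos ds) z0 z → F' z = F z) : PolyL ds z0 F' := fun e he z hz => by
  rw [line_congr hF he hz]
  exact h e he z hz
theorem line_put {p w : ℕ} {s : Vec w} (hp : p + w ≤ e.2.1 ∨ e.2.1 + e.2.2 ≤ p) :
    line (fun z => F (put z p w s)) z e = line F (put z p w s) e :=
  funext fun t => congrArg F (put_comm hp s t).symm
theorem PolyD.comp_put {p w : ℕ} {s : Vec w} (h : PolyD d ds (put z0 p w s) F)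
    (hp : ∀ e ∈ ds, p + w ≤ e.2.1 ∨ e.2.1 + e.2.2 ≤ p) :
    PolyD d ds z0 fun z => F (put z p w s) := fun e he z hz => by
  rw [line_put (hp e he)]
  exact h e he _ (hz.put_put s)
theorem PolyL.comp_put {p w : ℕ} {s : Vec w} (h : PolyL ds (put z0 p w s) F)
    (hp : ∀ e ∈ ds, p + w ≤ e.2.1 ∨ e.2.1 + e.2.2 ≤ p) :
    PolyL ds z0 fun z => F (put z p w s) := fun e he z hz => by
  rw [line_put (hp e he)]
  exact h e he _ (hz.put_put s)
theorem err_base (hz : InR (pos ds) z0 z) : err ds X F z = err ds X F z0 := av_base hz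
theorem err_nonneg : 0 ≤ err ds X F z0 := av_ind_nonneg _
theorem err_set (h : pos ds = pos ds') : err ds X F z0 = err ds' X F z0 := by
  unfold err
  rw [h]
theorem av_err {Q : Set ℕ} (h : Q ∪ pos ds' = pos ds) :
    av Q (err ds' X F) z0 = err ds X F z0 := by
  unfold err
  rw [← h]
  exact av_av
theorem Valid.base (h : Valid ε ds X z0 F) (hz : InR (pos ds) z0 z) : Valid ε ds X z F :=   ⟨h.1.base hz, (err_base hz).trans_le h.2⟩
theorem Valid.mono (h : Valid ε ds X z0 F) (he : ε ≤ ε') : Valid ε' ds X z0 F :=   ⟨h.1, h.2.trans he⟩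
theorem Valid.perm (h : Valid ε ds X z0 F) (hp : ∀ e, e ∈ ds ↔ e ∈ ds') : Valid ε ds' X z0 F :=   ⟨h.1.sub (fun e => (hp e).2) InR.refl, (err_set (Set.Subset.antisymm
    (pos_mono fun e => (hp e).2) (pos_mono fun e => (hp e).1))).trans_le h.2⟩
theorem OK_base (hz : InR (pos ds) z0 z) : OK ε ds X z ↔ OK ε ds X z0 :=   ⟨fun ⟨F, h⟩ => ⟨F, h.base hz.symm⟩, fun ⟨F, h⟩ => ⟨F, h.base hz⟩⟩
theorem OK_perm (hp : ∀ e, e ∈ ds ↔ e ∈ ds') : OK ε ds X z ↔ OK ε ds' X z :=   ⟨fun ⟨F, h⟩ => ⟨F, h.perm hp⟩, fun ⟨F, h⟩ => ⟨F, h.perm fun e => (hp e).symm⟩⟩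
theorem Msg_perm (hp : ∀ e, e ∈ ds ↔ e ∈ ds') {y : ZMod 2} :
    Msg ε ds X z y ↔ Msg ε ds' X z y :=   ⟨fun ⟨F, h, h'⟩ => ⟨F, h.perm hp, h'⟩, fun ⟨F, h, h'⟩ => ⟨F, h.perm fun e => (hp e).symm, h'⟩⟩
theorem Msg.ok {y : ZMod 2} (h : Msg ε ds X z y) : OK ε ds X z :=   h.imp fun _ a => a.1
theorem Msg.mono {y : ZMod 2} (h : Msg ε ds X z y) (he : ε ≤ ε') : Msg ε' ds X z y :=   h.imp fun _ a => ⟨a.1.mono he, a.2⟩
theorem HP.put {p w : ℕ} (h : HP ds z)
    (hp : ∀ e ∈ ds, e.1 = true → p + w ≤ e.2.1 ∨ e.2.1 + e.2.2 ≤ p) (s : Vec w) :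
    HP ds (put z p w s) := fun e he h1 => by
  rw [get_put_disj (hp e he h1)]
  exact h e he h1
theorem eV_pos (M : ℕ) : 0 < eV M := pow_pos (by norm_num) M

end dims

section runs

variable {κ : ℕ} {orc : ℕ → Vec σ → Bool} {S S' : Vec σ → Prop} {l l' : List Ins}
  {X Y : Vec σ → Val}

theorem runs_append : Runs κ orc S (l ++ l') X Y ↔ ∃ Z, Runs κ orc S l X Z ∧ Runs κ orc S l' Z Y := by
  induction l generalizing X with
  | nil => exact ⟨fun h => ⟨X, rfl, h⟩, fun ⟨Z, h1, h2⟩ => (show X = Z from h1) ▸ h2⟩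
  | cons i l ih =>
    exact ⟨fun ⟨W, h1, h2⟩ => (ih.1 h2).imp fun Z h => ⟨⟨W, h1, h.1⟩, h.2⟩,
      fun ⟨Z, ⟨W, h1, h2⟩, h3⟩ => ⟨W, h1, ih.2 ⟨Z, h2, h3⟩⟩⟩
theorem runs_single {i : Ins} : Runs κ orc S [i] X Y ↔ ∀ z, ¬ S z → i.sat κ orc X Y z :=   ⟨fun ⟨Z, h1, h2⟩ => (show Z = Y from h2) ▸ h1, fun h => ⟨Y, h, rfl⟩⟩
theorem Runs.mono (h : Runs κ orc S l X Y) (hS : ∀ z, S z → S' z) : Runs κ orc S' l X Y := by
  induction l generalizing X with
  | nil => exact h
  | cons i l ih =>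
    obtain ⟨Z, h1, h2⟩ := h
    exact ⟨Z, fun z hz => h1 z fun a => hz (hS z a), ih h2⟩
theorem runsB_append {B : Type} {ac : Op → B → B} {orc : B → ℕ → Vec σ → Bool}
    {S : B → Vec σ → Prop} {X Y : B → Vec σ → Val} : RunsB κ ac orc S (l ++ l') X Y ↔
      ∃ Z, RunsB κ ac orc S l X Z ∧ RunsB κ ac orc S l' Z Y := by
  induction l generalizing X with
  | nil => exact ⟨fun h => ⟨X, rfl, h⟩, fun ⟨Z, h1, h2⟩ => (show X = Z from h1) ▸ h2⟩
  | cons i l ih =>
    exact ⟨fun ⟨W, h1, h2⟩ => (ih.1 h2).imp fun Z h => ⟨⟨W, h1, h.1⟩, h.2⟩,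
      fun ⟨Z, ⟨W, h1, h2⟩, h3⟩ => ⟨W, h1, ih.2 ⟨Z, h2, h3⟩⟩⟩
theorem RunsB.runs {B : Type} {ac : Op → B → B} {orc : B → ℕ → Vec σ → Bool}
    {S : B → Vec σ → Prop} {X Y : B → Vec σ → Val} (h : RunsB κ ac orc S l X Y) (x : B) :
    Runs κ (orc x) (S x) l (X x) (Y x) := by
  induction l generalizing X with
  | nil => exact congrFun h x
  | cons i l ih =>
    obtain ⟨Z, h1, h2⟩ := h
    exact ⟨Z x, fun z hz => (h1 x z hz).1, ih h2⟩
/-- only pure inputs matter. -/
theorem HF.pure {ι : Type} {v : ι → Val} {f : (ι → Bool) → Bool} {y : Val}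
    (h : HF (fun i => rd false (v i)) f y) {γ : Bool}
    (hf : ∀ r, (∀ i δ, v i = pv δ → r i = δ) → f r = γ) : y = pv γ :=   h γ fun r hr => hf r fun i δ hv => hr i δ (by dsimp only; rw [hv]; cases δ <;> rfl)
theorem pz_b2 (γ : Bool) : pz (b2 γ) = pv γ := by cases γ <;> rfl
theorem pz_inj {x y : ZMod 2} : pz x = pz y ↔ x = y := by revert x y; decide
theorem Cond.ev_ff (z : Vec σ) : Cond.ff.ev orc z = false :=   decide_eq_false (fld_lt (z := z) (p := 0) (w := 0)).ne
theorem Cond.ev_tt (z : Vec σ) : Cond.tt.ev orc z = true :=   decide_eq_true (Nat.lt_one_iff.1 (fld_lt (z := z) (p := 0) (w := 0)))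

end runs

end Vale.Agent.P330.Amp
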