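import Vale.Agent.P330.Prog
import Vale.Agent.P330.Reg

/-! From instances to runs of programs (task Bridge).
Plan. One layer: if `(prog.getD t idleI).ok` then `sat x t (y, z)` gives `satB` with the states
`x (prev t)`, `x t`. For a cell: the input number
`toN (ρ' + ρ) + 4 (toN (s1' + s1) + 2 ^ w1 toN (s2' + s2)) < WW κ` has the translation that leads from
`z` to `put (put (put z 0 2 ρ') p1 w1 s1') p2 w2 s2'` (compare bits; `ofN_xor`, `Nat.testBit_mul_two_pow`);
a resolution of all inputs restricts to a resolution of these. Then induction on the program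
(generalize to a suffix starting at time `t`). The ideal run satisfies every layer because
`getD false` is a resolution. -/

namespace Vale.Agent.P330.Amp

open Vale.Agent.Lib.H23 Vale.Agent.P333 Vale.Agent.P325 Finset Matrix
open scoped BigOperators

variable {κ b β σ k0 : ℕ} {gens : Fin 7 → Mat β} {prog : List Ins}
  {orc : Big b β → ℕ → Vec σ → Bool}

theorem br_b2 (u : ZMod 2) : b2 (decide (u = 1)) = u := by
  revert u; decide

theorem br_put {z : Vec σ} {p w : ℕ} (h : p + w ≤ σ) (s : Vec w) :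
    put z p w s = z + ofN σ (toN (s + get z p w) * 2 ^ p) := by
  funext j
  rw [Pi.add_apply, ofN, Nat.testBit_mul_two_pow, put]
  split_ifs with hj
  · have h1 : (j : ℕ) - p < w := by omega
    have h2 := testBit_toN (s + get z p w) ⟨j - p, h1⟩
    have h3 : get z p w ⟨j - p, h1⟩ = z j := by
      rw [get, dif_pos (by show p + (j - p) < σ; omega)]
      congr 1
      exact Fin.ext (by show p + (j - p) = j; omega)
    rw [decide_eq_true hj.1, Bool.true_and, h2, br_b2, Pi.add_apply, h3]
    generalize s _ = u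
    generalize z j = v
    revert u v; decide
  · by_cases h1 : p ≤ j
    · rw [Nat.testBit_lt_two_pow ((toN_lt _).trans_le (Nat.pow_le_pow_right two_pos (by omega)))]
      simp [b2]
    · simp [b2, h1]

theorem br_get {z : Vec σ} {p w p' w' : ℕ} (h : w' = 0 ∨ p + w ≤ p' ∨ p' + w' ≤ p) (s : Vec w) :
    get (put z p w s) p' w' = get z p' w' := by
  rcases h with rfl | h
  · exact Subsingleton.elim _ _
  · exact get_put_disj h s

theorem br_num {a c d w1 w2 : ℕ} (ha : a < 2 ^ 2) (hc : c < 2 ^ w1) (hd : d < 2 ^ w2)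
    (hw : w1 + w2 ≤ 2 ^ κ) {n : ℕ} (hn : n = (Fin.ofNat (WW κ) (a + 4 * (c + 2 ^ w1 * d)) : ℕ)) :
    n % 4 = a ∧ n / 4 % 2 ^ w1 = c ∧ n / 4 / 2 ^ w1 % 2 ^ w2 = d := by
  have h1 : c + 2 ^ w1 * d < 2 ^ 2 ^ κ := by
    refine lt_of_lt_of_le ?_ (Nat.pow_le_pow_right two_pos hw)
    rw [pow_add]
    nlinarith
  have h2 : a + 4 * (c + 2 ^ w1 * d) < WW κ := by
    rw [WW, pow_add]
    omega
  rw [Fin.val_ofNat, Nat.mod_eq_of_lt h2] at hn
  have h3 : n / 4 = c + 2 ^ w1 * d := by omega
  refine ⟨by omega, ?_, ?_⟩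
  · rw [h3, Nat.add_mul_mod_self_left, Nat.mod_eq_of_lt hc]
  · rw [h3, Nat.add_mul_div_left _ _ (by positivity), Nat.div_eq_of_lt hc, zero_add,
      Nat.mod_eq_of_lt hd]

theorem br_one : (Fin.ofNat (WW κ) 1 : ℕ) = 1 :=
  Nat.mod_eq_of_lt (Nat.one_lt_two_pow (Nat.succ_ne_zero _))

theorem br_zero : (Fin.ofNat (WW κ) 0 : ℕ) = 0 := Nat.zero_mod _

theorem br_tr (v : ℕ) (y : Big b β) (z : Vec σ) : act gens (.Tr v) (y, z) = (y, z + ofN σ v) := rfl

theorem br_mov1 (o : Op) (c : Cond) (y : Big b β) (z : Vec σ) :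
    act gens (Ins.op 1 (.mov o c)) (y, z) = (actB gens o y, z) := by
  cases o with
  | Tr v => exact (br_tr 0 y z).trans (by rw [ofN_zero, add_zero]; rfl)
  | E l l' ρ => rfl
  | N l => rfl

theorem br_mov0 (o : Op) (c : Cond) (y : Big b β) (z : Vec σ) :
    act gens (Ins.op 0 (.mov o c)) (y, z) = (y, z) := by
  cases o <;> exact (br_tr 0 y z).trans (by rw [ofN_zero, add_zero])

theorem br_comp {ι ι' : Type} {ρ : ι → Option Bool} {ρ' : ι' → Option Bool}
    {f : (ι → Bool) → Bool} {f' : (ι' → Bool) → Bool} {v : Val} (h : HF ρ f v) (φ : ι' → ι)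
    (h1 : ∀ j, ρ (φ j) = ρ' j) (h2 : ∀ r, f r = f' fun j => r (φ j)) : HF ρ' f' v :=
  fun γ hγ => h γ fun r hr => (h2 r).trans (hγ _ fun j δ hj => hr _ δ ((h1 j).trans hj))

theorem br_cell {kd : Kind} {p1 w1 p2 w2 : ℕ} {c : Fin 4 → Cond}
    (hi : (Ins.cell kd p1 w1 p2 w2 c).ok κ σ) (y : Big b β) (z : Vec σ) (ρ : Vec 2) (s1 : Vec w1)
    (s2 : Vec w2) {n : ℕ} (hn : n = (Fin.ofNat (WW κ) (toN (ρ + get z 0 2) +
      4 * (toN (s1 + get z p1 w1) + 2 ^ w1 * toN (s2 + get z p2 w2))) : ℕ)) :
    act gens (Ins.op n (.cell kd p1 w1 p2 w2 c)) (y, z) =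
      (y, put (put (put z 0 2 ρ) p1 w1 s1) p2 w2 s2) := by
  obtain ⟨h0, h1, h2, h3, h4, h5, h6⟩ := hi
  obtain ⟨e1, e2, e3⟩ := br_num (toN_lt _) (toN_lt _) (toN_lt _) h6 hn
  rw [Ins.op, br_tr, e1, e2, e3, br_put h4, br_get (Or.inr h5), br_get (by omega), br_put h3,
    br_get (by omega), br_put (by omega), ofN_xor, ofN_xor, pow_zero, mul_one, add_assoc,
    add_assoc, add_assoc]

/-- one layer -/
theorem br_layer {i : Ins} (hi : i.ok κ σ) (X : Addr b β σ → Val) (Y : Big b β → Vec σ → Val)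
    (y : Big b β) (z : Vec σ)
    (h : HF (fun n : Fin (WW κ) => rd (i.win n) (X (act gens (i.op n) (y, z))))
      (fun r => i.lab κ (orc y) z r) (Y y z)) :
    i.satB κ (actB gens) orc (fun y z => X (y, z)) Y y z := by
  cases i with
  | cell kd p1 w1 p2 w2 c =>
    refine ⟨?_, fun o c e => by cases e⟩
    rw [Ins.sat]
    refine br_comp h (fun j => Fin.ofNat _ (toN (j.1 + get z 0 2) +
      4 * (toN (j.2.1 + get z p1 w1) + 2 ^ w1 * toN (j.2.2 + get z p2 w2)))) (fun j => ?_)
      fun r => by rw [Ins.lab]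
    rw [br_cell hi y z j.1 j.2.1 j.2.2 rfl]
    rfl
  | pur j =>
    refine ⟨fun γ hγ => h γ fun r hr => ?_, fun o c e => by cases e⟩
    rw [br_put hi, zero_add] at hγ
    have h1 : fld z j 1 < 2 ^ 1 := toN_lt _
    change rd _ (X (y, z + ofN σ (fld z j 1 * 2 ^ j))) = _ at hγ
    simp only [Ins.lab]
    split_ifs with hf
    · refine hr _ γ ?_
      rw [hf, one_mul] at hγ
      simpa only [br_one, Ins.op, Ins.win, if_true, br_tr] using hγ
    · refine hr _ γ ?_
      rw [show fld z j 1 = 0 by omega, zero_mul] at hγ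
      simpa only [br_zero, Ins.op, Ins.win, zero_ne_one, if_false, br_tr] using hγ
  | mov o c =>
    refine ⟨trivial, fun o' c' e γ hγ => h γ fun r hr => ?_⟩
    cases e
    simp only [Ins.lab]
    split_ifs at hγ ⊢ with hf
    · refine hr _ γ ?_
      simp only [br_one, br_mov1]
      exact (congrArg (rd _) hγ).trans (rd_pv _ _)
    · refine hr _ γ ?_
      simp only [br_zero, br_mov0]
      exact (congrArg (rd _) hγ).trans (rd_pv _ _)

theorem br_runs {B : Type} {ac : Op → B → B} {orc : B → ℕ → Vec σ → Bool} {S : B → Vec σ → Prop}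
    (l : List Ins) (st : ℕ → B → Vec σ → Val)
    (h : ∀ n (hn : n < l.length) y z, ¬ S y z → l[n].satB κ ac orc (st n) (st (n + 1)) y z) :
    RunsB κ ac orc S l (st 0) (st l.length) := by
  induction l generalizing st with
  | nil => rfl
  | cons i l ih =>
    exact ⟨st 1, h 0 (Nat.succ_pos _), ih (fun n => st (n + 1)) fun n hn =>
      h (n + 1) (Nat.succ_lt_succ hn)⟩

theorem br_prev {W : ℕ} (G : Inst W) {t : ℕ} (h : t + 1 < 2 ^ G.τ) : G.prev (t + 1) = t := by
  rw [Inst.prev, show t + 1 + 2 ^ G.τ - 1 = t + 2 ^ G.τ by omega, Nat.add_mod_right,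
    Nat.mod_eq_of_lt (by omega)]

theorem br_step {W : ℕ} (H : Inst W) (X : H.A → Val) (n : ℕ) (a : H.A) :
    HF (fun i => rd (H.win n i) (H.run n X (act H.gens (H.op n i) a))) (H.lab n a)
      (H.run (n + 1) X a) := by
  have h1 : H.run (n + 1) X = H.step (H.run n X) n := by
    rw [Inst.run, List.range_succ, List.foldl_append]
    rfl
  rw [h1]
  exact fun γ hγ => congrArg pv (hγ _ fun i δ hi => congrArg (·.getD false) hi)

theorem br_idle (hσ : 2 ≤ σ) (x : ℕ → Addr b β σ → Val) {t : ℕ} (ht : prog.length ≤ t)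
    {y : Big b β} {z : Vec σ} (h : (progInst κ b β σ k0 gens prog orc).sat x t (y, z)) {γ : Bool}
    (hγ : x ((progInst κ b β σ k0 gens prog orc).prev t) (y, z) = pv γ) : x t (y, z) = pv γ := by
  have h1 : prog.getD t idleI = idleI := List.getD_eq_default _ _ ht
  have h2 := br_layer (κ := κ) (gens := gens) (orc := orc) (i := prog.getD t idleI)
    (by rw [h1]; simp [idleI, Ins.ok, hσ]) _ (fun y z => x t (y, z)) y z h
  rw [h1] at h2
  refine h2.1 γ fun r hr => hr _ γ ?_
  simp only [put_get]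
  rw [hγ, rd_pv]

theorem bridge (hσ : 2 ≤ σ) (hok : ∀ i ∈ prog, i.ok κ σ) (x : ℕ → Addr b β σ → Val) :
    ∃ Y, RunsB κ (actB gens) orc
        (fun y z => ∃ t < 2 ^ prog.length.size, ¬ (progInst κ b β σ k0 gens prog orc).sat x t (y, z))
        prog (fun y z => x (2 ^ prog.length.size - 1) (y, z)) Y ∧
      ∀ y z γ, (¬ ∃ t < 2 ^ prog.length.size,
          ¬ (progInst κ b β σ k0 gens prog orc).sat x t (y, z)) →
        Y y z = pv γ → x (2 ^ prog.length.size - 1) (y, z) = pv γ := by
  have hL : prog.length < 2 ^ prog.length.size := Nat.lt_size_self _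
  have h0 : (progInst κ b β σ k0 gens prog orc).prev 0 = 2 ^ prog.length.size - 1 := by
    show (0 + 2 ^ prog.length.size - 1) % 2 ^ prog.length.size = _
    rw [zero_add, Nat.mod_eq_of_lt (by omega)]
  refine ⟨fun y z => x ((progInst κ b β σ k0 gens prog orc).prev prog.length) (y, z), ?_,
    fun y z γ hS hγ => ?_⟩
  · rw [← h0]
    refine br_runs prog (fun n y z => x ((progInst κ b β σ k0 gens prog orc).prev n) (y, z))
      fun n hn y z hS => ?_
    have h1 : (progInst κ b β σ k0 gens prog orc).sat x n (y, z) := by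
      by_contra h
      exact hS ⟨n, by omega, h⟩
    have h2 := br_layer (κ := κ) (gens := gens) (orc := orc) (i := prog.getD n idleI)
      (by rw [List.getD_eq_getElem _ _ hn]; exact hok _ (List.getElem_mem hn)) _
      (fun y z => x n (y, z)) y z h1
    rw [List.getD_eq_getElem _ _ hn] at h2
    rw [br_prev _ (show n + 1 < 2 ^ prog.length.size by omega)]
    exact h2
  · have h1 : ∀ t < 2 ^ prog.length.size, (progInst κ b β σ k0 gens prog orc).sat x t (y, z) :=
      fun t ht => by
        by_contra h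
        exact hS ⟨t, ht, h⟩
    have h2 : ∀ t, prog.length ≤ t → t < 2 ^ prog.length.size → x t (y, z) = pv γ := by
      intro t ht
      induction t, ht using Nat.le_induction with
      | base => exact fun h => br_idle hσ x le_rfl (h1 _ h) hγ
      | succ t ht ih =>
        refine fun h => br_idle hσ x (by omega) (h1 _ h) ?_
        rw [br_prev _ h]
        exact ih (by omega)
    exact h2 _ (by omega) (by omega)

theorem bridge_ideal (hok : ∀ i ∈ prog, i.ok κ σ) (X : Addr b β σ → Val) :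
    RunsB κ (actB gens) orc (fun _ _ => False) prog (fun y z => X (y, z))
      fun y z => (progInst κ b β σ k0 gens prog orc).run prog.length X (y, z) := by
  refine br_runs prog (fun n y z => (progInst κ b β σ k0 gens prog orc).run n X (y, z))
    fun n hn y z _ => ?_
  rw [← List.getD_eq_getElem _ idleI hn]
  exact br_layer (by rw [List.getD_eq_getElem _ _ hn]; exact hok _ (List.getElem_mem hn))
    ((progInst κ b β σ k0 gens prog orc).run n X) _ y z
    (br_step (progInst κ b β σ k0 gens prog orc) X n (y, z))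

end Vale.Agent.P330.Amp
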