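import Vale.Agent.P330.InstB

/-! Polynomial time kit for instances (task IP; add whatever is useful, never change a statement).
`PT` on a subtype only speaks about the inputs in the subtype (`encSub`). Accessors: the fields of
`Inst.tab` by `PT.of_enc`/`PT.fst`/`pt_get`. `pt_actN`: for `E l l' ρ` xor into `m` the number
whose bit `σ + l β + i` is the parity of `gens ρ i j ∧ bit (σ + l' β + j)` over `j` (a fold over
`range β` inside a fold over `range β`; or `countP % 2` and `pt_sum` of powers of two). -/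

namespace Vale.Agent.P330.Amp

open Vale.Agent.Lib.H23 Vale.Agent.P333 Vale.Agent.P325 Finset Matrix Enc
open scoped BigOperators

variable {X Y : Type} [Enc X] [Enc Y] {W W' W'' : ℕ}

theorem pt_val {p : Y → Prop} {f : X → {y // p y}} (hf : PT f) : PT fun x => (f x).1 :=
  hf.of_enc fun _ => rfl

theorem pt_sub {p : Y → Prop} {f : X → Y} (hf : PT f) (h : ∀ x, p (f x)) :
    PT fun x => (⟨f x, h x⟩ : {y // p y}) := hf.of_enc fun _ => rfl

theorem ip_testBit {f g : X → ℕ} (hf : PT f) (hg : PT g) : PT fun x => (f x).testBit (g x) :=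
  (PT.getD hf.bits hg (PT.const false)).congr fun x => by
    rw [Nat.testBit_eq_inth, ← List.getD_default_eq_getI]; rfl

theorem ip_valMSB {n : ℕ} (g : Fin n → Bool) : valMSB (List.ofFn g).reverse = Nat.ofBits g := by
  rw [valMSB, List.foldl_reverse]
  induction n with
  | zero => rfl
  | succ n ih =>
    rw [List.ofFn_succ, List.foldr_cons, ih, Nat.ofBits_succ, Nat.bit_val]
    rfl

theorem ip_ofBits {n : X → ℕ} {f : X → ℕ → Bool} (hn : PU n)
    (hf : PT fun p : X × ℕ => f p.1 p.2) : PT fun x => Nat.ofBits fun i : Fin (n x) => f x i :=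
  (PT.valMSB (PT.map hf hn.range).reverse).congr fun x => by
    rw [← ip_valMSB]
    congr 2
    exact List.ext_getElem (by simp) fun i _ _ => by simp

theorem ip_size {f : X → ℕ} (hf : PT f) : PU fun x => (f x).size :=
  PU.of_len hf.bits fun _ => Nat.size_eq_bits_len _

@[fun_prop] theorem pt_xor {f g : X → ℕ} (hf : PT f) (hg : PT g) : PT fun x => f x ^^^ g x := by
  refine (ip_ofBits (f := fun x i => xor ((f x).testBit i) ((g x).testBit i))
    ((ip_size hf).add (ip_size hg)) ((ip_testBit (hf.comp PT.fst') PT.snd').xor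
      (ip_testBit (hg.comp PT.fst') PT.snd'))).congr fun x => ?_
  simp only [← Nat.testBit_xor]
  rw [Nat.ofBits_testBit, Nat.mod_eq_of_lt]
  exact Nat.xor_lt_two_pow
    ((Nat.lt_size_self _).trans_le (Nat.pow_le_pow_right (by omega) (by omega)))
    ((Nat.lt_size_self _).trans_le (Nat.pow_le_pow_right (by omega) (by omega)))

@[fun_prop] theorem pt_testBit {f g : X → ℕ} (hf : PT f) (hg : PT g) :
    PT fun x => (f x).testBit (g x) := by
  exact ip_testBit hf hg

theorem pt_two_pow {f : X → ℕ} (hf : PU f) : PT fun x => 2 ^ f x := by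
  refine (ip_ofBits (f := fun x i => decide (f x = i)) (hf.add (PU.const 1))
    (pt_decEq (hf.pt.comp PT.fst') PT.snd')).congr fun x => ?_
  simp only [← Nat.testBit_two_pow]
  rw [Nat.ofBits_testBit, Nat.mod_eq_of_lt (Nat.pow_lt_pow_right (by omega) (by omega))]

/-- the number with given bits. -/
theorem pt_ofBits {n : X → ℕ} {f : X → ℕ → Bool} (hn : PU n) (hf : PT fun p : X × ℕ => f p.1 p.2) :
    PT fun x => Nat.ofBits fun i : Fin (n x) => f x i := by
  exact ip_ofBits hn hf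

theorem pu_size {f : X → ℕ} (hf : PT f) : PU fun x => (f x).size := by
  exact ip_size hf

theorem pt_opE {l l' : X → ℕ} (hl : PT l) (hl' : PT l') (ρ : Fin 7) :
    PT fun x => Op.E (l x) (l' x) ρ := by
  exact ((PT.const 0).pair (hl.pair (hl'.pair (PT.const (ρ : ℕ))))).of_enc fun _ => rfl

theorem pt_opN {l : X → ℕ} (hl : PT l) : PT fun x => Op.N (l x) := by
  exact ((PT.const 1).pair (hl.pair ((PT.const 0).pair (PT.const 0)))).of_enc fun _ => rfl

theorem pt_opTr {l : X → ℕ} (hl : PT l) : PT fun x => Op.Tr (l x) := by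
  exact ((PT.const 2).pair (hl.pair ((PT.const 0).pair (PT.const 0)))).of_enc fun _ => rfl

theorem pt_data {o : X → Op} (ho : PT o) : PT fun x => (o x).data := ho.of_enc fun _ => rfl

theorem Op.data_inj : Function.Injective Op.data := by
  intro a b h
  cases a <;> cases b <;> simp only [Op.data, Prod.mk.injEq, Fin.val_inj] at h <;> first
    | omega
    | (obtain ⟨-, rfl, h⟩ := h; rfl)
    | (obtain ⟨-, rfl, rfl, rfl⟩ := h; rfl)

/-- case distinction on a wiring map. -/
theorem pt_opCases {o : X → Op} (ho : PT o) {fE : X → ℕ → ℕ → Fin 7 → Y} {fN fT : X → ℕ → Y}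
    (hE : ∀ ρ, PT fun p : X × ℕ × ℕ => fE p.1 p.2.1 p.2.2 ρ)
    (hN : PT fun p : X × ℕ => fN p.1 p.2) (hT : PT fun p : X × ℕ => fT p.1 p.2) :
    PT fun x => (match o x with
      | .E l l' ρ => fE x l l' ρ
      | .N l => fN x l
      | .Tr v => fT x v : Y) := by
  have hd := pt_data ho
  have h1 : PT fun x => fE x (o x).data.2.1 (o x).data.2.2.1 (Fin.ofNat 7 (o x).data.2.2.2) :=
    pt_cases (k := fun x => Fin.ofNat 7 (o x).data.2.2.2)
      (g := fun ρ x => fE x (o x).data.2.1 (o x).data.2.2.1 ρ)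
      (fun a => (pt_decEq (pt_mod hd.snd.snd.snd (PT.const 7)) (PT.const (a : ℕ))).congr fun x =>
        decide_eq_decide.2 Fin.ext_iff)
      fun ρ => (hE ρ).comp (PT.id.pair (hd.snd.fst.pair hd.snd.snd.fst))
  refine (pt_ite (pt_decEq hd.fst (PT.const 0)) h1 (pt_ite (pt_decEq hd.fst (PT.const 1))
    (hN.comp (PT.id.pair hd.snd.fst)) (hT.comp (PT.id.pair hd.snd.fst)))).congr fun x => ?_
  rcases o x with ⟨l, l', ρ⟩ | l | l
  · exact congrArg (fE x l l') (Fin.ext (Nat.mod_eq_of_lt ρ.2).symm)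
  · rfl
  · rfl

section acc

variable {G : X → Inst W} (hG : PT G)
include hG

theorem ip_tab : PT fun x => (G x).tab := hG.of_enc fun _ => rfl

theorem pu_b : PU fun x => (G x).b := by
  exact (ip_tab hG).fst.fst
theorem pu_β : PU fun x => (G x).β := by
  exact (ip_tab hG).fst.snd.fst
theorem pu_σ : PU fun x => (G x).σ := by
  exact (ip_tab hG).fst.snd.snd.fst
theorem pu_τ : PU fun x => (G x).τ := by
  exact (ip_tab hG).fst.snd.snd.snd.fst
theorem pt_k0 : PT fun x => (G x).k0 := by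
  exact (ip_tab hG).fst.snd.snd.snd.snd
theorem pt_gtab : PT fun x => (G x).gtab := by
  exact (ip_tab hG).snd.fst
theorem pu_T : PU fun x => 2 ^ (G x).τ := by
  exact PU.of_len (ip_tab hG).snd.snd.fst fun x => by simp [Inst.tab]
theorem pu_nA : PU fun x => (G x).nA := by
  exact PU.of_le (f := fun x => 2 ^ (G x).τ * (G x).nA)
    (PU.of_len (ip_tab hG).snd.snd.snd fun x => by simp [Inst.tab])
    (pt_two_pow ((pu_σ hG).add ((pu_b hG).mul (pu_β hG))))
    fun x => Nat.le_mul_of_pos_left _ (by positivity)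

theorem ip_row {t : X → ℕ} (ht : PT t) (h : ∀ x, t x < 2 ^ (G x).τ) :
    PT fun x => ((G x).nop (t x), (G x).win (t x)) :=
  (pt_get (ip_tab hG).snd.snd.fst ht fun x => by simpa [Inst.tab] using h x).congr fun x => by
    simp [Inst.tab]

theorem pt_nop {t : X → ℕ} (ht : PT t) (h : ∀ x, t x < 2 ^ (G x).τ) (i : Fin W) :
    PT fun x => (G x).nop (t x) i := by
  exact pt_apply (ip_row hG ht h).fst i

theorem pt_win {t : X → ℕ} (ht : PT t) (h : ∀ x, t x < 2 ^ (G x).τ) (i : Fin W) :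
    PT fun x => (G x).win (t x) i := by
  exact pt_apply (ip_row hG ht h).snd i

theorem pt_lab {t m : X → ℕ} (ht : PT t) (hm : PT m) (h : ∀ x, t x < 2 ^ (G x).τ)
    (h' : ∀ x, m x < (G x).nA) :
    PT fun x => (⟨(G x).lab (t x) (unidx _ _ _ (m x))⟩ : Code ((Fin W → Bool) → Bool)) := by
  refine (pt_get (ip_tab hG).snd.snd.snd ((ht.mul (pu_nA hG).pt).add hm) fun x => ?_).congr
    fun x => ?_
  · have h1 := Nat.mul_le_mul_right (G x).nA (Nat.succ_le_of_lt (h x))
    have h2 := h' x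
    simp only [Inst.tab, List.length_map, List.length_range]
    rw [Nat.succ_mul] at h1
    omega
  · have h2 := h' x
    simp only [Inst.tab, List.getElem_map, List.getElem_range]
    rw [Nat.mul_add_mod_of_lt h2, add_comm, Nat.add_mul_div_right _ _ (by omega),
      Nat.div_eq_of_lt h2, zero_add]

omit hG in
theorem ip_parity (p : ℕ → Bool) (n : ℕ) :
    ∑ k ∈ range n, b2 (p k) = b2 ((List.range n).countP p).bodd := by
  induction n with
  | zero => simp [b2]
  | succ n ih =>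
    rw [sum_range_succ, ih, List.range_succ, List.countP_append, Nat.bodd_add, b2_xor]
    cases hp : p n <;> simp [hp]

/-- the bit that is added by a wiring map. -/
def ipBit (b β σ : ℕ) (g : List (List (List Bool))) (o : Op) (m j : ℕ) : Bool :=
  match o with
  | .E l l' ρ => decide (σ ≤ j) && (!decide (l = l') && (decide ((j - σ) / β = l) &&
      (decide (l' < b) && ((List.range β).countP fun k =>
        ((g.getD ρ []).getD ((j - σ) % β) []).getD k false && m.testBit (σ + l' * β + k)).bodd)))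
  | .N l => decide (σ ≤ j) && (decide ((j - σ) / β = l) && (1 : ℕ).testBit ((j - σ) % β))
  | .Tr v => decide (j < σ) && v.testBit j

omit hG in
theorem ip_dec {y : ZMod 2} {x : Bool} (h : y = b2 x) : decide (y = 1) = x := by
  subst h
  cases x <;> decide

omit hG in
theorem ip_mulVec (G : Inst W) (ρ : Fin 7) (m l' : ℕ) (i : Fin G.β) :
    (G.gens ρ *ᵥ blk (unidx G.b G.β G.σ m).1 l') i = b2 (decide (l' < G.b) &&
      ((List.range G.β).countP fun k => ((G.gtab.getD ρ []).getD i []).getD k false &&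
        m.testBit (G.σ + l' * G.β + k)).bodd) := by
  by_cases h : l' < G.b
  · rw [decide_eq_true h, Bool.true_and, ← ip_parity, blk, dif_pos h, mulVec, dotProduct]
    refine Eq.trans (sum_congr rfl fun k _ => ?_) (Finset.sum_range _).symm
    have e : ((G.gtab.getD ρ []).getD i []).getD k false = decide (G.gens ρ i k = 1) := by
      simp [Inst.gtab, List.getD_eq_getElem?_getD, -List.ofFn_succ]
    rw [e]
    change G.gens ρ i k * b2 (m.testBit (G.σ + l' * G.β + k)) = _
    generalize G.gens ρ i k = y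
    generalize m.testBit (G.σ + l' * G.β + k) = z
    revert y z
    decide
  · rw [decide_eq_false h, blk, dif_neg h, mulVec_zero]
    rfl

omit hG in
theorem ip_bitA (G : Inst W) (o : Op) (m j : ℕ) (hj : j < G.σ + G.b * G.β) :
    bitA (act G.gens o (unidx G.b G.β G.σ m)) j =
      xor (m.testBit j) (ipBit G.b G.β G.σ G.gtab o m j) := by
  unfold bitA
  split_ifs with h
  · refine ip_dec ?_
    cases o with
    | E l l' ρ => simp [act, actS, unidx, ofN, ipBit, not_le.2 h]
    | N l => simp [act, actS, unidx, ofN, ipBit, not_le.2 h]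
    | Tr v => simp [act, actS, unidx, ofN, ipBit, ← b2_xor, h]
  · have hβ : 0 < G.β := by
      rcases Nat.eq_zero_or_pos G.β with h0 | h0
      · rw [h0] at hj; omega
      · exact h0
    have h1 : (j - G.σ) / G.β < G.b := by
      rw [Nat.div_lt_iff_lt_mul hβ]; omega
    have h2 : (j - G.σ) % G.β < G.β := Nat.mod_lt _ hβ
    have h3 : G.σ + (j - G.σ) / G.β * G.β + (j - G.σ) % G.β = j := by
      have := Nat.div_add_mod' (j - G.σ) G.β
      omega
    have h4 : (unidx G.b G.β G.σ m).1 ⟨_, h1⟩ ⟨_, h2⟩ = b2 (m.testBit j) := by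
      simp only [unidx, h3]
    rw [blk, dif_pos h1]
    refine (testBit_toN _ ⟨_, h2⟩).trans (ip_dec ?_)
    have h5 : decide (G.σ ≤ j) = true := decide_eq_true (not_lt.1 h)
    cases o with
    | E l l' ρ =>
      simp only [act, actB, ipBit, h5, Bool.true_and]
      by_cases h6 : l = l'
      · rw [if_pos h6, h4, decide_eq_true h6, Bool.not_true, Bool.false_and, Bool.xor_false]
      · rw [if_neg h6, addBlk, decide_eq_false h6, Bool.not_false, Bool.true_and]
        by_cases h7 : (j - G.σ) / G.β = l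
        · rw [if_pos h7, Pi.add_apply, h4, ip_mulVec, ← b2_xor, decide_eq_true h7, Bool.true_and]
        · rw [if_neg h7, h4, decide_eq_false h7, Bool.false_and, Bool.xor_false]
    | N l =>
      simp only [act, actB, ipBit, h5, Bool.true_and, addBlk]
      by_cases h7 : (j - G.σ) / G.β = l
      · rw [if_pos h7, Pi.add_apply, h4, ofN, ← b2_xor, decide_eq_true h7, Bool.true_and]
      · rw [if_neg h7, h4, decide_eq_false h7, Bool.false_and, Bool.xor_false]
    | Tr v =>
      simp only [act, actB, ipBit, h4, decide_eq_false h, Bool.false_and, Bool.xor_false]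

omit hG in
theorem ip_ptBit {b β σ : X → ℕ} {g : X → List (List (List Bool))} {o : X → Op} {m j : X → ℕ}
    (hb : PT b) (hr : PU β) (hσ : PT σ) (hg : PT g) (ho : PT o) (hm : PT m) (hj : PT j) :
    PT fun x => ipBit (b x) (β x) (σ x) (g x) (o x) (m x) (j x) := by
  have hβ := hr.pt
  refine pt_opCases ho
    (fE := fun x l l' ρ => ipBit (b x) (β x) (σ x) (g x) (.E l l' ρ) (m x) (j x))
    (fN := fun x l => ipBit (b x) (β x) (σ x) (g x) (.N l) (m x) (j x))
    (fT := fun x l => ipBit (b x) (β x) (σ x) (g x) (.Tr l) (m x) (j x))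
    (fun ρ => ?_) ?_ ?_ |>.congr fun x => ?_
  · exact (pt_decLe (by fun_prop) (by fun_prop)).and ((pt_decEq (by fun_prop) (by fun_prop)).not.and
      ((pt_decEq (by fun_prop) (by fun_prop)).and ((pt_decLt (by fun_prop) (by fun_prop)).and
        (pt_countP (by fun_prop) (hr.comp PT.fst').range).bodd)))
  · exact (pt_decLe (by fun_prop) (by fun_prop)).and
      ((pt_decEq (by fun_prop) (by fun_prop)).and (by fun_prop))
  · exact (pt_decLt (by fun_prop) (by fun_prop)).and (by fun_prop)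
  · cases o x <;> rfl

theorem pt_actN {o : X → Op} {m : X → ℕ} (ho : PT o) (hm : PT m) :
    PT fun x => (G x).actN (o x) (m x) := by
  have hG' : PT fun p : X × ℕ => G p.1 := hG.comp PT.fst'
  refine (pt_ofBits (f := fun x j => xor ((m x).testBit j)
    (ipBit (G x).b (G x).β (G x).σ (G x).gtab (o x) (m x) j))
    ((pu_σ hG).add ((pu_b hG).mul (pu_β hG))) ((pt_testBit (hm.comp PT.fst') PT.snd').xor
      (ip_ptBit (pu_b hG').pt (pu_β hG') (pu_σ hG').pt (pt_gtab hG') (ho.comp PT.fst')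
        (hm.comp PT.fst') PT.snd'))).congr fun x => ?_
  rw [Inst.actN, idx]
  congr 1
  funext j
  exact ip_bitA _ _ _ _ j.2

theorem pt_valN {s : X → Asg} {t m : X → ℕ} (hs : PT s) (ht : PT t) (hm : PT m)
    (h' : ∀ x, m x < (G x).nA) : PT fun x => ((G x).val (s x) (t x) (unidx _ _ _ (m x)) : ℕ) := by
  refine (pt_mod (PT.getD hs ((ht.mul (pu_nA hG).pt).add hm) (PT.const 0))
    (PT.const 4)).congr fun x => ?_
  rw [Inst.val, idx_unidx (h' x)]
  rfl

open Classical in
theorem ip_sat {s : X → Asg} {t m : X → ℕ} (hs : PT s) (ht : PT t) (hm : PT m)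
    (h : ∀ x, t x < 2 ^ (G x).τ) (h' : ∀ x, m x < (G x).nA) :
    PT fun x => decide (¬ (G x).sat ((G x).val (s x)) (t x) (unidx _ _ _ (m x))) := by
  have hT := (pu_T hG).pt
  have hp : PT fun x => (G x).prev (t x) := by unfold Inst.prev; fun_prop
  have h1 := pt_codeFun fun i => pt_codeBool (pt_win hG ht h i)
  have h2 := pt_codeFun fun i => pt_codeFin (pt_valN hG hs hp
    (pt_actN hG (pt_nop hG ht h i) hm) fun x => idx_lt _)
  have h3 := pt_lab hG ht hm h h'
  have h4 := pt_codeFin (pt_valN hG hs ht hm h')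
  refine (pt_ofFin (fun c : ((Fin W → Bool) × (Fin W → Val)) × ((Fin W → Bool) → Bool) × Val =>
    decide (¬ HF (fun i => rd (c.1.1 i) (c.1.2 i)) c.2.1 c.2.2))
    (pt_mk2 Prod.mk (pt_mk2 Prod.mk h1 h2) (pt_mk2 Prod.mk h3 h4))).congr fun x => ?_
  refine decide_eq_decide.2 ?_
  simp only [Inst.sat, Inst.actN, unidx_idx, Inst.nop, act_nrm]

theorem pt_cnt {s : X → Asg} (hs : PT s) : PT fun x => (G x).cnt (s x) := by
  have hT : PT fun p : X × ℕ => 2 ^ (G p.1).τ := (pu_T hG).pt.comp PT.fst'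
  have hA : PT fun p : X × ℕ => (G p.1).nA := (pu_nA hG).pt.comp PT.fst'
  classical
  refine (pt_countP (f := fun x n => decide (¬ (G x).sat ((G x).val (s x))
    (n / (G x).nA % 2 ^ (G x).τ) (unidx _ _ _ (n % (G x).nA))))
    (ip_sat (hG.comp PT.fst') (hs.comp PT.fst')
    (t := fun p : X × ℕ => p.2 / (G p.1).nA % 2 ^ (G p.1).τ) (m := fun p => p.2 % (G p.1).nA)
    (pt_mod (PT.snd'.div hA) hT) (pt_mod PT.snd' hA) (fun p => Nat.mod_lt _ (by positivity))
    fun p => Nat.mod_lt _ (by unfold Inst.nA; positivity))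
    ((pu_T hG).mul (pu_nA hG)).range).congr fun x => ?_
  refine List.countP_congr fun n hn => ?_
  rw [Nat.mod_eq_of_lt (Nat.div_lt_of_lt_mul (by rw [mul_comm]; exact List.mem_range.1 hn))]

omit hG in
theorem ip_table {T A : X → ℕ} (hT : PU T) (hA : PU A) (h0 : ∀ x, 0 < T x) (h1 : ∀ x, 0 < A x)
    {f : X → ℕ → ℕ → Y}
    (hf : PT fun p : {p : X × ℕ × ℕ // p.2.1 < T p.1 ∧ p.2.2 < A p.1} => f p.1.1 p.1.2.1 p.1.2.2) :
    PT fun x => (List.range (T x * A x)).map fun n => f x (n / A x) (n % A x) := by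
  have hT' := hT.pt
  have hA' := hA.pt
  refine (PT.map (f := fun x n => f x (n / A x % T x) (n % A x)) (hf.comp (pt_sub
    (f := fun p : X × ℕ => (p.1, p.2 / A p.1 % T p.1, p.2 % A p.1)) (by fun_prop)
    fun p => ⟨Nat.mod_lt _ (h0 _), Nat.mod_lt _ (h1 _)⟩)) (hT.mul hA).range).congr fun x => ?_
  refine List.map_congr_left fun n hn => ?_
  rw [Nat.mod_eq_of_lt (a := n / A x)
    (Nat.div_lt_of_lt_mul (by rw [mul_comm]; exact List.mem_range.1 hn))]

theorem pt_mkAsg {f : (x : X) → ℕ → (G x).A → Val}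
    (hf : PT fun p : {p : X × ℕ × ℕ // p.2.1 < 2 ^ (G p.1).τ ∧ p.2.2 < (G p.1).nA} =>
      (f p.1.1 p.1.2.1 (unidx _ _ _ p.1.2.2) : ℕ)) : PT fun x => (G x).mkAsg (f x) := by
  exact ip_table (pu_T hG) (pu_nA hG) (fun x => by positivity)
    (fun x => by unfold Inst.nA; positivity) (f := fun x t m => (f x t (unidx _ _ _ m) : ℕ)) hf

end acc

theorem pt_nrm {b σ : X → ℕ} {o : X → Op} (hb : PT b) (hσ : PU σ) (ho : PT o) :
    PT fun x => nrm (b x) (σ x) (o x) := by
  have h2 := pt_two_pow hσ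
  refine (pt_opCases ho (fE := fun x l l' ρ => nrm (b x) (σ x) (.E l l' ρ))
    (fN := fun x l => nrm (b x) (σ x) (.N l)) (fT := fun x l => nrm (b x) (σ x) (.Tr l))
    (fun ρ => ?_) ?_ ?_).congr fun x => ?_
  · exact pt_ite (((pt_decLt PT.snd'.fst (hb.comp PT.fst')).and
      (pt_decLt PT.snd'.snd (hb.comp PT.fst'))).congr fun _ => Bool.decide_and ..)
      (pt_opE PT.snd'.fst PT.snd'.snd ρ) (PT.const _)
  · exact pt_ite (pt_decLt PT.snd' (hb.comp PT.fst')) (pt_opN PT.snd') (PT.const _)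
  · exact pt_opTr (pt_mod PT.snd' (h2.comp PT.fst'))
  · cases o x <;> rfl

/-- construction of instances. -/
theorem pt_inst {R : X → Inst W} (hb : PU fun x => (R x).b) (hβ : PU fun x => (R x).β)
    (hσ : PU fun x => (R x).σ) (hτ : PU fun x => (R x).τ) (hk : PT fun x => (R x).k0)
    (hg : PT fun x => (R x).gtab) (hT : PU fun x => 2 ^ (R x).τ) (hA : PU fun x => (R x).nA)
    (hop : ∀ i, PT fun p : {p : X × ℕ // p.2 < 2 ^ (R p.1).τ} => (R p.1.1).op p.1.2 i)
    (hwin : ∀ i, PT fun p : {p : X × ℕ // p.2 < 2 ^ (R p.1).τ} => (R p.1.1).win p.1.2 i)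
    (hlab : PT fun p : {p : X × ℕ × ℕ // p.2.1 < 2 ^ (R p.1).τ ∧ p.2.2 < (R p.1).nA} =>
      (⟨(R p.1.1).lab p.1.2.1 (unidx _ _ _ p.1.2.2)⟩ : Code ((Fin W → Bool) → Bool))) :
    PT R := by
  have j : PT fun p : X × ℕ => (⟨(p.1, p.2 % 2 ^ (R p.1).τ), Nat.mod_lt _ (by positivity)⟩ :
      {p : X × ℕ // p.2 < 2 ^ (R p.1).τ}) :=
    pt_sub (PT.fst'.pair (pt_mod PT.snd' (hT.pt.comp PT.fst'))) _
  have h1 : PT fun x => (List.range (2 ^ (R x).τ)).map fun t => ((R x).nop t, (R x).win t) := by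
    refine (PT.map (f := fun x t => ((R x).nop (t % 2 ^ (R x).τ), (R x).win (t % 2 ^ (R x).τ)))
      ((pt_pi fun i => pt_nrm (hb.pt.comp PT.fst') (hσ.comp PT.fst') ((hop i).comp j)).pair
        (pt_pi fun i => (hwin i).comp j)) hT.range).congr fun x => ?_
    refine List.map_congr_left fun n hn => ?_
    rw [Nat.mod_eq_of_lt (List.mem_range.1 hn)]
  have h2 := ip_table hT hA (fun x => by positivity) (fun x => by unfold Inst.nA; positivity)
    (f := fun x t m => (⟨(R x).lab t (unidx _ _ _ m)⟩ : Code ((Fin W → Bool) → Bool))) hlab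
  exact ((hb.range.pair (hβ.range.pair (hσ.range.pair (hτ.range.pair hk)))).pair
    (hg.pair (h1.pair h2))).of_enc fun _ => rfl

theorem ip_sz_nat {n N : ℕ} (h : n ≤ N) : sz n ≤ 4 * N + 1 :=
  sz_nat_le (h.trans_lt Nat.lt_two_pow_self)

theorem ip_sz_list {l : List Y} {N B : ℕ} (h : l.length ≤ N) (hB : ∀ a ∈ l, sz a ≤ B) :
    sz l ≤ N * (B + 1) + 1 :=
  (sz_list_le hB).trans (Nat.add_le_add_right (Nat.mul_le_mul_right _ h) _)

theorem ip_sz_ofFn {n N B : ℕ} {f : Fin n → Y} (h : n ≤ N) (hB : ∀ i, sz (f i) ≤ B) :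
    sz (List.ofFn f) ≤ N * (B + 1) + 1 :=
  ip_sz_list (by simpa using h) fun a ha => by
    obtain ⟨i, rfl⟩ := List.mem_ofFn.1 ha
    exact hB i

theorem ip_sz_range {n N : ℕ} (h : n ≤ N) : sz (List.range n) ≤ N * (4 * N + 1 + 1) + 1 :=
  ip_sz_list (by simpa using h) fun _ ha => ip_sz_nat ((List.mem_range.1 ha).le.trans h)

theorem ip_sz_nrm {b σ N : ℕ} (hb : b ≤ N) (hσ : 2 ^ σ ≤ N) (o : Op) :
    sz (nrm b σ o) ≤ 16 * N + 119 := by
  have key : ∀ o : Op, o.data.1 ≤ N + 7 → o.data.2.1 ≤ N + 7 → o.data.2.2.1 ≤ N + 7 →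
      o.data.2.2.2 ≤ N + 7 → sz o ≤ 16 * N + 119 := by
    intro o h1 h2 h3 h4
    have e : sz o = sz (o.data.1, o.data.2.1, o.data.2.2.1, o.data.2.2.2) := rfl
    have g1 := ip_sz_nat h1
    have g2 := ip_sz_nat h2
    have g3 := ip_sz_nat h3
    have g4 := ip_sz_nat h4
    simp only [e, sz_pair]
    omega
  cases o with
  | E l l' ρ =>
    have := ρ.2
    rw [nrm]
    split_ifs <;> refine key _ ?_ ?_ ?_ ?_ <;> simp only [Op.data] <;> omega
  | N l =>
    rw [nrm]
    split_ifs <;> refine key _ ?_ ?_ ?_ ?_ <;> simp only [Op.data] <;> omega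
  | Tr v =>
    have : v % 2 ^ σ < 2 ^ σ := Nat.mod_lt _ (by positivity)
    rw [nrm]
    refine key _ ?_ ?_ ?_ ?_ <;> simp only [Op.data] <;> omega

/-- the size of the code of an instance. -/
theorem sz_inst (W : ℕ) : ∃ C : ℕ, ∀ G : Inst W, ∀ N : ℕ, G.b ≤ N → G.β ≤ N → G.k0 ≤ N →
    2 ^ G.τ * G.nA ≤ N → sz G ≤ (N + 2) ^ C := by
  let c := Fintype.card ((Fin W → Bool) → Bool)
  obtain ⟨k, hk⟩ := eval_le_pow (4 * (Polynomial.X * (4 * Polynomial.X + 1 + 1) + 1) +
    (4 * Polynomial.X + 1) +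
    (7 * (Polynomial.X * (Polynomial.X * (3 + 1) + 1 + 1) + 1 + 1) + 1) +
    (Polynomial.X * (Polynomial.C W * (16 * Polynomial.X + 119 + 1) + 1 +
      (Polynomial.C W * (3 + 1) + 1) + 1 + 1) + 1) +
    (Polynomial.X * (4 * Polynomial.C c + 1 + 1) + 1) + 7)
  refine ⟨k, fun G N hb hβ hk0 hN => le_trans ?_ (hk N)⟩
  have hA : 0 < G.nA := by unfold Inst.nA; positivity
  have hT : 2 ^ G.τ ≤ N := (Nat.le_mul_of_pos_right _ hA).trans hN
  have hσ : 2 ^ G.σ ≤ N := (Nat.pow_le_pow_right (by omega) (Nat.le_add_right _ _)).trans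
    ((Nat.le_mul_of_pos_left G.nA (by positivity)).trans hN)
  have h1 := ip_sz_range hb
  have h2 := ip_sz_range hβ
  have h3 := ip_sz_range (Nat.lt_two_pow_self.le.trans hσ)
  have h4 := ip_sz_range (Nat.lt_two_pow_self.le.trans hT)
  have h5 := ip_sz_nat hk0
  have h6 : sz G.gtab ≤ 7 * (N * (N * (3 + 1) + 1 + 1) + 1 + 1) + 1 :=
    ip_sz_ofFn le_rfl fun _ => ip_sz_ofFn hβ fun _ => ip_sz_ofFn hβ fun _ => sz_bool _
  have h7 : sz G.tab.2.2.1 ≤
      N * (W * (16 * N + 119 + 1) + 1 + (W * (3 + 1) + 1) + 1 + 1) + 1 := by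
    refine ip_sz_list (by simpa [Inst.tab] using hT) fun a ha => ?_
    obtain ⟨t, -, rfl⟩ := List.mem_map.1 ha
    rw [sz_pair]
    exact Nat.add_le_add_right (Nat.add_le_add
      (ip_sz_ofFn (f := G.nop t) le_rfl fun _ => ip_sz_nrm hb hσ _)
      (ip_sz_ofFn (f := G.win t) le_rfl fun _ => sz_bool _)) _
  have h8 : sz G.tab.2.2.2 ≤ N * (4 * c + 1 + 1) + 1 :=
    ip_sz_list (by simpa [Inst.tab] using hN) fun a _ =>
      ip_sz_nat (n := Fintype.equivFin _ a.val) (Fin.is_lt _).le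
  have e : sz G = sz ((List.range G.b, List.range G.β, List.range G.σ, List.range G.τ, G.k0),
      G.gtab, G.tab.2.2.1, G.tab.2.2.2) := rfl
  simp only [e, sz_pair, Polynomial.eval_add, Polynomial.eval_mul, Polynomial.eval_X,
    Polynomial.eval_C, Polynomial.eval_ofNat, Polynomial.eval_one]
  omega

theorem Red.comp {src : X → Inst W} {R : X → Inst W'} {Φ : X → ℝ → ℝ → Prop}
    {src' : Y → Inst W'} {R' : Y → Inst W''} {Φ' : Y → ℝ → ℝ → Prop} (h : Red src R Φ)
    (h' : Red src' R' Φ') {j : X → Y} (hj : PT j) (e : ∀ x, src' (j x) = R x) :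
    Red src (fun x => R' (j x)) fun x v'' v => ∃ v', 0 ≤ v' ∧ Φ' (j x) v'' v' ∧ Φ x v' v := by
  obtain ⟨-, D, hD, h1⟩ := h
  obtain ⟨hR', D', hD', h2⟩ := h'
  refine ⟨hR'.comp hj, fun p => D (p.1, D' (j p.1, p.2)),
    hD.comp (PT.fst'.pair (hD'.comp ((hj.comp PT.fst').pair PT.snd'))), fun x s => ?_⟩
  refine ⟨(R x).violA (D' (j x, s)), Inst.viol_nonneg _ _, ?_, h1 x _⟩
  rw [← e]
  exact h2 _ _

theorem Red.mono {src : X → Inst W} {R : X → Inst W'} {Φ Ψ : X → ℝ → ℝ → Prop} (h : Red src R Φ)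
    (hh : ∀ x v' v, 0 ≤ v' → 0 ≤ v → Φ x v' v → Ψ x v' v) : Red src R Ψ := by
  obtain ⟨hR, D, hD, h1⟩ := h
  exact ⟨hR, D, hD, fun x s =>
    hh _ _ _ (Inst.viol_nonneg _ _) (Inst.viol_nonneg _ _) (h1 x s)⟩

end Vale.Agent.P330.Amp
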