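import Vale.Agent.P330.Prog
import Vale.Agent.P330.Reg
import Vale.Agent.P330.InstPT

/-! Polynomial time for programs as instances (task BridgePT).
Plan. `pt_inst`. The instruction at time `t` by `PT.getD`; case distinction on `Ins.data`. The label
of a cell is a function of finite data: the kind, `w1, w2 ≤ 2 ^ κ` (`pt_cases` over
`Fin (2 ^ κ + 1)`, or replace the fields by the numbers `fld z p w < 2 ^ 2 ^ κ` as elements of a `Fin`
type and use `ofN_fld`), and four condition bits (`pt_mkF`, `pt_mk2`, `pt_codeFun`); fields by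
`fld_eq`, `toN_unidx_small`. `pt_run`: a fold over the time whose state is the table of values. -/

namespace Vale.Agent.P330.Amp

open Vale.Agent.Lib.H23 Vale.Agent.P333 Vale.Agent.P325 Finset Matrix
open scoped BigOperators

variable {X : Type} [Enc X]

theorem bp_min_pow {f g : X → ℕ} (hf : PT f) (hg : PU g) : PT fun x => 2 ^ min (f x) (g x) :=
  pt_two_pow (hg.of_le (pt_min hf hg.pt) fun _ => min_le_right _ _)

theorem bp_div_pow {f p : X → ℕ} (hf : PT f) (hp : PT p) : PT fun x => f x / 2 ^ p x := by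
  refine (PT.div hf (bp_min_pow hp (pu_size hf))).congr fun x => ?_
  rcases le_total (p x) (f x).size with h | h
  · rw [min_eq_left h]
  · rw [min_eq_right h, Nat.div_eq_of_lt (Nat.lt_size_self _),
      Nat.div_eq_of_lt ((Nat.lt_size_self _).trans_le (Nat.pow_le_pow_right (by omega) h))]

theorem bp_mod_pow {f p : X → ℕ} (hf : PT f) (hp : PT p) : PT fun x => f x % 2 ^ p x := by
  refine (pt_mod hf (bp_min_pow hp (pu_size hf))).congr fun x => ?_
  rcases le_total (p x) (f x).size with h | h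
  · rw [min_eq_left h]
  · rw [min_eq_right h, Nat.mod_eq_of_lt (Nat.lt_size_self _),
      Nat.mod_eq_of_lt ((Nat.lt_size_self _).trans_le (Nat.pow_le_pow_right (by omega) h))]

theorem pt_fld {σ : X → ℕ} {z : (x : X) → Vec (σ x)} {p w : X → ℕ} (hz : PT fun x => toN (z x))
    (hp : PT p) (hw : PT w) : PT fun x => fld (z x) (p x) (w x) :=
  (bp_mod_pow (bp_div_pow hz hp) hw).congr fun _ => fld_eq

theorem pt_cond {σ : X → ℕ} {z : (x : X) → Vec (σ x)} {orc : (x : X) → ℕ → Vec (σ x) → Bool}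
    {c : X → Cond} (hz : PT fun x => toN (z x)) (hc : PT c)
    (ho : PT fun p : X × ℕ => orc p.1 p.2 (z p.1)) : PT fun x => (c x).ev (orc x) (z x) := by
  have hd : PT fun x => (c x).data := hc.of_enc fun _ => rfl
  refine (pt_ite (pt_decEq hd.fst (PT.const 0))
    (pt_decEq (pt_fld hz hd.snd.fst hd.snd.snd.fst) hd.snd.snd.snd)
    (ho.comp (PT.id.pair hd.snd.fst))).congr fun x => ?_
  cases c x <;> rfl

theorem bp_data {I : X → Ins} (hI : PT I) : PT fun x => (I x).data := hI.of_enc fun _ => rfl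

theorem bp_op {κ : ℕ} {σ : X → ℕ} {I : X → Ins} (hσ : PU σ) (hI : PT I)
    (hok : ∀ x, (I x).ok κ (σ x)) (i : ℕ) : PT fun x => (I x).op i := by
  have hd := bp_data hI
  have p1 := hd.snd.snd.fst.fst
  have w1 := hd.snd.snd.fst.snd.fst
  have p2 := hd.snd.snd.fst.snd.snd.fst
  have w2 := hd.snd.snd.fst.snd.snd.snd
  have ho := hd.snd.snd.snd.snd
  refine (pt_ite (pt_decEq hd.fst (PT.const 0))
    (pt_opTr (pt_xor (pt_xor (PT.const (i % 4))
      ((bp_mod_pow (PT.const (i / 4)) w1).mul (bp_min_pow p1 hσ)))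
      ((bp_mod_pow (bp_div_pow (PT.const (i / 4)) w1) w2).mul (bp_min_pow p2 hσ))))
    (pt_ite (pt_decEq (PT.const i) (PT.const 1))
      (pt_ite (pt_decEq hd.fst (PT.const 1)) (pt_opTr (bp_min_pow p1 hσ))
        (pt_ite (pt_decEq (pt_data ho).fst (PT.const 2)) (PT.const (Op.Tr 0)) ho))
      (PT.const (Op.Tr 0)))).congr fun x => ?_
  have h := hok x
  rcases e : I x with ⟨kd, p1, w1, p2, w2, c⟩ | j | ⟨o, c⟩
  · rw [e] at h
    obtain ⟨-, -, -, h1, h2, -⟩ := h
    simp only [Ins.op, Ins.data, if_true, min_eq_left (show p1 ≤ σ x by omega),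
      min_eq_left (show p2 ≤ σ x by omega)]
  · rw [e] at h
    simp only [Ins.op, Ins.data, if_true, one_ne_zero, if_false,
      min_eq_left (show j ≤ σ x from le_of_lt h)]
  · cases o <;> simp [Ins.op, Ins.data, Op.data]

theorem bp_win {I : X → Ins} (hI : PT I) (i : ℕ) : PT fun x => (I x).win i := by
  refine ((pt_decEq (bp_data hI).fst (PT.const 1)).and (PT.const (decide (i = 1)))).congr
    fun x => ?_
  cases I x <;> simp [Ins.win, Ins.data]

/-- the label of a cell from finite data. -/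
noncomputable def bpCell (κ : ℕ) (kd : Kind) (w1 w2 a0 a1 a2 : ℕ) (c : Fin 4 → Bool)
    (r : Fin (WW κ) → Bool) : Bool :=
  kf κ kd (ofN 2 a0) (ofN w1 a1) (ofN w2 a2) c fun i =>
    r (Fin.ofNat _ (toN (i.1 + ofN 2 a0) +
      4 * (toN (i.2.1 + ofN w1 a1) + 2 ^ w1 * toN (i.2.2 + ofN w2 a2))))

def bpSel (κ : ℕ) (c : Bool) (r : Fin (WW κ) → Bool) : Bool :=
  if c then r (Fin.ofNat _ 1) else r (Fin.ofNat _ 0)

theorem bp_cell (K : ℕ) [NeZero K] {A C : Type} [Fintype A] [Fintype C]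
    (F : A → ℕ → ℕ → ℕ → ℕ → ℕ → (Fin 4 → Bool) → C)
    {kd : X → Code A} {w1 w2 a0 a1 a2 : X → ℕ} {c : X → Fin 4 → Bool}
    (hk : PT kd) (h1 : PT w1) (h2 : PT w2) (h3 : PT a0) (h4 : PT a1) (h5 : PT a2)
    (hc : ∀ n, PT fun x => c x n) :
    PT fun x => (⟨F (kd x).val (w1 x % K) (w2 x % K) (a0 x % K) (a1 x % K)
      (a2 x % K) (c x)⟩ : Code C) := by
  have q : ∀ {f : X → ℕ}, PT f → PT fun x => (⟨Fin.ofNat K (f x)⟩ : Code (Fin K)) :=
    fun hf => pt_codeFin (pt_mod hf (PT.const K))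
  have k := pt_mk2 (fun (u : A × (Fin 4 → Bool)) (v : (Fin K × Fin K) × Fin K × Fin K × Fin K) =>
      F u.1 v.1.1 v.1.2 v.2.1 v.2.2.1 v.2.2.2 u.2)
    (pt_mk2 Prod.mk hk (pt_codeFun fun n => pt_codeBool (hc n)))
    (pt_mk2 Prod.mk (pt_mk2 Prod.mk (q h1) (q h2))
      (pt_mk2 Prod.mk (q h3) (pt_mk2 Prod.mk (q h4) (q h5))))
  exact k.congr fun _ => rfl

theorem bp_lab (κ : ℕ) {σ : X → ℕ} {z : (x : X) → Vec (σ x)}
    {orc : (x : X) → ℕ → Vec (σ x) → Bool} {I : X → Ins} (hz : PT fun x => toN (z x)) (hI : PT I)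
    (hok : ∀ x, (I x).ok κ (σ x)) (ho : PT fun p : X × ℕ => orc p.1 p.2 (z p.1)) :
    PT fun x => (⟨fun r => (I x).lab κ (orc x) (z x) r⟩ :
      Code ((Fin (WW κ) → Bool) → Bool)) := by
  have hd := bp_data hI
  have p1 := hd.snd.snd.fst.fst
  have w1 := hd.snd.snd.fst.snd.fst
  have p2 := hd.snd.snd.fst.snd.snd.fst
  have w2 := hd.snd.snd.fst.snd.snd.snd
  have hc : ∀ n, PT fun x => ((I x).data.2.2.2.1 n).ev (orc x) (z x) := fun n =>
    pt_cond hz (pt_apply hd.snd.snd.snd.fst n) ho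
  refine (pt_ite (pt_decEq hd.fst (PT.const 0))
    (bp_cell (WW κ) (bpCell κ) hd.snd.fst w1 w2 (pt_fld hz (PT.const 0) (PT.const 2)) (pt_fld hz p1 w1)
      (pt_fld hz p2 w2) hc)
    (pt_mk (bpSel κ) (pt_codeBool (pt_ite (pt_decEq hd.fst (PT.const 1))
      (pt_decEq (pt_fld hz p1 (PT.const 1)) (PT.const 1)) (hc 0))))).congr fun x => ?_
  have h := hok x
  rcases e : I x with ⟨kd, p1, w1, p2, w2, c⟩ | j | ⟨o, c⟩
  · rw [e] at h
    obtain ⟨-, -, -, -, -, -, h⟩ := h
    have k1 : ∀ w ≤ 2 ^ κ + 2, 2 ^ w ≤ WW κ := fun w hw => Nat.pow_le_pow_right (by omega) hw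
    have k2 : ∀ w ≤ 2 ^ κ, w % WW κ = w := fun w hw =>
      Nat.mod_eq_of_lt (Nat.lt_two_pow_self.trans_le (k1 w (by omega)))
    have k3 : ∀ p, ∀ w ≤ 2 ^ κ + 2, fld (z x) p w % WW κ = fld (z x) p w := fun p w hw =>
      Nat.mod_eq_of_lt (fld_lt.trans_le (k1 w hw))
    simp only [Ins.data, if_true]
    rw [k2 w1 (by omega), k2 w2 (by omega), k3 0 2 (by omega), k3 p1 w1 (by omega),
      k3 p2 w2 (by omega)]
    refine congrArg Code.mk (funext fun r => ?_)
    simp only [bpCell, ofN_fld, Ins.lab]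
  · refine congrArg Code.mk (funext fun r => ?_)
    simp only [Ins.data, Ins.lab, bpSel, if_true]
    exact if_congr decide_eq_true_iff.symm rfl rfl
  · refine congrArg Code.mk (funext fun r => ?_)
    simp [Ins.data, Ins.lab, bpSel]

theorem bp_pow_size (n : ℕ) : 2 ^ n.size ≤ n + n + 1 := by
  rcases h : n.size with _ | k
  · omega
  · have : 2 ^ k ≤ n := Nat.lt_size.1 (by omega)
    omega

theorem pt_progInst (κ : ℕ) {b β σ k0 : X → ℕ} {gens : (x : X) → Fin 7 → Mat (β x)}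
    {prog : X → List Ins} {orc : (x : X) → Big (b x) (β x) → ℕ → Vec (σ x) → Bool}
    (hb : PU b) (hβ : PU β) (hσ : PU σ) (hk : PT k0)
    (hg : PT fun x => (progInst κ (b x) (β x) (σ x) (k0 x) (gens x) (prog x) (orc x)).gtab)
    (hA : PU fun x => 2 ^ (σ x + b x * β x)) (hp : PT prog) (h2 : ∀ x, 2 ≤ σ x)
    (hok : ∀ x, ∀ i ∈ prog x, i.ok κ (σ x))
    (ho : PT fun p : {p : X × ℕ × ℕ // p.2.2 < 2 ^ (σ p.1 + b p.1 * β p.1)} =>
      orc p.1.1 (unidx _ _ (σ p.1.1) p.1.2.2).1 p.1.2.1 (unidx (b p.1.1) (β p.1.1) _ p.1.2.2).2) :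
    PT fun x => progInst κ (b x) (β x) (σ x) (k0 x) (gens x) (prog x) (orc x) := by
  have hτ : PU fun x => (prog x).length.size := pu_size hp.length
  have ok : ∀ x t, ((prog x).getD t idleI).ok κ (σ x) := by
    intro x t
    rcases lt_or_ge t (prog x).length with h | h
    · rw [List.getD_eq_getElem _ _ h]
      exact hok x _ (List.getElem_mem h)
    · rw [List.getD_eq_default _ _ h]
      exact ⟨h2 x, Or.inl rfl, Or.inl rfl, Nat.zero_le _, Nat.zero_le _, Or.inl le_rfl,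
        Nat.zero_le _⟩
  refine pt_inst hb hβ hσ hτ hk hg ((((PU.len hp).add (PU.len hp)).add (PU.const 1)).of_le
    (pt_two_pow hτ) fun x => bp_pow_size _) hA (fun i => ?_) (fun i => ?_) ?_
  · have v := pt_val (PT.id (α := {p : X × ℕ // p.2 < 2 ^ (prog p.1).length.size}))
    exact bp_op (hσ.comp v.fst) (PT.getD (hp.comp v.fst) v.snd (PT.const idleI))
      (fun p => ok _ _) i
  · have v := pt_val (PT.id (α := {p : X × ℕ // p.2 < 2 ^ (prog p.1).length.size}))
    exact bp_win (PT.getD (hp.comp v.fst) v.snd (PT.const idleI)) i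
  · have v := pt_val (PT.id (α := {p : X × ℕ × ℕ // p.2.1 < 2 ^ (prog p.1).length.size ∧
      p.2.2 < 2 ^ (σ p.1 + b p.1 * β p.1)}))
    have v' := v.comp (PT.fst' (β := ℕ))
    have j := ho.comp (pt_sub (p := fun p : X × ℕ × ℕ => p.2.2 < 2 ^ (σ p.1 + b p.1 * β p.1))
      (v'.fst.pair (PT.snd'.pair v'.snd.snd)) fun q => q.1.2.2)
    have k := bp_lab κ (σ := fun p => σ p.1.1)
      (z := fun p => (unidx (b p.1.1) (β p.1.1) (σ p.1.1) p.1.2.2).2)
      (orc := fun p => orc p.1.1 (unidx (b p.1.1) (β p.1.1) (σ p.1.1) p.1.2.2).1)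
      ((bp_mod_pow v.snd.snd (hσ.pt.comp v.fst)).congr fun p => toN_unidx_small _)
      (PT.getD (hp.comp v.fst) v.snd.fst (PT.const idleI)) (fun p => ok _ _) j
    exact k.congr fun _ => rfl

/-- the table of the values of a layer. -/
def bpTab {W : ℕ} (H : Inst W) (Y : H.A → Val) : List ℕ :=
  (List.range H.nA).map fun m => (Y (unidx _ _ _ m) : ℕ)

/-- the layer given by a table. -/
def bpDec {W : ℕ} (H : Inst W) (T : List ℕ) : H.A → Val :=
  fun a => Fin.ofNat 4 (T.getD (idx a) 0)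

theorem bp_dec_tab {W : ℕ} (H : Inst W) (Y : H.A → Val) : bpDec H (bpTab H Y) = Y := by
  funext a
  rw [bpDec, bpTab, List.getD_eq_getElem _ _ (by simpa using H.idx_lt_nA a), List.getElem_map,
    List.getElem_range, unidx_idx]
  exact Fin.ext (Nat.mod_eq_of_lt (Y a).2)

theorem bp_tab {W : ℕ} {H : X → Inst W} (hH : PT H) {Y : (x : X) → (H x).A → Val}
    (hY : PT fun p : X × ℕ => (Y p.1 (unidx _ _ _ (p.2 % (H p.1).nA)) : ℕ)) :
    PT fun x => bpTab (H x) (Y x) := by
  refine (PT.map (f := fun x m => (Y x (unidx _ _ _ (m % (H x).nA)) : ℕ)) hY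
    (pu_nA hH).range).congr fun x => ?_
  refine List.map_congr_left fun m hm => ?_
  rw [Nat.mod_eq_of_lt (List.mem_range.1 hm)]

theorem bp_step {W : ℕ} {H : X → Inst W} (hH : PT H) {T : X → List ℕ} {t m : X → ℕ} (hT : PT T)
    (ht : PT t) (hm : PT m) (h : ∀ x, t x < 2 ^ (H x).τ) (h' : ∀ x, m x < (H x).nA) :
    PT fun x => ((H x).step (bpDec (H x) (T x)) (t x) (unidx _ _ _ (m x)) : ℕ) := by
  have h1 := pt_codeFun fun i => pt_codeBool (pt_win hH ht h i)
  have h2 := pt_codeFun fun i => pt_codeFin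
    (k := fun x => Fin.ofNat 4 ((T x).getD ((H x).actN ((H x).nop (t x) i) (m x)) 0))
    (pt_mod (PT.getD hT (pt_actN hH (pt_nop hH ht h i) hm) (PT.const 0)) (PT.const 4))
  have h3 := pt_lab hH ht hm h h'
  refine (pt_ofFin (fun c : ((Fin W → Bool) × (Fin W → Val)) × ((Fin W → Bool) → Bool) =>
    (pv (c.2 fun i => (rd (c.1.1 i) (c.1.2 i)).getD false) : ℕ))
    (pt_mk2 Prod.mk (pt_mk2 Prod.mk h1 h2) h3)).congr fun x => ?_
  simp only [Inst.step, Inst.actN, Inst.nop, act_nrm, bpDec]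

theorem bp_run {W : ℕ} (H : Inst W) (Y : H.A → Val) (n : ℕ) (h : n ≤ 2 ^ H.τ) :
    (List.range n).foldl (fun T t => bpTab H (H.step (bpDec H T) (t % 2 ^ H.τ))) (bpTab H Y)
      = bpTab H (H.run n Y) := by
  induction n with
  | zero => rfl
  | succ n ih =>
    rw [List.range_succ, List.foldl_append, ih (by omega), Inst.run, Inst.run, List.range_succ,
      List.foldl_append]
    simp only [List.foldl_cons, List.foldl_nil, bp_dec_tab, Nat.mod_eq_of_lt (show n < _ from h)]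

theorem pt_run {W : ℕ} {H : X → Inst W} (hH : PT H) {n : X → ℕ} (hn : PT n)
    (h : ∀ x, n x ≤ 2 ^ (H x).τ) {s : X → List ℕ} (hs : PT s) :
    PT fun x => (List.range (H x).nA).map fun m =>
      ((H x).run (n x) (fun a => Fin.ofNat 4 ((s x).getD (idx a) 0)) (unidx _ _ _ m) : ℕ) := by
  have hH1 : PT fun p : X × ℕ => H p.1 := hH.comp PT.fst'
  have h0 : PT fun x => bpTab (H x) (bpDec (H x) (s x)) :=
    bp_tab hH ((pt_mod (PT.getD (hs.comp PT.fst') (pt_mod PT.snd' (pu_nA hH1).pt) (PT.const 0))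
      (PT.const 4)).congr fun p => by
        rw [bpDec, idx_unidx (m := p.2 % (H p.1).nA) (Nat.mod_lt _ (H p.1).nA_pos)]; rfl)
  have hH2 : PT fun p : X × List ℕ × ℕ => H p.1 := hH.comp PT.fst'
  have hH3 : PT fun q : (X × List ℕ × ℕ) × ℕ => H q.1.1 := hH2.comp PT.fst'
  have h1 : PT fun p : X × List ℕ × ℕ =>
      bpTab (H p.1) ((H p.1).step (bpDec (H p.1) p.2.1) (p.2.2 % 2 ^ (H p.1).τ)) :=
    bp_tab hH2 (bp_step hH3 PT.fst'.snd.fst (pt_mod PT.fst'.snd.snd (pu_T hH3).pt)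
      (pt_mod PT.snd' (pu_nA hH3).pt) (fun q => Nat.mod_lt _ (Nat.two_pow_pos _))
      fun q => Nat.mod_lt _ (H q.1.1).nA_pos)
  refine (pt_fold (f := fun x T t => bpTab (H x) ((H x).step (bpDec (H x) T) (t % 2 ^ (H x).τ)))
    (fun p : X × ℕ => List.range ((H p.1).nA * 10)) h1 ((pu_T hH).of_le hn h).range h0
    ((pu_nA hH1).mul (PU.const 10)).range fun x T t => ?_).congr fun x => ?_
  · have e1 := length_lt_sz (List.range ((H x).nA * 10))
    have e2 := ip_sz_list (l := bpTab (H x) ((H x).step (bpDec (H x) T) (t % 2 ^ (H x).τ)))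
      (N := (H x).nA) (B := 4 * 2 + 1) (by simp [bpTab]) fun a ha => by
        obtain ⟨m, -, rfl⟩ := List.mem_map.1 ha
        exact sz_nat_le (Fin.is_lt _)
    rw [List.length_range] at e1
    dsimp only
    omega
  · exact (bp_run (H x) _ (n x) (h x)).symm

theorem bp_pull {W n : ℕ} (H : Inst W) (z : Vec n) (ms : List Mv) (a : H.A) :
    ms.foldr (fun (m : Mv) s => if m.2.ev (fun _ _ => false) z then
      (if m.1.data.1 = 2 then s else H.actN m.1 s) else s) (idx a)
      = idx ((pullB (actB H.gens) (fun _ _ => false) z ms a.1, a.2) : H.A) := by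
  induction ms with
  | nil => rfl
  | cons m ms ih =>
    rw [List.foldr_cons, ih, pullB, pullB, List.foldr_cons]
    split_ifs with h1 h2
    · rcases m with ⟨_ | _ | _, c⟩ <;> simp [Op.data] at h2
      rfl
    · rw [Inst.actN, unidx_idx]
      rcases m with ⟨_ | _ | _, c⟩
      · rfl
      · rfl
      · exact absurd rfl h2
    · rfl

theorem pt_pull {W : ℕ} {H : X → Inst W} (hH : PT H) {n e m : X → ℕ} {ms : X → List Mv}
    (hn : PU n) (he : PT e) (hm : PT m) (hms : PT ms) :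
    PT fun x => idx ((pullB (actB (H x).gens) (fun _ _ => false) (ofN (n x) (e x)) (ms x)
      (unidx (H x).b (H x).β (H x).σ (m x)).1, (unidx (H x).b (H x).β (H x).σ (m x)).2) :
        (H x).A) := by
  have hH1 : PT fun p : X × Mv => H p.1 := hH.comp PT.fst'
  have hH2 : PT fun p : X × ℕ × Mv => H p.1 := hH.comp PT.fst'
  have hc : PT fun p : X × ℕ × Mv => p.2.2.2.ev (fun _ _ => false) (ofN (n p.1) (e p.1)) :=
    pt_cond (σ := fun p : X × ℕ × Mv => n p.1) (z := fun p => ofN (n p.1) (e p.1))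
      (orc := fun _ _ _ => false)
      ((bp_mod_pow (he.comp PT.fst') (hn.pt.comp PT.fst')).congr fun p => toN_ofN _ _)
      PT.snd'.snd.snd (PT.const false)
  refine (pt_fold (f := fun x s (m : Mv) => if m.2.ev (fun _ _ => false) (ofN (n x) (e x)) then
      (if m.1.data.1 = 2 then s else (H x).actN m.1 s) else s)
    (fun p : X × Mv => List.range (4 * ((H p.1).σ + (H p.1).b * (H p.1).β)))
    (pt_ite (hc.congr fun p => by simp)
      (pt_ite (pt_decEq (pt_data PT.snd'.snd.fst).fst (PT.const 2)) PT.snd'.fst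
        (pt_actN hH2 PT.snd'.snd.fst PT.snd'.fst)) PT.snd'.fst)
    hms.reverse (pt_actN hH (PT.const (.Tr 0)) hm)
    ((PU.const 4).mul ((pu_σ hH1).add ((pu_b hH1).mul (pu_β hH1)))).range
    fun x s a => ?_).congr fun x => ?_
  · have e1 := length_lt_sz (List.range (4 * ((H x).σ + (H x).b * (H x).β)))
    have e2 : sz ((H x).actN a.1 s) ≤ _ := sz_nat_le (idx_lt _)
    rw [List.length_range] at e1
    dsimp only
    split_ifs <;> omega
  · rw [List.foldl_reverse, Inst.actN, act_zero]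
    exact (bp_pull (H x) _ _ _).symm

end Vale.Agent.P330.Amp
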