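import Vale.Agent.P330.CascA

/-! The cascade. `D = vd κ v :: ds`, `T = q :: qs` are the version dimensions that stay. Induction
on the threshold dimensions `ps`: a predicate `B` (some stage was not calm) of small density;
outside `B` every message point is clean except on a set of density `k ^ (-length ps)`; then a
union bound over the message patterns. -/

namespace Vale.Agent.P330.Amp

open Vale.Agent.Lib.H23 Vale.Agent.P325 Finset
open scoped BigOperators

variable {σ κ u M v : ℕ} {ds : List Dim} {orc : ℕ → Vec σ → Bool} {S : Vec σ → Prop}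
  {X Y : Vec σ → Val} {z0 : Vec σ}

/-- after the cascade: every message point has a value in almost all versions, and it is the
value given by the initial fraction. -/
def CascGood (κ M v : ℕ) (ds : List Dim) (T ps : List ℕ) (c0 : Bool) (X Y : Vec σ → Val)
    (y : Vec σ) : Prop :=
  ∀ z, InR (pos (T.map (vd κ) ++ vd κ v :: ds)) y z → HP ds z → ∃ γ : Bool,
    av (pos (T.map (vd κ))) (fun z' => ind (¬ Msg (eV M) (vd κ v :: ds) Y z' (b2 γ))) z ≤ (1 / 8) ^ M ∧
    ∀ δ, Pre κ true c0 (frac M (vd κ v :: ds) (pos ((T ++ ps).map (vd κ))) X z) δ → γ = δ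

section lists

variable {qs ps : List ℕ} {p q : ℕ}

theorem perm_casc : (q :: qs ++ p :: ps).Perm (qs ++ ps ++ [p] ++ [q]) := by
  refine List.perm_iff_count.mpr fun x => ?_
  simp only [List.count_append, List.count_cons, List.count_nil]
  omega

theorem pos_casc : pos ((qs ++ ps ++ [p] ++ [q]).map (vd κ)) = pos ((q :: qs ++ p :: ps).map (vd κ)) :=
  pos_vd_congr fun _ => perm_casc.mem_iff.symm

theorem pos_casc' : pos ((qs ++ ps ++ [p] ++ [q]).map (vd κ) ++ ds) =
    pos ((q :: qs ++ p :: ps).map (vd κ) ++ ds) := by rw [pos_append, pos_append, pos_casc]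

theorem pos_split : pos ((q :: qs ++ p :: ps).map (vd κ)) =
    Set.Ico p (p + κ) ∪ pos ((q :: qs ++ ps).map (vd κ)) := by
  rw [← pos_vd_cons]
  exact pos_vd_congr fun x => List.perm_middle.mem_iff

theorem pos_split' : pos ((q :: qs ++ p :: ps).map (vd κ) ++ ds) =
    Set.Ico p (p + κ) ∪ pos ((q :: qs ++ ps).map (vd κ) ++ ds) := by
  rw [pos_append, pos_append, pos_split, Set.union_assoc]

theorem lay_casc (hl : Lay σ κ u ((q :: qs ++ p :: ps).map (vd κ) ++ ds)) :
    Lay σ κ u ((qs ++ ps ++ [p] ++ [q]).map (vd κ) ++ ds) :=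
  hl.perm ((perm_casc.map _).append_right _)

theorem lay_tail (hl : Lay σ κ u ((q :: qs ++ p :: ps).map (vd κ) ++ ds)) :
    Lay σ κ u ((q :: qs ++ ps).map (vd κ) ++ ds) :=
  hl.sublist ((((List.sublist_cons_self p ps).append_left (q :: qs)).map _).append_right _)

theorem pos_ps_sub : pos (ps.map (vd κ)) ⊆ pos ((q :: qs ++ ps).map (vd κ)) :=
  pos_mono fun _ he => List.map_subset _ (List.subset_append_right _ _) he

theorem pos_left {ds' : List Dim} : pos ds ⊆ pos (ds ++ ds') :=
  pos_mono fun _ he => List.mem_append_left _ he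

theorem pos_T_sub : pos ((q :: qs).map (vd κ) ++ ds) ⊆ pos ((q :: qs ++ ps).map (vd κ) ++ ds) := by
  rw [pos_append, pos_append]
  exact Set.union_subset_union_left _ (pos_mono fun _ he =>
    List.map_subset _ (List.subset_append_left _ _) he)

end lists

theorem av_nOK {D : List Dim} {P B : Set ℕ} : av P (nOK M D B X) z0 = nOK M D (P ∪ B) X z0 := av_av

theorem casc_ok_aux {qs : List ℕ} {q N : ℕ} {c : Cond} (hp : Par κ u M) (hd : ds.length + 1 ≤ M)
    (ps : List ℕ) : ∀ {m c0 : Bool} {X : Vec σ → Val} {z0 : Vec σ},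
    Lay σ κ u ((q :: qs ++ ps).map (vd κ) ++ vd κ v :: ds) → (qs.length + ps.length + 1) * κ ≤ N →
    Home u z0 → Runs κ orc S (cascade κ u v ds qs q c m ps) X Y →
    (∀ z, InR (pos ((q :: qs ++ ps).map (vd κ) ++ vd κ v :: ds)) z0 z → c.ev orc z = c0) →
    nOK M (vd κ v :: ds) (pos ((q :: qs ++ ps).map (vd κ))) Y z0 ≤
      nOK M (vd κ v :: ds) (pos ((q :: qs ++ ps).map (vd κ))) X z0 + ps.length * (N ^ 2 + 1) *
        (2 ^ (4 * u + κ) * flt u S (pos ((q :: qs ++ ps).map (vd κ) ++ vd κ v :: ds)) z0) := by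
  induction ps with
  | nil =>
    intro m c0 X z0 _ _ _ hr _
    rw [show X = Y from hr]
    simp
  | cons p ps ih =>
    intro m c0 X z0 hl hN h0 hr hc
    obtain ⟨Z, hr1, hr2⟩ := runs_append.mp hr
    have h1 := stage_ok hp (lay_casc hl) hd h0 hr1 (by rw [pos_casc']; exact hc)
    rw [pos_casc, pos_casc'] at h1
    have hν : (0 : ℝ) ≤
        2 ^ (4 * u + κ) * flt u S (pos ((q :: qs ++ p :: ps).map (vd κ) ++ vd κ v :: ds)) z0 :=
      mul_nonneg (by positivity) (flt_nonneg _)
    have hN' : (((qs ++ ps ++ [p]).length + 1 : ℝ) * κ) ^ 2 ≤ N ^ 2 := by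
      have : ((qs ++ ps ++ [p]).length + 1) * κ ≤ N := by simpa [add_assoc] using hN
      exact_mod_cast Nat.pow_le_pow_left this 2
    have h2 : av (Set.Ico p (p + κ)) (nOK M (vd κ v :: ds) (pos ((q :: qs ++ ps).map (vd κ))) Y) z0 ≤
        av (Set.Ico p (p + κ)) (fun y => nOK M (vd κ v :: ds) (pos ((q :: qs ++ ps).map (vd κ))) Z y +
          ps.length * (N ^ 2 + 1) * (2 ^ (4 * u + κ) *
            flt u S (pos ((q :: qs ++ ps).map (vd κ) ++ vd κ v :: ds)) y)) z0 := by
      refine av_mono fun y hy => ?_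
      have hy' := hy.mono (Q := pos ((q :: qs ++ p :: ps).map (vd κ) ++ vd κ v :: ds))
        (by rw [pos_split']; exact Set.subset_union_left)
      exact ih (lay_tail hl) (le_trans (Nat.mul_le_mul_right _ (by simp)) hN) (hl.home h0 hy') hr2
        fun z hz => hc z (hy'.trans (hz.mono (by rw [pos_split']; exact Set.subset_union_right)))
    rw [av_add, av_mul, av_mul, av_nOK, av_nOK, av_flt, ← pos_split, ← pos_split'] at h2
    rw [List.length_cons]
    push_cast
    nlinarith [mul_le_mul_of_nonneg_right hN' hν]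

theorem cascade_ok {qs ps : List ℕ} {q : ℕ} {m c0 : Bool} {c : Cond} (hp : Par κ u M)
    (hl : Lay σ κ u ((q :: qs ++ ps).map (vd κ) ++ vd κ v :: ds)) (hd : ds.length + 1 ≤ M)
    (h0 : Home u z0) (hr : Runs κ orc S (cascade κ u v ds qs q c m ps) X Y)
    (hc : ∀ z, InR (pos ((q :: qs ++ ps).map (vd κ) ++ vd κ v :: ds)) z0 z → c.ev orc z = c0) :
    nOK M (vd κ v :: ds) (pos ((q :: qs ++ ps).map (vd κ))) Y z0 ≤
      nOK M (vd κ v :: ds) (pos ((q :: qs ++ ps).map (vd κ))) X z0 +
      ((qs.length + ps.length + 1) * κ + 1) ^ 3 *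
        (2 ^ (5 * u) * flt u S (pos ((q :: qs ++ ps).map (vd κ) ++ vd κ v :: ds)) z0) := by
  refine (casc_ok_aux hp hd ps hl le_rfl h0 hr hc).trans (add_le_add_right (mul_le_mul ?_
    (mul_le_mul_of_nonneg_right (pow_le_pow_right₀ (by norm_num) ?_) (flt_nonneg _))
    (mul_nonneg (by positivity) (flt_nonneg _)) (by positivity)) _)
  · have h1 : ps.length ≤ (qs.length + ps.length + 1) * κ := by nlinarith [hp.hκ]
    have h2 : ∀ a N : ℕ, a ≤ N → a * (N ^ 2 + 1) ≤ (N + 1) ^ 3 := fun a N h => by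
      nlinarith [Nat.mul_le_mul_right (N ^ 2 + 1) h, Nat.zero_le (N ^ 2)]
    exact_mod_cast h2 _ _ h1
  · have := hp.hu
    have := Nat.lt_two_pow_self (n := κ)
    omega

theorem casc_aux {qs : List ℕ} {q N : ℕ} {c : Cond} (hp : Par κ u M) (hd : ds.length + 1 ≤ M)
    {η : ℝ} (hη0 : 0 < η) (hη : η ≤ 1 / 8) (ps : List ℕ) : ∀ {m : Bool} {X : Vec σ → Val},
    Lay σ κ u ((q :: qs ++ ps).map (vd κ) ++ vd κ v :: ds) → (qs.length + ps.length + 1) * κ ≤ N →
    Runs κ orc S (cascade κ u v ds qs q c m ps) X Y → ∃ B : Vec σ → Prop,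
      (∀ y y', InR (pos ((q :: qs).map (vd κ) ++ vd κ v :: ds)) y y' → B y' → B y) ∧
      ∀ z c0, Home u z →
        (∀ z', InR (pos ((q :: qs ++ ps).map (vd κ) ++ vd κ v :: ds)) z z' → c.ev orc z' = c0) →
        av (pos (ps.map (vd κ))) (fun y => ind (B y)) z ≤
          ps.length * (6 * (2 ^ κ) ^ 2 * (N + 1) ^ 4 / η) *
            (nOK M (vd κ v :: ds) (pos ((q :: qs ++ ps).map (vd κ))) X z +
              (1 + ps.length * (N ^ 2 + 1)) * (2 ^ (4 * u + κ) *
                flt u S (pos ((q :: qs ++ ps).map (vd κ) ++ vd κ v :: ds)) z)) ∧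
        (HP ds z → av (pos (ps.map (vd κ))) (fun y => ind (¬ B y ∧
            ¬ ∃ γ, Clean M (vd κ v :: ds) (pos ((q :: qs).map (vd κ))) η Y y γ)) z ≤
              1 / (2 ^ κ) ^ ps.length ∧
          ∀ δ, (if ps = [] then Clean M (vd κ v :: ds) (pos ((q :: qs ++ ps).map (vd κ))) η X z δ else
              Pre κ m c0 (frac M (vd κ v :: ds) (pos ((q :: qs ++ ps).map (vd κ))) X z) δ) →
            ∀ y, InR (pos (ps.map (vd κ))) z y → ¬ B y →
              Clean M (vd κ v :: ds) (pos ((q :: qs).map (vd κ))) η Y y δ) := by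
  induction ps with
  | nil =>
    intro m X _ _ hr
    refine ⟨fun _ => False, fun _ _ _ h => h, fun z c0 _ _ => ⟨by simp [ind_of_not, av_const],
      fun _ => ⟨by simpa using av_ind_le_one _, fun δ hδ y hy _ => ?_⟩⟩⟩
    rw [if_pos rfl, List.append_nil, show X = Y from hr] at hδ
    rwa [show y = z from funext fun j => hy j (by simp [pos_nil])]
  | cons p ps ih =>
    intro m X hl hN hr
    obtain ⟨Z, hr1, hr2⟩ := runs_append.mp hr
    obtain ⟨B, hB1, hB2⟩ := ih (lay_tail hl) (le_trans (Nat.mul_le_mul_right _ (by simp)) hN) hr2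
    set D := vd κ v :: ds with hD
    set R := pos ((q :: qs ++ p :: ps).map (vd κ)) with hR
    set R' := pos ((q :: qs ++ p :: ps).map (vd κ) ++ D) with hR'
    set A : ℝ := 6 * (2 ^ κ) ^ 2 * (N + 1) ^ 4 / η with hA
    have hA0 : 0 ≤ A := by positivity
    set E : Vec σ → ℝ := fun y => A * (nOK M D R X y + 2 ^ (4 * u + κ) * flt u S R' y) with hE
    have hEb : ∀ y y', InR R' y y' → E y' = E y := fun y y' h => by
      simp only [hE]
      rw [nOK_base (by rw [hR, ← pos_append]; exact h), flt_base S h]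
    have hlD : Lay σ κ u D := hl.sublist (List.sublist_append_right _ _)
    have hσ : p + κ ≤ σ := (hl.1 (vd κ p) (by simp)).2.1
    have hsub : pos ((p :: ps).map (vd κ)) ⊆ R' := pos_ps_sub.trans pos_left
    have hI : Set.Ico p (p + κ) ⊆ R' := by rw [hR', pos_split']; exact Set.subset_union_left
    refine ⟨fun y => 1 < E y ∨ B y, fun y y' h h' => h'.imp
      (fun h' => by rwa [hEb y y' (h.mono pos_T_sub)] at h') (hB1 y y' h), fun z c0 h0 hc => ?_⟩
    have hin : ∀ y, InR (Set.Ico p (p + κ)) z y → _ := fun y hy =>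
      hB2 y c0 (hl.home h0 (hy.mono hI)) fun z' hz' => hc z' ((hy.mono hI).trans (hz'.mono
        (by rw [hR', pos_split']; exact Set.subset_union_right)))
    have hν : (0 : ℝ) ≤ 2 ^ (4 * u + κ) * flt u S R' z := mul_nonneg (by positivity) (flt_nonneg _)
    have hN' : ((qs ++ ps ++ [p]).length + 1) * κ ≤ N := by simpa [add_assoc] using hN
    have hc' : ∀ z', InR (pos ((qs ++ ps ++ [p] ++ [q]).map (vd κ) ++ D)) z z' → c.ev orc z' = c0 := by
      rw [pos_casc']; exact hc
    refine ⟨?_, fun hH => ?_⟩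
    · have h1 := stage_ok hp (lay_casc hl) hd h0 hr1 hc'
      rw [pos_casc, pos_casc'] at h1
      have hN2 : (((qs ++ ps ++ [p]).length + 1 : ℝ) * κ) ^ 2 ≤ N ^ 2 := by
        exact_mod_cast Nat.pow_le_pow_left hN' 2
      have h2 := av_mono fun y hy => (hin y hy).1
      rw [av_av, av_mul, av_add, av_mul, av_mul, av_nOK, av_flt, ← pos_vd_cons, ← pos_split,
        ← pos_split'] at h2
      have h3 : av (pos ((p :: ps).map (vd κ))) (fun y => ind (1 < E y ∨ B y)) z ≤
          E z + av (pos ((p :: ps).map (vd κ))) (fun y => ind (B y)) z := by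
        rw [← av_const (P := pos ((p :: ps).map (vd κ))) (z0 := z) (E z), ← av_add]
        refine av_mono fun y hy => (ind_or_le _ _).trans (add_le_add_left ?_ _)
        rw [hEb z y (hy.mono hsub)]
        by_cases h : 1 < E z
        · rw [ind_of h]; exact h.le
        · rw [ind_of_not h]; exact mul_nonneg hA0 (add_nonneg nOK_nonneg hν)
      have h4 : nOK M D R Z z ≤ nOK M D R X z + (N ^ 2 + 1) * (2 ^ (4 * u + κ) * flt u S R' z) := by
        nlinarith [mul_le_mul_of_nonneg_right hN2 hν]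
      have h5 : (0 : ℝ) ≤ ps.length * A := by positivity
      have h6 := mul_le_mul_of_nonneg_left h4 h5
      have h7 : (0 : ℝ) ≤ A * ((ps.length + 1) * (N ^ 2 + 1) * (2 ^ (4 * u + κ) * flt u S R' z)) :=
        mul_nonneg hA0 (mul_nonneg (by positivity) hν)
      rw [List.length_cons]
      push_cast
      simp only [hE] at h3
      nlinarith
    · by_cases hcalm : 1 < E z
      · have hall : ∀ y, InR (pos ((p :: ps).map (vd κ))) z y → 1 < E y := fun y hy => by
          rwa [hEb z y (hy.mono hsub)]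
        exact ⟨av_le fun y hy => by
          rw [ind_of_not fun h => h.1 (Or.inl (hall y hy))]; positivity,
          fun δ _ y hy h => absurd (Or.inl (hall y hy)) h⟩
      have hwin : ∀ (r : Vec κ) (γ : Bool), (if γ then (toN r + 1 + 2 ^ κ * s0 κ m c0 : ℝ) ≤
          (2 ^ κ) ^ 2 * frac M D R X z else (2 ^ κ) ^ 2 * frac M D R X z ≤
            toN r + 2 ^ κ * s0 κ m c0) → ∀ y, InR (pos (ps.map (vd κ))) (put z p κ r) y → ¬ B y →
          Clean M D (pos ((q :: qs).map (vd κ))) η Y y γ := by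
        intro r γ hγ
        have hcl := stage_window hp (lay_casc hl) hd h0 hH hr1 hc' (η := η) (by
          rw [pos_casc, pos_casc']
          have h1 : (((qs ++ ps).length + 2 : ℝ) * κ + 1) ^ 4 ≤ (N + 1) ^ 4 := by
            have : ((qs ++ ps).length + 2) * κ + 1 ≤ N + 1 := by simpa [add_assoc] using hN'
            exact_mod_cast Nat.pow_le_pow_left this 4
          have h2 := not_lt.mp hcalm
          simp only [hE, hA] at h2
          rw [div_mul_eq_mul_div, div_le_one hη0] at h2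
          refine le_trans ?_ h2
          gcongr
          exact add_nonneg nOK_nonneg hν) r γ (by rw [pos_casc]; exact hγ)
        refine ((hin _ (InR.put InR.refl (fun j h h' => Set.mem_Ico.mpr ⟨h, h'⟩) r)).2
          (hH.put (fun e he _ => ?_) r)).2 γ ?_
        · have := (List.pairwise_append.mp hl.2).2.2 (vd κ p) (by simp) e (List.mem_cons_of_mem _ he)
          exact this
        · split_ifs
          · exact hcl
          · exact hcl.pre hlD hp.hκ hp.hM hd hη c0
      refine ⟨?_, fun δ hδ y hy hb => ?_⟩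
      · obtain ⟨r0, hr0⟩ := exists_window κ (2 ^ κ * s0 κ m c0) ((2 ^ κ) ^ 2 * frac M D R X z)
        rw [pos_vd_cons, ← av_av, av_Ico hσ]
        calc _ ≤ 𝔼 r : Vec κ, if r = r0 then 1 / ((2 : ℝ) ^ κ) ^ ps.length else 0 := by
              refine expect_le_expect fun r _ => ?_
              split_ifs with h
              · refine le_trans (av_mono fun y _ => ind_mono fun h => ⟨fun hb => h.1 (Or.inr hb), h.2⟩)
                  ((hin _ (InR.put InR.refl (fun j h h' => Set.mem_Ico.mpr ⟨h, h'⟩) r)).2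
                    (hH.put (fun e he _ => ?_) r)).1
                exact (List.pairwise_append.mp hl.2).2.2 (vd κ p) (by simp) e
                  (List.mem_cons_of_mem _ he)
              · obtain ⟨γ, hγ⟩ := hr0 r h
                exact av_le fun y hy => (ind_of_not fun h =>
                  h.2 ⟨γ, hwin r γ hγ y hy fun hb => h.1 (Or.inr hb)⟩).le
          _ = _ := by
              rw [Fintype.expect_eq_sum_div_card, sum_ite_eq', if_pos (mem_univ _), List.length_cons,
                pow_succ]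
              simp [div_eq_mul_inv, mul_comm]
      · rw [if_neg (by simp)] at hδ
        refine hwin (get y p κ) δ (hδ.window _) y ?_ fun h => hb (Or.inr h)
        rw [pos_vd_cons] at hy
        intro j hj
        unfold put
        split_ifs with h
        · have : p + (j.val - p) = j.val := by omega
          simp [get, this]
        · exact hy j fun h' => h'.elim h hj

theorem cascade_good {qs ps : List ℕ} {q : ℕ} {c0 : Bool} {c : Cond} (hp : Par κ u M)
    (hl : Lay σ κ u ((q :: qs ++ ps).map (vd κ) ++ vd κ v :: ds)) (hd : ds.length + 1 ≤ M)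
    (hps : ps ≠ []) (h0 : Home u z0) (hr : Runs κ orc S (cascade κ u v ds qs q c true ps) X Y)
    (hc : ∀ z, InR (pos ((q :: qs ++ ps).map (vd κ) ++ vd κ v :: ds)) z0 z → c.ev orc z = c0) :
    av (pos (ps.map (vd κ))) (fun y => ind (¬ CascGood κ M v ds (q :: qs) ps c0 X Y y)) z0 ≤
      (2 ^ κ) ^ ds.countP (fun e => e.1) / (2 ^ κ) ^ ps.length +
      2 ^ u * ((qs.length + ps.length + 1) * κ + 1) ^ 8 *
        (nOK M (vd κ v :: ds) (pos ((q :: qs ++ ps).map (vd κ))) X z0 +
          2 ^ (5 * u) * flt u S (pos ((q :: qs ++ ps).map (vd κ) ++ vd κ v :: ds)) z0) := by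
  have hη : ((1 : ℝ) / 8) ^ M ≤ 1 / 8 := pow_le_of_le_one (by norm_num) (by norm_num)
    (by have := hp.hM; omega)
  obtain ⟨B, hB1, hB2⟩ := casc_aux hp hd (by positivity) hη ps hl le_rfl hr
  set D := vd κ v :: ds with hD
  set Q := pos (ds.filter fun e => e.1) with hQ
  have hlD : Lay σ κ u D := hl.sublist (List.sublist_append_right _ _)
  have hQD : Q ⊆ pos D := pos_mono fun e he => List.mem_cons_of_mem _ (List.mem_filter.mp he).1
  have hQT : Q ⊆ pos ((q :: qs).map (vd κ) ++ D) := by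
    rw [pos_append]; exact hQD.trans Set.subset_union_right
  obtain ⟨T, hT1, hT2⟩ := exists_pat (σ := σ) (ds := ds) (κ := κ)
    fun e he => (hlD.1 e (List.mem_cons_of_mem _ he)).2.2.2
  classical
  set G : Vec σ → ℝ := fun y => ind (¬ B y ∧
    ¬ ∃ γ, Clean M D (pos ((q :: qs).map (vd κ))) ((1 / 8) ^ M) Y y γ) with hG
  have h1 : av (pos (ps.map (vd κ))) (fun y => ind (¬ CascGood κ M v ds (q :: qs) ps c0 X Y y)) z0 ≤
      av (pos (ps.map (vd κ))) (fun y => ∑ a ∈ T.filter (HP ds), G (mix Q y a) + ind (B y)) z0 := by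
    refine av_mono fun y hy => ?_
    have hs : 0 ≤ ∑ a ∈ T.filter (HP ds), G (mix Q y a) := sum_nonneg fun _ _ => ind_nonneg _
    by_cases hb : B y
    · rw [ind_of hb]; linarith [ind_le_one (¬ CascGood κ M v ds (q :: qs) ps c0 X Y y)]
    by_cases hg : CascGood κ M v ds (q :: qs) ps c0 X Y y
    · rw [ind_of_not (not_not.mpr hg), ind_of_not hb]; linarith
    rw [ind_of hg, ind_of_not hb, add_zero]
    obtain ⟨z, hz⟩ := not_forall.mp hg
    obtain ⟨hz1, hz⟩ := Classical.not_imp.mp hz
    obtain ⟨hH, hz⟩ := Classical.not_imp.mp hz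
    obtain ⟨a, ha, hza⟩ := hT2 z hH
    refine le_trans ?_ (single_le_sum (f := fun a => G (mix Q y a)) (fun _ _ => ind_nonneg _)
      (mem_filter.mpr ⟨ha, hH.congr hza⟩))
    refine (ind_of ⟨fun h => hb (hB1 y _ ((inR_mix a).mono hQT) h), ?_⟩).ge
    rintro ⟨γ, hγ⟩
    have hz0 : InR (pos ((q :: qs ++ ps).map (vd κ) ++ D)) z0 z :=
      (hy.mono (pos_ps_sub.trans pos_left)).trans (hz1.mono pos_T_sub)
    have hγ' : Clean M D (pos ((q :: qs).map (vd κ))) ((1 / 8) ^ M) Y z γ := by
      refine hγ.of_copy hlD fun j hj => ?_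
      unfold mix
      split_ifs with h
      · exact hza j h
      · refine hz1 j fun h' => ?_
        rw [pos_append] at h'
        rcases h' with h' | ⟨e, he, h'⟩
        · exact hj (Or.inl h')
        · cases hm : e.1
          · exact hj (Or.inr ⟨e, List.mem_filter.mpr ⟨he, by simp [hm]⟩, h'⟩)
          · rcases List.mem_cons.mp he with rfl | he
            · simp [vd] at hm
            · exact h ⟨e, List.mem_filter.mpr ⟨he, hm⟩, h'⟩
    refine hz ⟨γ, hγ', fun δ hδ => hγ'.unique hlD hp.hM hd hη ?_⟩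
    exact ((hB2 z c0 (hl.home h0 hz0) fun z' h => hc z' (hz0.trans h)).2 hH).2 δ
      (by rw [if_neg hps]; exact hδ) z InR.refl fun h => hb (hB1 y z hz1 h)
  rw [av_add, av_sum] at h1
  refine h1.trans (add_le_add ?_ ((hB2 z0 c0 h0 hc).1.trans ?_))
  · calc _ ≤ ∑ _a ∈ T.filter (HP ds), 1 / ((2 : ℝ) ^ κ) ^ ps.length := by
          refine sum_le_sum fun a ha => ?_
          have hin : InR (pos ((q :: qs ++ ps).map (vd κ) ++ D)) z0 (mix Q z0 a) :=
            (inR_mix a).mono (hQT.trans pos_T_sub)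
          rw [av_mix fun j hj h => hl.disj (pos_ps_sub hj) (hQD h)]
          refine ((hB2 _ c0 (hl.home h0 hin) fun z' h => hc z' (hin.trans h)).2 ?_).1
          exact (mem_filter.mp ha).2.congr fun j hj => (if_pos hj).symm
      _ ≤ _ := by
          rw [sum_const, nsmul_eq_mul, mul_one_div]
          gcongr
          exact_mod_cast (card_filter_le _ _).trans hT1
  · have hk := Nat.lt_two_pow_self (n := κ)
    have hu := hp.hu
    have h2 : ps.length ≤ (qs.length + ps.length + 1) * κ := by nlinarith [hp.hκ]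
    have hf := flt_nonneg (u := u) (P := pos ((q :: qs ++ ps).map (vd κ) ++ D)) (z := z0) S
    have hn := nOK_nonneg (M := M) (D := D) (B := pos ((q :: qs ++ ps).map (vd κ))) (X := X) (z := z0)
    have e : ((qs.length + ps.length + 1 : ℝ) * κ) = ((qs.length + ps.length + 1) * κ : ℕ) := by
      push_cast; ring
    rw [e]
    generalize (qs.length + ps.length + 1) * κ = N at h2 ⊢
    generalize flt u S (pos ((q :: qs ++ ps).map (vd κ) ++ D)) z0 = f at hf ⊢
    generalize nOK M D (pos ((q :: qs ++ ps).map (vd κ))) X z0 = n at hn ⊢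
    have h3 : (6 * (2 ^ κ) ^ 2 * (N + 1) ^ 4 / (1 / 8) ^ M : ℝ) ≤ 2 ^ u * (N + 1) ^ 4 := by
      have : (6 * (2 ^ κ) ^ 2 * 8 ^ M : ℝ) ≤ 2 ^ u := by
        calc _ ≤ (2 : ℝ) ^ 3 * (2 ^ κ) ^ 2 * (2 ^ 3) ^ M := by gcongr <;> norm_num
          _ = 2 ^ (3 + κ * 2 + 3 * M) := by rw [← pow_mul, ← pow_mul, ← pow_add, ← pow_add]
          _ ≤ _ := pow_le_pow_right₀ (by norm_num) (by omega)
      rw [one_div_pow, div_div_eq_mul_div, div_one, mul_right_comm]
      gcongr
    have h4 : (ps.length : ℝ) ≤ N + 1 := by exact_mod_cast h2.trans (Nat.le_succ N)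
    have h5 : (1 + ps.length * (N ^ 2 + 1) : ℝ) ≤ (N + 1) ^ 3 := by
      have : 1 + ps.length * (N ^ 2 + 1) ≤ (N + 1) ^ 3 := by
        nlinarith [Nat.mul_le_mul_right (N ^ 2 + 1) h2, Nat.zero_le (N ^ 2)]
      exact_mod_cast this
    have h6 : (2 : ℝ) ^ (4 * u + κ) ≤ 2 ^ (5 * u) := pow_le_pow_right₀ (by norm_num) (by omega)
    have h7 : (1 : ℝ) ≤ (N + 1) ^ 3 := one_le_pow₀ (by linarith [(Nat.cast_nonneg N : (0 : ℝ) ≤ _)])
    calc _ ≤ (N + 1 : ℝ) * (2 ^ u * (N + 1) ^ 4) * ((N + 1) ^ 3 * n + (N + 1) ^ 3 * (2 ^ (5 * u) * f)) := by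
          gcongr
          exact le_mul_of_one_le_left hn h7
      _ = _ := by ring

end Vale.Agent.P330.Amp
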