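import Vale.Agent.P330.WSort

/-! Tools for the cascade: invariance of averages, message patterns, one stage. -/

namespace Vale.Agent.P330.Amp

open Vale.Agent.Lib.H23 Vale.Agent.P325 Finset
open scoped BigOperators

variable {σ κ u M v : ℕ} {ds : List Dim} {orc : ℕ → Vec σ → Bool} {S : Vec σ → Prop}
  {X Y : Vec σ → Val} {z0 : Vec σ}

/-- an average of a function that does not change along `Q` does not change along `Q`. -/
theorem av_inv {P Q : Set ℕ} {f : Vec σ → ℝ} (hf : ∀ y y', InR Q y y' → f y' = f y) {z z' : Vec σ}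
    (h : InR (P ∪ Q) z z') : av P f z' = av P f z := by
  obtain ⟨y, h1, h2⟩ := h.union
  rw [← av_base h1]
  refine expect_congr rfl fun w _ => hf _ _ fun j hj => ?_
  unfold mix
  split_ifs
  · rfl
  · exact h2 j hj

theorem av_mix {P Q : Set ℕ} (h : ∀ j ∈ P, j ∉ Q) (f : Vec σ → ℝ) (a z : Vec σ) :
    av P (fun y => f (mix Q y a)) z = av P f (mix Q z a) := by
  refine expect_congr rfl fun w _ => congrArg f (funext fun j => ?_)
  unfold mix
  by_cases h1 : j.val ∈ P
  · simp [h1, h j h1]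
  · simp [h1]

theorem nOK_nonneg {D : List Dim} {B : Set ℕ} {z : Vec σ} : 0 ≤ nOK M D B X z := av_ind_nonneg _

theorem nOK_base {D : List Dim} {B : Set ℕ} {z z' : Vec σ} (h : InR (B ∪ pos D) z z') :
    nOK M D B X z' = nOK M D B X z :=
  av_inv (fun _ _ hy => ind_congr (not_congr (OK_base hy))) h

theorem pos_vd_congr {l l' : List ℕ} (h : ∀ x, x ∈ l ↔ x ∈ l') :
    pos (l.map (vd κ)) = pos (l'.map (vd κ)) :=
  Set.Subset.antisymm (pos_mono fun e he => by
    obtain ⟨x, hx, rfl⟩ := List.mem_map.mp he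
    exact List.mem_map_of_mem ((h x).mp hx)) (pos_mono fun e he => by
    obtain ⟨x, hx, rfl⟩ := List.mem_map.mp he
    exact List.mem_map_of_mem ((h x).mpr hx))

theorem pos_vd_cons (p : ℕ) (l : List ℕ) :
    pos ((p :: l).map (vd κ)) = Set.Ico p (p + κ) ∪ pos (l.map (vd κ)) := pos_cons

theorem HP.congr {z a : Vec σ} (h : HP ds z)
    (e : ∀ j : Fin σ, j.val ∈ pos (ds.filter fun e => e.1) → z j = a j) : HP ds a := by
  intro d hd hm
  obtain ⟨i, hi, h'⟩ := h d hd hm
  refine ⟨i, hi, h' ▸ funext fun t => ?_⟩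
  unfold get
  split_ifs with ht
  · exact (e _ ⟨d, List.mem_filter.mpr ⟨hd, hm⟩, by simp, by simp⟩).symm
  · rfl

/-- the message points have few patterns. -/
theorem exists_pat (hl : ∀ e ∈ ds, e.2.2 ≤ 2 ^ κ) : ∃ T : Finset (Vec σ),
    T.card ≤ (2 ^ κ) ^ ds.countP (fun e => e.1) ∧ ∀ z, HP ds z →
      ∃ a ∈ T, ∀ j : Fin σ, j.val ∈ pos (ds.filter fun e => e.1) → z j = a j := by
  induction ds with
  | nil => exact ⟨{0}, by simp, fun z _ => ⟨0, by simp, by simp [pos_nil]⟩⟩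
  | cons e ds ih =>
    obtain ⟨T, h1, h2⟩ := ih fun d hd => hl d (List.mem_cons_of_mem _ hd)
    by_cases he : e.1 = true
    · refine ⟨(T ×ˢ range e.2.2).image fun x => put x.1 e.2.1 e.2.2 (ofN _ (2 ^ x.2)),
        card_image_le.trans ?_, fun z hz => ?_⟩
      · rw [card_product, card_range, List.countP_cons_of_pos (by simpa using he), pow_succ]
        exact Nat.mul_le_mul h1 (hl e List.mem_cons_self)
      · obtain ⟨a, ha, h3⟩ := h2 z fun d hd => hz d (List.mem_cons_of_mem _ hd)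
        obtain ⟨i, hi, h4⟩ := hz e List.mem_cons_self he
        refine ⟨_, mem_image_of_mem _ (mem_product.mpr ⟨ha, mem_range.mpr hi⟩ : (a, i) ∈ _),
          fun j hj => ?_⟩
        rw [List.filter_cons_of_pos (by simpa using he), pos_cons] at hj
        rw [← h4]
        unfold put
        split_ifs with h5
        · have : e.2.1 + (j.val - e.2.1) = j.val := by omega
          simp [get, this]
        · exact h3 j (hj.resolve_left h5)
    · refine ⟨T, by rwa [List.countP_cons_of_neg (by simpa using he)], fun z hz => ?_⟩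
      rw [List.filter_cons_of_neg (by simpa using he)]
      exact h2 z fun d hd => hz d (List.mem_cons_of_mem _ hd)

theorem Msg.of_copy {D : List Dim} (hl : Lay σ κ u D) {ε : ℝ} {z z' : Vec σ} {y : ZMod 2}
    (h : Msg ε D X z y) (hz : InR (pos (D.filter fun e => !e.1)) z z') : Msg ε D X z' y := by
  obtain ⟨F, h1, h2⟩ := h
  exact ⟨F, h1.base (hz.mono (pos_mono fun _ he => (List.mem_filter.mp he).1)),
    (h1.1.eq_of_copy hl InR.refl hz).trans h2⟩

/-- all but an `η` fraction of the versions have the message `γ` at `z`. -/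
def Clean (M : ℕ) (D : List Dim) (B : Set ℕ) (η : ℝ) (X : Vec σ → Val) (z : Vec σ) (γ : Bool) :
    Prop := av B (fun z' => ind (¬ Msg (eV M) D X z' (b2 γ))) z ≤ η

theorem Clean.of_copy {D : List Dim} (hl : Lay σ κ u D) {B : Set ℕ} {η : ℝ} {z z' : Vec σ} {γ : Bool}
    (h : Clean M D B η X z γ) (hz : InR (B ∪ pos (D.filter fun e => !e.1)) z z') :
    Clean M D B η X z' γ :=
  (av_inv (fun _ _ hy => ind_congr (not_congr
    ⟨fun h => h.of_copy hl hy.symm, fun h => h.of_copy hl hy⟩)) hz).trans_le h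

theorem Clean.frac_le {D : List Dim} (hl : Lay σ κ u D) (hM : 1 ≤ M) (hd : D.length ≤ M) {B : Set ℕ}
    {η : ℝ} {z : Vec σ} (h : Clean M D B η X z false) : frac M D B X z ≤ η :=
  (av_mono fun _ _ => ind_mono fun h1 h0 => by simpa [b2] using h1.unique hl hM hd h0).trans h

theorem Clean.le_frac {D : List Dim} {B : Set ℕ} {η : ℝ} {z : Vec σ} (h : Clean M D B η X z true) :
    1 - η ≤ frac M D B X z := by
  unfold Clean at h
  simp only [ind_not] at h
  rw [av_sub, av_const] at h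
  change 1 - frac M D B X z ≤ η at h
  linarith

theorem Clean.unique {D : List Dim} (hl : Lay σ κ u D) (hM : 1 ≤ M) (hd : D.length ≤ M) {B : Set ℕ}
    {η : ℝ} (hη : η ≤ 1 / 8) {z : Vec σ} {γ δ : Bool} (h : Clean M D B η X z γ)
    (h' : Clean M D B η X z δ) : γ = δ := by
  cases γ <;> cases δ
  · rfl
  · linarith [h.frac_le hl hM hd, h'.le_frac]
  · linarith [h'.frac_le hl hM hd, h.le_frac]
  · rfl

/-- the fraction is on the side `γ` of the slice. -/
def Pre (κ : ℕ) (m c0 : Bool) (f : ℝ) (γ : Bool) : Prop :=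
  if γ then ((s0 κ m c0 : ℝ) + 1) / 2 ^ κ ≤ f else f ≤ (s0 κ m c0 : ℝ) / 2 ^ κ

theorem Clean.pre {D : List Dim} (hl : Lay σ κ u D) (hκ : 6 ≤ κ) (hM : 1 ≤ M) (hd : D.length ≤ M)
    {B : Set ℕ} {η : ℝ} (hη : η ≤ 1 / 8) {z : Vec σ} {γ : Bool} (h : Clean M D B η X z γ)
    (c0 : Bool) : Pre κ false c0 (frac M D B X z) γ := by
  obtain ⟨n, rfl⟩ : ∃ n, κ = n + 1 := ⟨κ - 1, by omega⟩
  have e : (s0 (n + 1) false c0 : ℝ) = 2 ^ n := by
    simp [s0, pow_succ]
  have h32 : (32 : ℝ) ≤ 2 ^ n := by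
    calc (32 : ℝ) = 2 ^ 5 := by norm_num
      _ ≤ _ := pow_le_pow_right₀ (by norm_num) (by omega)
  unfold Pre
  rw [e, pow_succ]
  cases γ
  · rw [if_neg (by simp), le_div_iff₀ (by positivity)]
    nlinarith [h.frac_le hl hM hd]
  · rw [if_pos rfl, div_le_iff₀ (by positivity)]
    nlinarith [h.le_frac]

section stage

variable {lo : List ℕ} {p q : ℕ} {m c0 : Bool} {c : Cond}

theorem perm_stage : (lo ++ [p] ++ [q]).Perm (p :: q :: lo) := by
  refine List.perm_iff_count.mpr fun x => ?_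
  simp only [List.count_append, List.count_cons, List.count_nil]
  omega

theorem rank_stage (lo : List ℕ) (p : ℕ) (y : Vec σ) :
    rank (bitsOf ((lo ++ [p]).map (vd κ))) y =
      rank (bitsOf (lo.map (vd κ))) y + 2 ^ (lo.length * κ) * fld y p κ := by
  have : bitsOf ((lo ++ [p]).map (vd κ)) = bitsOf (lo.map (vd κ)) ++ List.range' p κ := by
    simp [bitsOf, vd]
  rw [this, rank_append, rank_range', length_bitsOf_vd]

/-- One stage of the cascade: a window on which the ideal bit is constant is clean. -/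
theorem stage_window (hp : Par κ u M)
    (hl : Lay σ κ u ((lo ++ [p] ++ [q]).map (vd κ) ++ vd κ v :: ds)) (hd : ds.length + 1 ≤ M)
    (h0 : Home u z0) (hH : HP ds z0) (hr : Runs κ orc S (sb κ u v ds (lo ++ [p]) q m c) X Y)
    (hc : ∀ z, InR (pos ((lo ++ [p] ++ [q]).map (vd κ) ++ vd κ v :: ds)) z0 z → c.ev orc z = c0)
    {η : ℝ} (hη : 6 * (2 ^ κ) ^ 2 * ((lo.length + 2) * κ + 1) ^ 4 *
      (nOK M (vd κ v :: ds) (pos ((lo ++ [p] ++ [q]).map (vd κ))) X z0 +
        2 ^ (4 * u + κ) * flt u S (pos ((lo ++ [p] ++ [q]).map (vd κ) ++ vd κ v :: ds)) z0) ≤ η)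
    (r : Vec κ) (γ : Bool)
    (hγ : if γ then (toN r + 1 + 2 ^ κ * s0 κ m c0 : ℝ) ≤
        (2 ^ κ) ^ 2 * frac M (vd κ v :: ds) (pos ((lo ++ [p] ++ [q]).map (vd κ))) X z0
      else (2 ^ κ) ^ 2 * frac M (vd κ v :: ds) (pos ((lo ++ [p] ++ [q]).map (vd κ))) X z0 ≤
        toN r + 2 ^ κ * s0 κ m c0) :
    Clean M (vd κ v :: ds) (pos ((q :: lo).map (vd κ))) η Y (put z0 p κ r) γ := by
  have hpos : pos ((lo ++ [p] ++ [q]).map (vd κ)) =
      Set.Ico p (p + κ) ∪ pos ((q :: lo).map (vd κ)) := by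
    rw [← pos_vd_cons]
    exact pos_vd_congr fun x => perm_stage.mem_iff
  have hl' : Lay σ κ u ([vd κ p] ++ (q :: lo).map (vd κ)) :=
    (hl.sublist (List.sublist_append_left _ _)).perm (List.Perm.map (vd κ) perm_stage)
  have hσ : p + κ ≤ σ := (hl'.1 (vd κ p) (by simp)).2.1
  have h1 := sb_msg hp hl hd h0 hH hr hc
  have h2 := av_slice (P := pos ((q :: lo).map (vd κ))) (fun z => ind_nonneg _) (List.range' p κ)
    (fun j hj => by
      rw [hpos] at hj
      rcases hj with hj | hj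
      · exact Or.inr (List.mem_range'_1.mpr hj)
      · exact Or.inl hj) (by rw [hpos]; exact Set.subset_union_right)
    (InR.put InR.refl (fun j h h' => by rw [hpos]; exact Or.inl ⟨h, h'⟩) r) |>.trans
    (mul_le_mul_of_nonneg_left h1 (by positivity))
  refine le_trans (le_of_eq (av_congr fun y hy => ?_)) (h2.trans (le_trans (le_of_eq ?_) hη))
  · have e : fld y p κ = toN r := by
      unfold fld
      rw [hy.get (p := p) (w := κ) fun j h h' => hl'.disj ⟨vd κ p, by simp, h, h'⟩, get_put hσ]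
    have h3 : (rank (bitsOf (lo.map (vd κ))) y : ℝ) + 1 ≤ 2 ^ (lo.length * κ) := by
      have := rank_lt (bitsOf (lo.map (vd κ))) y
      rw [length_bitsOf_vd] at this
      exact_mod_cast this
    have h4 : (0 : ℝ) ≤ rank (bitsOf (lo.map (vd κ))) y := Nat.cast_nonneg _
    have h5 : (0 : ℝ) < 2 ^ (lo.length * κ) := by positivity
    congr 4
    rw [rank_stage, e]
    simp only [List.length_append, List.length_singleton, add_mul, one_mul, pow_add]
    push_cast
    cases γ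
    · rw [if_neg (by simp)] at hγ
      refine (decide_eq_false (not_lt.mpr ?_)).symm
      nlinarith [mul_le_mul_of_nonneg_left hγ h5.le]
    · rw [if_pos rfl] at hγ
      refine (decide_eq_true ?_).symm
      nlinarith [mul_le_mul_of_nonneg_left hγ h5.le]
  · simp only [List.length_range', List.length_append, List.length_singleton]
    push_cast
    ring

/-- all windows but one have a constant ideal bit. -/
theorem exists_window (κ : ℕ) (s θ : ℝ) : ∃ r0 : Vec κ, ∀ r ≠ r0, ∃ γ : Bool,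
    if γ then (toN r + 1 + s : ℝ) ≤ θ else θ ≤ toN r + s := by
  refine ⟨ofN κ ⌊θ - s⌋₊, fun r hr => ?_⟩
  by_cases h : (toN r + 1 + s : ℝ) ≤ θ
  · exact ⟨true, by simpa using h⟩
  · refine ⟨false, ?_⟩
    rw [if_neg (by simp)]
    by_contra h'
    refine hr ?_
    rw [← ofN_toN r]
    congr 1
    exact ((Nat.floor_eq_iff (by linarith [(Nat.cast_nonneg (toN r) : (0 : ℝ) ≤ _)])).mpr
      ⟨by linarith, by linarith⟩).symm

theorem Pre.window {f : ℝ} {γ : Bool} (h : Pre κ m c0 f γ) (r : Vec κ) :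
    if γ then (toN r + 1 + 2 ^ κ * s0 κ m c0 : ℝ) ≤ (2 ^ κ) ^ 2 * f
      else (2 ^ κ) ^ 2 * f ≤ toN r + 2 ^ κ * s0 κ m c0 := by
  have h1 : (toN r + 1 : ℝ) ≤ 2 ^ κ := by exact_mod_cast toN_lt r
  have h2 : (0 : ℝ) ≤ toN r := Nat.cast_nonneg _
  have h3 : (0 : ℝ) < 2 ^ κ := by positivity
  unfold Pre at h
  cases γ
  · rw [if_neg (by simp)] at h ⊢
    rw [le_div_iff₀ h3] at h
    nlinarith [mul_le_mul_of_nonneg_left h h3.le]
  · rw [if_pos rfl] at h ⊢
    rw [div_le_iff₀ h3] at h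
    nlinarith [mul_le_mul_of_nonneg_left h h3.le]

theorem stage_ok (hp : Par κ u M)
    (hl : Lay σ κ u ((lo ++ [q]).map (vd κ) ++ vd κ v :: ds)) (hd : ds.length + 1 ≤ M)
    (h0 : Home u z0) (hr : Runs κ orc S (sb κ u v ds lo q m c) X Y)
    (hc : ∀ z, InR (pos ((lo ++ [q]).map (vd κ) ++ vd κ v :: ds)) z0 z → c.ev orc z = c0) :
    nOK M (vd κ v :: ds) (pos ((lo ++ [q]).map (vd κ))) Y z0 ≤
      nOK M (vd κ v :: ds) (pos ((lo ++ [q]).map (vd κ))) X z0 + (((lo.length + 1) * κ) ^ 2 + 1) *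
        (2 ^ (4 * u + κ) * flt u S (pos ((lo ++ [q]).map (vd κ) ++ vd κ v :: ds)) z0) :=
  (av_mono fun _ _ => ind_mono fun h h' => by
    obtain ⟨F, hF⟩ := h'.ok
    exact h ⟨F, hF.mono (by linarith [eV_pos M])⟩).trans (sb_ok hp hl hd h0 hr hc)

end stage

end Vale.Agent.P330.Amp
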