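import Vale.Agent.P330.Reg

/-! Reed-Muller line codes and their tensor products (task Code; add lemmas, never change a statement).
Plan. `Deg.mul`: induction on `a + b` with `D v (P Q) = (D v P) (Q (· + v)) + P (D v Q)`. `Deg.weight`:
if `P` is not constant some `D v P ≠ 0`, and `wt (D v P) ≤ 2 wt P`. `minw`: induction on the list; if
`F z ≠ 0`, at least `1/8` of the points of the line through `z` in the first dimension are nonzero,
apply the induction hypothesis in each of these slices (`av_av`, `av_Ico`). `PolyL.ext`: induction on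
the list, a linear form is determined by its values at the unit vectors. -/

namespace Vale.Agent.P330.Amp

open Vale.Agent.Lib.H23 Vale.Agent.P325 Finset
open scoped BigOperators

variable {σ : ℕ}

section lines

variable {w d d' : ℕ} {P Q : Vec w → ZMod 2}

theorem Deg.of_eq (hP : Deg d P) (e : ∀ s, P s = Q s) : Deg d Q := funext e ▸ hP
theorem Deg.const (c : ZMod 2) : Deg d fun _ : Vec w => c := by
  induction d generalizing c with
  | zero => exact fun _ _ => rfl
  | succ d ih => exact fun _ => ih (c + c)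
theorem Deg.add (hP : Deg d P) (hQ : Deg d Q) : Deg d fun s => P s + Q s := by
  induction d generalizing P Q with
  | zero => exact fun s s' => congrArg₂ (· + ·) (hP s s') (hQ s s')
  | succ d ih => exact fun v => (ih (hP v) (hQ v)).of_eq fun s => add_add_add_comm _ _ _ _
theorem Deg.sum {ι : Type} (t : Finset ι) {R : ι → Vec w → ZMod 2} (h : ∀ i ∈ t, Deg d (R i)) :
    Deg d fun s => ∑ i ∈ t, R i s := by
  classical
  induction t using Finset.induction_on with
  | empty => exact (Deg.const 0).of_eq fun s => sum_empty.symm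
  | insert a t ha ih =>
    exact ((h a (mem_insert_self a t)).add (ih fun i hi => h i (mem_insert_of_mem hi))).of_eq
      fun s => (sum_insert (f := fun i => R i s) ha).symm
theorem Deg.succ (hP : Deg d P) : Deg (d + 1) P := by
  induction d generalizing P with
  | zero => exact fun v s s' => congrArg₂ (· + ·) (hP _ _) (hP _ _)
  | succ d ih => exact fun v => ih (hP v)
theorem Deg.shift (hP : Deg d P) (v : Vec w) : Deg d fun s => P (s + v) := by
  induction d generalizing P with
  | zero => exact fun s s' => hP _ _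
  | succ d ih =>
    exact fun v' => (ih (hP v')).of_eq fun s => congrArg (fun t => P t + P (s + v))
      (add_right_comm s v v')
theorem Deg.smul' (hP : Deg d P) (c : ZMod 2) : Deg d fun s => c * P s := by
  induction d generalizing P with
  | zero => exact fun s s' => congrArg (c * ·) (hP s s')
  | succ d ih => exact fun v => (ih (hP v)).of_eq fun s => mul_add _ _ _
theorem Deg.mono (hP : Deg d P) (h : d ≤ d') : Deg d' P := by
  induction h with
  | refl => exact hP
  | step _ ih => exact ih.succ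
theorem Deg.mul (hP : Deg d P) (hQ : Deg d' Q) : Deg (d + d') fun s => P s * Q s := by
  induction d generalizing d' P Q with
  | zero =>
    rw [Nat.zero_add]
    exact (hQ.smul' (P 0)).of_eq fun s => congrArg (· * Q s) (hP 0 s)
  | succ d ih =>
    induction d' generalizing Q with
    | zero =>
      exact (hP.smul' (Q 0)).of_eq fun s => (mul_comm _ _).trans (congrArg (P s * ·) (hQ 0 s))
    | succ d' ih' =>
      intro v
      have h1 := ih (hP v) (hQ.shift v)
      have h2 := ih' (hQ v)
      rw [show d + (d' + 1) = d + 1 + d' by omega] at h1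
      have h3 : ∀ a b c e : ZMod 2, (a + b) * c + b * (c + e) = a * c + b * e := by decide
      exact (h1.add h2).of_eq fun s => h3 _ _ _ _
theorem Deg.smul (hP : Deg d P) (c : ZMod 2) : Deg d fun s => c * P s := hP.smul' c
theorem IsLin.deg (h : IsLin P) : Deg 1 P := fun v s s' => by
  have h1 : ∀ a b c : ZMod 2, a + b + a = c + b + c := by decide
  dsimp only
  rw [h, h]
  exact h1 _ _ _
theorem isLin_coord (i : Fin w) : IsLin fun s : Vec w => s i := fun _ _ => rfl
theorem ofN_pow (i : Fin w) : ofN w (2 ^ (i : ℕ)) = Pi.single i 1 := by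
  funext j
  rw [ofN, Nat.testBit_two_pow]
  by_cases h : j = i
  · rw [h, Pi.single_eq_same, decide_eq_true rfl]
    rfl
  · rw [Pi.single_eq_of_ne h, decide_eq_false fun a => h (Fin.ext a.symm)]
    rfl
theorem IsLin.eq_sum (h : IsLin P) (s : Vec w) : P s = ∑ i : Fin w, s i * P (ofN w (2 ^ (i : ℕ))) := by
  let φ : Vec w →+ ZMod 2 := AddMonoidHom.mk' P h
  have h1 : P s = φ (∑ i, Pi.single i (s i)) := congrArg P (univ_sum_single s).symm
  rw [h1, map_sum]
  refine sum_congr rfl fun i _ => ?_
  have h2 : ∀ c : ZMod 2, c = 0 ∨ c = 1 := by decide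
  rw [ofN_pow i]
  rcases h2 (s i) with e | e
  · rw [e, Pi.single_zero, map_zero, zero_mul]
  · rw [e, one_mul]
    rfl
theorem LoC.add {m : Bool} (hP : LoC m P) (hQ : LoC m Q) : LoC m fun s => P s + Q s := by
  cases m
  · exact Deg.add (d := 0) hP hQ
  · exact fun s s' => (congrArg₂ (· + ·) (hP s s') (hQ s s')).trans (add_add_add_comm _ _ _ _)
theorem LoC.smul {m : Bool} (hP : LoC m P) (c : ZMod 2) : LoC m fun s => c * P s := by
  cases m
  · exact Deg.smul (d := 0) hP c
  · exact fun s s' => (congrArg (c * ·) (hP s s')).trans (mul_add _ _ _)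
theorem LoC.zero {m : Bool} : LoC m fun _ : Vec w => 0 := by
  cases m
  · exact fun _ _ => rfl
  · exact fun _ _ => (add_zero _).symm
theorem LoC.deg {m : Bool} (hP : LoC m P) : Deg (if m then 1 else 0) P := by
  cases m
  · exact hP
  · exact IsLin.deg hP
theorem Deg.weight (hP : Deg d P) {s : Vec w} (h : P s ≠ 0) :
    (1 / 2 : ℝ) ^ d ≤ 𝔼 t, ind (P t ≠ 0) := by
  have hc : ∀ {P : Vec w → ZMod 2}, (∀ t, P t ≠ 0) → (𝔼 t, ind (P t ≠ 0)) = 1 := fun h =>
    (expect_congr rfl fun t _ => ind_of (h t)).trans (expect_const univ_nonempty _)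
  induction d generalizing P s with
  | zero => rw [hc fun t => (hP s t) ▸ h, pow_zero]
  | succ d ih =>
    by_cases h1 : ∀ t, P t ≠ 0
    · rw [hc h1]
      exact pow_le_one₀ (by norm_num) (by norm_num)
    · obtain ⟨t, ht⟩ := not_forall.1 h1
      have h2 := ih (hP (t - s)) (s := s) (by
        rwa [add_sub_cancel, not_not.1 ht, zero_add])
      have h3 : (𝔼 y, ind (P (y + (t - s)) + P y ≠ 0)) ≤
          𝔼 y, (ind (P (y + (t - s)) ≠ 0) + ind (P y ≠ 0)) := by
        refine expect_le_expect fun y _ => (ind_mono fun a => ?_).trans (ind_or_le _ _)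
        by_contra hn
        rw [not_or, not_not, not_not] at hn
        exact a (by rw [hn.1, hn.2, add_zero])
      rw [expect_add_distrib, expect_shift (fun y => ind (P y ≠ 0))] at h3
      rw [pow_succ]
      linarith
theorem near_eq (hP : Deg d P) (hd : d ≤ 3) {L : Vec w → Bool}
    (h : (𝔼 s, ind (b2 (L s) ≠ P s)) < 1 / 16) : near d L = P := by
  have ex : ∃ P : Vec w → ZMod 2, Deg d P ∧ (𝔼 s, ind (b2 (L s) ≠ P s)) < 1 / 16 := ⟨P, hP, h⟩
  rw [near, dif_pos ex]
  obtain ⟨h1, h2⟩ := ex.choose_spec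
  generalize ex.choose = R at h1 h2
  funext s
  by_contra hne
  have h0 : ∀ a b : ZMod 2, a + b ≠ 0 ↔ a ≠ b := by decide
  have h3 := ((h1.add hP).mono hd).weight (s := s) ((h0 _ _).2 hne)
  have h4 : (𝔼 t, ind (R t + P t ≠ 0)) ≤ 𝔼 t, (ind (b2 (L t) ≠ R t) + ind (b2 (L t) ≠ P t)) := by
    refine expect_le_expect fun y _ => (ind_mono fun a => ?_).trans (ind_or_le _ _)
    by_contra hn
    rw [not_or, not_not, not_not] at hn
    exact (h0 _ _).1 a (hn.1.symm.trans hn.2)
  rw [expect_add_distrib] at h4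
  norm_num at h3 h4 h h2
  linarith
theorem nu_one (κ : ℕ) (P : Vec w → ZMod 2) (s : Vec w) :
    nu κ 1 P s = ∑ h : Fin w, s h * P (ofN w (2 ^ (h : ℕ))) := rfl
theorem isLin_nu (κ : ℕ) (P : Vec w → ZMod 2) : IsLin (nu κ 1 P) := fun s s' => by
  simp only [nu_one, Pi.add_apply, add_mul, sum_add_distrib]
theorem nu_basis (κ : ℕ) (P : Vec w → ZMod 2) {h : ℕ} (hh : h < w) :
    nu κ 1 P (ofN w (2 ^ h)) = P (ofN w (2 ^ h)) := by
  rw [nu_one, sum_eq_single ⟨h, hh⟩]
  · rw [ofN_pow ⟨h, hh⟩, Pi.single_eq_same, one_mul]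
  · intro b _ hb
    rw [ofN_pow ⟨h, hh⟩, Pi.single_eq_of_ne hb, zero_mul]
  · exact fun a => absurd (mem_univ _) a

end lines

section tensor

variable {κ u M d d' : ℕ} {ds : List Dim} {z z0 : Vec σ} {X : Vec σ → Val}
  {F F' : Vec σ → ZMod 2} {ε ε' : ℝ}

theorem PolyD.const (c : ZMod 2) : PolyD d ds z0 fun _ => c := fun _ _ _ _ => Deg.const c
theorem PolyD.add (h : PolyD d ds z0 F) (h' : PolyD d ds z0 F') :
    PolyD d ds z0 fun z => F z + F' z := fun e he z hz => (h e he z hz).add (h' e he z hz)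
theorem PolyD.mul (h : PolyD d ds z0 F) (h' : PolyD d' ds z0 F') :
    PolyD (d + d') ds z0 fun z => F z * F' z := fun e he z hz =>
  ((h e he z hz).mul (h' e he z hz)).mono (by split_ifs <;> omega)
theorem PolyD.mono (h : PolyD d ds z0 F) (hd : d ≤ d') : PolyD d' ds z0 F := fun e he z hz =>
  (h e he z hz).mono (by split_ifs <;> omega)
theorem PolyL.polyD (h : PolyL ds z0 F) : PolyD 1 ds z0 F := fun e he z hz => (h e he z hz).deg
theorem PolyL.zero : PolyL ds z0 fun _ => 0 := fun _ _ _ _ => LoC.zero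
theorem PolyD.anf {c : Vec σ → Fin 4 → ZMod 2} (hc : ∀ i, PolyD 1 ds z0 fun z => c z i)
    (h : PolyD 1 ds z0 F) (h' : PolyD 1 ds z0 F') :
    PolyD 3 ds z0 fun z => anf (c z) (F z) (F' z) :=   ((((hc 0).mono (by omega)).add (((hc 1).mul h).mono (by omega))).add
    (((hc 2).mul h').mono (by omega))).add ((hc 3).mul (h.mul h'))
/-- a function that does not see the region is a codeword. -/
theorem polyD_of_const (h : ∀ z, InR (pos ds) z0 z → F z = F z0) : PolyD d ds z0 F :=   (PolyD.const (F z0)).congr h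
theorem minw' (hl : Lay σ κ u ds) (h : PolyD 3 ds z F) (hF : F z ≠ 0) :
    (1 / 8 : ℝ) ^ ds.length ≤ av (pos ds) (fun z => ind (F z ≠ 0)) z := by
  induction ds generalizing z with
  | nil => rw [pos_nil, av_empty, ind_of hF, List.length_nil, pow_zero]
  | cons e ds ih =>
    have he : e ∈ e :: ds := List.mem_cons_self
    have h1 := ((h e he z InR.refl).mono (d' := 3) (by split_ifs <;> omega)).weight
      (s := get z e.2.1 e.2.2) (by rwa [line, put_get])
    have h2 : (𝔼 s, (1 / 8 : ℝ) ^ ds.length * ind (line F z e s ≠ 0)) ≤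
        𝔼 s, av (pos ds) (fun z => ind (F z ≠ 0)) (put z e.2.1 e.2.2 s) := by
      refine expect_le_expect fun s _ => ?_
      by_cases hs : line F z e s ≠ 0
      · rw [ind_of hs, mul_one]
        exact ih (hl.sublist (List.sublist_cons_self e ds))
          (h.sub (fun _ a => List.mem_cons_of_mem _ a) (InR.refl.put_dim he s)) hs
      · rw [ind_of_not hs, mul_zero]
        exact av_ind_nonneg _
    rw [pos_cons, ← av_av, av_Ico (hl.1 e he).2.1, List.length_cons, pow_succ]
    rw [← mul_expect] at h2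
    refine le_trans (mul_le_mul_of_nonneg_left (le_trans (by norm_num) h1) (by positivity)) h2
/-- minimum weight. -/
theorem minw (hl : Lay σ κ u ds) (h : PolyD 3 ds z0 F) (hz : InR (pos ds) z0 z) (hF : F z ≠ 0) :
    (1 / 8 : ℝ) ^ ds.length ≤ av (pos ds) (fun z => ind (F z ≠ 0)) z0 := by
  rw [← av_base hz]
  exact minw' hl (h.base hz) hF
theorem Valid.unique (hl : Lay σ κ u ds) (hM : 1 ≤ M) (hd : ds.length ≤ M)
    (h : Valid (eV M) ds X z0 F) (h' : Valid (eV M) ds X z0 F') (hz : InR (pos ds) z0 z) :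
    F z = F' z := by
  by_contra hne
  have h0 : ∀ a b : ZMod 2, a + b ≠ 0 ↔ a ≠ b := by decide
  have h1 := minw hl (h.1.add h'.1) hz ((h0 _ _).2 hne)
  have h2 : av (pos ds) (fun z => ind (F z + F' z ≠ 0)) z0 ≤ err ds X F z0 + err ds X F' z0 := by
    refine le_trans (av_mono fun y _ => (ind_mono fun a => ?_).trans (ind_or_le _ _)) av_add.le
    by_contra hn
    rw [not_or, not_not, not_not] at hn
    exact (h0 _ _).1 a (pz_inj.1 (hn.1.symm.trans hn.2))
  have h3 : (1 / 8 : ℝ) ^ M ≤ (1 / 8) ^ ds.length :=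
    pow_le_pow_of_le_one (by norm_num) (by norm_num) hd
  have h4 : (1 / 8 : ℝ) ^ M ≤ (1 / 8) ^ 1 := pow_le_pow_of_le_one (by norm_num) (by norm_num) hM
  have h5 : eV M = (1 / 8 : ℝ) ^ M * (1 / 8) ^ M := by
    rw [eV, ← mul_pow]
    norm_num
  have h6 : (0 : ℝ) < (1 / 8) ^ M := by positivity
  have h7 := h.2
  have h8 := h'.2
  nlinarith
theorem Msg.unique (hl : Lay σ κ u ds) (hM : 1 ≤ M) (hd : ds.length ≤ M) {y y' : ZMod 2}
    (h : Msg (eV M) ds X z y) (h' : Msg (eV M) ds X z y') : y = y' := by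
  obtain ⟨F, h1, rfl⟩ := h
  obtain ⟨F', h2, rfl⟩ := h'
  exact h1.unique hl hM hd h2 InR.refl
theorem Valid.msg_iff (hl : Lay σ κ u ds) (hM : 1 ≤ M) (hd : ds.length ≤ M)
    (h : Valid (eV M) ds X z0 F) (hz : InR (pos ds) z0 z) {y : ZMod 2} :
    Msg (eV M) ds X z y ↔ F z = y :=   ⟨fun a => Msg.unique hl hM hd ⟨F, h.base hz, rfl⟩ a, fun a => ⟨F, h.base hz, a⟩⟩
theorem OKL.ok (h : OKL ε ds X z) : OK ε ds X z :=   h.imp fun _ a => ⟨a.1.polyD.mono (by omega), a.2⟩
/-- low codewords are determined by the message. -/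
theorem PolyL.ext (hl : Lay σ κ u ds) (h : PolyL ds z0 F) (h' : PolyL ds z0 F')
    (he : ∀ z, InR (pos ds) z0 z → HP ds z → F z = F' z) (hz : InR (pos ds) z0 z) : F z = F' z := by
  induction ds generalizing z0 z with
  | nil => exact he z hz fun _ a => by cases a
  | cons e ds ih =>
    have hm : e ∈ e :: ds := List.mem_cons_self
    have hs : ∀ e' ∈ ds, e' ∈ e :: ds := fun _ a => List.mem_cons_of_mem _ a
    have key : ∀ y, InR (pos (e :: ds)) z0 y →
        (e.1 = true → ∃ h < e.2.2, get y e.2.1 e.2.2 = ofN _ (2 ^ h)) → F y = F' y := by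
      intro y hy hc
      refine ih (hl.sublist (List.sublist_cons_self e ds)) (h.sub hs hy) (h'.sub hs hy)
        (fun y' hy' hp => he y' (hy.trans (hy'.mono (pos_mono hs))) fun e' he' h1 => ?_) InR.refl
      rcases List.mem_cons.1 he' with rfl | a
      · rw [hy'.get fun j a b => Lay.disj (ds := [e']) hl ⟨e', List.mem_cons_self, a, b⟩]
        exact hc h1
      · exact hp e' a h1
    by_cases h1 : e.1 = true
    · have h2 := h e hm z hz
      have h3 := h' e hm z hz
      rw [h1] at h2 h3
      have h4 := IsLin.eq_sum h2 (get z e.2.1 e.2.2)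
      have h5 := IsLin.eq_sum h3 (get z e.2.1 e.2.2)
      rw [line, put_get] at h4 h5
      rw [h4, h5]
      refine sum_congr rfl fun i _ => congrArg (_ * ·) (key _ (hz.put_dim hm _) fun _ => ?_)
      exact ⟨i, i.2, get_put (hl.1 e hm).2.1 _⟩
    · exact key z hz fun a => absurd a h1
theorem InR.put_get {p w : ℕ} (h : InR (Set.Ico p (p + w)) z0 z) :
    Amp.put z0 p w (Amp.get z p w) = z := by
  funext j
  by_cases hj : p ≤ j ∧ j < p + w
  · rw [put_in _ hj, ← put_in (z := z) (Amp.get z p w) hj, Amp.put_get]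
  · rw [put_out _ hj, h j hj]
theorem PolyD.eq_of_copy' (h : PolyD d ds z0 F) (l : List Dim) (hl : ∀ e ∈ l, e ∈ ds ∧ e.1 = false)
    {z' : Vec σ} (hz : InR (pos ds) z0 z) (hz' : InR (pos l) z z') : F z' = F z := by
  induction l generalizing z with
  | nil => exact congrArg F (funext fun j => hz' j (by rw [pos_nil]; exact id))
  | cons e l ih =>
    rw [pos_cons] at hz'
    obtain ⟨y, h1, h2⟩ := hz'.union
    obtain ⟨h3, h4⟩ := hl e List.mem_cons_self
    have h5 := h e h3 z hz
    rw [h4] at h5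
    have h6 := h5 (get y e.2.1 e.2.2) (get z e.2.1 e.2.2)
    rw [line, line, put_get, h1.put_get] at h6
    exact (ih (fun e' a => hl e' (List.mem_cons_of_mem _ a))
      (hz.trans (h1.mono fun j a => ⟨e, h3, a⟩)) h2).trans h6
/-- codewords are constant along the copy dimensions. -/
theorem PolyD.eq_of_copy (hl : Lay σ κ u ds) (h : PolyD d ds z0 F) {z' : Vec σ}
    (hz : InR (pos ds) z0 z) (hz' : InR (pos (ds.filter fun e => !e.1)) z z') : F z' = F z :=   have _ := hl
  h.eq_of_copy' _ (fun e he => by simpa using List.mem_filter.1 he) hz hz'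
/-- the message points up to copy dimensions are few. -/
theorem exists_hps (hl : Lay σ κ u ds) : ∃ T : Finset (Vec σ → Vec σ),
    T.card ≤ (2 ^ κ) ^ ds.countP (fun e => e.1) ∧
    (∀ t ∈ T, ∀ z, HP ds (t z) ∧ InR (pos (ds.filter fun e => e.1)) z (t z) ∧
      ∀ z', InR (pos (ds.filter fun e => e.1))ᶜ (t z) z' → t z' = z') ∧
    ∀ z, HP ds z → ∃ t ∈ T, t z = z := by
  classical
  induction ds with
  | nil =>
    exact ⟨{id}, by simp, fun t ht z => by
      rw [mem_singleton.1 ht]
      exact ⟨fun _ a => absurd a List.not_mem_nil, InR.refl, fun _ _ => rfl⟩,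
      fun z _ => ⟨id, mem_singleton_self _, rfl⟩⟩
  | cons e ds ih =>
    obtain ⟨T, h1, h2, h3⟩ := ih (hl.sublist (List.sublist_cons_self e ds))
    have hm : e ∈ e :: ds := List.mem_cons_self
    have hp : ∀ z : Vec σ, HP (e :: ds) z → HP ds z :=
      fun z a e' he' => a e' (List.mem_cons_of_mem _ he')
    by_cases he : e.1 = true
    · rw [List.countP_cons_of_pos (p := fun e : Dim => e.1) he,
        List.filter_cons_of_pos (p := fun e : Dim => e.1) he, pos_cons]
      refine ⟨(range e.2.2 ×ˢ T).image fun a z => put (a.2 z) e.2.1 e.2.2 (ofN _ (2 ^ a.1)),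
        card_image_le.trans ?_, fun t ht z => ?_, fun z hz => ?_⟩
      · rw [card_product, card_range, pow_succ']
        exact Nat.mul_le_mul (hl.1 e hm).2.2.2 h1
      · obtain ⟨⟨a, t⟩, ha, rfl⟩ := mem_image.1 ht
        obtain ⟨ha, ht⟩ := mem_product.1 ha
        obtain ⟨g1, g2, g3⟩ := h2 t ht z
        refine ⟨fun e' he' h4 => ?_, (g2.mono Set.subset_union_right).put
          (fun j a b => Or.inl (Set.mem_Ico.2 ⟨a, b⟩)) _, fun z' hz' => ?_⟩
        · rcases List.mem_cons.1 he' with rfl | b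
          · exact ⟨a, mem_range.1 ha, get_put (hl.1 e' hm).2.1 _⟩
          · exact g1.put (fun e'' b _ => (List.pairwise_cons.1 hl.2).1 e'' b) _ e' b h4
        · dsimp only at hz' ⊢
          rw [g3 z' fun j hj => ?_]
          · funext j
            by_cases hj : e.2.1 ≤ j ∧ j < e.2.1 + e.2.2
            · rw [hz' j fun b => b (Or.inl hj), put_in _ hj, put_in _ hj]
            · exact put_out _ hj
          · have h5 := not_not.1 hj
            refine (hz' j fun b => b (Or.inr h5)).trans (put_out _ fun b => ?_)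
            exact Lay.disj (ds := [e]) hl ⟨e, List.mem_cons_self, b⟩
              (pos_mono (fun _ c => (List.mem_filter.1 c).1) h5)
      · obtain ⟨t, ht, e1⟩ := h3 z (hp z hz)
        obtain ⟨a, ha, e2⟩ := hz e hm he
        refine ⟨_, mem_image_of_mem _ (mem_product.2 (⟨mem_range.2 ha, ht⟩ :
          (a, t).1 ∈ range e.2.2 ∧ (a, t).2 ∈ T)), ?_⟩
        dsimp only
        rw [e1, ← e2, put_get]
    · rw [List.countP_cons_of_neg (p := fun e : Dim => e.1) he,
        List.filter_cons_of_neg (p := fun e : Dim => e.1) he]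
      refine ⟨T, h1, fun t ht z => ⟨fun e' he' h4 => ?_, (h2 t ht z).2⟩, fun z hz => h3 z (hp z hz)⟩
      rcases List.mem_cons.1 he' with rfl | b
      · exact absurd h4 he
      · exact (h2 t ht z).1 e' b h4

end tensor

end Vale.Agent.P330.Amp
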