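import Vale.Agent.P330.ProgOk
import Vale.Agent.P330.Code

/-! The extension of the labels and the message points (task Coef).
Plan. `cfx` is a sum of products with one coordinate factor for each dimension `pA d`: linear in
this dimension (`isLin_coord`), constant in all other dimensions below `pt`. At a point whose
dimensions `pA d` hold the unit vectors `h d` only the term `a = ∑ h d * k ^ d` survives. -/

namespace Vale.Agent.P330.Amp

open Vale.Agent.Lib.H23 Vale.Agent.P333 Vale.Agent.P325 Finset Matrix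
open scoped BigOperators

section aux

variable {σ : ℕ}

theorem cf_cast_toN : ∀ v : Vec 1, ((toN v : ℕ) : ZMod 2) = v 0 := by decide

theorem cf_toN_one : ∀ v : Vec 1, toN v = 1 ↔ v 0 = 1 := by decide

theorem cf_cast_fld (z : Vec σ) (j : ℕ) : ((fld z j 1 : ℕ) : ZMod 2) = get z j 1 0 :=
  cf_cast_toN _

theorem cf_get_one (z : Vec σ) (p w : ℕ) (h : Fin w) : get z (p + h) 1 0 = get z p w h := rfl

theorem cf_fld_disj (z : Vec σ) {p w p' w' : ℕ} (h : p + w ≤ p' ∨ p' + w' ≤ p) (s : Vec w) :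
    fld (put z p w s) p' w' = fld z p' w' := by
  unfold fld
  rw [get_put_disj h]

theorem cf_testBit_fld (z : Vec σ) (p : ℕ) {w i : ℕ} (hi : i < w) :
    (fld z p w).testBit i = decide (fld z (p + i) 1 = 1) := by
  rw [fld, testBit_toN _ ⟨i, hi⟩, decide_eq_decide, fld, cf_toN_one]
  rfl

theorem cf_fld_ofN {p w : ℕ} (h : p + w ≤ σ) (N : ℕ) : fld (ofN σ N) p w = N / 2 ^ p % 2 ^ w := by
  rw [fld_eq, toN_ofN]
  refine Nat.eq_of_testBit_eq fun i => ?_
  simp only [Nat.testBit_mod_two_pow, Nat.testBit_div_two_pow]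
  by_cases hi : i < w
  · rw [decide_eq_true (show i + p < σ by omega), Bool.true_and]
  · rw [decide_eq_false hi, Bool.false_and, Bool.false_and]

theorem cf_get_foldr {W : ℕ} (g : ℕ → Vec W) (z : Vec σ) (es : List ℕ)
    (h1 : ∀ a ∈ es, a + W ≤ σ) (h2 : es.Pairwise fun a b => a + W ≤ b) {a : ℕ} (ha : a ∈ es) :
    get (es.foldr (fun p y => put y p W (g p)) z) a W = g a := by
  induction es with
  | nil => cases ha
  | cons p es ih =>
    rw [List.foldr_cons]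
    rcases List.mem_cons.1 ha with rfl | ha
    · exact get_put (h1 _ List.mem_cons_self) _
    · rw [get_put_disj (Or.inl ((List.pairwise_cons.1 h2).1 a ha))]
      exact ih (fun a h => h1 a (List.mem_cons_of_mem _ h)) (List.pairwise_cons.1 h2).2 ha

theorem cf_inR_foldr {W : ℕ} (g : ℕ → Vec W) (z : Vec σ) (es : List ℕ) {lo hi : ℕ}
    (h : ∀ a ∈ es, lo ≤ a ∧ a + W ≤ hi) :
    InR (Set.Ico lo hi) z (es.foldr (fun p y => put y p W (g p)) z) := by
  induction es with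
  | nil => exact InR.refl
  | cons p es ih =>
    rw [List.foldr_cons]
    have h1 := h p List.mem_cons_self
    exact (ih fun a ha => h a (List.mem_cons_of_mem _ ha)).put
      (fun j a b => ⟨by omega, by omega⟩) _

theorem cf_blk_le {i j k : ℕ} (h : i < j) : i * k + k ≤ j * k := by
  rw [← Nat.succ_mul]
  exact Nat.mul_le_mul_right k h

theorem cf_pairwise (p : ℕ → ℕ) (b k c : ℕ) (hp : ∀ i, p i = b + i * k) :
    ((List.range c).map p).Pairwise fun a a' => a + k ≤ a' := by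
  rw [List.pairwise_map]
  refine List.pairwise_lt_range.imp fun {i j} h => ?_
  have := cf_blk_le (k := k) h
  rw [hp, hp]
  omega

/-- the digits of `aN`. -/
theorem cf_digit_aN (p : ℕ → ℕ) {κ c d : ℕ} (hκ : 0 < κ) (hd : d < c) (ρ : Vec σ) :
    aN (fun s => p (s / κ) + s % κ) (c * κ) ρ / (2 ^ κ) ^ d % 2 ^ κ = fld ρ (p d) κ := by
  refine Nat.eq_of_testBit_eq fun i => ?_
  rw [← pow_mul, Nat.testBit_mod_two_pow, Nat.testBit_div_two_pow]
  by_cases hi : i < κ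
  · have h1 := cf_blk_le (k := κ) hd
    have h2 : i + κ * d < c * κ := by rw [Nat.mul_comm κ d]; omega
    rw [decide_eq_true hi, Bool.true_and, aN, Nat.testBit_ofBits_lt _ _ h2, cf_testBit_fld _ _ hi]
    dsimp only
    rw [Nat.add_mul_div_left _ _ hκ, Nat.add_mul_mod_self_left, Nat.div_eq_of_lt hi,
      Nat.mod_eq_of_lt hi, Nat.zero_add]
  · rw [decide_eq_false hi, Bool.false_and]
    exact (Nat.testBit_lt_two_pow
      (fld_lt.trans_le (Nat.pow_le_pow_right two_pos (by omega)))).symm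

theorem cf_digit_ext {κ c a a' : ℕ} (hκ : 0 < κ) (ha : a < 2 ^ (c * κ)) (ha' : a' < 2 ^ (c * κ))
    (h : ∀ d < c, a / (2 ^ κ) ^ d % 2 ^ κ = a' / (2 ^ κ) ^ d % 2 ^ κ) : a = a' := by
  refine Nat.eq_of_testBit_eq fun j => ?_
  by_cases hj : j < c * κ
  · have h1 := congrArg (fun x => x.testBit (j % κ)) (h (j / κ) ((Nat.div_lt_iff_lt_mul hκ).2 hj))
    simp only [← pow_mul, Nat.testBit_mod_two_pow, Nat.testBit_div_two_pow, Nat.mod_add_div,
      decide_eq_true (Nat.mod_lt j hκ), Bool.true_and] at h1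
    exact h1
  · rw [Nat.testBit_lt_two_pow (ha.trans_le (Nat.pow_le_pow_right two_pos (by omega))),
      Nat.testBit_lt_two_pow (ha'.trans_le (Nat.pow_le_pow_right two_pos (by omega)))]

theorem cf_sum_lt (k : ℕ) (e : ℕ → ℕ) (he : ∀ i, e i < k) (c : ℕ) :
    ∑ i ∈ range c, 2 ^ (i * k + e i) < 2 ^ (c * k) := by
  induction c with
  | zero => simp
  | succ c ih =>
    rw [sum_range_succ]
    have h1 : 2 ^ (c * k) ≤ 2 ^ (c * k + e c) := Nat.pow_le_pow_right two_pos (by omega)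
    have h2 : 2 ^ (c * k + e c + 1) ≤ 2 ^ ((c + 1) * k) :=
      Nat.pow_le_pow_right two_pos (by have := he c; rw [Nat.succ_mul]; omega)
    rw [pow_succ] at h2
    omega

theorem cf_sum_digit (k : ℕ) (e : ℕ → ℕ) (he : ∀ i, e i < k) {c i : ℕ} (hi : i < c) :
    (∑ i ∈ range c, 2 ^ (i * k + e i)) / 2 ^ (i * k) % 2 ^ k = 2 ^ e i := by
  induction c with
  | zero => omega
  | succ c ih =>
    rw [sum_range_succ]
    rcases Nat.lt_succ_iff_lt_or_eq.1 hi with h | rfl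
    · have h1 := cf_blk_le (k := k) h
      have h2 : 2 ^ (c * k + e c) = 2 ^ (i * k) * (2 ^ k * 2 ^ (c * k + e c - (i * k + k))) := by
        rw [← pow_add, ← pow_add]
        congr 1
        omega
      rw [h2, Nat.add_mul_div_left _ _ (by positivity), Nat.add_mul_mod_self_left, ih h]
    · rw [pow_add, Nat.add_mul_div_left _ _ (by positivity),
        Nat.div_eq_of_lt (cf_sum_lt k e he i), Nat.zero_add,
        Nat.mod_eq_of_lt (Nat.pow_lt_pow_right one_lt_two (he i))]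

theorem cf_expect_comp {ι : Type} [Fintype ι] [DecidableEq ι] (q : ι → Fin σ)
    (hq : Function.Injective q) (g : (ι → ZMod 2) → ℝ) :
    (𝔼 y : Vec σ, g (y ∘ q)) = 𝔼 v, g v := by
  have h1 : ∀ s : ι → ZMod 2, (𝔼 y : Vec σ, g (y ∘ q)) = 𝔼 y : Vec σ, g (s + y ∘ q) :=
    fun s => by
      refine (expect_shift (fun y => g (y ∘ q)) (Function.extend q s 0)).symm.trans
        (expect_congr rfl fun y _ => congrArg g (funext fun i => ?_))
      simp only [Function.comp_apply, Pi.add_apply, hq.extend_apply]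
      exact add_comm _ _
  have h2 : ∀ t : ι → ZMod 2, (𝔼 s, g (s + t)) = 𝔼 s, g s := fun t =>
    Fintype.expect_equiv (Equiv.addRight t) _ _ fun _ => rfl
  rw [← expect_const (univ_nonempty (α := ι → ZMod 2)) (𝔼 y : Vec σ, g (y ∘ q)),
    expect_congr rfl fun s _ => h1 s, expect_comm, expect_congr rfl fun y _ => h2 (y ∘ q)]
  exact expect_const univ_nonempty _

theorem cf_av_comp {ι : Type} [Fintype ι] [DecidableEq ι] (q : ι → Fin σ)
    (hq : Function.Injective q) {P : Set ℕ} (hP : ∀ i, (q i).val ∈ P) (g : (ι → ZMod 2) → ℝ)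
    (z : Vec σ) : av P (fun ρ => g (ρ ∘ q)) z = 𝔼 v, g v := by
  rw [← cf_expect_comp q hq g]
  exact expect_congr rfl fun y _ => congrArg g (funext fun i => mix_in (hP i))

theorem cf_av_aN (q : ℕ → ℕ) (n : ℕ) (h1 : ∀ s < n, q s < σ)
    (h2 : ∀ s < n, ∀ s' < n, q s = q s' → s = s') {P : Set ℕ} (hP : ∀ s < n, q s ∈ P)
    (f : ℕ → ℝ) (z : Vec σ) :
    av P (fun ρ => f (aN q n ρ)) z = 𝔼 e : Fin (2 ^ n), f e := by
  have h := cf_av_comp (fun s : Fin n => (⟨q s, h1 s s.2⟩ : Fin σ))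
    (fun s s' h => Fin.ext (h2 s s.2 s' s'.2 (congrArg Fin.val h))) (fun s => hP s s.2)
    (fun v : Vec n => f (toN v)) z
  rw [expect_vec] at h
  refine Eq.trans (congrArg (fun F => av P F z) (funext fun ρ => congrArg f ?_)) (h.trans ?_)
  · refine congrArg Nat.ofBits (funext fun s => ?_)
    rw [decide_eq_decide, fld, cf_toN_one]
    simp only [get, Function.comp_apply, Fin.val_zero, Nat.add_zero, dif_pos (h1 s s.2)]
  · exact expect_congr rfl fun e _ => by rw [toN_ofN, Nat.mod_eq_of_lt e.2]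

theorem cf_av_blocks (p : ℕ → ℕ) (b k c κ : ℕ) (hp : ∀ i, p i = b + i * k) (hκ : 0 < κ)
    (hk : κ ≤ k) (hσ : b + c * k ≤ σ) (f : ℕ → ℝ) (z : Vec σ) :
    av (pos (((List.range c).map p).map (vd κ)))
      (fun ρ => f (aN (fun s => p (s / κ) + s % κ) (c * κ) ρ)) z = 𝔼 e : Fin (2 ^ (c * κ)), f e := by
  refine cf_av_aN _ _ (fun s hs => ?_) (fun s _ s' _ h => ?_) (fun s hs => ?_) f z
  · have h1 := cf_blk_le (k := k) ((Nat.div_lt_iff_lt_mul hκ).2 hs)
    have h2 := Nat.mod_lt s hκ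
    rw [hp]
    omega
  · have h1 := Nat.mod_lt s hκ
    have h2 := Nat.mod_lt s' hκ
    rw [hp, hp] at h
    have h3 : s / κ = s' / κ := by
      rcases lt_trichotomy (s / κ) (s' / κ) with h4 | h4 | h4
      · have := cf_blk_le (k := k) h4
        omega
      · exact h4
      · have := cf_blk_le (k := k) h4
        omega
    rw [h3] at h
    rw [← Nat.mod_add_div s κ, ← Nat.mod_add_div s' κ, h3]
    omega
  · refine ⟨vd κ (p (s / κ)), List.mem_map_of_mem (List.mem_map_of_mem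
      (List.mem_range.2 ((Nat.div_lt_iff_lt_mul hκ).2 hs))), ?_⟩
    have h2 := Nat.mod_lt s hκ
    simp only [vd]
    omega

end aux

section lay

variable (L : Lo)

theorem cf_pA (i : ℕ) : L.pA i = L.pA 0 + i * L.k := by simp only [Lo.pA, Nat.zero_mul, Nat.add_zero]
theorem cf_pE (i : ℕ) : L.pE i = L.pE 0 + i * L.k := by simp only [Lo.pE, Nat.zero_mul, Nat.add_zero]
theorem cf_pK (i : ℕ) : L.pK i = L.pK 0 + i * L.κ := by simp only [Lo.pK, Nat.zero_mul, Nat.add_zero]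
theorem cf_pE0 : L.pE 0 = L.pA 0 + L.c * L.k := by
  rw [← cf_pA]
  simp only [Lo.pE, Nat.zero_mul, Nat.add_zero]
theorem cf_pt : L.pt = L.pE 0 + L.c * L.k := cf_pE L _
theorem cf_pA0 : L.pA 0 = L.pP 0 + 2 * L.n := by
  simp only [Lo.pA, Lo.pP, Lo.n, Nat.zero_mul, Nat.add_zero, Nat.mul_assoc]
theorem cf_pP0 : L.pK 0 + L.ck * L.κ ≤ L.pP 0 := by
  rw [← cf_pK]
  simp only [Lo.pP, Lo.pR, Lo.pT]
  omega
theorem cf_pK0 : L.u + 2 ≤ L.pK 0 := by
  simp only [Lo.pK, Lo.pG, Lo.pV]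
  omega
theorem cf_σ : L.σ = L.pt + L.τ := rfl
theorem cf_κ_le : L.κ ≤ L.k := Nat.lt_two_pow_self.le
theorem cf_k_pos : 0 < L.k := Nat.two_pow_pos _

theorem cf_mem_As {a : ℕ} (ha : a ∈ L.As) : L.pA 0 ≤ a ∧ a + 2 ^ L.κ ≤ L.pE 0 := by
  obtain ⟨i, hi, rfl⟩ := List.mem_map.1 ha
  have h1 := cf_blk_le (k := L.k) (List.mem_range.1 hi)
  rw [cf_pA L i, cf_pE0]
  change _ ∧ _ + L.k ≤ _
  omega

theorem cf_mem_Es {a : ℕ} (ha : a ∈ L.Es) : L.pE 0 ≤ a ∧ a + 2 ^ L.κ ≤ L.pt := by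
  obtain ⟨i, hi, rfl⟩ := List.mem_map.1 ha
  have h1 := cf_blk_le (k := L.k) (List.mem_range.1 hi)
  rw [cf_pE L i, cf_pt]
  change _ ∧ _ + L.k ≤ _
  omega

theorem cf_hpt (t p e : ℕ) : L.hpt t p e = ofN _ (2 ^ L.pP 0 * (p + 2 ^ (2 * L.n) *
    (2 ^ (L.c * L.k) * (∑ i ∈ range L.c, 2 ^ (i * L.k + e / L.k ^ i % L.k) +
      2 ^ (L.c * L.k) * t)))) := by
  unfold Lo.hpt
  congr 1
  have h1 : ∑ i ∈ range L.c, 2 ^ (L.pE i + e / L.k ^ i % L.k) =
      2 ^ L.pE 0 * ∑ i ∈ range L.c, 2 ^ (i * L.k + e / L.k ^ i % L.k) := by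
    rw [mul_sum]
    refine sum_congr rfl fun i _ => ?_
    rw [cf_pE L i, ← pow_add, Nat.add_assoc]
  rw [h1, cf_pt, cf_pE0, cf_pA0]
  ring

theorem cf_hpt_div {t p e : ℕ} (hp : p < 2 ^ (2 * L.n)) : 2 ^ L.pP 0 * (p + 2 ^ (2 * L.n) *
    (2 ^ (L.c * L.k) * (∑ i ∈ range L.c, 2 ^ (i * L.k + e / L.k ^ i % L.k) +
      2 ^ (L.c * L.k) * t))) / 2 ^ L.pE 0 =
      ∑ i ∈ range L.c, 2 ^ (i * L.k + e / L.k ^ i % L.k) + 2 ^ (L.c * L.k) * t := by
  rw [cf_pE0, cf_pA0, pow_add, pow_add, ← Nat.div_div_eq_div_mul, ← Nat.div_div_eq_div_mul,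
    Nat.mul_div_cancel_left _ (by positivity), Nat.add_mul_div_left _ _ (by positivity),
    Nat.div_eq_of_lt hp, Nat.zero_add, Nat.mul_div_cancel_left _ (by positivity)]

theorem cf_hpt_E {t p e : ℕ} (hp : p < 2 ^ (2 * L.n)) {i : ℕ} (hi : i < L.c) :
    get (L.hpt t p e) (L.pE i) (2 ^ L.κ) = ofN _ (2 ^ (e / L.k ^ i % L.k)) := by
  have h1 := cf_blk_le (k := L.k) hi
  have h2 : L.pE i + 2 ^ L.κ ≤ L.σ := by
    rw [cf_σ, cf_pt, cf_pE L i]
    change _ + L.k ≤ _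
    omega
  have h3 : 2 ^ (L.c * L.k) * t =
      2 ^ (i * L.k) * (2 ^ L.k * (2 ^ (L.c * L.k - (i * L.k + L.k)) * t)) := by
    rw [← mul_assoc, ← mul_assoc, ← pow_add, ← pow_add]
    congr 2
    omega
  rw [← ofN_fld, cf_hpt, cf_fld_ofN h2, cf_pE L i, pow_add (2 : ℕ) (L.pE 0),
    ← Nat.div_div_eq_div_mul, cf_hpt_div L hp, h3, Nat.add_mul_div_left _ _ (by positivity)]
  congr 1
  change _ % 2 ^ L.k = _
  rw [Nat.add_mul_mod_self_left]
  exact cf_sum_digit L.k (fun i => e / L.k ^ i % L.k) (fun _ => Nat.mod_lt _ (cf_k_pos L)) hi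

end lay

variable (G : Inst 2) (L : Lo) (hκ : 6 ≤ L.κ) (hc : 1 ≤ L.c)
include hκ hc

theorem cfx_poly (x : Big (G.b + 2) G.β) (i : Fin 4) (z0 : Vec L.σ) :
    PolyD 1 ((false, L.pG, 1) :: vd L.κ L.pV :: L.dG) z0 (cfx G L x i) := by
  intro e he z _
  have hl := L.lay_gate hκ hc
  have h1 := hl.1 e he
  have h2 := (L.pos_gate hκ hc (e.2.1 + e.2.2 - 1)).1 ⟨e, he, by omega, by omega⟩
  have hmem : ∀ d < L.c, md L.κ (L.pA d) ∈ (false, L.pG, 1) :: vd L.κ L.pV :: L.dG := fun d hd =>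
    List.mem_cons_of_mem _ (List.mem_cons_of_mem _ (List.mem_append_right _
      (List.mem_append_left _ (List.mem_map_of_mem (List.mem_map_of_mem (List.mem_range.2 hd))))))
  have hdis : ∀ d < L.c, e ≠ md L.κ (L.pA d) →
      e.2.1 + e.2.2 ≤ L.pA d ∨ L.pA d + L.k ≤ e.2.1 := fun d hd hne =>
    haveI : Std.Symm fun e e' : Dim => e.2.1 + e.2.2 ≤ e'.2.1 ∨ e'.2.1 + e'.2.2 ≤ e.2.1 :=
      ⟨fun _ _ h => h.symm⟩
    hl.2.forall he (hmem d hd) hne
  have hout : ∀ d < L.c, e ≠ md L.κ (L.pA d) → ∀ (a : ℕ) (s : Vec e.2.2),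
      fld (put z e.2.1 e.2.2 s) (L.pA d + a % L.k) 1 = fld z (L.pA d + a % L.k) 1 :=
    fun d hd hne a s => cf_fld_disj z (by
      have h3 := hdis d hd hne
      have h4 := Nat.mod_lt a (cf_k_pos L)
      omega) s
  have ht : ∀ s : Vec e.2.2, fld (put z e.2.1 e.2.2 s) L.pt L.τ = fld z L.pt L.τ := fun s =>
    cf_fld_disj z (Or.inl (by omega)) s
  unfold line cfx
  refine Deg.sum _ fun a _ => ?_
  simp only [ht]
  by_cases hd : ∃ d < L.c, e = md L.κ (L.pA d)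
  · obtain ⟨d, hd, rfl⟩ := hd
    have h3 : ∀ s : Vec (2 ^ L.κ), (∏ d' ∈ range L.c,
        (fld (put z (L.pA d) (2 ^ L.κ) s) (L.pA d' + a / L.k ^ d' % L.k) 1 : ZMod 2)) =
        (∏ d' ∈ (range L.c).erase d, (fld z (L.pA d' + a / L.k ^ d' % L.k) 1 : ZMod 2)) *
          s ⟨a / L.k ^ d % L.k, Nat.mod_lt _ (cf_k_pos L)⟩ := fun s => by
      rw [← prod_erase_mul _ _ (mem_range.2 hd)]
      congr 1
      · refine prod_congr rfl fun d' hd' => congrArg _ (hout d' (mem_range.1 (mem_of_mem_erase hd'))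
          (fun h => ne_of_mem_erase hd' ?_) _ s)
        have h4 : L.pA d = L.pA d' := congrArg (fun e : Dim => e.2.1) h
        rw [cf_pA L d, cf_pA L d'] at h4
        exact (Nat.eq_of_mul_eq_mul_right (cf_k_pos L) (Nat.add_left_cancel h4)).symm
      · rw [cf_cast_fld]
        exact (cf_get_one _ _ (2 ^ L.κ) ⟨_, Nat.mod_lt _ (cf_k_pos L)⟩).trans
          (congrFun (get_put h1.2.1 s) _)
    change Deg 1 fun s : Vec (2 ^ L.κ) => (∏ d' ∈ range L.c,
        (fld (put z (L.pA d) (2 ^ L.κ) s) (L.pA d' + a / L.k ^ d' % L.k) 1 : ZMod 2)) * _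
    simp only [h3]
    exact (((isLin_coord _).deg.smul _).mul (Deg.const (d := 0) _))
  · have h3 : ∀ s : Vec e.2.2, (∏ d ∈ range L.c,
        (fld (put z e.2.1 e.2.2 s) (L.pA d + a / L.k ^ d % L.k) 1 : ZMod 2)) =
        ∏ d ∈ range L.c, (fld z (L.pA d + a / L.k ^ d % L.k) 1 : ZMod 2) := fun s =>
      prod_congr rfl fun d hd' => congrArg _
        (hout d (mem_range.1 hd') (fun h => hd ⟨d, mem_range.1 hd', h⟩) _ s)
    simp only [h3]
    exact Deg.const _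

omit hκ hc in
theorem cf_get_spl_As (ρ : Vec L.σ) {a : ℕ} (ha : a ∈ L.As) :
    get (spl L.κ L.As ρ) a (2 ^ L.κ) = ofN _ (2 ^ fld ρ a L.κ) :=
  cf_get_foldr (W := 2 ^ L.κ) (fun p => ofN _ (2 ^ fld ρ p L.κ)) ρ L.As (fun a ha => by
    have h1 := cf_mem_As L ha
    have h2 := cf_pt L
    have h3 := cf_σ L
    omega) (cf_pairwise L.pA _ _ _ (cf_pA L)) ha

omit hκ hc in
theorem cf_inR_spl_As (ρ : Vec L.σ) : InR (Set.Ico (L.pA 0) (L.pE 0)) ρ (spl L.κ L.As ρ) :=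
  cf_inR_foldr (fun p => ofN _ (2 ^ fld ρ p L.κ)) ρ L.As fun _ ha => cf_mem_As L ha

theorem cfx_spl (x : Big (G.b + 2) G.β) (i : Fin 4) (ρ : Vec L.σ) :
    cfx G L x i (spl L.κ L.As ρ) = anfc (G.lab (fld ρ L.pt L.τ)
      (fstB x + Lv G.b (G.gens 1) L.n (aN L.qA L.n ρ) (blk x G.b), 0)) i := by
  have hκ0 : 0 < L.κ := by omega
  have ht : fld (spl L.κ L.As ρ) L.pt L.τ = fld ρ L.pt L.τ :=
    congrArg toN ((cf_inR_spl_As L ρ).get fun j h1 _ h2 => by
      have h3 := cf_pt L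
      have h4 := h2.2
      omega)
  have hdig : ∀ d < L.c, aN L.qA L.n ρ / L.k ^ d % L.k = fld ρ (L.pA d) L.κ := fun d hd =>
    cf_digit_aN L.pA hκ0 hd ρ
  have hbit : ∀ d < L.c, ∀ a : ℕ, (fld (spl L.κ L.As ρ) (L.pA d + a % L.k) 1 : ZMod 2) =
      b2 (decide (fld ρ (L.pA d) L.κ = a % L.k)) := fun d hd a => by
    rw [cf_cast_fld]
    refine (cf_get_one _ _ (2 ^ L.κ) ⟨_, Nat.mod_lt _ (cf_k_pos L)⟩).trans ?_
    rw [cf_get_spl_As L ρ (List.mem_map_of_mem (List.mem_range.2 hd))]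
    simp only [ofN, Nat.testBit_two_pow]
    rfl
  have hlt : aN L.qA L.n ρ < 2 ^ L.n := Nat.ofBits_lt_two_pow _
  unfold cfx
  rw [ht, sum_eq_single (aN L.qA L.n ρ)]
  · rw [prod_eq_one fun d hd => ?_, one_mul]
    rw [hbit d (mem_range.1 hd), hdig d (mem_range.1 hd), decide_eq_true rfl]
    rfl
  · intro a ha hne
    have h1 : ∃ d < L.c, fld ρ (L.pA d) L.κ ≠ a / L.k ^ d % L.k := by
      by_contra h
      refine hne (cf_digit_ext (c := L.c) hκ0 (mem_range.1 ha) hlt fun d hd => ?_)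
      refine Eq.trans ?_ (hdig d hd).symm
      by_contra h2
      exact h ⟨d, hd, fun h3 => h2 h3.symm⟩
    obtain ⟨d, hd, h2⟩ := h1
    rw [prod_eq_zero (mem_range.2 hd), zero_mul]
    rw [hbit d hd, decide_eq_false h2]
    rfl
  · exact fun h => absurd (mem_range.2 hlt) h

omit hκ hc in
theorem anf_anfc (f : (Fin 2 → Bool) → Bool) (r : Fin 2 → Bool) :
    anf (anfc f) (b2 (r 0)) (b2 (r 1)) = b2 (f r) := by
  have h : r = ![r 0, r 1] := by
    funext i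
    fin_cases i <;> rfl
  rw [congrArg f h]
  generalize r 0 = x
  generalize r 1 = y
  simp only [anf, anfc, Matrix.cons_val_zero, Matrix.cons_val_one, Matrix.cons_val]
  cases x <;> cases y <;> generalize f ![false, false] = a <;> generalize f ![true, false] = b <;>
    generalize f ![false, true] = c <;> generalize f ![true, true] = d <;> revert a b c d <;> decide

/-- fields of the points `spl`. -/
theorem get_spl_As (ρ : Vec L.σ) {a : ℕ} (ha : a ∈ L.As) :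
    get (spl L.κ L.As ρ) a (2 ^ L.κ) = ofN _ (2 ^ fld ρ a L.κ) := cf_get_spl_As L ρ ha
theorem get_spl_Es (ρ : Vec L.σ) {a : ℕ} (ha : a ∈ L.Es) :
    get (spl L.κ L.Es ρ) a (2 ^ L.κ) = ofN _ (2 ^ fld ρ a L.κ) :=
  cf_get_foldr (W := 2 ^ L.κ) (fun p => ofN _ (2 ^ fld ρ p L.κ)) ρ L.Es (fun a ha => by
    have h1 := cf_mem_Es L ha
    have h3 := cf_σ L
    omega) (cf_pairwise L.pE _ _ _ (cf_pE L)) ha
theorem inR_spl_As (ρ : Vec L.σ) : InR (Set.Ico (L.pA 0) (L.pE 0)) ρ (spl L.κ L.As ρ) :=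
  cf_inR_spl_As L ρ
theorem inR_spl_Es (ρ : Vec L.σ) : InR (Set.Ico (L.pE 0) L.pt) ρ (spl L.κ L.Es ρ) :=
  cf_inR_foldr (fun p => ofN _ (2 ^ fld ρ p L.κ)) ρ L.Es fun _ ha => cf_mem_Es L ha

/-- fields of the standard message points. -/
theorem hpt_home {t p e : ℕ} : Home L.u (L.hpt t p e) := by
  intro j hj
  have h1 := cf_pP0 L
  have h2 := cf_pK0 L
  rw [cf_hpt]
  simp only [ofN]
  rw [Nat.testBit_two_pow_mul, decide_eq_false (by omega), Bool.false_and]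
  rfl
theorem hpt_t {t p e : ℕ} (ht : t < 2 ^ L.τ) (hp : p < 2 ^ (2 * L.n)) :
    fld (L.hpt t p e) L.pt L.τ = t := by
  rw [cf_hpt, cf_fld_ofN (cf_σ L).ge, cf_pt, pow_add (2 : ℕ) (L.pE 0), ← Nat.div_div_eq_div_mul,
    cf_hpt_div L hp, Nat.add_mul_div_left _ _ (by positivity), Nat.div_eq_of_lt
      (cf_sum_lt L.k (fun i => e / L.k ^ i % L.k) (fun _ => Nat.mod_lt _ (cf_k_pos L)) L.c),
    Nat.zero_add, Nat.mod_eq_of_lt ht]
theorem hpt_p {t p e : ℕ} (hp : p < 2 ^ (2 * L.n)) : fld (L.hpt t p e) (L.pP 0) (2 * L.n) = p := by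
  have h1 : L.pP 0 + 2 * L.n ≤ L.σ := by
    rw [cf_σ, cf_pt, cf_pE0, cf_pA0]
    omega
  rw [cf_hpt, cf_fld_ofN h1, Nat.mul_div_cancel_left _ (by positivity), Nat.add_mul_mod_self_left,
    Nat.mod_eq_of_lt hp]
theorem hpt_E {t p : ℕ} (hp : p < 2 ^ (2 * L.n)) (ρ : Vec L.σ) {a : ℕ} (ha : a ∈ L.Es) :
    get (L.hpt t p (aN L.qE L.n ρ)) a (2 ^ L.κ) = ofN _ (2 ^ fld ρ a L.κ) := by
  obtain ⟨i, hi, rfl⟩ := List.mem_map.1 ha
  rw [cf_hpt_E L hp (List.mem_range.1 hi)]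
  exact congrArg (fun x => ofN _ (2 ^ x)) (cf_digit_aN L.pE (by omega) (List.mem_range.1 hi) ρ)
theorem hpt_A {t p : ℕ} (hp : p < 2 ^ (2 * L.n)) (ρ : Vec L.σ) {i : ℕ} (hi : i < L.c) :
    get (L.hpt t p (aN L.qA L.n ρ)) (L.pE i) (2 ^ L.κ) = ofN _ (2 ^ fld ρ (L.pA i) L.κ) := by
  rw [cf_hpt_E L hp hi]
  exact congrArg (fun x => ofN _ (2 ^ x)) (cf_digit_aN L.pA (by omega) hi ρ)

/-- averages over low bits are averages over entry numbers. -/
theorem av_aE (f : ℕ → ℝ) (z : Vec L.σ) :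
    av (pos (L.Es.map (vd L.κ))) (fun ρ => f (aN L.qE L.n ρ)) z = 𝔼 e : Fin (2 ^ L.n), f e :=
  cf_av_blocks L.pE _ L.k L.c L.κ (cf_pE L) (by omega) (cf_κ_le L) (by
    rw [cf_σ, cf_pt]
    omega) f z
theorem av_aA (f : ℕ → ℝ) (z : Vec L.σ) :
    av (pos (L.As.map (vd L.κ))) (fun ρ => f (aN L.qA L.n ρ)) z = 𝔼 e : Fin (2 ^ L.n), f e :=
  cf_av_blocks L.pA _ L.k L.c L.κ (cf_pA L) (by omega) (cf_κ_le L) (by
    rw [cf_σ, cf_pt, cf_pE0]
    omega) f z
theorem av_P (f : ℕ → ℝ) (z : Vec L.σ) :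
    av (pos (L.Ps.map (vd L.κ))) (fun ρ => f (fld ρ (L.pP 0) (2 * L.n))) z =
      𝔼 p : Fin (2 ^ (2 * L.n)), f p := by
  have h1 : L.pP 0 + 2 * L.n ≤ L.σ := by
    rw [cf_σ, cf_pt, cf_pE0, cf_pA0]
    omega
  rw [av_set (Q := Set.Ico (L.pP 0) (L.pP 0 + 2 * L.n)) fun j _ => by
    rw [L.pos_Ps hκ hc, cf_pA0, Set.mem_Ico], av_Ico h1, expect_vec]
  exact expect_congr rfl fun p _ => by rw [fld_put h1 p.2]
theorem av_K (f : List ℕ → ℝ) (z : Vec L.σ) :
    av (pos (L.Ks.map (vd L.κ))) (fun ρ => f (L.Ks.map fun p => fld ρ p 5)) z =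
      𝔼 K : Fin L.ck → Fin 32, f (List.ofFn fun i => (K i : ℕ)) := by
  have h1 : ∀ a : Fin L.ck × Fin 5, L.pK a.1 + a.2 < L.σ := fun a => by
    have h2 := cf_blk_le (k := L.κ) a.1.2
    have h3 := cf_pP0 L
    have h4 := a.2.2
    rw [cf_σ, cf_pt, cf_pE0, cf_pA0, cf_pK L a.1]
    omega
  have h := cf_av_comp (fun a : Fin L.ck × Fin 5 => (⟨L.pK a.1 + a.2, h1 a⟩ : Fin L.σ))
    (fun a a' h => ?_) (P := pos (L.Ks.map (vd L.κ))) (fun a => ?_)
    (fun v => f (List.ofFn fun i => toN (fun b : Fin 5 => v (i, b)))) z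
  · refine Eq.trans (congrArg (fun F => av _ F z) (funext fun ρ => congrArg f ?_)) (h.trans ?_)
    · refine List.ext_getElem (by simp [Lo.Ks]) fun i hi hi' => ?_
      simp only [Lo.Ks, List.getElem_map, List.getElem_range, List.getElem_ofFn, fld]
      refine congrArg toN (funext fun b => ?_)
      rw [List.length_ofFn] at hi'
      exact dif_pos (h1 (⟨i, hi'⟩, b))
    · exact Fintype.expect_equiv ((Equiv.curry _ _ _).trans
        (Equiv.piCongrRight fun _ => vecEquiv 5)) _ _ fun _ => rfl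
  · have h2 : L.pK a.1 + a.2 = L.pK a'.1 + a'.2 := congrArg Fin.val h
    have h3 := a.2.2
    have h4 := a'.2.2
    rw [cf_pK L a.1, cf_pK L a'.1] at h2
    have h5 : a.1.val = a'.1.val := by
      rcases lt_trichotomy a.1.val a'.1.val with h6 | h6 | h6
      · have := cf_blk_le (k := L.κ) h6
        omega
      · exact h6
      · have := cf_blk_le (k := L.κ) h6
        omega
    rw [h5] at h2
    exact Prod.ext (Fin.ext h5) (Fin.ext (by omega))
  · refine ⟨vd L.κ (L.pK a.1), List.mem_map_of_mem (List.mem_map_of_mem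
      (List.mem_range.2 a.1.2)), ?_⟩
    have h3 := a.2.2
    simp only [vd]
    omega

end Vale.Agent.P330.Amp
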