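import Vale.Agent.P330.InstB

/-! A register machine with two-address instructions that evaluates a gate of fan-in `W` in a
hazard free way (first half of task Compile). -/

namespace Vale.Agent.P330.Amp.Cmp

section ch

variable {M N S : Type} {R : M → S → S → Prop}

/-- chains of steps. -/
def Ch (R : M → S → S → Prop) : List M → S → S → Prop
  | [], y, z => y = z
  | m :: l, y, z => ∃ u, R m y u ∧ Ch R l u z

theorem Ch.append {l l' : List M} {y z : S} (h : Ch R (l ++ l') y z) :
    ∃ u, Ch R l y u ∧ Ch R l' u z := by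
  induction l generalizing y with
  | nil => exact ⟨y, rfl, h⟩
  | cons m l ih =>
    obtain ⟨u, h1, h2⟩ := h
    obtain ⟨v, h3, h4⟩ := ih h2
    exact ⟨v, ⟨u, h1, h3⟩, h4⟩

theorem Ch.map {F : N → M} {l : List N} {y z : S} (h : Ch R (l.map F) y z) :
    Ch (fun m => R (F m)) l y z := by
  induction l generalizing y with
  | nil => exact h
  | cons m l ih =>
    obtain ⟨u, h1, h2⟩ := h
    exact ⟨u, h1, ih h2⟩

theorem Ch.flatMap {F : N → List M} {l : List N} {y z : S} (h : Ch R (l.flatMap F) y z) :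
    Ch (fun m => Ch R (F m)) l y z := by
  induction l generalizing y with
  | nil => exact h
  | cons m l ih =>
    rw [List.flatMap_cons] at h
    obtain ⟨u, h1, h2⟩ := h.append
    exact ⟨u, h1, ih h2⟩

theorem Ch.inv (Q : S → Prop) {l : List M} {y z : S} (h : Ch R l y z)
    (hQ : ∀ m ∈ l, ∀ u v, R m u v → Q u → Q v) (hy : Q y) : Q z := by
  induction l generalizing y with
  | nil => exact h ▸ hy
  | cons m l ih =>
    obtain ⟨u, h1, h2⟩ := h
    exact ih h2 (fun m' hm => hQ m' (List.mem_cons_of_mem _ hm))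
      (hQ m List.mem_cons_self _ _ h1 hy)

theorem Ch.hit (Q T : S → Prop) {l : List M} {y z : S} (h : Ch R l y z)
    (hQ : ∀ m ∈ l, ∀ u v, R m u v → Q u → Q v) (hT : ∀ m ∈ l, ∀ u v, R m u v → Q u → T u → T v)
    {m0 : M} (hm : m0 ∈ l) (h0 : ∀ u v, R m0 u v → Q u → T v) (hy : Q y) : T z := by
  induction l generalizing y with
  | nil => simp at hm
  | cons m l ih =>
    obtain ⟨u, h1, h2⟩ := h
    have hu := hQ m List.mem_cons_self _ _ h1 hy
    rcases List.mem_cons.1 hm with rfl | hm
    · exact (h2.inv (fun v => Q v ∧ T v) (fun m' hm' v v' e hv =>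
        ⟨hQ m' (List.mem_cons_of_mem _ hm') _ _ e hv.1,
          hT m' (List.mem_cons_of_mem _ hm') _ _ e hv.1 hv.2⟩) ⟨hu, h0 _ _ h1 hy⟩).2
    · exact ih h2 (fun m' hm => hQ m' (List.mem_cons_of_mem _ hm))
        (fun m' hm => hT m' (List.mem_cons_of_mem _ hm)) hm hu

theorem Ch.of_seq (l : List M) (d : M) (Y : ℕ → S)
    (h : ∀ j < l.length, R (l.getD j d) (Y j) (Y (j + 1))) : Ch R l (Y 0) (Y l.length) := by
  induction l generalizing Y with
  | nil => rfl
  | cons m l ih =>
    exact ⟨Y 1, h 0 (by simp), ih (fun j => Y (j + 1)) fun j hj => h (j + 1) (by simpa using hj)⟩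

end ch

/-- registers: accumulator, term, and the inputs. -/
abbrev Reg (W : ℕ) : Type := Bool ⊕ Fin W

abbrev Lb (W : ℕ) : Type := (Fin W → Bool) → Bool

/-- `d := g d s`, where `s` is a register or the register `d` of a neighbour. -/
structure Ins (W : ℕ) where
  d : Reg W
  s : Reg W ⊕ Fin W
  g : Lb W → Bool → Bool → Bool

variable {W : ℕ}

abbrev acc : Reg W := .inl false
abbrev trm : Reg W := .inl true

def cp (d : Reg W) (s : Reg W ⊕ Fin W) : Ins W := ⟨d, s, fun _ _ v => v⟩

def skip : Ins W := ⟨acc, .inl acc, fun _ u _ => u⟩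

open Classical in
noncomputable def iniI (μ : Fin W → Option Bool) : Ins W :=
  ⟨trm, .inl trm, fun f _ _ => decide (∀ r, Res μ r → f r = true)⟩

def litI (μ : Fin W → Option Bool) (i : Fin W) : Ins W :=
  ⟨trm, .inl (.inr i), fun _ u v => u && decide (μ i ≠ some (!v))⟩

def orI : Ins W := ⟨acc, .inl trm, fun _ u v => u || v⟩

noncomputable def blkI (μ : Fin W → Option Bool) : List (Ins W) :=
  iniI μ :: ((List.finRange W).map (litI μ) ++ [orI])

def getI (w : Fin W → Bool) (i : Fin W) : List (Ins W) :=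
  [cp (.inr i) (.inl (.inl (w i))), cp (.inr i) (.inr i)]

noncomputable def prog (w : Fin W → Bool) : List (Ins W) :=
  cp trm (.inl acc) :: ((List.finRange W).flatMap (getI w) ++
    ⟨acc, .inl acc, fun _ _ _ => false⟩ :: Finset.univ.toList.flatMap blkI)

variable {A : Type} (mv : Fin W → A → A) (lb : A → Lb W) (Gd : A → Prop)

def src (I : Ins W) (y : A → Reg W → Val) (a : A) : Val :=
  match I.s with
  | .inl q => y a q
  | .inr i => y (mv i a) I.d

/-- one layer of nodes, satisfied at the good addresses. -/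
def Step (I : Ins W) (y z : A → Reg W → Val) : Prop :=
  ∀ a, Gd a → (∀ r γ, r ≠ I.d → rd false (y a r) = some γ → z a r = pv γ) ∧
    ∀ β, (∀ u v, (∀ γ, rd false (y a I.d) = some γ → u = γ) →
      (∀ γ, rd true (src mv I y a) = some γ → v = γ) → I.g (lb a) u v = β) → z a I.d = pv β

variable {mv lb Gd} {I : Ins W} {y z : A → Reg W → Val} {a : A}

theorem Step.keep (h : Step mv lb Gd I y z) (ha : Gd a) {r : Reg W} {γ : Bool}
    (hr : r = I.d → ∀ v, I.g (lb a) γ v = γ) (hy : y a r = pv γ) : z a r = pv γ := by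
  by_cases e : r = I.d
  · subst e
    refine (h a ha).2 γ fun u v hu _ => ?_
    rw [hu γ (by rw [hy, rd_pv])]
    exact hr rfl v
  · exact (h a ha).1 r γ e (by rw [hy, rd_pv])

theorem Step.set (h : Step mv lb Gd I y z) (ha : Gd a) {γ δ : Bool} (hy : y a I.d = pv γ)
    (hs : src mv I y a = pv δ) : z a I.d = pv (I.g (lb a) γ δ) :=
  (h a ha).2 _ fun u v hu hv => by rw [hu γ (by rw [hy, rd_pv]), hv δ (by rw [hs, rd_pv])]

theorem Step.put (h : Step mv lb Gd I y z) (ha : Gd a) {β δ : Bool}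
    (hs : src mv I y a = pv δ) (hg : ∀ u, I.g (lb a) u δ = β) : z a I.d = pv β :=
  (h a ha).2 _ fun u v _ hv => by rw [hv δ (by rw [hs, rd_pv]), hg]

theorem Ch.keep {l : List (Ins W)} (h : Ch (Step mv lb Gd) l y z) (ha : Gd a) {r : Reg W}
    {γ : Bool} (hr : ∀ I ∈ l, r = I.d → ∀ v, I.g (lb a) γ v = γ) (hy : y a r = pv γ) :
    z a r = pv γ :=
  h.inv (fun y => y a r = pv γ) (fun I hI _ _ e => e.keep ha (hr I hI)) hy

theorem get_sound {w : Fin W → Bool} (h : Ch (Step mv lb Gd) ((List.finRange W).flatMap (getI w)) y z)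
    (ha : Gd a) {i : Fin W} (hi : Gd (mv i a)) {γ : Bool} (hy : y (mv i a) (.inl (w i)) = pv γ) :
    z a (.inr i) = pv γ := by
  have h0 : ∀ u v, Ch (Step mv lb Gd) (getI w i) u v → u (mv i a) (.inl (w i)) = pv γ →
      v a (.inr i) = pv γ := by
    rintro u v ⟨u1, e1, u2, e2, rfl⟩ hu
    exact e2.put ha (e1.put hi hu fun _ => rfl) fun _ => rfl
  refine h.flatMap.hit (fun y => y (mv i a) (.inl (w i)) = pv γ) (fun y => y a (.inr i) = pv γ)
    (fun j _ u v e => e.keep hi (by simp [getI, cp])) (fun j _ u v e hu hv => ?_)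
    (List.mem_finRange i) h0 hy
  by_cases hj : i = j
  · exact h0 _ _ (hj ▸ e) hu
  · exact e.keep ha (by simp [getI, cp, hj]) hv

variable {ρ : Fin W → Option Bool}

/-- the defined readings are stored in the input registers. -/
def Kn (ρ : Fin W → Option Bool) (a : A) (y : A → Reg W → Val) : Prop :=
  ∀ i γ, ρ i = some γ → y a (.inr i) = pv γ

theorem Kn.ch {l : List (Ins W)} (h : Ch (Step mv lb Gd) l y z) (ha : Gd a)
    (hl : ∀ I ∈ l, ∀ i, .inr i ≠ I.d) (hy : Kn ρ a y) : Kn ρ a z :=
  fun i γ e => h.keep ha (fun I hI e => absurd e (hl I hI i)) (hy i γ e)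

theorem Kn.step (h : Step mv lb Gd I y z) (ha : Gd a) (hl : ∀ i, .inr i ≠ I.d) (hy : Kn ρ a y) :
    Kn ρ a z := fun i γ e => h.keep ha (fun e => absurd e (hl i)) (hy i γ e)

theorem blk_kn {μ : Fin W → Option Bool} (h : Ch (Step mv lb Gd) (blkI μ) y z) (ha : Gd a)
    (hy : Kn ρ a y) : Kn ρ a z :=
  hy.ch h ha (by simp [blkI, iniI, litI, orI, or_imp, forall_and])

theorem blk_keep {μ : Fin W → Option Bool} (h : Ch (Step mv lb Gd) (blkI μ) y z) (ha : Gd a)
    (hy : y a acc = pv true) : z a acc = pv true :=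
  h.keep ha (by simp [blkI, iniI, litI, orI, or_imp, forall_and]) hy

theorem blk_true (h : Ch (Step mv lb Gd) (blkI ρ) y z) (ha : Gd a)
    (hf : ∀ r, Res ρ r → lb a r = true) (hy : Kn ρ a y) : z a acc = pv true := by
  obtain ⟨u, e1, e0⟩ := h
  obtain ⟨v, e2, v', e3, rfl⟩ := e0.append
  have h1 : u a trm = pv true := (e1 a ha).2 _ fun _ _ _ _ => by simpa [iniI] using hf
  have h2 := e2.map.inv (fun y => Kn ρ a y ∧ y a trm = pv true) (fun i _ p q e hp => by
    refine ⟨hp.1.step e ha (by simp [litI]), ?_⟩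
    cases hi : ρ i with
    | none => exact e.keep ha (by simp [litI, hi]) hp.2
    | some γ => simpa [litI, hi] using e.set ha hp.2 (hp.1 i γ hi))
    ⟨hy.step e1 ha (by simp [iniI]), h1⟩
  exact e3.put ha h2.2 (by simp [orI])

theorem blk_false {μ : Fin W → Option Bool} (h : Ch (Step mv lb Gd) (blkI μ) y z) (ha : Gd a)
    (hf : ∀ r, Res ρ r → lb a r = false) (hy : Kn ρ a y) (h0 : y a acc = pv false) :
    z a acc = pv false := by
  obtain ⟨u, e1, e0⟩ := h
  obtain ⟨v, e2, v', e3, rfl⟩ := e0.append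
  have h1 : v a acc = pv false := e2.keep ha (by simp [litI]) (e1.keep ha (by simp [iniI]) h0)
  have h2 : v a trm = pv false := by
    by_cases hμ : ∀ r, Res μ r → lb a r = true
    · obtain ⟨i, γ, hi, hi'⟩ : ∃ i γ, ρ i = some γ ∧ μ i = some (!γ) := by
        by_contra hn
        push Not at hn
        have := hf (fun i => (ρ i).getD ((μ i).getD false)) fun i γ e => by simp [e]
        rw [hμ _ fun i γ e => ?_] at this
        · exact absurd this (by simp)
        · cases hi : ρ i with
          | none => simp [e]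
          | some δ =>
            have := hn i δ hi
            rw [e] at this
            cases γ <;> cases δ <;> simp_all
      exact e2.map.hit (Kn ρ a) (fun y => y a trm = pv false)
        (fun j _ p q e hp => hp.step e ha (by simp [litI]))
        (fun j _ p q e _ hp => e.keep ha (by simp [litI]) hp) (List.mem_finRange i)
        (fun p q e hp => e.put ha (hp i γ hi) (by simp [litI, hi'])) (hy.step e1 ha (by simp [iniI]))
    · have h3 : u a trm = pv false :=
        (e1 a ha).2 _ fun _ _ _ _ => by simpa only [iniI, decide_eq_false_iff_not] using hμ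
      exact e2.keep ha (by simp [litI]) h3
  exact e3.set ha h1 h2

theorem prog_sound {w : Fin W → Bool} {n : ℕ}
    (h : Ch (Step mv lb Gd) (prog w ++ List.replicate n skip) y z) (ha : Gd a)
    (hi : ∀ i, Gd (mv i a)) : HF (fun i => rd (w i) (y (mv i a) acc)) (lb a) (z a acc) := by
  intro β hf
  obtain ⟨u, ⟨u1, e1, e0⟩, e5⟩ := h.append
  obtain ⟨u2, e2, u3, e3, e4⟩ := e0.append
  refine e5.keep ha (fun I hI _ v => by rw [List.eq_of_mem_replicate hI]; rfl) ?_
  have h1 : Kn (fun i => rd (w i) (y (mv i a) acc)) a u3 := by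
    refine Kn.step e3 ha (by simp) fun i γ e => get_sound e2 ha (hi i) ?_
    cases hw : w i
    · exact (e1 _ (hi i)).1 _ _ (by simp [cp]) (by simpa only [hw] using e)
    · exact (e1 _ (hi i)).2 _ fun _ v _ hv => hv γ (by simpa only [hw, src, cp] using e)
  have h2 : u3 a acc = pv false := (e3 a ha).2 _ fun _ _ _ _ => rfl
  cases β
  · exact (e4.flatMap.inv (fun y' => Kn _ a y' ∧ y' a acc = pv false) (fun μ _ p q e hp =>
      ⟨blk_kn e ha hp.1, blk_false e ha hf hp.1 hp.2⟩) ⟨h1, h2⟩).2
  · exact e4.flatMap.hit (Kn _ a) (fun y' => y' a acc = pv true)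
      (fun μ _ p q e hp => blk_kn e ha hp) (fun μ _ p q e _ hp => blk_keep e ha hp)
      (Finset.mem_toList.2 (Finset.mem_univ _)) (fun p q e hp => blk_true e ha hf hp) h1

end Vale.Agent.P330.Amp.Cmp
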