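import Vale.Agent.P330.InstPT
import Vale.Agent.P330.CompA

/-! Reduction of the fan-in to two (task Compile).
New small bits BELOW the old ones name a register; one old layer becomes `2 ^ om W` layers, which
execute the program `prog` of `CompA` (one instruction per layer, all other registers copy).
Decoder: old `(t, a)` = accumulator of `a` at the last sublayer of `t`. Loss: union bound. -/

namespace Vale.Agent.P330.Amp

open Vale.Agent.Lib.H23 Vale.Agent.P333 Vale.Agent.P325 Finset Matrix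
open scoped BigOperators

namespace Cmp

section addr

variable {b β σ κ : ℕ}

def up (a : Addr b β σ) (e : Vec κ) : Addr b β (κ + σ) := (a.1, Fin.append e a.2)

def dn (a : Addr b β (κ + σ)) : Addr b β σ := (a.1, fun i => a.2 (Fin.natAdd κ i))

def ex (a : Addr b β (κ + σ)) : Vec κ := fun i => a.2 (Fin.castAdd σ i)

theorem dn_up (a : Addr b β σ) (e : Vec κ) : dn (up a e) = a :=
  Prod.ext rfl (funext fun i => Fin.append_right _ _ i)

theorem ex_up (a : Addr b β σ) (e : Vec κ) : ex (up a e) = e :=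
  funext fun i => Fin.append_left _ _ i

theorem up_dn_ex (a : Addr b β (κ + σ)) : up (dn a) (ex a) = a :=
  Prod.ext rfl (Fin.append_castAdd_natAdd (f := a.2))

def upEquiv (b β σ κ : ℕ) : Addr b β σ × Vec κ ≃ Addr b β (κ + σ) where
  toFun p := up p.1 p.2
  invFun a := (dn a, ex a)
  left_inv p := Prod.ext (dn_up _ _) (ex_up _ _)
  right_inv := up_dn_ex

theorem expect_up (f : Addr b β (κ + σ) → ℝ) : (𝔼 a, f a) = 𝔼 a, 𝔼 e, f (up a e) := by
  rw [← expect_product' univ univ fun a e => f (up a e), univ_product_univ]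
  exact (Fintype.expect_equiv (upEquiv b β σ κ) _ _ fun _ => rfl).symm

theorem dn_unidx (m : ℕ) : dn (unidx b β (κ + σ) m) = unidx b β σ (m / 2 ^ κ) := by
  refine Prod.ext (funext fun l => funext fun i => ?_) (funext fun i => ?_)
  · simp only [dn, unidx, Nat.testBit_div_two_pow]
    congr 2
    omega
  · simp only [dn, unidx, ofN, Nat.testBit_div_two_pow, Fin.val_natAdd, add_comm]

theorem ex_unidx (m : ℕ) : ex (unidx b β (κ + σ) m) = ofN κ m := rfl

theorem up_unidx (m : ℕ) (e : Vec κ) :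
    up (unidx b β σ m) e = unidx b β (κ + σ) (m * 2 ^ κ + toN e) := by
  have h := toN_lt e
  rw [← up_dn_ex (unidx b β (κ + σ) _), dn_unidx, ex_unidx, ← ofN_mod, Nat.mul_add_mod_of_lt h,
    ofN_toN, add_comm (m * _), Nat.add_mul_div_right _ _ (Nat.two_pow_pos _), Nat.div_eq_of_lt h, zero_add]

def lift (κ : ℕ) : Op → Op
  | .E l l' ρ => .E l l' ρ
  | .N l => .N l
  | .Tr v => .Tr (v * 2 ^ κ)

theorem act_lift (g : Fin 7 → Mat β) (o : Op) (a : Addr b β σ) (e : Vec κ) :
    act g (lift κ o) (up a e) = up (act g o a) e := by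
  cases o with
  | E l l' ρ => rfl
  | N l => rfl
  | Tr v =>
    refine Prod.ext rfl (funext fun i => ?_)
    refine Fin.addCases (fun i => ?_) (fun i => ?_) i <;>
      simp [act, actS, lift, up, ofN, Nat.testBit_mul_two_pow, b2]

theorem act_toN (g : Fin 7 → Mat β) (v : Vec κ) (a : Addr b β σ) (e : Vec κ) :
    act g (.Tr (toN v)) (up a e) = up a (e + v) := by
  refine Prod.ext rfl (funext fun i => ?_)
  refine Fin.addCases (fun i => ?_) (fun i => ?_) i
  · simp [act, actS, up, ofN, testBit_toN, b2_decide]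
  · have := Nat.testBit_lt_two_pow ((toN_lt v).trans_le
      (Nat.pow_le_pow_right two_pos (Nat.le_add_right κ i)))
    simp [act, actS, up, ofN, this, b2]

end addr

theorem expect_time (τ ω : ℕ) (f : ℕ → ℝ) : (𝔼 t : Fin (2 ^ (τ + ω)), f t) =
    𝔼 t : Fin (2 ^ τ), 𝔼 j : Fin (2 ^ ω), f (t * 2 ^ ω + j) := by
  rw [ib_expect2 _ _ fun t j => f (t * 2 ^ ω + j), ← pow_add, Fintype.expect_eq_sum_div_card,
    Fintype.card_fin, sum_range]
  simp only [Nat.div_add_mod']

theorem expect_split {b β σ κ : ℕ} (τ ω : ℕ) (F : ℕ → Addr b β (κ + σ) → ℝ) :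
    (𝔼 t : Fin (2 ^ (τ + ω)), 𝔼 a, F t a) =
      𝔼 t : Fin (2 ^ τ), 𝔼 a, 𝔼 j : Fin (2 ^ ω), 𝔼 e, F (t * 2 ^ ω + j) (up a e) := by
  refine (expect_time τ ω fun t => 𝔼 a, F t a).trans (expect_congr rfl fun t _ => ?_)
  simp only [expect_up]
  rw [expect_comm]

theorem le_card_mul {ι : Type} [Fintype ι] {f : ι → ℝ} (hf : ∀ i, 0 ≤ f i) (i : ι) :
    f i ≤ Fintype.card ι * 𝔼 i, f i := by
  rw [Fintype.card_mul_expect]
  exact single_le_sum (fun i _ => hf i) (mem_univ i)

variable {W : ℕ}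

theorem reg_emb (W : ℕ) : Nonempty (Reg W ↪ Vec (W + 1)) := by
  refine Function.Embedding.nonempty_of_card_le ?_
  have := Nat.lt_two_pow_self (n := W + 1)
  simp only [Fintype.card_sum, Fintype.card_bool, Fintype.card_fin, Fintype.card_fun, ZMod.card]
  omega

noncomputable def rc : Reg W ↪ Vec (W + 1) := (reg_emb W).some

noncomputable def om (W : ℕ) : ℕ := ∑ w : Fin W → Bool, (prog w).length

noncomputable def prg (w : Fin W → Bool) : List (Ins W) :=
  prog w ++ List.replicate (2 ^ om W - (prog w).length) skip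

theorem length_prg (w : Fin W → Bool) : (prg w).length = 2 ^ om W := by
  have h1 : (prog w).length ≤ om W :=
    single_le_sum (f := fun w : Fin W → Bool => (prog w).length) (fun _ _ => Nat.zero_le _)
      (mem_univ w)
  have h2 := Nat.lt_two_pow_self (n := om W)
  rw [prg, List.length_append, List.length_replicate]
  omega

noncomputable def opI (I : Ins W) (o : Fin W → Op) : Op :=
  match I.s with
  | .inl q => .Tr (toN (rc I.d + rc q))
  | .inr i => lift (W + 1) (o i)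

noncomputable def labI (I : Ins W) (e : Vec (W + 1)) (f : Lb W) : Lb 2 :=
  fun r => if e = rc I.d then I.g f (r 0) (r 1) else r 0

noncomputable def ins (G : Inst W) (t : ℕ) : Ins W :=
  (prg (G.win (t / 2 ^ om W))).getD (t % 2 ^ om W) skip

noncomputable def cmpI (G : Inst W) : Inst 2 where
  b := G.b
  β := G.β
  σ := W + 1 + G.σ
  τ := G.τ + om W
  k0 := G.k0
  gens := G.gens
  op t := ![.Tr 0, opI (ins G t) (G.nop (t / 2 ^ om W))]
  win _ := ![false, true]
  lab t a := labI (ins G t) (ex a) (G.lab (t / 2 ^ om W) (dn a))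

variable (G : Inst W) (x : ℕ → Addr G.b G.β (W + 1 + G.σ) → Val)

theorem step_of_sat (t : ℕ) (Gd : G.A → Prop) (h : ∀ a, Gd a → ∀ e, (cmpI G).sat x t (up a e)) :
    Step (fun i => act G.gens (G.op (t / 2 ^ om W) i)) (G.lab (t / 2 ^ om W)) Gd (ins G t)
      (fun a r => x ((cmpI G).prev t) (up a (rc r))) fun a r => x t (up a (rc r)) := by
  intro a ha
  have h0 : ∀ e, act G.gens (.Tr 0) (up a e) = up (κ := W + 1) a e := fun e => act_zero _ _
  refine ⟨fun r γ hr e => h a ha _ γ fun ρ hρ => ?_, fun β hg => h a ha _ β fun ρ hρ => ?_⟩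
  · simp only [cmpI, labI, ex_up]
    rw [if_neg fun e' => hr (rc.injective e')]
    exact hρ 0 γ ((congrArg (fun b => rd false (x _ b)) (h0 _)).trans e)
  · simp only [cmpI, labI, ex_up, dn_up, if_true]
    refine hg _ _ (fun γ e => hρ 0 γ ((congrArg (fun b => rd false (x _ b)) (h0 _)).trans e))
      fun γ e => hρ 1 γ ?_
    rw [← e]
    change rd true (x _ (act G.gens (opI (ins G t) (G.nop (t / 2 ^ om W))) (up a _))) = _
    unfold opI src
    cases (ins G t).s with
    | inl q => simp only [act_toN, ← add_assoc, vec_add_self, zero_add]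
    | inr i => simp only [act_lift, Inst.nop, act_nrm]

theorem prev_add {W : ℕ} (G : Inst W) {t : ℕ} (h : t < 2 ^ G.τ) : G.prev (t + 1) = t := by
  rw [Inst.prev, show t + 1 + 2 ^ G.τ - 1 = t + 2 ^ G.τ by omega, Nat.add_mod_right,
    Nat.mod_eq_of_lt h]

theorem time_lt {t j : ℕ} (ht : t < 2 ^ G.τ) (hj : j < 2 ^ om W) :
    t * 2 ^ om W + j < 2 ^ (cmpI G).τ := by
  change _ < 2 ^ (G.τ + om W)
  rw [pow_add]
  nlinarith

theorem prev_mul {t : ℕ} (ht : t < 2 ^ G.τ) :
    (cmpI G).prev (t * 2 ^ om W) = G.prev t * 2 ^ om W + (2 ^ om W - 1) := by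
  have hL := Nat.two_pow_pos (om W)
  have key : ∀ s < 2 ^ G.τ, (cmpI G).prev ((s + 1) * 2 ^ om W) = s * 2 ^ om W + (2 ^ om W - 1) :=
    fun s hs => by
      rw [← prev_add _ (time_lt G hs (j := 2 ^ om W - 1) (by omega)), add_mul]
      congr 1
      omega
  cases t with
  | zero =>
    rw [zero_mul, Inst.prev_zero, Inst.prev_zero]
    change 2 ^ (G.τ + om W) - 1 = _
    obtain ⟨s, hs⟩ : ∃ s, 2 ^ G.τ = s + 1 := ⟨2 ^ G.τ - 1, by omega⟩
    rw [pow_add, hs, add_mul, Nat.add_sub_cancel]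
    omega
  | succ s => rw [key s (by omega), G.prev_succ ht]

/-- the decoded assignment. -/
noncomputable def dec (t : ℕ) (a : G.A) : Val := x (t * 2 ^ om W + (2 ^ om W - 1)) (up a (rc acc))

/-- all new nodes that belong to the old node `(t, a)` are satisfied. -/
def Gd (t : ℕ) (a : G.A) : Prop :=
  ∀ (j : Fin (2 ^ om W)) e, (cmpI G).sat x (t * 2 ^ om W + j) (up a e)

theorem sat_dec {t : ℕ} (ht : t < 2 ^ G.τ) {a : G.A} (ha : Gd G x t a)
    (hi : ∀ i, Gd G x t (act G.gens (G.op t i) a)) : G.sat (dec G x) t a := by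
  have hL := Nat.two_pow_pos (om W)
  have h := Ch.of_seq (R := Step (fun i => act G.gens (G.op t i)) (G.lab t) (Gd G x t))
    (prg (G.win t)) skip (fun j a r => x ((cmpI G).prev (t * 2 ^ om W + j)) (up a (rc r)))
    fun j hj => by
      rw [length_prg] at hj
      have h1 : (t * 2 ^ om W + j) / 2 ^ om W = t := by
        rw [add_comm, Nat.add_mul_div_right _ _ hL, Nat.div_eq_of_lt hj, zero_add]
      have := step_of_sat G x (t * 2 ^ om W + j) (Gd G x t) fun a ha e => ha ⟨j, hj⟩ e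
      rw [ins, h1, Nat.mul_add_mod_of_lt hj] at this
      rw [← add_assoc, prev_add _ (time_lt G ht hj)]
      exact this
  rw [length_prg, add_zero, prev_mul G ht, show t * 2 ^ om W + 2 ^ om W =
    t * 2 ^ om W + (2 ^ om W - 1) + 1 by omega, prev_add _ (time_lt G ht (by omega))] at h
  exact prog_sound h ha hi

theorem viol_dec : G.viol (dec G x) ≤ ((W + 1) * (2 ^ om W * 2 ^ (W + 1)) : ℕ) * (cmpI G).viol x := by
  set B : ℕ → G.A → ℝ := fun t a => (2 ^ om W * 2 ^ (W + 1) : ℕ) *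
    𝔼 j : Fin (2 ^ om W), 𝔼 e, ind (¬ (cmpI G).sat x (t * 2 ^ om W + j) (up a e)) with hB
  have h0 : ∀ t a, 0 ≤ B t a := fun t a => mul_nonneg (Nat.cast_nonneg _)
    (expect_nonneg fun _ _ => expect_nonneg fun _ _ => ind_nonneg _)
  have h1 : ∀ t a, ¬ Gd G x t a → 1 ≤ B t a := fun t a h => by
    simp only [Gd, not_forall] at h
    obtain ⟨j, e, h⟩ := h
    have e1 := le_card_mul (f := fun e => ind (¬ (cmpI G).sat x (t * 2 ^ om W + j) (up a e)))
      (fun _ => ind_nonneg _) e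
    have e2 := le_card_mul (f := fun j : Fin (2 ^ om W) =>
      𝔼 e, ind (¬ (cmpI G).sat x (t * 2 ^ om W + j) (up a e)))
      (fun _ => expect_nonneg fun _ _ => ind_nonneg _) j
    rw [ind_of h] at e1
    simp only [Fintype.card_fun, ZMod.card, Fintype.card_fin] at e1 e2
    refine e1.trans ((mul_le_mul_of_nonneg_left e2 (Nat.cast_nonneg _)).trans_eq ?_)
    rw [hB, Nat.cast_mul]
    ring
  have h2 : ∀ (t : Fin (2 ^ G.τ)) a, ind (¬ G.sat (dec G x) t a) ≤
      B t a + ∑ i, B t (act G.gens (G.op t i) a) := fun t a => by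
    have hs : 0 ≤ ∑ i, B t (act G.gens (G.op t i) a) := sum_nonneg fun _ _ => h0 _ _
    by_cases ha : Gd G x t a
    · by_cases hi : ∀ i, Gd G x t (act G.gens (G.op t i) a)
      · rw [ind_of_not (not_not.2 (sat_dec G x t.2 ha hi))]
        exact add_nonneg (h0 _ _) hs
      · obtain ⟨i, hi⟩ := not_forall.1 hi
        exact (ind_le_one _).trans ((h1 _ _ hi).trans ((single_le_sum (f := fun i =>
          B t (act G.gens (G.op t i) a)) (fun _ _ => h0 _ _) (mem_univ i)).trans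
          (le_add_of_nonneg_left (h0 _ _))))
    · exact (ind_le_one _).trans ((h1 _ _ ha).trans (le_add_of_nonneg_right hs))
  refine (expect_le_expect fun t _ => expect_le_expect fun a _ => h2 t a).trans_eq ?_
  have h3 : (cmpI G).viol x = 𝔼 t : Fin (2 ^ G.τ), 𝔼 a : G.A, 𝔼 j : Fin (2 ^ om W), 𝔼 e,
      ind (¬ (cmpI G).sat x (t * 2 ^ om W + j) (up a e)) :=
    expect_split G.τ (om W) fun t a => ind (¬ (cmpI G).sat x t a)
  rw [h3, mul_expect]
  refine expect_congr rfl fun t _ => ?_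
  rw [expect_add_distrib, expect_sum_comm]
  simp only [expect_act G.gens _ (B t), sum_const, card_univ, Fintype.card_fin, nsmul_eq_mul]
  rw [hB, ← mul_expect, Nat.cast_mul (W + 1), Nat.cast_add_one]
  ring

section pt

variable {X : Type} [Enc X]

theorem pt_lift (κ : ℕ) {o : X → Op} (ho : PT o) : PT fun x => lift κ (o x) :=
  (pt_opCases ho (fE := fun _ l l' ρ => Op.E l l' ρ) (fN := fun _ l => Op.N l)
    (fT := fun _ v => Op.Tr (v * 2 ^ κ)) (fun ρ => pt_opE PT.snd'.fst PT.snd'.snd ρ)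
    (pt_opN PT.snd') (pt_opTr (PT.snd'.mul (PT.const _)))).congr fun x => by cases o x <;> rfl

theorem pt_codeVec (κ : ℕ) {m : X → ℕ} (hm : PT m) :
    PT fun x => (⟨ofN κ (m x)⟩ : Code (Vec κ)) :=
  pt_codeFun fun i => pt_mk b2 (pt_codeBool (pt_testBit hm (PT.const (i : ℕ))))

theorem div_lt {G : Inst W} {t : ℕ} (h : t < 2 ^ (cmpI G).τ) : t / 2 ^ om W < 2 ^ G.τ :=
  Nat.div_lt_of_lt_mul (by rwa [← pow_add, add_comm])

theorem pt_ins {Y : Type} [Enc Y] {G : X → Inst W} (hG : PT G) {t : X → ℕ} (ht : PT t)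
    (h : ∀ x, t x < 2 ^ (cmpI (G x)).τ) {g : Ins W → X → Y} (hg : ∀ I, PT (g I)) :
    PT fun x => g (ins (G x) (t x)) x :=
  pt_caseCode (g := fun (w : Fin W → Bool) x => g ((prg w).getD (t x % 2 ^ om W) skip) x)
    (pt_codeFun fun i => pt_codeBool (pt_win hG (ht.div (PT.const _)) (fun x => div_lt (h x)) i))
    fun w => pt_caseCode (g := fun (j : Fin (2 ^ om W)) x => g ((prg w).getD j skip) x)
      (pt_codeFin (k := fun x => ⟨t x % 2 ^ om W, Nat.mod_lt _ (Nat.two_pow_pos _)⟩)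
        (pt_mod ht (PT.const _))) fun _ => hg _

theorem pt_insLab {V κ : ℕ} (F : Ins W → Vec κ → Lb W → Lb V) {G : X → Inst W} (hG : PT G)
    {t m : X → ℕ} (ht : PT t) (h : ∀ x, t x < 2 ^ (cmpI (G x)).τ) (hm : PT m) {c : X → Code (Lb W)}
    (hc : PT c) : PT fun x => (⟨F (ins (G x) (t x)) (ofN κ (m x)) (c x).val⟩ : Code (Lb V)) :=
  pt_ins hG ht h (g := fun I x => (⟨F I (ofN κ (m x)) (c x).val⟩ : Code (Lb V)))
    fun I => pt_mk2 (F I) (pt_codeVec κ hm) hc

theorem nA_cmpI (G : Inst W) : (cmpI G).nA = G.nA * 2 ^ (W + 1) := by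
  rw [Inst.nA, Inst.nA, ← pow_add]
  congr 1
  change W + 1 + G.σ + G.b * G.β = _
  omega

theorem pt_cmpI : PT (cmpI : Inst W → Inst 2) := by
  have hG : PT fun G : Inst W => G := PT.id
  refine pt_inst (pu_b hG :) (pu_β hG :) ((PU.const _).add (pu_σ hG))
    ((pu_τ hG).add (PU.const _)) (pt_k0 hG :) (pt_gtab hG :) ?_ ?_ (Fin.forall_fin_two.2 ⟨PT.const _, ?_⟩) (fun i => PT.const _) ?_
  · exact ((pu_T hG).mul (PU.const (2 ^ om W))).congr fun G => congrArg _ (pow_add _ _ _)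
  · exact ((pu_nA hG).mul (PU.const (2 ^ (W + 1)))).congr fun G => congrArg _ (nA_cmpI G)
  · have h1 := (pt_val (PT.id (α := {p : Inst W × ℕ // p.2 < 2 ^ (cmpI p.1).τ})))
    refine pt_ins h1.fst h1.snd (fun x => x.2)
      (g := fun I x => opI I (x.1.1.nop (x.1.2 / 2 ^ om W))) fun I => ?_
    unfold opI
    cases I.s with
    | inl q => exact PT.const _
    | inr i => exact pt_lift _ (pt_nop h1.fst (h1.snd.div (PT.const _)) (fun x => div_lt x.2) i)
  · have h1 := (pt_val (PT.id (α := {p : Inst W × ℕ × ℕ //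
      p.2.1 < 2 ^ (cmpI p.1).τ ∧ p.2.2 < (cmpI p.1).nA})))
    have h2 := pt_lab h1.fst (h1.snd.fst.div (PT.const (2 ^ om W)))
      (h1.snd.snd.div (PT.const (2 ^ (W + 1)))) (fun x => div_lt x.2.1)
      fun x => Nat.div_lt_of_lt_mul (by rw [mul_comm, ← nA_cmpI]; exact x.2.2)
    refine (pt_insLab labI h1.fst h1.snd.fst (fun x => x.2.1) h1.snd.snd h2).congr fun x => ?_
    rw [← dn_unidx]
    rfl

theorem pt_dec : PT fun p : Inst W × Asg => p.1.mkAsg (dec p.1 ((cmpI p.1).val p.2)) := by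
  refine pt_mkAsg PT.fst' (f := fun p : Inst W × Asg => dec p.1 ((cmpI p.1).val p.2)) ?_
  have h1 := (pt_val (PT.id (α := {p : (Inst W × Asg) × ℕ × ℕ //
    p.2.1 < 2 ^ p.1.1.τ ∧ p.2.2 < p.1.1.nA})))
  refine (pt_valN (pt_cmpI.comp h1.fst.fst) h1.fst.snd
    ((h1.snd.fst.mul (PT.const (2 ^ om W))).add (PT.const (2 ^ om W - 1)))
    ((h1.snd.snd.mul (PT.const (2 ^ (W + 1)))).add (PT.const (toN (rc (W := W) acc))))
    fun x => ?_).congr fun x => ?_
  · have h2 := toN_lt (rc (W := W) acc)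
    have h3 := x.2.2
    rw [nA_cmpI]
    nlinarith
  · exact congrArg (fun a => ((cmpI x.1.1.1).val x.1.1.2 _ a : ℕ)) (up_unidx _ _)

end pt

end Cmp

open Cmp in
theorem compile : CompileStmt := by
  intro W
  have h1 : 0 < 2 ^ om W := Nat.two_pow_pos _
  have h2 : 0 < 2 ^ (W + 1) := Nat.two_pow_pos _
  refine ⟨(W + 1) * (2 ^ om W * 2 ^ (W + 1)), cmpI, fun G => ⟨rfl, rfl, rfl, ?_, ?_, id⟩, pt_cmpI,
    _, pt_dec, fun G s => ?_⟩
  · change W + 1 + G.σ ≤ _
    have := Nat.le_mul_of_pos_right (W + 1) (Nat.mul_pos h1 h2)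
    omega
  · change 2 ^ (G.τ + om W) ≤ _
    rw [pow_add, mul_comm]
    exact Nat.mul_le_mul_right _ ((Nat.le_mul_of_pos_right _ h2).trans
      (Nat.le_mul_of_pos_left _ W.succ_pos))
  · exact (G.violA_mkAsg _).trans_le (viol_dec G _)

end Vale.Agent.P330.Amp
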