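import Vale.Agent.P330.DnfDefs

/-! From named circuits with gates in disjunctive normal form to pure circuits.

Plan.  Step 1 (expand): names `Nm × ℕ × ℕ × ℕ`, written `(z, t, l, k)`; entries
`(name, kind, a, b)` with `Nor`, `Up`, `Down` gates.  For an entry `(z, g)` of `L` let `W` bound the
number of terms and the lengths of the terms of `g` (e.g. `W = T.length + (T.map length).sum + 1`)
and generate one entry for every `(t, l, k)` with `t ≤ W`, `l ≤ W`, `k < 11` by a function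
`ent e t l k`; so entries with equal names are equal (use the hypothesis on `L`).  The node `v` of
`L` is `(v, 0, 0, 0)`.
* constant false: `U = Up c`, `D = Down c`, `ND = Nor D D`, `F = Nor U ND` for any node `c`
  (if `2 ≤ c` then `U ≥ 3`, else `D = 0` and `ND ≥ 3`; so `F = 0` always);
* for the literal `l` of term `t`: `y t l` is the negated literal (the node itself if the sign is
  false, otherwise the node `Nor a a`);
* chain `o t 0 = Up F`, `m t l = Nor (o t l) (y t l)`, `o t (l+1) = Nor (m t l) (m t l)`; the term is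
  `A t = Nor (o t len) (o t len)`; the same chain over the terms, `O 0 = Up F`,
  `O (t+1) = O t ∨ A t`; finally `(z,0,0,0) = Up (O T.length)` (`Up` copies pure values);
* for kind `≠ 0`, `(z,0,0,0)` is the gate itself.
Induction along a chain: if some `y` so far is `≥ 3` then `o ≥ 3`; if all are `0` then `o = 0`.
Step 2 (compress): add one dummy entry in front if you need nonemptiness; replace names by
`idx v =` position of the first entry with name `v` (or `0` if there is none), e.g.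
`(names.takeWhile (· ≠ v)).length % names.length` or a `countP`/`findIdx` computed by a fold;
`σ v = x.getD (idx v) 0`.  For an entry `e`, the entry at position `idx e.1` is `e`.
Polynomial time: `PT.map`, `pt_flatMap`, `pt_rangeLen`, `pt_ite`, `pt_decEq`, `PT.getD`, `PU`
(see `Vale/Agent/P325/PTF.lean`, `P333/PTa.lean`, `Lib/helper23`). -/

namespace Vale.Agent.P330

open Vale.Agent.Lib.H23 Vale.Agent.P333 Vale.Agent.P325

namespace Dnf

/-- names of the expanded circuit -/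
abbrev N : Type := Nm × ℕ × ℕ × ℕ

/-- named entries -/
abbrev NE : Type := N × ℕ × N × N

/-- equality test for names -/
def eqN (v w : N) : Bool :=
  eqb v.1.1 w.1.1 && eqb v.1.2.1 w.1.2.1 && eqb v.1.2.2.1 w.1.2.2.1 && eqb v.1.2.2.2 w.1.2.2.2 &&
    eqb v.2.1 w.2.1 && eqb v.2.2.1 w.2.2.1 && eqb v.2.2.2 w.2.2.2

theorem eqN_iff {v w : N} : eqN v w = true ↔ v = w := by
  simp only [eqN, eqb_eq, Bool.and_eq_true, decide_eq_true_eq, Prod.ext_iff, and_assoc]

/-- a dummy entry -/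
def e0 : NE := (((0, 0, 0, 0), 0, 0, 0), 0, ((0, 0, 0, 0), 0, 0, 0), ((0, 0, 0, 0), 0, 0, 0))

/-- position of the first entry with a given name -/
def idx (E : List NE) (v : N) : ℕ := ((E.zipIdx.filter fun p => eqN p.1.1 v).headD (e0, 0)).2

/-- names replaced by positions -/
def cmp (E : List NE) : PC :=
  (E.map fun e => (e.2.1, idx E e.2.2.1, idx E e.2.2.2)) ++ [(0, 0, 0)]

theorem idx_le (E : List NE) (v : N) : idx E v ≤ E.length := by
  unfold idx
  rcases headD_mem (E.zipIdx.filter fun p => eqN p.1.1 v) (e0, 0) with h | h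
  · rw [h]
    exact Nat.zero_le _
  · exact (List.snd_lt_of_mem_zipIdx (List.mem_filter.1 h).1).le

theorem idx_spec {E : List NE} (hE : ∀ e ∈ E, ∀ e' ∈ E, e.1 = e'.1 → e = e') {e : NE}
    (he : e ∈ E) : E[idx E e.1]? = some e := by
  obtain ⟨i, hi⟩ := List.mem_iff_getElem?.1 he
  have h1 : (e, i) ∈ E.zipIdx.filter fun p => eqN p.1.1 e.1 :=
    List.mem_filter.2 ⟨List.mem_zipIdx_iff_getElem?.2 hi, eqN_iff.2 rfl⟩
  obtain ⟨p, l, hp⟩ := List.exists_cons_of_ne_nil (List.ne_nil_of_mem h1)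
  have h2 := List.mem_filter.1 (hp ▸ List.mem_cons_self : p ∈ E.zipIdx.filter fun p => eqN p.1.1 e.1)
  have h3 := List.mem_zipIdx_iff_getElem?.1 h2.1
  rw [idx, hp, List.headD_cons, h3, hE _ (List.mem_of_getElem? h3) e he (eqN_iff.1 h2.2)]

theorem cmp_wf (E : List NE) : (cmp E).WF := by
  refine ⟨by simp [cmp], fun g hg => ?_⟩
  have hl : (cmp E).length = E.length + 1 := by simp [cmp]
  rw [hl]
  rcases List.mem_append.1 hg with h | h
  · obtain ⟨e, -, rfl⟩ := List.mem_map.1 h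
    exact ⟨Nat.lt_succ_of_le (idx_le _ _), Nat.lt_succ_of_le (idx_le _ _)⟩
  · rw [List.mem_singleton.1 h]
    exact ⟨Nat.succ_pos _, Nat.succ_pos _⟩

theorem cmp_ok {E : List NE} (hE : ∀ e ∈ E, ∀ e' ∈ E, e.1 = e'.1 → e = e') {x : List ℕ}
    (hx : ∀ z < (cmp E).length, (cmp E).OkAt x z) {e : NE} (he : e ∈ E) :
    ok e.2.1 (x.getD (idx E e.2.2.1) 0) (x.getD (idx E e.2.2.2) 0) (x.getD (idx E e.1) 0) := by
  have h1 := idx_spec hE he
  have h2 : idx E e.1 < E.length := (List.getElem?_eq_some_iff.1 h1).1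
  have h3 := hx (idx E e.1) (by simp [cmp]; omega)
  have h4 : (cmp E).getD (idx E e.1) (0, 0, 0) = (e.2.1, idx E e.2.2.1, idx E e.2.2.2) := by
    rw [cmp, List.getD_eq_getElem?_getD, List.getElem?_append_left (by simpa using h2),
      List.getElem?_map, h1]
    rfl
  rwa [PC.OkAt, h4] at h3

@[fun_prop] theorem pt_idx {α : Type} [Enc α] {E : α → List NE} {v : α → N} (hE : PT E)
    (hv : PT v) : PT fun x => idx (E x) (v x) := by
  unfold idx eqN
  fun_prop

theorem pt_cmp : PT cmp := by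
  unfold cmp
  fun_prop

/-- the literal number `l` of the term number `t` -/
def lit (e : Nm × DG) (t l : ℕ) : Nm × Bool := (e.2.2.2.getD t []).getD l (e.1, false)

/-- the gates attached to the entry `e`, the term `t` and the literal `l` -/
def gs (e : Nm × DG) (t l : ℕ) : List (ℕ × N × N) :=
  [bif eqb e.2.1 0 then (1, (e.1, e.2.2.2.length, 0, 9), (e.1, 0, 0, 0))
      else (e.2.1, (e.2.2.1, 0, 0, 0), (e.1, 0, 0, 0)),
    (1, (e.1, 0, 0, 0), (e.1, 0, 0, 0)),
    (2, (e.1, 0, 0, 0), (e.1, 0, 0, 0)),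
    (0, (e.1, 0, 0, 2), (e.1, 0, 0, 2)),
    (0, ((lit e t l).1, 0, 0, 0), ((lit e t l).1, 0, 0, 0)),
    (0, (e.1, t, l, 6), bif (lit e t l).2 then (e.1, t, l, 4) else ((lit e t l).1, 0, 0, 0)),
    bif eqb l 0 then (0, (e.1, 0, 0, 1), (e.1, 0, 0, 3))
      else (0, (e.1, t, l - 1, 5), (e.1, t, l - 1, 5)),
    (0, (e.1, t, (e.2.2.2.getD t []).length, 6), (e.1, t, (e.2.2.2.getD t []).length, 6)),
    (0, (e.1, t, 0, 9), (e.1, t, 0, 7)),
    bif eqb t 0 then (0, (e.1, 0, 0, 1), (e.1, 0, 0, 3))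
      else (0, (e.1, t - 1, 0, 8), (e.1, t - 1, 0, 8))]

/-- the expanded circuit -/
def expand (L : List (Nm × DG)) : List NE :=
  L.flatMap fun e => (rg1 e.2.2.2).flatMap fun t => (rg1 (e.2.2.2.getD t [])).flatMap fun l =>
    (gs e t l).zipIdx.map fun p => ((e.1, t, l, p.2), p.1)

@[fun_prop] theorem pt_lit {α : Type} [Enc α] {e : α → Nm × DG} {t l : α → ℕ} (he : PT e)
    (ht : PT t) (hl : PT l) : PT fun x => lit (e x) (t x) (l x) := by
  unfold lit
  fun_prop

@[fun_prop] theorem pt_gs {α : Type} [Enc α] {e : α → Nm × DG} {t l : α → ℕ} (he : PT e)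
    (ht : PT t) (hl : PT l) : PT fun x => gs (e x) (t x) (l x) := by
  unfold gs
  fun_prop

theorem pt_expand : PT expand := by
  unfold expand
  fun_prop

theorem mem_expand {L : List (Nm × DG)} {a : NE} : a ∈ expand L ↔ ∃ e ∈ L, ∃ t ≤ e.2.2.2.length,
    ∃ l ≤ (e.2.2.2.getD t []).length, ∃ k g, (gs e t l)[k]? = some g ∧ a = ((e.1, t, l, k), g) := by
  simp only [expand, List.mem_flatMap, List.mem_map, rg1, List.mem_range, Nat.lt_succ_iff,
    List.mem_zipIdx_iff_getElem?]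
  refine exists_congr fun e => and_congr_right fun _ => exists_congr fun t =>
    and_congr_right fun _ => exists_congr fun l => and_congr_right fun _ => ?_
  exact ⟨fun ⟨p, h, e⟩ => ⟨p.2, p.1, h, e.symm⟩, fun ⟨k, g, h, e⟩ => ⟨(g, k), h, e.symm⟩⟩

theorem expand_inj {L : List (Nm × DG)} (hL : ∀ e ∈ L, ∀ e' ∈ L, e.1 = e'.1 → e = e') :
    ∀ a ∈ expand L, ∀ b ∈ expand L, a.1 = b.1 → a = b := by
  intro a ha b hb h
  obtain ⟨e, he, t, -, l, -, k, g, hg, rfl⟩ := mem_expand.1 ha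
  obtain ⟨e', he', t', -, l', -, k', g', hg', rfl⟩ := mem_expand.1 hb
  simp only [Prod.mk.injEq] at h
  obtain ⟨h1, rfl, rfl, rfl⟩ := h
  obtain rfl := hL e he e' he' h1
  rw [Option.some.inj (hg.symm.trans hg')]

theorem chain (o m y : ℕ → ℕ) (h0 : o 0 = 0) : ∀ n, (∀ l < n, ok 0 (o l) (y l) (m l)) →
    (∀ l < n, ok 0 (m l) (m l) (o (l + 1))) →
    ((∀ l < n, y l = 0) → o n = 0) ∧ ((∃ l < n, 3 ≤ y l) → 3 ≤ o n)
  | 0, _, _ => ⟨fun _ => h0, fun ⟨_, h, _⟩ => absurd h (Nat.not_lt_zero _)⟩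
  | n + 1, hm, ho => by
    obtain ⟨h1, h2⟩ := chain o m y h0 n (fun l h => hm l (by omega)) fun l h => ho l (by omega)
    obtain ⟨a1, a2⟩ : (o n = 0 ∧ y n = 0 → 3 ≤ m n) ∧ (3 ≤ o n ∨ 3 ≤ y n → m n = 0) :=
      hm n n.lt_succ_self
    obtain ⟨b1, b2⟩ : (m n = 0 ∧ m n = 0 → 3 ≤ o (n + 1)) ∧ (3 ≤ m n ∨ 3 ≤ m n → o (n + 1) = 0) :=
      ho n n.lt_succ_self
    refine ⟨fun h => b2 (Or.inl (a1 ⟨h1 fun l hl => h l (by omega), h n n.lt_succ_self⟩)), ?_⟩
    rintro ⟨l, hl, h⟩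
    have : m n = 0 := by
      rcases (Nat.lt_succ_iff.1 hl).lt_or_eq with e | rfl
      exacts [a2 (Or.inl (h2 ⟨l, e, h⟩)), a2 (Or.inr h)]
    exact b1 ⟨this, this⟩

theorem dok (τ : N → ℕ) (e : Nm × DG)
    (H : ∀ t ≤ e.2.2.2.length, ∀ l ≤ (e.2.2.2.getD t []).length, ∀ k g, (gs e t l)[k]? = some g →
      ok g.1 (τ g.2.1) (τ g.2.2) (τ (e.1, t, l, k))) : DOk (fun v => τ (v, 0, 0, 0)) e.1 e.2 := by
  have z1 := Nat.zero_le e.2.2.2.length
  have z2 := fun t => Nat.zero_le (e.2.2.2.getD t []).length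
  have hF : ∀ r, ok 0 (τ (e.1, 0, 0, 1)) (τ (e.1, 0, 0, 3)) r → r = 0 := by
    intro r h
    have a1 := (H 0 z1 0 (z2 0) 1 _ rfl).1
    have a2 := (H 0 z1 0 (z2 0) 2 _ rfl).2
    have a3 := (H 0 z1 0 (z2 0) 3 _ rfl).1
    refine h.2 ?_
    simp only at a1 a2 a3
    omega
  have hA : ∀ t ≤ e.2.2.2.length,
      ((∀ a ∈ e.2.2.2.getD t [], LitT (fun v => τ (v, 0, 0, 0)) a) → 3 ≤ τ (e.1, t, 0, 7)) ∧
      ((∃ a ∈ e.2.2.2.getD t [], LitF (fun v => τ (v, 0, 0, 0)) a) → τ (e.1, t, 0, 7) = 0) := by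
    intro t ht
    obtain ⟨h1, h2⟩ := chain (fun l => τ (e.1, t, l, 6)) (fun l => τ (e.1, t, l, 5))
      (fun l => τ (bif (lit e t l).2 then (e.1, t, l, 4) else ((lit e t l).1, 0, 0, 0)))
      (hF _ (H t ht 0 (z2 t) 6 _ rfl)) (e.2.2.2.getD t []).length
      (fun l hl => H t ht l hl.le 5 _ rfl) fun l hl => H t ht (l + 1) hl 6 _ rfl
    obtain ⟨a1, a2⟩ := H t ht 0 (z2 t) 7 _ rfl
    have hl : ∀ l (h : l < (e.2.2.2.getD t []).length), lit e t l = (e.2.2.2.getD t [])[l] :=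
      fun l h => List.getD_eq_getElem _ _ h
    refine ⟨fun h => ?_, ?_⟩
    · have := h1 fun l h' => by
        have b1 := h _ (hl l h' ▸ List.getElem_mem h' : lit e t l ∈ _)
        have b2 := (H t ht l h'.le 4 _ rfl).2
        unfold LitT at b1
        cases hs : (lit e t l).2
        · rw [hs] at b1
          exact b1
        · rw [hs] at b1
          exact b2 (Or.inl b1)
      exact a1 ⟨this, this⟩
    · rintro ⟨a, ha, b1⟩
      obtain ⟨l, h', rfl⟩ := List.mem_iff_getElem.1 ha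
      refine a2 (Or.inl (h2 ⟨l, h', ?_⟩))
      rw [← hl l h'] at b1
      have b2 := (H t ht l h'.le 4 _ rfl).1
      unfold LitF at b1
      cases hs : (lit e t l).2
      · rw [hs] at b1
        exact b1
      · rw [hs] at b1
        exact b2 ⟨b1, b1⟩
  obtain ⟨h1, h2⟩ := chain (fun t => τ (e.1, t, 0, 9)) (fun t => τ (e.1, t, 0, 8))
    (fun t => τ (e.1, t, 0, 7)) (hF _ (H 0 z1 0 (z2 0) 9 _ rfl)) e.2.2.2.length
    (fun t ht => H t ht.le 0 (z2 t) 8 _ rfl) fun t ht => H (t + 1) ht 0 (z2 _) 9 _ rfl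
  have h0 := H 0 z1 0 (z2 0) 0 _ rfl
  unfold DOk
  split_ifs with hk
  · rw [hk] at h0
    obtain ⟨a1, a2⟩ := h0
    refine ⟨?_, fun h => a2 (h1 fun t ht => (hA t ht.le).2 ?_)⟩
    · rintro ⟨T, hT, h⟩
      obtain ⟨t, ht, rfl⟩ := List.mem_iff_getElem.1 hT
      refine a1 (le_trans (by norm_num) (h2 ⟨t, ht, (hA t ht.le).1 ?_⟩))
      rwa [List.getD_eq_getElem _ _ ht]
    · rw [List.getD_eq_getElem _ _ ht]
      exact h _ (List.getElem_mem ht)
  · rw [eqb_eq, decide_eq_false hk, cond_false] at h0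
    unfold ok at h0 ⊢
    rw [if_neg hk] at h0 ⊢
    exact h0

end Dnf

open Dnf in
theorem dnf : DnfStmt := by
  refine ⟨fun L => cmp (expand L), fun p => p.1.2.getD (idx (expand p.1.1) (p.2, 0, 0, 0)) 0,
    pt_cmp.comp pt_expand, ?_, fun L => ⟨cmp_wf _, fun hL x hx e he => ?_⟩⟩
  · have := pt_expand
    fun_prop
  · exact dok (fun v => x.getD (idx (expand L) v) 0) e fun t ht l hl k g hg =>
      cmp_ok (expand_inj hL) hx (mem_expand.2 ⟨e, he, t, ht, l, hl, k, g, hg, rfl⟩)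

end Vale.Agent.P330
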