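import Vale.Agent.P330.Pure

/-! Pure circuits with named nodes and gates in disjunctive normal form. -/

namespace Vale.Agent.P330

open Vale.Agent.Lib.H23

/-- names of nodes -/
abbrev Nm : Type := ℕ × ℕ × ℕ × ℕ

/-- A gate `(kind, a, T)`: kind `0` is the disjunction of the terms in `T` (a term is a
conjunction of literals `(node, sign)`), kind `1` is `Up a`, every other kind is `Down a`. -/
abbrev DG : Type := ℕ × Nm × List (List (Nm × Bool))

/-- the literal is purely true -/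
def LitT (σ : Nm → ℕ) (l : Nm × Bool) : Prop := if l.2 then 3 ≤ σ l.1 else σ l.1 = 0

/-- the literal is purely false -/
def LitF (σ : Nm → ℕ) (l : Nm × Bool) : Prop := if l.2 then σ l.1 = 0 else 3 ≤ σ l.1

/-- the gate `g` with output node `z` is satisfied -/
def DOk (σ : Nm → ℕ) (z : Nm) (g : DG) : Prop :=
  if g.1 = 0 then
    ((∃ t ∈ g.2.2, ∀ l ∈ t, LitT σ l) → 3 ≤ σ z) ∧ ((∀ t ∈ g.2.2, ∃ l ∈ t, LitF σ l) → σ z = 0)
  else ok g.1 (σ g.2.1) 0 (σ z)

/-- named circuits with gates in normal form reduce to pure circuits -/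
def DnfStmt : Prop :=
  ∃ (R : List (Nm × DG) → PC) (V : (List (Nm × DG) × List ℕ) × Nm → ℕ), PT R ∧ PT V ∧
    ∀ L, (R L).WF ∧ ((∀ e ∈ L, ∀ e' ∈ L, e.1 = e'.1 → e = e') →
      ∀ x, (∀ z < (R L).length, (R L).OkAt x z) → ∀ e ∈ L, DOk (fun v => V ((L, x), v)) e.1 e.2)

end Vale.Agent.P330
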