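import Vale.Agent.P330.Pure
import Vale.Agent.P371.Brouwer

/-! Existence of approximate solutions of generalized circuits on a grid.

Plan.  Let `η = 1/m`, `cl t = max 0 (min 1 t)`.  On `E = Fin G.nodes → ℝ` define the continuous map
`F x v = cl (φ g x)` where `g` is the gate with output `v` (`List.find?`; value `0` if there is
none), `X = ` extension of `x` by `0` to `ℕ`, and
`φ`: const `α`; scale `α * X a`; copy; add; sub;
less `1/2 + m * (X b - X a)`; not `1/2 + m * (1/2 - X a)`;
or `1/2 + m * (max (X a) (X b) - 1/2)`; and: the same with `min`.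
`‖F x‖ ≤ 1`, so `Vale.Agent.P371.brouwer_bounded` gives `x = F x`, with all values in `[0,1]`.
Put `y v = ⌊m * X v⌋₊`, so `0 ≤ X v - y v / m < η`; check the nine gates (tolerance `4η ≤ 1/4`).
By `Nodup` of the outputs the gate found for `v = g.data.2.2.2` is `g`. -/

namespace Vale.Agent.P330

/-- clamp to the unit interval -/
noncomputable def exCl (t : ℝ) : ℝ := max 0 (min 1 t)

theorem exCl_nonneg (t : ℝ) : 0 ≤ exCl t := le_max_left _ _

theorem exCl_le_one (t : ℝ) : exCl t ≤ 1 := max_le zero_le_one (min_le_left _ _)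

theorem exCl_one {t : ℝ} (h : 1 ≤ t) : exCl t = 1 := by
  rw [exCl, min_eq_left h, max_eq_right zero_le_one]

theorem exCl_zero {t : ℝ} (h : t ≤ 0) : exCl t = 0 :=
  max_eq_left ((min_le_right _ _).trans h)

theorem exCl_id {t : ℝ} (h0 : 0 ≤ t) (h1 : t ≤ 1) : exCl t = t := by
  rw [exCl, min_eq_right h1, max_eq_right h0]

/-- continuous gate functions -/
noncomputable def exPhi (m : ℝ) (X : ℕ → ℝ) : GGate → ℝ
  | .const α _ => α
  | .scale α a _ => α * X a
  | .copy a _ => X a
  | .add a b _ => X a + X b
  | .sub a b _ => X a - X b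
  | .less a b _ => 1 / 2 + m * (X b - X a)
  | .not a _ => 1 / 2 + m * (1 / 2 - X a)
  | .or a b _ => 1 / 2 + m * (max (X a) (X b) - 1 / 2)
  | .and a b _ => 1 / 2 + m * (min (X a) (X b) - 1 / 2)

theorem exPhi_continuous (m : ℝ) (g : GGate) : Continuous fun X : ℕ → ℝ => exPhi m X g := by
  cases g <;> simp only [exPhi] <;> fun_prop

theorem exist_fix (G : GCircuit) (m : ℝ) (hG : G.Valid) : ∃ X : ℕ → ℝ, (∀ v, 0 ≤ X v ∧ X v ≤ 1) ∧
    ∀ g ∈ G.gates, X g.data.2.2.2 = exCl (exPhi m X g) := by
  classical
  obtain ⟨-, h1, h2⟩ := hG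
  have hinj := List.inj_on_of_nodup_map h2
  have hgt : ∀ v : ℕ, ∃ g' : GGate, ∀ g ∈ G.gates, g.data.2.2.2 = v → g' = g := by
    intro v
    by_cases h : ∃ g ∈ G.gates, g.data.2.2.2 = v
    · obtain ⟨g, hg, e⟩ := h
      exact ⟨g, fun g' hg' e' => hinj hg hg' (e.trans e'.symm)⟩
    · exact ⟨.const 0 0, fun g hg e => absurd ⟨g, hg, e⟩ h⟩
  choose gt hgt using hgt
  let ex : (Fin G.nodes → ℝ) → ℕ → ℝ := fun x v => if h : v < G.nodes then x ⟨v, h⟩ else 0
  have hex : Continuous ex := by
    refine continuous_pi fun v => ?_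
    by_cases h : v < G.nodes
    · simp only [ex, dif_pos h]; fun_prop
    · simp only [ex, dif_neg h]; fun_prop
  have hcl : Continuous exCl := by unfold exCl; fun_prop
  obtain ⟨x, hx⟩ := Vale.Agent.P371.brouwer_bounded
    (f := fun (x : Fin G.nodes → ℝ) (v : Fin G.nodes) => exCl (exPhi m (ex x) (gt v)))
    (continuous_pi fun v => hcl.comp ((exPhi_continuous m _).comp hex)) (C := 1) fun x =>
      (pi_norm_le_iff_of_nonneg zero_le_one).2 fun v => by
        rw [Real.norm_of_nonneg (exCl_nonneg _)]; exact exCl_le_one _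
  refine ⟨ex x, fun v => ?_, fun g hg => ?_⟩
  · by_cases h : v < G.nodes
    · simp only [ex, dif_pos h]
      rw [← congrFun hx ⟨v, h⟩]
      exact ⟨exCl_nonneg _, exCl_le_one _⟩
    · simp only [ex, dif_neg h]
      exact ⟨le_rfl, zero_le_one⟩
  · have h := (h1 g hg).2.2.2
    have e : ex x g.data.2.2.2 = x ⟨_, h⟩ := dif_pos h
    rw [e, ← congrFun hx ⟨_, h⟩, hgt _ g hg rfl]

theorem exist_sat {m η : ℝ} {ε : ℚ} {X : ℕ → ℝ} {Y : ℕ → ℚ} (hm : 16 ≤ m) (hη : m * η = 1)
    (hε : (ε : ℝ) = 4 * η) (hX : ∀ v, 0 ≤ X v ∧ X v ≤ 1)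
    (hY : ∀ v, (Y v : ℝ) ≤ X v ∧ X v ≤ Y v + η) (g : GGate) (h0 : 0 ≤ g.data.2.1)
    (h1 : g.data.2.1 ≤ 1) (h : X g.data.2.2.2 = exCl (exPhi m X g)) : g.Sat ε Y := by
  have hη0 : 0 < η := by
    by_contra hc
    push Not at hc
    nlinarith
  have hη1 : η ≤ 1 / 16 := by nlinarith
  have up : ∀ t : ℝ, 3 * η ≤ t → exCl (1 / 2 + m * t) = 1 := fun t ht =>
    exCl_one (by nlinarith)
  have dn : ∀ t : ℝ, t ≤ -(3 * η) → exCl (1 / 2 + m * t) = 0 := fun t ht =>
    exCl_zero (by nlinarith)
  cases g with
  | const α z =>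
    simp only [GGate.data, exPhi] at h h0 h1
    simp only [GGate.Sat]
    rify at h0 h1 ⊢
    rw [exCl_id h0 h1] at h
    have := hY z
    rw [abs_le]; constructor <;> linarith
  | scale α a z =>
    simp only [GGate.data, exPhi] at h h0 h1
    simp only [GGate.Sat]
    rify at h0 h1 ⊢
    have ha := hX a
    rw [exCl_id (mul_nonneg h0 ha.1) (mul_le_one₀ h1 ha.1 ha.2)] at h
    have := hY z
    have := hY a
    rw [abs_le]; constructor <;> nlinarith
  | copy a z =>
    simp only [GGate.data, exPhi] at h
    simp only [GGate.Sat]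
    rify
    have ha := hX a
    rw [exCl_id ha.1 ha.2] at h
    have := hY z
    have := hY a
    rw [abs_le]; constructor <;> linarith
  | add a b z =>
    simp only [GGate.data, exPhi, exCl] at h
    simp only [GGate.Sat]
    rify
    have := hX a
    have := hX b
    have := hY z
    have := hY a
    have := hY b
    rw [abs_le]
    rcases le_total 1 (X a + X b) with h2 | h2
    · rw [min_eq_left h2, max_eq_right zero_le_one] at h
      rcases le_total ((Y a : ℝ) + Y b) 1 with h3 | h3
      · rw [min_eq_left h3]; constructor <;> linarith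
      · rw [min_eq_right h3]; constructor <;> linarith
    · rw [min_eq_right h2, max_eq_right (by linarith)] at h
      rw [min_eq_left (by linarith)]; constructor <;> linarith
  | sub a b z =>
    simp only [GGate.data, exPhi, exCl] at h
    simp only [GGate.Sat]
    rify
    have := hX a
    have := hX b
    have := hY z
    have := hY a
    have := hY b
    rw [abs_le]
    rw [min_eq_right (by linarith)] at h
    rcases le_total 0 (X a - X b) with h2 | h2
    · rw [max_eq_right h2] at h
      rcases le_total ((Y a : ℝ) - Y b) 0 with h3 | h3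
      · rw [max_eq_right h3]; constructor <;> linarith
      · rw [max_eq_left h3]; constructor <;> linarith
    · rw [max_eq_left h2] at h
      rcases le_total ((Y a : ℝ) - Y b) 0 with h3 | h3
      · rw [max_eq_right h3]; constructor <;> linarith
      · rw [max_eq_left h3]; constructor <;> linarith
  | less a b z =>
    simp only [GGate.data, exPhi] at h
    simp only [GGate.Sat]
    have := hY z
    have := hY a
    have := hY b
    constructor
    · intro h2
      rify at h2 ⊢
      rw [up _ (by linarith)] at h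
      linarith
    · intro h2
      rify at h2 ⊢
      rw [dn _ (by linarith)] at h
      linarith
  | not a z =>
    simp only [GGate.data, exPhi] at h
    simp only [GGate.Sat]
    have := hY z
    have := hY a
    constructor
    · intro h2
      rify at h2 ⊢
      rw [up _ (by linarith)] at h
      linarith
    · intro h2
      rify at h2 ⊢
      rw [dn _ (by linarith)] at h
      linarith
  | or a b z =>
    simp only [GGate.data, exPhi] at h
    simp only [GGate.Sat]
    have := hY z
    have := hY a
    have := hY b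
    constructor
    · intro h2
      rify at h2 ⊢
      have := le_max_left (X a) (X b)
      have := le_max_right (X a) (X b)
      rw [up _ (by rcases h2 with h2 | h2 <;> linarith)] at h
      linarith
    · rintro ⟨h2, h3⟩
      rify at h2 h3 ⊢
      have : max (X a) (X b) ≤ 5 * η := max_le (by linarith) (by linarith)
      rw [dn _ (by linarith)] at h
      linarith
  | and a b z =>
    simp only [GGate.data, exPhi] at h
    simp only [GGate.Sat]
    have := hY z
    have := hY a
    have := hY b
    constructor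
    · rintro ⟨h2, h3⟩
      rify at h2 h3 ⊢
      have : 1 - 4 * η ≤ min (X a) (X b) := le_min (by linarith) (by linarith)
      rw [up _ (by linarith)] at h
      linarith
    · intro h2
      rify at h2 ⊢
      have := min_le_left (X a) (X b)
      have := min_le_right (X a) (X b)
      rw [dn _ (by rcases h2 with h2 | h2 <;> linarith)] at h
      linarith

theorem exist : ExistStmt := by
  intro G m hG hm
  obtain ⟨X, hX, hfix⟩ := exist_fix G m hG
  have hm' : (16 : ℝ) ≤ m := by exact_mod_cast hm
  have hm0 : (0 : ℝ) < m := by linarith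
  refine ⟨fun v => ⌊m * X v⌋₊, fun v => ?_, fun g hg => ?_⟩
  · refine Nat.floor_le_of_le ?_
    exact mul_le_of_le_one_right hm0.le (hX v).2
  · refine exist_sat (η := 1 / m) hm' (by field_simp) (by push_cast; ring) hX (fun v => ?_) g
      (hG.2.1 g hg).1 (hG.2.1 g hg).2.1 (hfix g hg)
    have h1 : (⌊m * X v⌋₊ : ℝ) ≤ m * X v := Nat.floor_le (mul_nonneg hm0.le (hX v).1)
    have h2 : m * X v < (⌊m * X v⌋₊ : ℝ) + 1 := Nat.lt_floor_add_one _
    push_cast
    constructor
    · rw [div_le_iff₀ hm0]; linarith
    · rw [← add_div, le_div_iff₀ hm0]; linarith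

end Vale.Agent.P330
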