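import Vale.Agent.P330.Unit

/-! Expansion of the walk on two blocks (task Exp), after Kassabov.
Plan. Characters are pairs `(φ1, φ2)` of linear forms. For `f` of mean zero and norm one let `P` be
the measure `fhat ^ 2` on nonzero pairs, `ε s = ‖f - f ∘ s‖`, `Δ ^ 2 = ∑ ε s ^ 2` (16 maps). `ν φ` = least
length of a word `w` with `φ (w e) ≠ 0` (infinite for `φ = 0`, use `ℕ∞` or `Nat.find`), `ν (φ + ψ) =
min` if different, `ν (φ ∘ ρ) + 1 ≥ ν φ` with equality for a chosen first letter `ρ φ` if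
`0 < ν φ < ∞`. Sets: `D = {ν1 = 0 or ν2 = 0}`, outside `D`: `A = {ν1 > ν2}`, `B = {ν1 = ν2}`,
`C = {ν1 < ν2}`. `P D ≤ Δ ^ 2 / 4` (translations). For a linear involution `s`,
`P (s Z) ≥ P Z - 2 sqrt (P Z) ε s`. `(φ1, φ2) ↦ (φ1 + φ2 ∘ ρ φ2, φ2)` maps `A ∪ B` injectively
piecewise (disjoint images, `φ2` is kept) into `C ∪ D`: `P A + P B ≤ P C + P D + 2 Δ`
(Cauchy-Schwarz); symmetric; `gens 0 = 1` maps `C` and `A` into `B`: `P C ≤ P B + 2 Δ`. So
`1 ≤ Δ ^ 2 + 10 Δ`, `Δ ≥ 0.099`. Lazy walk: `‖M f‖ ^ 2 ≤ avg ‖(f + f ∘ s) / 2‖ ^ 2 = ‖f‖ ^ 2 - Δ ^ 2 / 64`.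
Iterate `ck` times until the factor is `≤ 1e-7`, then Chebyshev. -/

namespace Vale.Agent.P330.Amp

open Vale.Agent.Lib.H23 Vale.Agent.P333 Vale.Agent.P325 Finset Matrix
open scoped BigOperators

namespace ExpA

open UnitA

variable {β : ℕ}

theorem vadd_self (v : Vec β) : v + v = 0 := funext fun i => z2_add_self (v i)

/-- the image of the first basis vector under a word -/
def wv (gens : Fin 7 → Mat β) (w : List (Fin 7)) : Vec β := (w.map gens).prod *ᵥ ofN β 1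

/-- the least length of a word seen by `φ` -/
noncomputable def nu (gens : Fin 7 → Mat β) (φ : Vec β) : ℕ∞ :=
  ⨅ (w : List (Fin 7)) (_ : φ ⬝ᵥ wv gens w ≠ 0), (w.length : ℕ∞)

variable {gens : Fin 7 → Mat β} {φ ψ : Vec β}

theorem nu_le {w : List (Fin 7)} (h : φ ⬝ᵥ wv gens w ≠ 0) : nu gens φ ≤ w.length := iInf₂_le w h

theorem le_nu {n : ℕ∞} (h : ∀ w, φ ⬝ᵥ wv gens w ≠ 0 → n ≤ w.length) : n ≤ nu gens φ := le_iInf₂ h

theorem nu_zero : nu gens 0 = ⊤ := top_le_iff.1 (le_nu fun _ h => absurd (zero_dotProduct _) h)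

theorem min_le_nu : min (nu gens φ) (nu gens ψ) ≤ nu gens (φ + ψ) := by
  refine le_nu fun w h => ?_
  by_cases h1 : φ ⬝ᵥ wv gens w = 0
  · rw [add_dotProduct, h1, zero_add] at h
    exact (min_le_right _ _).trans (nu_le h)
  · exact (min_le_left _ _).trans (nu_le h1)

theorem nu_add_eq (h : nu gens φ < nu gens ψ) : nu gens (ψ + φ) = nu gens φ := by
  apply le_antisymm
  · have h1 := min_le_nu (gens := gens) (φ := ψ + φ) (ψ := ψ)
    rw [add_right_comm, vadd_self, zero_add] at h1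
    rcases min_le_iff.1 h1 with h2 | h2
    · exact h2
    · exact absurd h (not_lt.2 h2)
  · exact (le_min h.le le_rfl).trans min_le_nu

theorem exists_word (hs : Spans gens) (h : φ ≠ 0) : ∃ w, φ ⬝ᵥ wv gens w ≠ 0 := by
  by_contra hc
  push Not at hc
  let L : Vec β →ₗ[ZMod 2] ZMod 2 :=
    { toFun := fun x => φ ⬝ᵥ x
      map_add' := dotProduct_add φ
      map_smul' := fun c x => by simp }
  have h0 := hs L hc
  exact h (perf_dot.sep_left φ fun x => congrArg (fun L : Vec β →ₗ[ZMod 2] ZMod 2 => L x) h0)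

theorem nu_ne_top (hs : Spans gens) (h : φ ≠ 0) : nu gens φ ≠ ⊤ := by
  obtain ⟨w, hw⟩ := exists_word hs h
  exact ne_top_of_le_ne_top (ENat.natCast_ne_top _) (nu_le hw)

theorem exists_letter (hs : Spans gens) (h : φ ≠ 0) (h0 : φ ⬝ᵥ ofN β 1 = 0) :
    ∃ ρ, nu gens (φ ᵥ* gens ρ) < nu gens φ := by
  classical
  have hex : ∃ n, ∃ w : List (Fin 7), w.length = n ∧ φ ⬝ᵥ wv gens w ≠ 0 := by
    obtain ⟨w, hw⟩ := exists_word hs h
    exact ⟨_, w, rfl, hw⟩
  obtain ⟨w, hw, hw'⟩ := Nat.find_spec hex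
  have h1 : (w.length : ℕ∞) ≤ nu gens φ := le_nu fun w' h' => by
    rw [hw]
    exact_mod_cast Nat.find_min' hex ⟨w', rfl, h'⟩
  rcases w with _ | ⟨ρ, w⟩
  · exact absurd (by simpa [wv] using h0) hw'
  · refine ⟨ρ, lt_of_le_of_lt (nu_le (w := w) ?_) (lt_of_lt_of_le ?_ h1)⟩
    · rwa [wv, List.map_cons, List.prod_cons, ← mulVec_mulVec, dotProduct_mulVec] at hw'
    · exact_mod_cast Nat.lt_succ_self _

section mass

variable {W : Type*} [Fintype W] (F : W → ℝ)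

/-- the mass of a set of characters -/
noncomputable def P (Z : W → Prop) : ℝ := ∑ χ, ind (Z χ) * F χ ^ 2

theorem P_le_add {Z Z1 Z2 : W → Prop} (h : ∀ χ, Z χ → F χ = 0 ∨ Z1 χ ∨ Z2 χ) :
    P F Z ≤ P F Z1 + P F Z2 := by
  rw [P, P, P, ← sum_add_distrib]
  refine sum_le_sum fun χ _ => ?_
  have h1 := mul_nonneg (ind_nonneg' (Z1 χ)) (sq_nonneg (F χ))
  have h2 := mul_nonneg (ind_nonneg' (Z2 χ)) (sq_nonneg (F χ))
  by_cases hZ : Z χ
  · rcases h χ hZ with h0 | h0 | h0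
    · simp [h0]
    · rw [ind_pos hZ, ind_pos h0]; linarith
    · rw [ind_pos hZ, ind_pos h0]; linarith
  · rw [ind_neg hZ]; linarith

theorem P_add_le {Z Z1 Z2 : W → Prop} (h1 : ∀ χ, Z1 χ → Z χ) (h2 : ∀ χ, Z2 χ → Z χ)
    (h : ∀ χ, Z1 χ → ¬ Z2 χ) : P F Z1 + P F Z2 ≤ P F Z := by
  rw [P, P, P, ← sum_add_distrib]
  refine sum_le_sum fun χ _ => ?_
  rw [← add_mul]
  refine mul_le_mul_of_nonneg_right ?_ (sq_nonneg _)
  by_cases a : Z1 χ
  · rw [ind_pos a, ind_neg (h χ a), ind_pos (h1 χ a), add_zero]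
  · rw [ind_neg a, zero_add]; exact ind_mono' (h2 χ)

theorem P_eq (Z : W → Prop) [DecidablePred Z] : P F Z = ∑ χ ∈ univ.filter Z, F χ ^ 2 := by
  rw [P, sum_filter]
  refine sum_congr rfl fun χ _ => ?_
  by_cases h : Z χ
  · rw [ind_pos h, if_pos h, one_mul]
  · rw [ind_neg h, if_neg h, zero_mul]

theorem P_move {Z Z' : W → Prop} (T : W → W) (hi : ∀ χ χ', Z χ → Z χ' → T χ = T χ' → χ = χ')
    (hm : ∀ χ, Z χ → Z' (T χ)) {E : ℝ} (hE : ∑ χ, (F χ - F (T χ)) ^ 2 ≤ E) :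
    P F Z ≤ P F Z' + 10 * E + (∑ χ, F χ ^ 2) / 10 := by
  classical
  have h1 : ∑ χ ∈ univ.filter Z, F (T χ) ^ 2 ≤ P F Z' := by
    rw [P_eq, ← sum_image (f := fun χ => F χ ^ 2) (s := univ.filter Z) (g := T)
      (fun χ h χ' h' e => hi χ χ' (mem_filter.1 h).2 (mem_filter.1 h').2 e)]
    refine sum_le_sum_of_subset_of_nonneg (fun χ hχ => ?_) fun _ _ _ => sq_nonneg _
    obtain ⟨χ', h', rfl⟩ := mem_image.1 hχ
    exact mem_filter.2 ⟨mem_univ _, hm _ (mem_filter.1 h').2⟩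
  have h2 : ∀ Y : W → Prop, P F Y ≤ ∑ χ, F χ ^ 2 := fun Y => by
    rw [P_eq]
    exact sum_le_sum_of_subset_of_nonneg (filter_subset _ _) fun _ _ _ => sq_nonneg _
  have h3 : ∑ χ ∈ univ.filter Z, (F χ - F (T χ)) ^ 2 ≤ E :=
    (sum_le_sum_of_subset_of_nonneg (filter_subset _ _) fun _ _ _ => sq_nonneg _).trans hE
  have h4 : P F Z ≤ ∑ χ ∈ univ.filter Z, (F (T χ) ^ 2 + 10 * (F χ - F (T χ)) ^ 2
      + (F χ ^ 2 + F (T χ) ^ 2) / 20) := by
    rw [P_eq]
    refine sum_le_sum fun χ _ => ?_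
    nlinarith [sq_nonneg (20 * (F χ - F (T χ)) - (F χ + F (T χ))), sq_nonneg (F χ - F (T χ))]
  rw [sum_add_distrib, sum_add_distrib, ← mul_sum, ← sum_div, sum_add_distrib, ← P_eq F Z] at h4
  linarith [h2 Z, h2 Z']

end mass

/-- the dual elementary map -/
def dE (l l' : Fin 2) (g : Mat β) (χ : Big 2 β) : Big 2 β :=
  Function.update χ l' (χ l' + χ l ᵥ* g)

theorem dE_left {l l' : Fin 2} (h : l ≠ l') (g : Mat β) (χ : Big 2 β) : dE l l' g χ l = χ l :=
  Function.update_of_ne h _ _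

theorem dE_right (l l' : Fin 2) (g : Mat β) (χ : Big 2 β) :
    dE l l' g χ l' = χ l' + χ l ᵥ* g := Function.update_self _ _ _

theorem big_ext {l l' : Fin 2} (h : l ≠ l') {χ χ' : Big 2 β} (h1 : χ l = χ' l)
    (h2 : χ l' = χ' l') : χ = χ' := by
  funext i
  have : i = l ∨ i = l' := by omega
  rcases this with rfl | rfl <;> assumption

theorem dE_inj {l l' : Fin 2} (h : l ≠ l') (r : Vec β → Mat β) {χ χ' : Big 2 β}
    (e : dE l l' (r (χ l)) χ = dE l l' (r (χ' l)) χ') : χ = χ' := by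
  have h1 := congrFun e l
  have h2 := congrFun e l'
  rw [dE_left h, dE_left h] at h1
  rw [dE_right, dE_right, h1] at h2
  exact big_ext h h1 (add_right_cancel h2)

section core

variable (F : Big 2 β → ℝ)

/-- characters seen by the translations -/
def sD (χ : Big 2 β) : Prop := ∃ l, χ l ⬝ᵥ ofN β 1 ≠ 0

theorem step1 (hs : Spans gens) (hF : F 0 = 0) {l l' : Fin 2} (h : l ≠ l') {E : ℝ}
    (hE : ∑ ρ, ∑ χ, (F χ - F (dE l l' (gens ρ) χ)) ^ 2 ≤ E) :
    P F (fun χ => nu gens (χ l) < nu gens (χ l')) + P F (fun χ => nu gens (χ l) = nu gens (χ l'))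
      ≤ P F sD + (P F (fun χ => nu gens (χ l') < nu gens (χ l)) + 10 * E + (∑ χ, F χ ^ 2) / 10) := by
  have hex : ∀ φ : Vec β, ∃ ρ, φ ≠ 0 → φ ⬝ᵥ ofN β 1 = 0 → nu gens (φ ᵥ* gens ρ) < nu gens φ := by
    intro φ
    by_cases h : φ ≠ 0 ∧ φ ⬝ᵥ ofN β 1 = 0
    · obtain ⟨ρ, hρ⟩ := exists_letter hs h.1 h.2
      exact ⟨ρ, fun _ _ => hρ⟩
    · exact ⟨0, fun h1 h2 => absurd ⟨h1, h2⟩ h⟩
  choose ρ hρ using hex
  refine (P_add_le F (Z := fun χ => nu gens (χ l) ≤ nu gens (χ l')) (fun _ h => h.le)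
    (fun _ h => h.le) fun _ h => h.ne).trans ((P_le_add F (Z1 := sD)
      (Z2 := fun χ => nu gens (χ l) ≤ nu gens (χ l') ∧ χ l ≠ 0 ∧ χ l ⬝ᵥ ofN β 1 = 0)
      fun χ hχ => ?_).trans (add_le_add le_rfl ?_))
  · by_cases h0 : χ l = 0
    · left
      rw [h0, nu_zero, top_le_iff] at hχ
      have h1 : χ l' = 0 := by_contra fun h1 => nu_ne_top hs h1 hχ
      rw [big_ext (χ' := 0) h h0 h1, hF]
    · right
      by_cases h1 : χ l ⬝ᵥ ofN β 1 = 0
      · exact Or.inr ⟨hχ, h0, h1⟩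
      · exact Or.inl ⟨l, h1⟩
  · refine P_move F (fun χ => dE l l' (gens (ρ (χ l))) χ)
      (fun χ χ' _ _ e => dE_inj h (fun φ => gens (ρ φ)) e) (fun χ hχ => ?_) (le_trans ?_ hE)
    · have h1 := hρ _ hχ.2.1 hχ.2.2
      rw [dE_left h, dE_right, nu_add_eq (h1.trans_le hχ.1)]
      exact h1
    · rw [sum_comm]
      exact sum_le_sum fun χ _ => single_le_sum
        (f := fun r => (F χ - F (dE l l' (gens r) χ)) ^ 2) (fun _ _ => sq_nonneg _) (mem_univ _)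

theorem step2 (h0 : gens 0 = 1) {l l' : Fin 2} (h : l ≠ l') {E : ℝ}
    (hE : ∑ ρ, ∑ χ, (F χ - F (dE l l' (gens ρ) χ)) ^ 2 ≤ E) :
    P F (fun χ => nu gens (χ l) < nu gens (χ l'))
      ≤ P F (fun χ => nu gens (χ l) = nu gens (χ l')) + 10 * E + (∑ χ, F χ ^ 2) / 10 := by
  refine P_move F (fun χ => dE l l' (gens 0) χ) (fun χ χ' _ _ e => dE_inj h (fun _ => gens 0) e)
    (fun χ hχ => ?_) (le_trans (single_le_sum
      (f := fun r => ∑ χ, (F χ - F (dE l l' (gens r) χ)) ^ 2)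
      (fun _ _ => sum_nonneg fun _ _ => sq_nonneg _) (mem_univ 0)) hE)
  rw [dE_left h, dE_right, h0, vecMul_one, nu_add_eq hχ]

theorem core (h0 : gens 0 = 1) (hs : Spans gens) (hF : F 0 = 0) {E : ℝ}
    (hE : ∑ ρ, ∑ χ, (F χ - F (dE 0 1 (gens ρ) χ)) ^ 2 ≤ E)
    (hE' : ∑ ρ, ∑ χ, (F χ - F (dE 1 0 (gens ρ) χ)) ^ 2 ≤ E) (hD : P F sD ≤ E) :
    ∑ χ, F χ ^ 2 ≤ 106 * E := by
  have a1 := step1 F hs hF zero_ne_one hE
  have a2 := step1 F hs hF one_ne_zero hE'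
  have a3 := step2 F h0 zero_ne_one hE
  have a4 := step2 F h0 one_ne_zero hE'
  have e : (fun χ : Big 2 β => nu gens (χ 1) = nu gens (χ 0))
      = fun χ => nu gens (χ 0) = nu gens (χ 1) := funext fun χ => propext eq_comm
  rw [e] at a2 a4
  have a5 : ∑ χ, F χ ^ 2 = P F fun _ => True := by simp [P, ind_pos]
  have a6 := P_le_add F (Z := fun _ => True) (Z1 := fun χ => nu gens (χ 0) < nu gens (χ 1))
    (Z2 := fun χ => nu gens (χ 1) ≤ nu gens (χ 0)) fun χ _ => Or.inr (lt_or_ge _ _)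
  have a7 := P_le_add F (Z := fun χ => nu gens (χ 1) ≤ nu gens (χ 0))
    (Z1 := fun χ => nu gens (χ 1) < nu gens (χ 0)) (Z2 := fun χ => nu gens (χ 0) = nu gens (χ 1))
    fun χ h => Or.inr (h.lt_or_eq.imp id Eq.symm)
  linarith

end core

/-- squared displacement of `f` under a wiring map -/
noncomputable def eps (gens : Fin 7 → Mat β) (f : Big 2 β → ℝ) (o : Op) : ℝ :=
  𝔼 x, (f x - f (actB gens o x)) ^ 2

theorem eps_nonneg (f : Big 2 β → ℝ) (o : Op) : 0 ≤ eps gens f o :=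
  expect_nonneg fun _ _ => sq_nonneg _

theorem expect_actB (o : Op) (f : Big 2 β → ℝ) : (𝔼 x, f (actB gens o x)) = 𝔼 x, f x :=
  Fintype.expect_bijective _ (Function.Involutive.bijective (actB_actB gens o)) _ _ fun _ => rfl

theorem hatB_sub (f g : Big 2 β → ℝ) (χ : Big 2 β) :
    hatB bb (fun x => f x - g x) χ = hatB bb f χ - hatB bb g χ := by
  simp only [hatB, sub_mul, expect_sub_distrib]

theorem bb_E {l l' : Fin 2} (h : l ≠ l') (ρ : Fin 7) (χ x : Big 2 β) :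
    bb χ (actB gens (.E l l' ρ) x) = bb (dE l l' (gens ρ) χ) x := by
  have hl : (l = 0 ∧ l' = 1) ∨ (l = 1 ∧ l' = 0) := by omega
  rcases hl with ⟨rfl, rfl⟩ | ⟨rfl, rfl⟩ <;>
    simp [bb, actB, addBlk, blk, dE, dotProduct_mulVec] <;> ring

theorem eps_E {l l' : Fin 2} (h : l ≠ l') (ρ : Fin 7) (f : Big 2 β → ℝ) :
    eps gens f (.E l l' ρ) = ∑ χ, (hatB bb f χ - hatB bb f (dE l l' (gens ρ) χ)) ^ 2 := by
  rw [eps, ← perf_bb.parseval]
  refine sum_congr rfl fun χ _ => ?_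
  rw [hatB_sub]
  congr 2
  rw [hatB, ← expect_actB (gens := gens) (.E l l' ρ), hatB]
  simp only [actB_actB, bb_E h]

theorem eps_N (l : Fin 2) (f : Big 2 β → ℝ) :
    eps gens f (.N l) = 4 * P (hatB bb f) fun χ => χ l ⬝ᵥ ofN β 1 ≠ 0 := by
  have e : ∀ x : Big 2 β, actB gens (.N l) x = x + Pi.single l (ofN β 1) := by
    intro x
    funext i
    by_cases h : i = l
    · subst h; simp [actB, addBlk]
    · simp [actB, addBlk, h, Fin.val_ne_of_ne h]
  rw [eps, ← perf_bb.parseval, P, mul_sum]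
  refine sum_congr rfl fun χ _ => ?_
  have e2 : bb χ (Pi.single l (ofN β 1)) = χ l ⬝ᵥ ofN β 1 := by
    rw [bb, sum_eq_single l (fun i _ hi => by simp [hi]) (by simp)]
    simp
  simp only [e]
  rw [hatB_sub, perf_bb.hatB_shift, e2]
  rcases z2_cases (χ l ⬝ᵥ ofN β 1) with h | h
  · rw [ind_neg (not_not.2 h), h]; simp
  · rw [ind_pos (z2_ne_zero.2 h), h, chi_one]; ring

theorem gap (h0 : gens 0 = 1) (hs : Spans gens) (f : Big 2 β → ℝ) (hf : (𝔼 x, f x) = 0) :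
    (𝔼 x, f x ^ 2) ≤ 106 * ∑ i ∈ range 16, eps gens f (stepOp 0 i) := by
  have e : ∑ i ∈ range 16, eps gens f (stepOp 0 i) = ∑ ρ, eps gens f (.E 0 1 ρ)
      + ∑ ρ, eps gens f (.E 1 0 ρ) + eps gens f (.N 0) + eps gens f (.N 1) := by
    simp only [sum_range_succ, Fin.sum_univ_seven, sum_range_zero, zero_add, add_assoc]
    rfl
  have n1 : 0 ≤ ∑ ρ, eps gens f (.E 0 1 ρ) := sum_nonneg fun _ _ => eps_nonneg _ _
  have n2 : 0 ≤ ∑ ρ, eps gens f (.E 1 0 ρ) := sum_nonneg fun _ _ => eps_nonneg _ _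
  have n3 := eps_nonneg (gens := gens) f (.N 0)
  have n4 := eps_nonneg (gens := gens) f (.N 1)
  rw [← perf_bb.parseval]
  refine core (hatB bb f) h0 hs (by simpa [hatB, perf_bb.zero_left] using hf) ?_ ?_ ?_
  · simp only [← eps_E (gens := gens) (zero_ne_one (α := Fin 2))]
    change ∑ ρ, eps gens f (.E 0 1 ρ) ≤ _
    linarith
  · simp only [← eps_E (gens := gens) (one_ne_zero (α := Fin 2))]
    change ∑ ρ, eps gens f (.E 1 0 ρ) ≤ _
    linarith
  · have h1 := P_le_add (hatB bb f) (Z := sD) (Z1 := fun χ => χ 0 ⬝ᵥ ofN β 1 ≠ 0)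
      (Z2 := fun χ => χ 1 ⬝ᵥ ofN β 1 ≠ 0) fun χ h => Or.inr (Fin.exists_fin_two.1 h)
    have h2 : eps gens f (.N 0) = _ := eps_N 0 f
    have h3 : eps gens f (.N 1) = _ := eps_N 1 f
    linarith

/-- one step of the lazy walk -/
noncomputable def M (gens : Fin 7 → Mat β) (f : Big 2 β → ℝ) (x : Big 2 β) : ℝ :=
  𝔼 i : Fin 32, f (actB gens (stepOp 0 i) x)

theorem expect_M (f : Big 2 β → ℝ) : (𝔼 x, M gens f x) = 𝔼 x, f x := by
  unfold M
  rw [expect_comm]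
  simp only [expect_actB]
  exact Fintype.expect_const _

theorem M_eq (f : Big 2 β → ℝ) (x : Big 2 β) :
    M gens f x = (∑ i ∈ range 16, (f x + f (actB gens (stepOp 0 i) x))) / 32 := by
  rw [M, expect_eq_sum_div_card, card_univ, Fintype.card_fin,
    Fin.sum_univ_eq_sum_range (fun i => f (actB gens (stepOp 0 i) x)) 32,
    show 32 = 16 + 16 from rfl, sum_range_add, sum_add_distrib, add_comm]
  congr 2

theorem contract (h0 : gens 0 = 1) (hs : Spans gens) (f : Big 2 β → ℝ) (hf : (𝔼 x, f x) = 0) :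
    (𝔼 x, M gens f x ^ 2) ≤ (1 - 1 / 6784) * 𝔼 x, f x ^ 2 := by
  have h1 : ∀ x, M gens f x ^ 2 ≤ ∑ i ∈ range 16, (2 * f x ^ 2 + 2 * f (actB gens (stepOp 0 i) x) ^ 2
      - (f x - f (actB gens (stepOp 0 i) x)) ^ 2) / 64 := by
    intro x
    have h := sq_sum_le_card_mul_sum_sq (s := range 16)
      (f := fun i => f x + f (actB gens (stepOp 0 i) x))
    have e : ∑ i ∈ range 16, (2 * f x ^ 2 + 2 * f (actB gens (stepOp 0 i) x) ^ 2
        - (f x - f (actB gens (stepOp 0 i) x)) ^ 2) / 64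
        = (∑ i ∈ range 16, (f x + f (actB gens (stepOp 0 i) x)) ^ 2) / 64 := by
      rw [sum_div]
      exact sum_congr rfl fun i _ => by ring
    rw [card_range] at h
    push_cast at h
    rw [M_eq, e, div_pow]
    linarith
  refine (expect_le_expect fun x _ => h1 x).trans ?_
  rw [expect_sum_comm]
  have e : ∀ i, (𝔼 x, (2 * f x ^ 2 + 2 * f (actB gens (stepOp 0 i) x) ^ 2
      - (f x - f (actB gens (stepOp 0 i) x)) ^ 2) / 64)
      = (4 * (𝔼 x, f x ^ 2) - eps gens f (stepOp 0 i)) / 64 := by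
    intro i
    rw [← expect_div, expect_sub_distrib, expect_add_distrib, ← mul_expect, ← mul_expect,
      expect_actB (stepOp 0 i) fun x => f x ^ 2, eps]
    ring
  simp only [e]
  rw [← sum_div, sum_sub_distrib, sum_const, card_range, nsmul_eq_mul]
  have := gap h0 hs f hf
  push_cast
  linarith

theorem iter_le (h0 : gens 0 = 1) (hs : Spans gens) (n : ℕ) : ∀ f : Big 2 β → ℝ,
    (𝔼 x, f x) = 0 → (𝔼 x, (M gens)^[n] f x ^ 2) ≤ (1 - 1 / 6784) ^ n * 𝔼 x, f x ^ 2 := by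
  induction n with
  | zero => intro f _; simp
  | succ n ih =>
    intro f hf
    rw [Function.iterate_succ_apply, pow_succ, mul_assoc]
    exact (ih _ (by rw [expect_M, hf])).trans
      (mul_le_mul_of_nonneg_left (contract h0 hs f hf) (by positivity))

theorem expect_walk (n : ℕ) : ∀ (f : Big 2 β → ℝ) (x : Big 2 β),
    (𝔼 K : Fin n → Fin 32, f (walk gens (List.ofFn fun i => (K i : ℕ)) x)) = (M gens)^[n] f x := by
  induction n with
  | zero => intro f x; simp [walk]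
  | succ n ih =>
    intro f x
    rw [Function.iterate_succ_apply, ← ih,
      ← Fintype.expect_equiv (Fin.consEquiv fun _ : Fin (n + 1) => Fin 32)
        (fun p => f (actB gens (stepOp 0 p.1) (walk gens (List.ofFn fun i => (p.2 i : ℕ)) x))) _
        (fun p => by simp [walk, List.ofFn_succ, Fin.consEquiv]),
      ← univ_product_univ, expect_product, expect_comm]
    rfl

end ExpA

open ExpA UnitA in
theorem expander : ExpStmt := by
  obtain ⟨n, hn⟩ := exists_pow_lt_of_lt_one (show (0 : ℝ) < 1 / 10 ^ 7 by norm_num)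
    (show (1 - 1 / 6784 : ℝ) < 1 by norm_num)
  refine ⟨n + 1, by omega, fun β gens h0 hs f hf => ?_⟩
  set μ := 𝔼 y, f y with hμ
  have hμ0 : 0 ≤ μ := expect_nonneg fun x _ => (hf x).1
  have hμ1 : μ ≤ 1 := expect_le univ_nonempty fun x _ => (hf x).2
  have e : ∀ x, (𝔼 K : Fin (n + 1) → Fin 32, f (walk gens (List.ofFn fun i => (K i : ℕ)) x)) - μ
      = (M gens)^[n + 1] (fun y => f y - μ) x := by
    intro x
    rw [← expect_walk, expect_sub_distrib, Fintype.expect_const]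
  simp only [e]
  refine (cheb _ _ (by norm_num) fun _ h => h).trans ?_
  have h1 := iter_le h0 hs (n + 1) (fun y => f y - μ)
    (by rw [expect_sub_distrib, Fintype.expect_const, sub_self])
  have h2 : (𝔼 x, (f x - μ) ^ 2) ≤ 1 := expect_le univ_nonempty fun x _ => by
    have := hf x
    nlinarith [this.1, this.2]
  have h3 : (1 - 1 / 6784 : ℝ) ^ (n + 1) ≤ (1 - 1 / 6784) ^ n :=
    pow_le_pow_of_le_one (by norm_num) (by norm_num) (Nat.le_succ n)
  have h4 := mul_le_mul (h3.trans hn.le) h2 (expect_nonneg fun _ _ => sq_nonneg _) (by norm_num)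
  rw [div_le_iff₀ (by norm_num)]
  linarith

end Vale.Agent.P330.Amp
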