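import Vale.Agent.P330.Pure

/-! From pure circuits to generalized circuits and Turing machines.

Plan.  `ε = 1/16`, `δ = 1/(2d+2)`, `m = 64`.  For `C : PC` let `toG C` have `2 * C.length` nodes and
for the entry `z = (k, a, b)` the two gates
* `k = 0`: `or (2a) (2b) (2z+1)`, `not (2z+1) (2z)`;
* `k = 1`: `const (1/4) (2z+1)`, `less (2z+1) (2a) (2z)`;
* otherwise: `const (3/4) (2z+1)`, `less (2z+1) (2a) (2z)`.
`cls r = if r ≤ 1/16 then 0 else if r ≤ 1/2 then 1 else if r < 15/16 then 2 else 3` and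
`back C x = (List.range C.length).map fun z => cls (x.getD (2z) 0)`.  If both gates of `z` are
satisfied then `C.OkAt (back C x) z`; so `C.bad (back C x) ≤` number of violated gates
`≤ δ * 2 * C.length`, and `d * bad ≤ C.length`.  `R I = toG (R₁ (R₀ I))`,
`D (I, x) = D₀ (I, D₁ (R₀ I, back _ x))`.  Existence: `ExistStmt` with `m = 64`, the list
`(range nodes).map fun v => y v / 64`; each entry has a code of length at most a constant `c`
(numerator and denominator `≤ 64`: `Rat.num_div_den`, `Rat.den_dvd`/`Rat.div_int_inj`, or bound by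
the finite supremum over `y ≤ 64`), and `nodes = gates.length ≤ (codeGC G).length`; `p = c X + 1`.
`q` comes from `PT.size_le`.  Machines: copy `ser_list`, `ser_pair`, `tm_of_pt` from
`Vale/Agent/P325/BaseFinal.lean` (generalize the input type; the codes of `P330.Stmt` have the same
definitions but are different constants).  `q.num`, `q.den` are `PT` by `PT.retag`/`of_enc`;
compare `16 * num ≤ den` etc. with `iltb`. -/

namespace Vale.Agent.P330

open Vale.Agent.Lib.H23 Enc Turing Vale.Agent.P325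

theorem fin_ser_list {α : Type} [Enc α] {f : α → List Bool} (h : ∀ a, ser (enc a) = f a)
    (l : List α) : ser (enc l) = bList f l := by
  induction l with
  | nil => rfl
  | cons a l ih => rw [enc_cons, ser, h, ih, bList]

theorem fin_ser_pair {α β : Type} [Enc α] [Enc β] {f : α → List Bool} {g : β → List Bool}
    (hf : ∀ a, ser (enc a) = f a) (hg : ∀ b, ser (enc b) = g b) (p : α × β) :
    ser (enc p) = bPair f g p := by
  rw [bPair, ← hf, ← hg]; rfl

theorem fin_ser_bool (b : Bool) : ser (enc b) = bBool b := by cases b <;> rfl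

theorem fin_ser_nat (n : ℕ) : ser (enc n) = bNat n := fin_ser_list fin_ser_bool n.bits

theorem fin_ser_rat (q : ℚ) : ser (enc q) = bRat q :=
  fin_ser_pair (fin_ser_pair fin_ser_bool fin_ser_nat) fin_ser_nat
    ((decide (q.num < 0), q.num.natAbs), q.den)

theorem fin_ser_bgate (g : BGate) : ser (enc g) = bBGate g := by
  cases g <;> exact fin_ser_list fin_ser_nat _

theorem fin_ser_bc (C : BCircuit) : ser (enc C) = bBCircuit C :=
  fin_ser_pair (fin_ser_list fin_ser_bgate) (fin_ser_list fin_ser_nat) (C.gates, C.outs)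

theorem fin_ser_eol (I : EOL) : ser (enc I) = codeEOL I :=
  fin_ser_pair fin_ser_bc fin_ser_bc (I.S, I.P)

theorem fin_ser_gc (G : GCircuit) : ser (enc G) = codeGC G :=
  fin_ser_pair fin_ser_nat (fin_ser_list fun g : GGate => fin_ser_pair fin_ser_nat
    (fin_ser_pair fin_ser_rat (fin_ser_pair (fin_ser_list fin_ser_nat) fin_ser_nat)) g.data)
    (G.nodes, G.gates)

/-- A polynomial time function is computed by a Turing machine. -/
theorem fin_tm {α β : Type} [Enc α] [Enc β] {f : α → β} (hg : PT f) (ca : α → List Bool)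
    (cb : β → List Bool) (ha : ∀ a, ser (enc a) = ca a) (hb : ∀ b, ser (enc b) = cb b) :
    ∃ M : TM2ComputableInPolyTime ca cb f, ∀ j, Finite (M.tm.Γ j) := by
  obtain ⟨c, P, hc⟩ := hg
  have key : ∀ φ : α, TM2OutputsInTime (compile c) (List.map (id : Bool → Bool) (ca φ))
      (some (List.map (id : Bool → Bool) (cb (f φ)))) ((P + 1).eval (ca φ).length) := by
    intro φ
    have h1 := (hc φ).outputs
    rw [sz, Tr.size, ha, hb] at h1
    rw [← List.map_id (ca φ), ← List.map_id (cb (f φ)), List.length_map] at h1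
    rw [Polynomial.eval_add, Polynomial.eval_one]
    exact Classical.choice h1
  exact ⟨⟨⟨compile c, Equiv.refl _, Equiv.refl _⟩, P + 1, key⟩,
    fun _ => (inferInstance : Finite Bool)⟩

/-- the auxiliary gate of the entry `e` with number `z` -/
def gA (e : ℕ × ℕ × ℕ) (z : ℕ) : GGate :=
  if e.1 = 0 then .or (2 * e.2.1) (2 * e.2.2) (2 * z + 1)
  else if e.1 = 1 then .const (1 / 4) (2 * z + 1) else .const (3 / 4) (2 * z + 1)

/-- the main gate of the entry `e` with number `z` -/
def gB (e : ℕ × ℕ × ℕ) (z : ℕ) : GGate :=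
  if e.1 = 0 then .not (2 * z + 1) (2 * z) else .less (2 * z + 1) (2 * e.2.1) (2 * z)

/-- the generalized circuit of a pure circuit -/
def toG (C : PC) : GCircuit :=
  ⟨2 * C.length, ((List.range C.length).map fun z => gA (C.getD z (0, 0, 0)) z) ++
    (List.range C.length).map fun z => gB (C.getD z (0, 0, 0)) z⟩

/-- the class of a rational number -/
def cls (r : ℚ) : ℕ := if 1 / 16 < r then if 1 / 2 < r then if r < 15 / 16 then 2 else 3 else 1 else 0

/-- decoding of assignments -/
def back (C : PC) (x : List ℚ) : List ℕ := (List.range C.length).map fun z => cls (x.getD (2 * z) 0)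

section pt

variable {α : Type} [Enc α]

theorem fin_pt_lt {f g : α → ℚ} (hf : PT f) (hg : PT g) : PT fun x => decide (f x < g x) := by
  have h : PT fun q : ℚ => (q.num, q.den) := PT.retag fun _ => rfl
  have hf' := h.comp hf
  have hg' := h.comp hg
  refine (PT.iltb (hf'.fst.imul hg'.snd.natCast) (hg'.fst.imul hf'.snd.natCast)).congr fun x => ?_
  rw [iltb_eq]
  exact decide_eq_decide.2 (Rat.lt_iff _ _)

theorem fin_pt_cls : PT cls :=
  pt_ite (fin_pt_lt (PT.const _) PT.id) (pt_ite (fin_pt_lt (PT.const _) PT.id)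
    (pt_ite (fin_pt_lt PT.id (PT.const _)) (PT.const _) (PT.const _)) (PT.const _)) (PT.const _)

theorem fin_pt_back {C : α → PC} {x : α → List ℚ} (hC : PT C) (hx : PT x) :
    PT fun a => back (C a) (x a) :=
  PT.map (f := fun a z => cls ((x a).getD (2 * z) 0))
    (fin_pt_cls.comp (PT.getD (hx.comp PT.fst') ((PT.const 2).mul PT.snd') (PT.const _)))
    (pt_rangeLen hC)

theorem fin_pt_gate {g : α → GGate} (k : ℕ) (r : ℚ) {l : α → List ℕ} {z : α → ℕ} (hl : PT l)
    (hz : PT z) (h : ∀ x, (g x).data = (k, r, l x, z x)) : PT g :=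
  ((PT.const k).pair ((PT.const r).pair (hl.pair hz))).of_enc fun x => by rw [← h]; rfl

theorem fin_pt_gA {e : α → ℕ × ℕ × ℕ} {z : α → ℕ} (he : PT e) (hz : PT z) :
    PT fun x => gA (e x) (z x) := by
  have h2 : PT fun x => 2 * z x + 1 := by fun_prop
  refine pt_ite (pt_decEq he.fst (PT.const 0))
    (fin_pt_gate 7 0 (l := fun x => [2 * (e x).2.1, 2 * (e x).2.2]) (by fun_prop) h2 fun _ => rfl)
    (pt_ite (pt_decEq he.fst (PT.const 1))
      (fin_pt_gate 0 (1 / 4) (PT.const []) h2 fun _ => rfl)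
      (fin_pt_gate 0 (3 / 4) (PT.const []) h2 fun _ => rfl))

theorem fin_pt_gB {e : α → ℕ × ℕ × ℕ} {z : α → ℕ} (he : PT e) (hz : PT z) :
    PT fun x => gB (e x) (z x) := by
  have h2 : PT fun x => 2 * z x := by fun_prop
  exact pt_ite (pt_decEq he.fst (PT.const 0))
    (fin_pt_gate 6 0 (l := fun x => [2 * z x + 1]) (by fun_prop) h2 fun _ => rfl)
    (fin_pt_gate 5 0 (l := fun x => [2 * z x + 1, 2 * (e x).2.1]) (by fun_prop) h2 fun _ => rfl)

theorem fin_pt_toG : PT toG := by
  have he : PT fun p : PC × ℕ => p.1.getD p.2 (0, 0, 0) := PT.getD PT.fst' PT.snd' (PT.const _)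
  exact (((PT.const 2).mul PT.id.length).pair (PT.append
    (PT.map (f := fun (C : PC) z => gA (C.getD z (0, 0, 0)) z) (fin_pt_gA he PT.snd')
      (pt_rangeLen PT.id))
    (PT.map (f := fun (C : PC) z => gB (C.getD z (0, 0, 0)) z) (fin_pt_gB he PT.snd')
      (pt_rangeLen PT.id)))).of_enc fun _ => rfl

end pt

theorem gA_out (e : ℕ × ℕ × ℕ) (z : ℕ) : (gA e z).data.2.2.2 = 2 * z + 1 := by
  unfold gA; split_ifs <;> rfl

theorem gB_out (e : ℕ × ℕ × ℕ) (z : ℕ) : (gB e z).data.2.2.2 = 2 * z := by
  unfold gB; split_ifs <;> rfl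

theorem toG_length (C : PC) : (toG C).gates.length = 2 * C.length := by
  simp only [toG, List.length_append, List.length_map, List.length_range]; ring

theorem wf_getD {C : PC} (h : C.WF) {z : ℕ} (hz : z < C.length) :
    (C.getD z (0, 0, 0)).2.1 < C.length ∧ (C.getD z (0, 0, 0)).2.2 < C.length := by
  rw [List.getD_eq_getElem _ _ hz]
  exact h.2 _ (List.getElem_mem hz)

theorem toG_valid {C : PC} (h : C.WF) : (toG C).Valid := by
  refine ⟨fun h0 => ?_, fun g hg => ?_, ?_⟩
  · have h1 := toG_length C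
    rw [h0, List.length_nil] at h1
    exact h.1 (List.length_eq_zero_iff.1 (by omega))
  · simp only [toG, List.mem_append, List.mem_map, List.mem_range] at hg ⊢
    rcases hg with ⟨z, hz, rfl⟩ | ⟨z, hz, rfl⟩
    · obtain ⟨h1, h2⟩ := wf_getD h hz
      unfold gA
      split_ifs <;> simp only [GGate.data, List.mem_cons, List.not_mem_nil, or_false] <;>
        refine ⟨by norm_num, by norm_num, fun a ha => by first | exact ha.elim | omega, by omega⟩
    · obtain ⟨h1, h2⟩ := wf_getD h hz
      unfold gB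
      split_ifs <;> simp only [GGate.data, List.mem_cons, List.not_mem_nil, or_false] <;>
        refine ⟨by norm_num, by norm_num, fun a ha => by first | exact ha.elim | omega, by omega⟩
  · simp only [toG, List.map_append, List.map_map, Function.comp_def, gA_out, gB_out]
    refine List.nodup_append.2 ⟨List.nodup_range.map fun a b hab => by omega,
      List.nodup_range.map fun a b hab => by omega, fun a ha b hb => ?_⟩
    simp only [List.mem_map] at ha hb
    obtain ⟨u, -, rfl⟩ := ha
    obtain ⟨v, -, rfl⟩ := hb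
    omega

theorem cls_zero {r : ℚ} : cls r = 0 ↔ r ≤ 1 / 16 := by
  unfold cls; split_ifs <;> constructor <;> intro h <;> first | contradiction | omega | linarith

theorem cls_le_one {r : ℚ} (h : cls r ≤ 1) : r ≤ 1 / 2 := by
  unfold cls at h; split_ifs at h <;> first | contradiction | omega | linarith

theorem cls_two {r : ℚ} (h : 2 ≤ cls r) : 1 / 2 < r := by
  unfold cls at h; split_ifs at h <;> first | contradiction | omega

theorem cls_three {r : ℚ} : 3 ≤ cls r ↔ 15 / 16 ≤ r := by
  unfold cls; split_ifs <;> constructor <;> intro h <;> first | contradiction | omega | linarith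

theorem back_getD (C : PC) (x : List ℚ) {z : ℕ} (hz : z < C.length) :
    (back C x).getD z 0 = cls (x.getD (2 * z) 0) := by
  rw [List.getD_eq_getElem _ _ (by simpa [back] using hz)]
  simp [back]

theorem ok_of_sat (e : ℕ × ℕ × ℕ) (z : ℕ) (x : ℕ → ℚ) (h1 : (gA e z).Sat (1 / 16) x)
    (h2 : (gB e z).Sat (1 / 16) x) :
    ok e.1 (cls (x (2 * e.2.1))) (cls (x (2 * e.2.2))) (cls (x (2 * z))) := by
  unfold gA at h1
  unfold gB at h2
  unfold ok
  split_ifs at h1 h2 ⊢ <;> simp only [GGate.Sat, abs_le] at h1 h2 <;>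
    simp only [cls_zero, cls_three]
  · exact ⟨fun h => by linarith [h2.1 (h1.2 h)], fun h =>
      h2.2 (h1.1 (h.imp (fun _ => by linarith) fun _ => by linarith))⟩
  · exact ⟨fun h => by linarith [h2.1 (by linarith [cls_two h])], fun h => h2.2 (by linarith)⟩
  · exact ⟨fun h => by linarith [h2.1 (by linarith)], fun h => h2.2 (by linarith [cls_le_one h])⟩

theorem fin_count {α : Type} (l : List α) (p q r : α → Bool)
    (h : ∀ z ∈ l, p z = true → q z = true → r z = false) :
    l.countP r + (l.countP p + l.countP q) ≤ 2 * l.length := by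
  induction l with
  | nil => simp
  | cons a l ih =>
    have h1 := ih fun z hz => h z (List.mem_cons_of_mem _ hz)
    have h2 := h a List.mem_cons_self
    simp only [List.countP_cons, List.length_cons]
    cases hp : p a <;> cases hq : q a <;> cases hr : r a <;> simp_all <;> omega

theorem bad_le {C : PC} (h : C.WF) {d : ℕ} {p : Polynomial ℕ} {x : List ℚ}
    (hx : (toG C).Acceptable (1 / 16) (1 / (2 * d + 2)) p x) :
    d * C.bad (back C x) ≤ C.length := by
  classical
  have h1 := hx.2.2.2
  rw [toG_length] at h1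
  simp only [toG, List.countP_append, List.countP_map] at h1
  have h2 := fin_count (List.range C.length)
    ((fun g : GGate => @decide (g.Sat (1 / 16) fun v => x.getD v 0) (Classical.propDecidable _)) ∘
      fun z => gA (C.getD z (0, 0, 0)) z)
    ((fun g : GGate => @decide (g.Sat (1 / 16) fun v => x.getD v 0) (Classical.propDecidable _)) ∘
      fun z => gB (C.getD z (0, 0, 0)) z)
    (fun z => decide (¬ C.OkAt (back C x) z)) fun z hz ha hb => by
      have hz' := List.mem_range.1 hz
      obtain ⟨g1, g2⟩ := wf_getD h hz'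
      simp only [Function.comp, decide_eq_true_eq] at ha hb
      have := ok_of_sat _ _ _ ha hb
      rw [decide_eq_false_iff_not, not_not, PC.OkAt, back_getD _ _ g1, back_getD _ _ g2,
        back_getD _ _ hz']
      exact this
  rw [List.length_range] at h2
  change C.bad (back C x) + _ ≤ _ at h2
  generalize C.bad (back C x) = b at h2 ⊢
  generalize (List.countP _ _ + List.countP _ _ : ℕ) = c at h1 h2
  have h3 : (b : ℚ) + c ≤ 2 * C.length := by exact_mod_cast h2
  push_cast at h1
  have h4 : (b : ℚ) ≤ 1 / (2 * d + 2) * (2 * C.length) := by linarith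
  rw [div_mul_eq_mul_div, le_div_iff₀ (by positivity)] at h4
  have h5 : (d : ℚ) * b ≤ C.length := by
    have : (0 : ℚ) ≤ b := Nat.cast_nonneg _
    linarith
  exact_mod_cast h5

theorem sat_congr {ε : ℚ} {x y : ℕ → ℚ} (g : GGate) (h1 : ∀ a ∈ g.data.2.2.1, x a = y a)
    (h2 : x g.data.2.2.2 = y g.data.2.2.2) (h : g.Sat ε y) : g.Sat ε x := by
  cases g <;> simp only [GGate.data, List.mem_cons, List.not_mem_nil, or_false, forall_eq_or_imp,
    forall_eq] at h1 h2 <;> simp only [GGate.Sat, h1, h2] <;> exact h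

theorem acc_exists (hE : ExistStmt) : ∃ p : Polynomial ℕ, ∀ (G : GCircuit) (δ : ℚ), 0 ≤ δ → G.Valid →
    G.nodes ≤ G.gates.length → ∃ x, G.Acceptable (1 / 16) δ p x := by
  classical
  let B := (Finset.range 65).sup fun y : ℕ => sz ((y : ℚ) / (64 : ℕ))
  refine ⟨Polynomial.X * Polynomial.C (B + 1) + 1, fun G δ hδ hG hn => ?_⟩
  obtain ⟨y, hy, hs⟩ := hE G 64 hG (by norm_num)
  refine ⟨(List.range G.nodes).map fun v => (y v : ℚ) / (64 : ℕ), by simp, fun r hr => ?_, ?_, ?_⟩
  · obtain ⟨v, -, rfl⟩ := List.mem_map.1 hr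
    have : (y v : ℚ) ≤ (64 : ℕ) := by exact_mod_cast hy v
    exact ⟨by positivity, (div_le_one (by norm_num)).2 this⟩
  · rw [← fin_ser_list fin_ser_rat, ← fin_ser_gc]
    change sz _ ≤ Polynomial.eval (sz G) _
    refine (sz_list_le (B := B) fun r hr => ?_).trans ?_
    · obtain ⟨v, -, rfl⟩ := List.mem_map.1 hr
      exact Finset.le_sup (f := fun y : ℕ => sz ((y : ℚ) / (64 : ℕ)))
        (Finset.mem_range.2 (Nat.lt_succ_of_le (hy v)))
    · have h1 : sz G = sz G.nodes + sz G.gates + 1 := sz_pair G.nodes G.gates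
      have h2 := length_lt_sz G.gates
      simp only [List.length_map, List.length_range, Polynomial.eval_add, Polynomial.eval_mul,
        Polynomial.eval_X, Polynomial.eval_C, Polynomial.eval_one]
      exact Nat.add_le_add_right (Nat.mul_le_mul_right _ (by omega)) _
  · rw [List.countP_eq_length.2 fun g hg => ?_]
    · have : (0 : ℚ) ≤ G.gates.length := Nat.cast_nonneg _
      nlinarith
    · have hv : ∀ v < G.nodes, ((List.range G.nodes).map fun v => (y v : ℚ) / (64 : ℕ)).getD v 0 =
          (y v : ℚ) / (64 : ℕ) := fun v hv => by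
        rw [List.getD_eq_getElem _ _ (by simpa using hv)]
        simp
      have h1 := hs g hg
      rw [show (4 : ℚ) / (64 : ℕ) = 1 / 16 by norm_num] at h1
      obtain ⟨-, -, g1, g2⟩ := hG.2.1 g hg
      exact decide_eq_true (sat_congr g (fun a ha => hv a (g1 a ha)) (hv _ g2) h1)

theorem final (hE : ExistStmt) : FinalStmt := by
  rintro ⟨R₀, D₀, pR₀, pD₀, h₀⟩ ⟨d, R₁, D₁, hd, pR₁, pD₁, h₁⟩
  obtain ⟨p, hp⟩ := acc_exists hE
  have pR : PT fun I => toG (R₁ (R₀ I)) := fin_pt_toG.comp (pR₁.comp pR₀)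
  have pD : PT fun z : EOL × List ℚ => D₀ (z.1, D₁ (R₀ z.1, back (R₁ (R₀ z.1)) z.2)) :=
    pD₀.comp (PT.fst'.pair (pD₁.comp ((pR₀.comp PT.fst').pair
      (fin_pt_back (pR₁.comp (pR₀.comp PT.fst')) PT.snd'))))
  obtain ⟨q, hq⟩ := pR.size_le
  obtain ⟨MR, hMR⟩ := fin_tm pR codeEOL codeGC fin_ser_eol fin_ser_gc
  obtain ⟨MD, hMD⟩ := fin_tm pD (bPair codeEOL (bList bRat)) (bList bBool)
    (fin_ser_pair fin_ser_eol (fin_ser_list fin_ser_rat)) (fin_ser_list fin_ser_bool)
  have hd0 : (0 : ℚ) ≤ d := Nat.cast_nonneg _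
  refine ⟨1 / 16, 1 / (2 * d + 2), p, q, _, _, MR, MD, by norm_num, by norm_num, by positivity,
    (div_lt_one (by positivity)).2 (by linarith), hMR, hMD, fun I hI => ?_⟩
  obtain ⟨w₀, s₀⟩ := h₀ I
  obtain ⟨w₁, s₁⟩ := h₁ _ w₀
  refine ⟨toG_valid w₁, ?_, hp _ _ (by positivity) (toG_valid w₁) (toG_length _).ge,
    fun x hx => s₀ hI _ (s₁ _ (bad_le w₁ hx))⟩
  rw [← fin_ser_gc, ← fin_ser_eol]
  exact hq I

end Vale.Agent.P330
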