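import Vale.Agent.P330.GridA

/-! Merging rows, splitting into columns, repeated sanitizing (task Grid).
Plan. `mgs_spec`: induction on `l` with `ds` general (`plMg_spec`; if the block is not calm the fault
term is at least one). For `a :: l`: the row bundle `cp (a :: l) ++ ds`; after the first merge the
bundle `cp l ++ md a :: ds` at version `r`. `RowBad` implies: the first merge is not `MgGood` at the
version of `z`, or `RowBad` for the rest; and the invalidity indicator after the first merge,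
averaged over the version, is at most the average over the low bits of `a` of `f`.
`split_msg`: `split_spec`, Markov over the low bits (`av_err`), `Valid.msg_iff`.
`sans_ok`, `sans_msg`: induction on `vs` with `san_vers`. -/

namespace Vale.Agent.P330.Amp

open Vale.Agent.Lib.H23 Vale.Agent.P325 Finset
open scoped BigOperators

variable {σ κ u M v : ℕ} {ds : List Dim} {orc : ℕ → Vec σ → Bool} {S : Vec σ → Prop}
  {X Y : Vec σ → Val} {z0 : Vec σ}

/-- low bits of the row dimensions. -/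
def lo (κ : ℕ) (l : List (ℕ × ℕ)) : List Dim := l.map fun a => vd κ a.1

/-- the row named by the low bits of `ρ`. -/
def rowPt (κ : ℕ) (l : List (ℕ × ℕ)) (ρ z : Vec σ) : Vec σ :=
  l.foldr (fun a y => put y a.1 (2 ^ κ) (ofN _ (fld ρ a.1 κ))) z

/-- the message of the row named by `ρ` is lost in the merged bundle through `ρ`. -/
def RowBad (κ M : ℕ) (ds : List Dim) (l : List (ℕ × ℕ)) (X Y : Vec σ → Val) (ρ : Vec σ) : Prop :=
  ¬ ∀ z, InR (pos ((l.map fun a => md κ a.1) ++ ds)) ρ z → HP ds z →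
    (∀ a ∈ l, get z a.1 (2 ^ κ) = ofN _ (2 ^ fld ρ a.1 κ)) → ∀ y,
      Msg (eV M) (cp κ l ++ ds) X (rowPt κ l ρ z) y →
        Msg (eV M) ((l.map fun a => md κ a.1) ++ ds) Y z y

/-- sum of the averages over the blocks of all levels. -/
noncomputable def hsum (κ : ℕ) (l : List (ℕ × ℕ)) (f : Vec σ → ℝ) (z : Vec σ) : ℝ :=
  ∑ i ∈ range l.length, av (pos (lo κ (l.take (i + 1)))) f z

theorem gr_rowPt_cons (a : ℕ × ℕ) (l : List (ℕ × ℕ)) (ρ z : Vec σ) :
    rowPt κ (a :: l) ρ z = put (rowPt κ l ρ z) a.1 (2 ^ κ) (ofN _ (fld ρ a.1 κ)) := rfl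

theorem gr_cp_cons (a : ℕ × ℕ) (l : List (ℕ × ℕ)) :
    cp κ (a :: l) ++ ds = vd κ a.2 :: (false, a.1 + κ, 2 ^ κ - κ) :: (cp κ l ++ ds) := rfl

theorem gr_get_rowPt {l : List (ℕ × ℕ)} {p w : ℕ} (ρ z : Vec σ)
    (h : ∀ a ∈ l, a.1 + 2 ^ κ ≤ p ∨ p + w ≤ a.1) : get (rowPt κ l ρ z) p w = get z p w := by
  induction l with
  | nil => rfl
  | cons a l ih =>
    rw [gr_rowPt_cons, get_put_disj (h a List.mem_cons_self)]
    exact ih fun b hb => h b (List.mem_cons_of_mem _ hb)

theorem gr_put_low (ρ y : Vec σ) (p : ℕ) (j : Fin σ) (h1 : p ≤ j) (h2 : (j : ℕ) < p + κ) :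
    put y p (2 ^ κ) (ofN _ (fld ρ p κ)) j = ρ j := by
  have hκ : κ < 2 ^ κ := Nat.lt_two_pow_self
  have h3 : p ≤ j ∧ (j : ℕ) < p + 2 ^ κ := ⟨h1, by omega⟩
  have h4 : (j : ℕ) - p < κ := by omega
  have h5 : p + ((j : ℕ) - p) = j := by omega
  have h6 := testBit_toN (get ρ p κ) ⟨j - p, h4⟩
  simp only [put, dif_pos h3, ofN, fld]
  rw [h6, b2_decide]
  have h7 : p + ((j : ℕ) - p) < σ := by rw [h5]; exact j.2
  simp only [get, dif_pos h7]
  exact congrArg ρ (Fin.ext h5)

theorem gr_rowPt_cases {l : List (ℕ × ℕ)} (ρ z : Vec σ) (j : Fin σ) (hj : (j : ℕ) ∉ pos (cp κ l)) :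
    rowPt κ l ρ z j = ρ j ∨
      (rowPt κ l ρ z j = z j ∧ (j : ℕ) ∉ pos (l.map fun a => md κ a.1)) := by
  induction l with
  | nil => exact Or.inr ⟨rfl, by rw [List.map_nil, pos_nil]; exact Set.notMem_empty _⟩
  | cons a l ih =>
    have e : pos (cp κ (a :: l)) = Set.Ico a.2 (a.2 + κ) ∪
        (Set.Ico (a.1 + κ) (a.1 + 2 ^ κ) ∪ pos (cp κ l)) := by
      rw [← gr_pos_hi, ← gr_pos_vd]
      rfl
    rw [e] at hj
    simp only [Set.mem_union, Set.mem_Ico, not_or] at hj
    rw [gr_rowPt_cons]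
    by_cases h : a.1 ≤ j ∧ (j : ℕ) < a.1 + 2 ^ κ
    · exact Or.inl (gr_put_low ρ _ a.1 j h.1 (by omega))
    · have e2 : put (rowPt κ l ρ z) a.1 (2 ^ κ) (ofN _ (fld ρ a.1 κ)) j = rowPt κ l ρ z j := by
        simp only [put, dif_neg h]
      rw [e2]
      refine (ih hj.2.2).imp id fun h' => ⟨h'.1, ?_⟩
      rw [List.map_cons, gr_pos_md]
      exact fun hm => hm.elim h h'.2

theorem gr_rowPt_inR {l : List (ℕ × ℕ)} {Q : Set ℕ} {ρ z : Vec σ}
    (hz : InR (pos (l.map fun a => md κ a.1) ∪ Q) ρ z) :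
    InR (pos (cp κ l) ∪ Q) ρ (rowPt κ l ρ z) := by
  intro j hj
  rcases gr_rowPt_cases ρ z j fun h => hj (Or.inl h) with h | h
  · exact h
  · rw [h.1]
    exact hz j fun hm => hm.elim h.2 fun hq => hj (Or.inr hq)

theorem gr_lay_cp {l : List (ℕ × ℕ)} {pre : List Dim}
    (hl : Lay σ κ u (pre ++ ((l.flatMap fun a => [vd κ a.2, md κ a.1]) ++ ds))) :
    Lay σ κ u (pre ++ (cp κ l ++ ds)) := by
  have hκ : κ < 2 ^ κ := Nat.lt_two_pow_self
  have hr : ∀ m : List Dim, (∀ e ∈ m, 1 ≤ e.2.2) →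
      List.Forall₂ (fun e e' : Dim => e.2.1 ≤ e'.2.1 ∧ e'.2.1 + e'.2.2 ≤ e.2.1 + e.2.2 ∧
        1 ≤ e'.2.2) m m := fun m hm => List.forall₂_same.2 fun e he => ⟨le_rfl, le_rfl, hm e he⟩
  refine hl.gr_shrink (List.rel_append (hr _ fun e he => (hl.1 e (List.mem_append_left _ he)).2.2.1)
    (List.rel_append ?_ (hr _ fun e he =>
      (hl.1 e (List.mem_append_right _ (List.mem_append_right _ he))).2.2.1)))
  have h1 : ∀ a ∈ l, 1 ≤ κ := fun a ha => (hl.1 (vd κ a.2) (List.mem_append_right _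
    (List.mem_append_left _ (List.mem_flatMap.2 ⟨a, ha, List.mem_cons_self⟩)))).2.2.1
  clear hl hr
  induction l with
  | nil => exact List.Forall₂.nil
  | cons a l ih =>
    have h2 := h1 a List.mem_cons_self
    refine List.Forall₂.cons ⟨le_rfl, le_rfl, h2⟩ (List.Forall₂.cons ?_
      (ih fun b hb => h1 b (List.mem_cons_of_mem _ hb)))
    simp only [md]
    omega

theorem gr_length_cp (l : List (ℕ × ℕ)) : (cp κ l).length = 2 * l.length := by
  induction l with
  | nil => rfl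
  | cons a l ih =>
    have : cp κ (a :: l) = vd κ a.2 :: (false, a.1 + κ, 2 ^ κ - κ) :: cp κ l := rfl
    rw [this, List.length_cons, List.length_cons, ih, List.length_cons]
    omega

theorem gr_hp_cp {l : List (ℕ × ℕ)} {z : Vec σ} (h : HP ds z) : HP (cp κ l ++ ds) z := by
  intro e he h1
  rcases List.mem_append.1 he with he | he
  · obtain ⟨a, -, ha⟩ := List.mem_flatMap.1 he
    simp only [List.mem_cons, List.not_mem_nil, or_false] at ha
    rcases ha with rfl | rfl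
    · exact absurd h1 (by simp [vd])
    · exact absurd h1 (by simp)
  · exact h e he h1

/-- one merge, with the fault term. -/
theorem gr_mg_step {a : ℕ} (hp : Par κ u M) (hl : Lay σ κ u (vd κ v :: md κ a :: ds))
    (hd : ds.length + 2 ≤ M) (h0 : Home u z0) (hr : Runs κ orc S (plMg κ u v a ds) X Y) :
    av (Set.Ico v (v + κ)) (fun z => ind (¬ MgGood κ M v a ds X Y z)) z0 ≤
      av (Set.Ico a (a + κ)) (fun z =>
        ind (¬ OK (eV M) (vd κ v :: (false, a + κ, 2 ^ κ - κ) :: ds) X z)) z0 +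
      2 ^ (4 * u + κ) * flt u S (pos (vd κ v :: md κ a :: ds)) z0 := by
  have hκ : κ < 2 ^ κ := Nat.lt_two_pow_self
  have hv : v + κ ≤ σ := hl.gr_head.2.1
  have ha : a + 2 ^ κ ≤ σ := hl.gr_tail.gr_head.2.1
  by_cases hβ : flt u S (pos (vd κ v :: md κ a :: ds)) z0 ≤ (1 / 2) ^ (4 * u + κ)
  · have h1 := plMg_spec hp hl hd h0 hr hβ
    have h2 : 0 ≤ flt u S (pos (vd κ v :: md κ a :: ds)) z0 := flt_nonneg S
    rw [av_Ico hv, av_Ico (by omega)]
    refine h1.trans (le_add_of_nonneg_right (by positivity))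
  · have h1 := gr_one_le hβ
    have h2 := av_ind_nonneg (P := Set.Ico a (a + κ)) (z0 := z0)
      fun z => ¬ OK (eV M) (vd κ v :: (false, a + κ, 2 ^ κ - κ) :: ds) X z
    refine (av_ind_le_one _).trans ?_
    linarith

/-- the first merge and the rest. -/
theorem gr_rowBad_cons {a : ℕ × ℕ} {l : List (ℕ × ℕ)} {Z : Vec σ → Val} {z1 ρ : Vec σ}
    (hl : Lay σ κ u (vd κ a.2 :: md κ a.1 :: ((l.flatMap fun a => [vd κ a.2, md κ a.1]) ++ ds)))
    (hρ : InR (pos (l.map fun a => vd κ a.2)) z1 ρ)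
    (hg : MgGood κ M a.2 a.1 (cp κ l ++ ds) X Z z1) (hb : RowBad κ M ds (a :: l) X Y ρ) :
    RowBad κ M (md κ a.1 :: ds) l Z Y ρ := by
  intro hgood
  refine hb fun z hz hH hget y hy => ?_
  have hκ : κ < 2 ^ κ := Nat.lt_two_pow_self
  have hmem : ∀ b ∈ l, md κ b.1 ∈ (l.flatMap fun a => [vd κ a.2, md κ a.1]) := fun b hb =>
    List.mem_flatMap.2 ⟨b, hb, List.mem_cons_of_mem _ List.mem_cons_self⟩
  have hperm : ∀ (m : List Dim) (e : Dim), e ∈ md κ a.1 :: (m ++ ds) ↔ e ∈ m ++ md κ a.1 :: ds := by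
    intro m e
    simp only [List.mem_cons, List.mem_append]
    tauto
  have hpos : ∀ m : List Dim, pos (md κ a.1 :: (m ++ ds)) = pos m ∪ pos (md κ a.1 :: ds) := by
    intro m
    rw [← pos_append]
    exact Set.Subset.antisymm (pos_mono fun e he => (hperm m e).1 he)
      (pos_mono fun e he => (hperm m e).2 he)
  have hz' : InR (pos (md κ a.1 :: ((l.map fun a => md κ a.1) ++ ds))) ρ z := hz
  have hlt : fld ρ a.1 κ < 2 ^ κ := fld_lt
  have hga := hget a List.mem_cons_self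
  have hw : InR (pos (md κ a.1 :: (cp κ l ++ ds))) z1 (rowPt κ l ρ z) := by
    rw [hpos] at hz' ⊢
    refine (hρ.mono fun j hj => Or.inl (pos_mono (fun e he => ?_) hj)).trans (gr_rowPt_inR hz')
    obtain ⟨b, hb, rfl⟩ := List.mem_map.1 he
    exact List.mem_flatMap.2 ⟨b, hb, List.mem_cons_self⟩
  have hHw : HP (cp κ l ++ ds) (rowPt κ l ρ z) := by
    refine gr_hp_cp fun e he h1 => ?_
    rw [gr_get_rowPt ρ z fun b hb => hl.gr_tail.gr_tail.gr_app_disj (hmem b hb) he]
    exact hH e he h1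
  have hgw : get (rowPt κ l ρ z) a.1 (2 ^ κ) = ofN _ (2 ^ fld ρ a.1 κ) := by
    exact (gr_get_rowPt (p := a.1) (w := 2 ^ κ) ρ z fun b hb =>
      (hl.gr_tail.gr_head_disj (List.mem_append_left _ (hmem b hb))).symm).trans hga
  have h1 := hg.2 _ hw hHw _ hlt hgw y hy
  have h2 := hgood z (by rw [pos_append, ← hpos]; exact hz') (fun e he h1 => ?_)
    (fun b hb => hget b (List.mem_cons_of_mem _ hb)) y ((Msg_perm (hperm _)).1 h1)
  · exact (Msg_perm (hperm _)).2 h2
  · rcases List.mem_cons.1 he with rfl | he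
    · exact ⟨_, hlt, hga⟩
    · exact hH e he h1

theorem gr_hsum_cons (a : ℕ × ℕ) (l : List (ℕ × ℕ)) (f : Vec σ → ℝ) (z : Vec σ) :
    hsum κ (a :: l) f z =
      av (Set.Ico a.1 (a.1 + κ)) f z + hsum κ l (av (Set.Ico a.1 (a.1 + κ)) f) z := by
  rw [hsum, List.length_cons, Finset.sum_range_succ', add_comm]
  congr 1
  · show av (pos [vd κ a.1]) f z = _
    rw [gr_pos_vd, pos_nil, Set.union_empty]
  · refine Finset.sum_congr rfl fun i _ => ?_
    show av (pos (vd κ a.1 :: lo κ (l.take (i + 1)))) f z = _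
    rw [gr_pos_vd, av_av, Set.union_comm]

theorem gr_av_hsum (P : Set ℕ) (l : List (ℕ × ℕ)) (f : Vec σ → ℝ) (z : Vec σ) :
    av P (hsum κ l f) z = hsum κ l (av P f) z := by
  have : hsum κ l f = fun z => ∑ i ∈ range l.length, av (pos (lo κ (l.take (i + 1)))) f z := rfl
  rw [this, av_sum, hsum]
  refine Finset.sum_congr rfl fun i _ => ?_
  rw [av_av, av_av, Set.union_comm]

theorem gr_hsum_mono {l : List (ℕ × ℕ)} {f g : Vec σ → ℝ} (hl : ∀ a ∈ l, u + 2 ≤ a.1)
    (h0 : Home u z0) (h : ∀ z, Home u z → f z ≤ g z) : hsum κ l f z0 ≤ hsum κ l g z0 := by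
  refine Finset.sum_le_sum fun i _ => av_mono fun z hz => h z (hz.home (fun j hj => ?_) h0)
  obtain ⟨e, he, h1, -⟩ := hj
  obtain ⟨a, ha, rfl⟩ := List.mem_map.1 he
  exact (hl a (List.mem_of_mem_take ha)).trans h1

theorem mgs_spec {l : List (ℕ × ℕ)} (hp : Par κ u M)
    (hl : Lay σ κ u ((l.flatMap fun a => [vd κ a.2, md κ a.1]) ++ ds))
    (hd : 2 * l.length + ds.length ≤ M) (h0 : Home u z0) (hr : Runs κ orc S (mgs κ u ds l) X Y) :
    av (pos (l.map fun a => vd κ a.2)) (fun ρ => ind (RowBad κ M ds l X Y ρ)) z0 ≤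
      hsum κ l (fun z => ind (¬ OK (eV M) (cp κ l ++ ds) X z) +
        l.length * (2 ^ (4 * u + κ) * flt u S (pos (cp κ l ++ ds)) z)) z0 := by
  induction l generalizing ds z0 X with
  | nil =>
    have hXY : X = Y := hr
    subst hXY
    have : ¬ RowBad κ M ds [] X X z0 := not_not.2 fun _ _ _ _ _ h => h
    rw [List.map_nil, pos_nil, av_empty, ind_of_not this]
    simp [hsum]
  | cons a l ih =>
    obtain ⟨Z, h1, h2⟩ := runs_append.1 hr
    have hl' : Lay σ κ u
        (vd κ a.2 :: md κ a.1 :: ((l.flatMap fun a => [vd κ a.2, md κ a.1]) ++ ds)) := hl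
    have hlc : Lay σ κ u (vd κ a.2 :: md κ a.1 :: (cp κ l ++ ds)) :=
      gr_lay_cp (pre := [vd κ a.2, md κ a.1]) hl'
    have hlr : Lay σ κ u ((l.flatMap fun a => [vd κ a.2, md κ a.1]) ++ md κ a.1 :: ds) :=
      hl'.gr_tail.perm List.perm_middle.symm
    have hlen : (cp κ l ++ ds).length + 2 ≤ M := by
      rw [List.length_append, gr_length_cp]
      rw [List.length_cons] at hd
      omega
    have hlen' : 2 * l.length + (md κ a.1 :: ds).length ≤ M := by
      rw [List.length_cons] at hd ⊢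
      omega
    have hv : u + 2 ≤ a.2 := hl'.gr_head.1
    have hla : ∀ b ∈ l, u + 2 ≤ b.1 := fun b hb => (hl'.1 (md κ b.1) (List.mem_cons_of_mem _
      (List.mem_cons_of_mem _ (List.mem_append_left _
        (List.mem_flatMap.2 ⟨b, hb, List.mem_cons_of_mem _ List.mem_cons_self⟩))))).1
    have hperm : ∀ e : Dim, e ∈ md κ a.1 :: (cp κ l ++ ds) ↔ e ∈ cp κ l ++ md κ a.1 :: ds :=
      fun e => List.perm_middle.symm.mem_iff
    have hP1 : Set.Ico a.1 (a.1 + κ) ∪ pos (cp κ (a :: l) ++ ds) =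
        pos (vd κ a.2 :: md κ a.1 :: (cp κ l ++ ds)) := by
      rw [gr_cp_cons, gr_pos_vd, gr_pos_hi, gr_pos_vd, gr_pos_md, ← gr_Ico_split a.1,
        Set.union_left_comm, Set.union_assoc]
    have hP2 : Set.Ico a.2 (a.2 + κ) ∪ pos (cp κ l ++ md κ a.1 :: ds) =
        pos (vd κ a.2 :: md κ a.1 :: (cp κ l ++ ds)) := by
      rw [gr_pos_vd]
      congr 1
      exact Set.Subset.antisymm (pos_mono fun e he => (hperm e).2 he)
        (pos_mono fun e he => (hperm e).1 he)
    obtain ⟨K, hK⟩ : ∃ K : ℝ, K = 2 ^ (4 * u + κ) := ⟨_, rfl⟩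
    have hK0 : 0 ≤ K := by rw [hK]; positivity
    have hn0 : (0 : ℝ) ≤ l.length := Nat.cast_nonneg _
    rw [← hK] at ih ⊢
    have hf : ∀ z, av (Set.Ico a.1 (a.1 + κ)) (fun z => ind (¬ OK (eV M) (cp κ (a :: l) ++ ds) X z) +
        ((a :: l).length : ℝ) * (K * flt u S (pos (cp κ (a :: l) ++ ds)) z)) z =
        av (Set.Ico a.1 (a.1 + κ)) (fun z => ind (¬ OK (eV M) (cp κ (a :: l) ++ ds) X z)) z +
          (l.length + 1) * (K * flt u S (pos (vd κ a.2 :: md κ a.1 :: (cp κ l ++ ds))) z) := by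
      intro z
      rw [av_add, av_mul, av_mul, av_flt, hP1, List.length_cons, Nat.cast_succ]
    have hf' : ∀ z, av (Set.Ico a.2 (a.2 + κ))
        (fun z => ind (¬ OK (eV M) (cp κ l ++ md κ a.1 :: ds) Z z) +
        (l.length : ℝ) * (K * flt u S (pos (cp κ l ++ md κ a.1 :: ds)) z)) z =
        av (Set.Ico a.2 (a.2 + κ)) (fun z => ind (¬ OK (eV M) (cp κ l ++ md κ a.1 :: ds) Z z)) z +
          l.length * (K * flt u S (pos (vd κ a.2 :: md κ a.1 :: (cp κ l ++ ds))) z) := by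
      intro z
      rw [av_add, av_mul, av_mul, av_flt, hP2]
    have hmg : ∀ z, Home u z →
        av (Set.Ico a.2 (a.2 + κ)) (fun z => ind (¬ MgGood κ M a.2 a.1 (cp κ l ++ ds) X Z z)) z ≤
        av (Set.Ico a.1 (a.1 + κ)) (fun z => ind (¬ OK (eV M) (cp κ (a :: l) ++ ds) X z)) z +
          K * flt u S (pos (vd κ a.2 :: md κ a.1 :: (cp κ l ++ ds))) z := by
      intro z hz
      rw [hK]
      exact gr_mg_step hp hlc hlen hz h1
    have step : av (pos ((a :: l).map fun a => vd κ a.2))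
        (fun ρ => ind (RowBad κ M ds (a :: l) X Y ρ)) z0 ≤
        av (Set.Ico a.2 (a.2 + κ)) (fun z => ind (¬ MgGood κ M a.2 a.1 (cp κ l ++ ds) X Z z) +
          hsum κ l (fun z => ind (¬ OK (eV M) (cp κ l ++ md κ a.1 :: ds) Z z) +
            (l.length : ℝ) * (K * flt u S (pos (cp κ l ++ md κ a.1 :: ds)) z)) z) z0 := by
      rw [List.map_cons, gr_pos_vd, ← av_av]
      refine av_mono fun z hz => ?_
      have hz0 := hz.home (fun _ hj => hv.trans hj.1) h0
      have h3 := ih hlr hlen' hz0 h2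
      by_cases hg : MgGood κ M a.2 a.1 (cp κ l ++ ds) X Z z
      · rw [ind_of_not (not_not.2 hg), zero_add]
        exact (av_mono fun ρ hρ => ind_mono (gr_rowBad_cons hl' hρ hg)).trans h3
      · rw [ind_of hg]
        exact (av_ind_le_one _).trans
          (le_add_of_nonneg_right ((av_ind_nonneg _).trans h3))
    rw [av_add, gr_av_hsum] at step
    rw [gr_hsum_cons]
    refine step.trans (add_le_add ?_ (gr_hsum_mono hla h0 fun z hz => ?_))
    · rw [hf]
      have h3 := hmg z0 h0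
      have h4 : 0 ≤ K * flt u S (pos (vd κ a.2 :: md κ a.1 :: (cp κ l ++ ds))) z0 :=
        mul_nonneg hK0 (flt_nonneg S)
      nlinarith
    · rw [hf, hf']
      have h3 := hmg z hz
      have h4 : av (Set.Ico a.2 (a.2 + κ))
          (fun z => ind (¬ OK (eV M) (cp κ l ++ md κ a.1 :: ds) Z z)) z ≤
          av (Set.Ico a.2 (a.2 + κ))
            (fun z => ind (¬ MgGood κ M a.2 a.1 (cp κ l ++ ds) X Z z)) z :=
        av_mono fun y _ => ind_mono (mt fun hg => (OK_perm hperm).1 hg.1)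
      linarith

/-- the message of the column through `ρ` is lost in the split. -/
def ColBad (κ M : ℕ) (es : List ℕ) (ds : List Dim) (X Y : Vec σ → Val) (ρ : Vec σ) : Prop :=
  ¬ ∀ z, InR (pos ((es.map fun p => ((false, p + κ, 2 ^ κ - κ) : Dim)) ++ ds)) ρ z → HP ds z → ∀ y,
    Msg (eV M) (es.map (md κ) ++ ds) X (spl κ es z) y →
      Msg (eV M / 2) ((es.map fun p => ((false, p + κ, 2 ^ κ - κ) : Dim)) ++ ds) Y z y

theorem gr_spl_inR (es : List ℕ) (z : Vec σ) : InR (pos (es.map (md κ))) z (spl κ es z) := by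
  have : ∀ m : List ℕ, InR (pos (m.map (md κ))) z
      (m.foldr (fun p y => put y p (2 ^ κ) (ofN _ (2 ^ fld z p κ))) z) := by
    intro m
    induction m with
    | nil => exact InR.refl
    | cons p m ih =>
      rw [List.map_cons, gr_pos_md, List.foldr_cons]
      exact InR.put (ih.mono Set.subset_union_right)
        (fun _ h1 h2 => Or.inl (Set.mem_Ico.2 ⟨h1, h2⟩)) _
  exact this es

theorem gr_pos_lo_hi (es : List ℕ) (ds : List Dim) : pos (es.map (vd κ)) ∪
    pos ((es.map fun p => ((false, p + κ, 2 ^ κ - κ) : Dim)) ++ ds) = pos (es.map (md κ) ++ ds) := by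
  induction es with
  | nil => rw [List.map_nil, pos_nil, Set.empty_union]; rfl
  | cons p es ih =>
    rw [List.map_cons, List.map_cons, List.map_cons, List.cons_append, List.cons_append, gr_pos_vd,
      gr_pos_hi, gr_pos_md, ← ih, ← gr_Ico_split p]
    ext j
    simp only [Set.mem_union]
    tauto

theorem gr_split_arith (hp : Par κ u M) {n : ℕ} (hn : n ≤ M) {β : ℝ} (hβ : 0 ≤ β) :
    32 ^ n * (2 ^ (u + 2) * β) / (eV M / 2) ≤ 2 ^ (2 * u) * β := by
  have h1 : (32 : ℝ) ^ n ≤ 2 ^ (5 * M) := by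
    rw [pow_mul]
    exact pow_le_pow_right₀ (by norm_num) hn |>.trans (by norm_num)
  have h2 : eV M * 2 ^ (6 * M) = 1 := by
    rw [eV, pow_mul, ← mul_pow]
    norm_num
  have h3 : (2 : ℝ) ^ (5 * M) * 2 ^ (u + 2) * (2 ^ (6 * M) * 2) ≤ 2 ^ (2 * u) := by
    rw [← pow_add, ← pow_succ, ← pow_add]
    have := hp.hu
    exact pow_le_pow_right₀ (by norm_num) (by omega)
  have h4 := eV_pos M
  have h5 : 32 ^ n * (2 ^ (u + 2) * β) / (eV M / 2) =
      32 ^ n * 2 ^ (u + 2) * (2 ^ (6 * M) * 2) * β := by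
    rw [div_eq_iff (by positivity)]
    have : (32 : ℝ) ^ n * 2 ^ (u + 2) * (2 ^ (6 * M) * 2) * β * (eV M / 2) =
        32 ^ n * (2 ^ (u + 2) * β) * (eV M * 2 ^ (6 * M)) := by ring
    rw [this, h2, mul_one]
  rw [h5]
  refine mul_le_mul_of_nonneg_right (le_trans ?_ h3) hβ
  gcongr

theorem split_msg {es : List ℕ} (hp : Par κ u M) (hl : Lay σ κ u (es.map (md κ) ++ ds))
    (hd : es.length + ds.length ≤ M) (h0 : Home u z0) (hr : Runs κ orc S (split κ es ds) X Y) :
    av (pos (es.map (vd κ))) (fun ρ => ind (ColBad κ M es ds X Y ρ)) z0 ≤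
      2 ^ (2 * u) * flt u S (pos (es.map (md κ) ++ ds)) z0 := by
  have hβ : 0 ≤ flt u S (pos (es.map (md κ) ++ ds)) z0 := flt_nonneg S
  have hlen : (es.map (md κ) ++ ds).length ≤ M := by
    rw [List.length_append, List.length_map]
    exact hd
  have hin : ∀ ρ z, InR (pos (es.map (vd κ))) z0 ρ →
      InR (pos ((es.map fun p => ((false, p + κ, 2 ^ κ - κ) : Dim)) ++ ds)) ρ z →
      InR (pos (es.map (md κ) ++ ds)) z0 z := by
    intro ρ z hρ hz
    rw [← gr_pos_lo_hi]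
    exact (hρ.mono Set.subset_union_left).trans (hz.mono Set.subset_union_right)
  have hsp : ∀ z, InR (pos (es.map (md κ) ++ ds)) z0 z →
      InR (pos (es.map (md κ) ++ ds)) z0 (spl κ es z) := fun z hz =>
    hz.trans ((gr_spl_inR es z).mono (pos_mono fun e he => List.mem_append_left _ he))
  by_cases hok : OK (eV M) (es.map (md κ) ++ ds) X z0
  · obtain ⟨F, hF⟩ := hok
    have he : err (es.map (md κ) ++ ds) X F z0 < (1 / 32) ^ (es.length + ds.length) := by
      refine hF.2.trans_lt (lt_of_lt_of_le ?_ (pow_le_pow_of_le_one (by norm_num) (by norm_num) hd))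
      exact pow_lt_pow_left₀ (by norm_num) (by norm_num) (by have := hp.hM; omega)
    obtain ⟨F', h1, h2⟩ := split_spec (by have := hp.hκ; omega) hl h0 hF.1 he hr
    have hs : 0 < eV M / 2 := by have := eV_pos M; positivity
    have step : av (pos (es.map (vd κ))) (fun ρ => ind (ColBad κ M es ds X Y ρ)) z0 ≤
        av (pos (es.map (vd κ))) (fun ρ => ind (eV M / 2 ≤
          err ((es.map fun p => ((false, p + κ, 2 ^ κ - κ) : Dim)) ++ ds) Y F' ρ)) z0 := by
      refine av_mono fun ρ hρ => ind_mono fun hb => ?_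
      by_contra hlt
      refine hb fun z hz hH y hy => ?_
      have hz0 := hin ρ z hρ hz
      have hy' := (hF.msg_iff hl hp.hM hlen (hsp z hz0)).1 hy
      refine ⟨F', gr_valid (h2 z hz0).1 ?_, ((h2 z hz0).2 hH).trans hy'⟩
      rw [err_base hz]
      exact (not_le.1 hlt).le
    refine step.trans ((av_markov (fun _ => err_nonneg) hs).trans ?_)
    rw [av_err (gr_pos_lo_hi es ds)]
    refine le_trans ?_ (gr_split_arith hp hd hβ)
    refine div_le_div_of_nonneg_right (h1.trans ?_) hs.le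
    exact mul_le_mul_of_nonneg_left (av_le_flt S) (by positivity)
  · refine (av_le fun ρ hρ => le_of_eq (ind_of_not (not_not.2 fun z hz _ y hy => ?_))).trans
      (by positivity)
    exact absurd ((OK_base (hsp z (hin ρ z hρ hz))).1 hy.ok) hok

theorem sans_ok {vs : List ℕ} (hp : Par κ u M) (hl : Lay σ κ u (vs.map (vd κ) ++ ds))
    (hd : vs.length + ds.length ≤ M) (h0 : Home u z0) (hr : Runs κ orc S (sans κ u ds vs) X Y) :
    nOK M ds (pos (vs.map (vd κ))) Y z0 ≤ 1 / (2 ^ κ) ^ vs.length +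
      vs.length * (2 ^ (4 * u) * flt u S (pos (vs.map (vd κ) ++ ds)) z0) :=
  (gr_sans_ok hp hl hd h0 hr).trans
    (add_le_add (div_le_div_of_nonneg_right (ind_le_one _) (by positivity)) le_rfl)

theorem sans_msg {vs : List ℕ} (hp : Par κ u M) (hl : Lay σ κ u (vs.map (vd κ) ++ ds))
    (hd : vs.length + ds.length ≤ M) (h0 : Home u z0) (hr : Runs κ orc S (sans κ u ds vs) X Y) :
    av (pos (vs.map (vd κ))) (fun ρ => ind (¬ ∀ z, InR (pos ds) ρ z → HP ds z → ∀ y,
      Msg (eV M) (vs.map (vd κ) ++ ds) X z y → Msg (eV M) ds Y z y)) z0 ≤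
      vs.length * (2 ^ (4 * u) * flt u S (pos (vs.map (vd κ) ++ ds)) z0) :=
  gr_sans_msg hp hl hd h0 hr

end Vale.Agent.P330.Amp
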