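import Vale.Agent.P330.WSort

/-! Helper lemmas for the task Grid: layouts, regions, repeated sanitizing. -/

namespace Vale.Agent.P330.Amp

open Vale.Agent.Lib.H23 Vale.Agent.P325 Finset
open scoped BigOperators

variable {σ κ u M v : ℕ} {ds : List Dim} {orc : ℕ → Vec σ → Bool} {S : Vec σ → Prop}
  {X Y : Vec σ → Val} {z0 : Vec σ}

theorem gr_pos_vd (q : ℕ) (ds : List Dim) : pos (vd κ q :: ds) = Set.Ico q (q + κ) ∪ pos ds :=
  pos_cons

theorem gr_pos_md (q : ℕ) (ds : List Dim) : pos (md κ q :: ds) = Set.Ico q (q + 2 ^ κ) ∪ pos ds :=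
  pos_cons

theorem gr_pos_hi (q : ℕ) (ds : List Dim) :
    pos (((false, q + κ, 2 ^ κ - κ) : Dim) :: ds) = Set.Ico (q + κ) (q + 2 ^ κ) ∪ pos ds := by
  have h : κ < 2 ^ κ := Nat.lt_two_pow_self
  rw [pos_cons]
  have : q + κ + (2 ^ κ - κ) = q + 2 ^ κ := by omega
  simp only [this]

theorem gr_Ico_split (q : ℕ) :
    Set.Ico q (q + κ) ∪ Set.Ico (q + κ) (q + 2 ^ κ) = Set.Ico q (q + 2 ^ κ) := by
  have h : κ < 2 ^ κ := Nat.lt_two_pow_self
  ext j
  simp only [Set.mem_union, Set.mem_Ico]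
  omega

theorem Lay.gr_head {e : Dim} (h : Lay σ κ u (e :: ds)) :
    u + 2 ≤ e.2.1 ∧ e.2.1 + e.2.2 ≤ σ ∧ 1 ≤ e.2.2 ∧ e.2.2 ≤ 2 ^ κ := h.1 e List.mem_cons_self

theorem Lay.gr_tail {e : Dim} (h : Lay σ κ u (e :: ds)) : Lay σ κ u ds :=
  h.sublist (List.sublist_cons_self e ds)

theorem Lay.gr_head_disj {e e' : Dim} (h : Lay σ κ u (e :: ds)) (he : e' ∈ ds) :
    e.2.1 + e.2.2 ≤ e'.2.1 ∨ e'.2.1 + e'.2.2 ≤ e.2.1 := (List.pairwise_cons.1 h.2).1 e' he

theorem Lay.gr_app_disj {ds' : List Dim} {e e' : Dim} (h : Lay σ κ u (ds ++ ds')) (he : e ∈ ds)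
    (he' : e' ∈ ds') : e.2.1 + e.2.2 ≤ e'.2.1 ∨ e'.2.1 + e'.2.2 ≤ e.2.1 :=
  (List.pairwise_append.1 h.2).2.2 e he e' he'

/-- shrinking the dimensions. -/
theorem Lay.gr_shrink {ds' : List Dim} (h : Lay σ κ u ds)
    (hs : List.Forall₂ (fun e e' : Dim => e.2.1 ≤ e'.2.1 ∧ e'.2.1 + e'.2.2 ≤ e.2.1 + e.2.2 ∧
      1 ≤ e'.2.2) ds ds') : Lay σ κ u ds' := by
  induction hs with
  | nil => exact h
  | @cons e e' l l' he hl ih =>
    have ih' := ih h.gr_tail
    have h1 := h.gr_head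
    refine ⟨fun x hx => ?_, List.pairwise_cons.2 ⟨fun x hx => ?_, ih'.2⟩⟩
    · rcases List.mem_cons.1 hx with rfl | hx
      · omega
      · exact ih'.1 x hx
    · have : ∃ y ∈ l, y.2.1 ≤ x.2.1 ∧ x.2.1 + x.2.2 ≤ y.2.1 + y.2.2 ∧ 1 ≤ x.2.2 := by
        clear ih ih' h1 h he
        induction hl with
        | nil => exact absurd hx List.not_mem_nil
        | @cons a b m m' hab _ ih2 =>
          rcases List.mem_cons.1 hx with rfl | hx
          · exact ⟨a, List.mem_cons_self, hab⟩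
          · obtain ⟨y, hy, hy'⟩ := ih2 hx
            exact ⟨y, List.mem_cons_of_mem _ hy, hy'⟩
      obtain ⟨y, hy, hy'⟩ := this
      have := h.gr_head_disj hy
      omega

theorem gr_home_put {q w : ℕ} (h0 : Home u z0) (hq : u + 2 ≤ q) (s : Vec w) :
    Home u (put z0 q w s) :=
  InR.home (P := Set.Ico q (q + w))
    (InR.put InR.refl (fun _ h1 h2 => Set.mem_Ico.2 ⟨h1, h2⟩) s)
    (fun _ hj => hq.trans hj.1) h0

/-- a point of the region of a field and a set lies in the region of its slice. -/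
theorem gr_inR_slice {q w : ℕ} {P : Set ℕ} {z : Vec σ} (h : InR (Set.Ico q (q + w) ∪ P) z0 z) :
    InR P (put z0 q w (get z q w)) z := by
  intro j hj
  by_cases hq : q ≤ j ∧ j < q + w
  · have : put z0 q w (get z q w) j = put z q w (get z q w) j := by
      simp only [put, dif_pos hq]
    rw [this, put_get]
  · have : put z0 q w (get z q w) j = z0 j := by simp only [put, dif_neg hq]
    rw [this]
    exact h j fun hm => hm.elim hq hj

theorem gr_hp_vd {vs : List ℕ} {z : Vec σ} (h : HP ds z) : HP (vs.map (vd κ) ++ ds) z := by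
  intro e he h1
  rcases List.mem_append.1 he with he | he
  · obtain ⟨q, -, rfl⟩ := List.mem_map.1 he
    exact absurd h1 (by simp [vd])
  · exact h e he h1

theorem gr_eV_div (M κ : ℕ) : eV M / (4 * 2 ^ κ) ≤ eV M := by
  have h1 : (1 : ℝ) ≤ 2 ^ κ := one_le_pow₀ (by norm_num)
  exact div_le_self (eV_pos M).le (by linarith)

theorem gr_valid {F : Vec σ → ZMod 2} {ε : ℝ} (h : PolyL ds z0 F) (he : err ds X F z0 ≤ ε) :
    Valid ε ds X z0 F := ⟨h.polyD.mono (by norm_num), he⟩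

theorem gr_one_le {n : ℕ} {β : ℝ} (h : ¬ β ≤ (1 / 2) ^ n) : 1 ≤ 2 ^ n * β := by
  have h1 : (2 : ℝ) ^ n * (1 / 2) ^ n = 1 := by rw [← mul_pow]; norm_num
  have h2 : (0 : ℝ) < 2 ^ n := by positivity
  rw [← h1]
  exact mul_le_mul_of_nonneg_left (not_le.1 h).le h2.le

theorem gr_expect_eq (r0 : Vec κ) : (𝔼 r : Vec κ, ind (r = r0)) = 1 / 2 ^ κ := by
  classical
  rw [Finset.expect_eq_sum_div_card]
  have : ∑ r : Vec κ, ind (r = r0) = 1 := by
    rw [Finset.sum_eq_single r0]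
    · exact ind_of rfl
    · exact fun b _ hb => ind_of_not hb
    · exact fun h => absurd (mem_univ _) h
  rw [this]
  simp [Vec, ZMod.card]

theorem gr_sans_ok {vs : List ℕ} (hp : Par κ u M) (hl : Lay σ κ u (vs.map (vd κ) ++ ds))
    (hd : vs.length + ds.length ≤ M) (h0 : Home u z0) (hr : Runs κ orc S (sans κ u ds vs) X Y) :
    nOK M ds (pos (vs.map (vd κ))) Y z0 ≤
      ind (¬ OK (eV M) (vs.map (vd κ) ++ ds) X z0) / (2 ^ κ) ^ vs.length +
      vs.length * (2 ^ (4 * u) * flt u S (pos (vs.map (vd κ) ++ ds)) z0) := by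
  induction vs generalizing z0 X with
  | nil =>
    have hXY : X = Y := hr
    subst hXY
    simp only [nOK, List.map_nil, pos_nil, av_empty, List.nil_append, List.length_nil, pow_zero,
      div_one, Nat.cast_zero, zero_mul, add_zero, le_refl]
  | cons v vs ih =>
    obtain ⟨Z, h1, h2⟩ := runs_append.1 hr
    have hl' : Lay σ κ u (vd κ v :: (vs.map (vd κ) ++ ds)) := hl
    have hv : u + 2 ≤ v ∧ v + κ ≤ σ := ⟨hl'.gr_head.1, hl'.gr_head.2.1⟩
    have hlen : (vs.map (vd κ) ++ ds).length + 1 ≤ M := by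
      simp only [List.length_append, List.length_map, List.length_cons] at hd ⊢
      omega
    have hf0 : 0 ≤ flt u S (pos (vd κ v :: (vs.map (vd κ) ++ ds))) z0 := flt_nonneg S
    have hi0 := ind_nonneg (¬ OK (eV M) (vd κ v :: (vs.map (vd κ) ++ ds)) X z0)
    have hn0 : (0 : ℝ) ≤ vs.length := Nat.cast_nonneg _
    have hK : (0 : ℝ) < (2 ^ κ) ^ vs.length := by positivity
    have hK2 : (0 : ℝ) < 2 ^ κ := by positivity
    show nOK M ds (pos (vd κ v :: vs.map (vd κ))) Y z0 ≤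
      ind (¬ OK (eV M) (vd κ v :: (vs.map (vd κ) ++ ds)) X z0) / (2 ^ κ) ^ (vs.length + 1) +
      ((vs.length + 1 : ℕ) : ℝ) * (2 ^ (4 * u) * flt u S (pos (vd κ v :: (vs.map (vd κ) ++ ds))) z0)
    by_cases hβ : flt u S (pos (vd κ v :: (vs.map (vd κ) ++ ds))) z0 ≤ (1 / 2) ^ (4 * u)
    · obtain ⟨r0, F', hF, -⟩ := san_vers hp hl' hlen h0 h1 hβ
      have key : av (Set.Ico v (v + κ)) (fun z => ind (¬ OK (eV M) (vs.map (vd κ) ++ ds) Z z)) z0 ≤
          ind (¬ OK (eV M) (vd κ v :: (vs.map (vd κ) ++ ds)) X z0) / 2 ^ κ := by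
        rw [av_Ico hv.2]
        by_cases hok : OK (eV M) (vd κ v :: (vs.map (vd κ) ++ ds)) X z0
        · rw [ind_of_not (not_not.2 hok), zero_div]
          refine Finset.expect_le univ_nonempty fun r _ => le_of_eq (ind_of_not (not_not.2 ?_))
          exact ⟨F', gr_valid (hF r (Or.inr hok)).1 ((hF r (Or.inr hok)).2.trans (gr_eV_div M κ))⟩
        · rw [ind_of hok, ← gr_expect_eq r0]
          refine Finset.expect_le_expect fun r _ => ind_mono fun hn => ?_
          by_contra hne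
          exact hn ⟨F', gr_valid (hF r (Or.inl hne)).1
            ((hF r (Or.inl hne)).2.trans (gr_eV_div M κ))⟩
      have step : nOK M ds (pos (vd κ v :: vs.map (vd κ))) Y z0 ≤
          av (Set.Ico v (v + κ)) (fun z =>
            (1 / (2 ^ κ) ^ vs.length) * ind (¬ OK (eV M) (vs.map (vd κ) ++ ds) Z z) +
            (vs.length * 2 ^ (4 * u)) * flt u S (pos (vs.map (vd κ) ++ ds)) z) z0 := by
        rw [nOK, gr_pos_vd, ← av_av]
        refine av_mono fun z hz => ?_
        have := ih (z0 := z) hl'.gr_tail (by simp only [List.length_cons] at hd; omega)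
          (hz.home (fun _ hj => hv.1.trans hj.1) h0) h2
        rw [one_div_mul_eq_div, mul_assoc]
        exact this
      rw [av_add, av_mul, av_mul, av_flt, ← gr_pos_vd] at step
      refine step.trans ?_
      have e1 : 1 / ((2 : ℝ) ^ κ) ^ vs.length *
          (ind (¬ OK (eV M) (vd κ v :: (vs.map (vd κ) ++ ds)) X z0) / 2 ^ κ) =
          ind (¬ OK (eV M) (vd κ v :: (vs.map (vd κ) ++ ds)) X z0) / (2 ^ κ) ^ (vs.length + 1) := by
        rw [pow_succ]
        field_simp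
      have e2 := mul_le_mul_of_nonneg_left key (show (0 : ℝ) ≤ 1 / (2 ^ κ) ^ vs.length by positivity)
      rw [e1] at e2
      have e3 : 0 ≤ 2 ^ (4 * u) * flt u S (pos (vd κ v :: (vs.map (vd κ) ++ ds))) z0 := by positivity
      push_cast
      nlinarith
    · have e1 := gr_one_le hβ
      have e2 : nOK M ds (pos (vd κ v :: vs.map (vd κ))) Y z0 ≤ 1 := av_ind_le_one _
      have e3 : 0 ≤ ind (¬ OK (eV M) (vd κ v :: (vs.map (vd κ) ++ ds)) X z0) /
        (2 ^ κ) ^ (vs.length + 1) := by positivity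
      push_cast
      nlinarith

theorem gr_sans_msg {vs : List ℕ} (hp : Par κ u M) (hl : Lay σ κ u (vs.map (vd κ) ++ ds))
    (hd : vs.length + ds.length ≤ M) (h0 : Home u z0) (hr : Runs κ orc S (sans κ u ds vs) X Y) :
    av (pos (vs.map (vd κ))) (fun ρ => ind (¬ ∀ z, InR (pos ds) ρ z → HP ds z → ∀ y,
      Msg (eV M) (vs.map (vd κ) ++ ds) X z y → Msg (eV M) ds Y z y)) z0 ≤
      vs.length * (2 ^ (4 * u) * flt u S (pos (vs.map (vd κ) ++ ds)) z0) := by
  induction vs generalizing z0 X with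
  | nil =>
    have hXY : X = Y := hr
    subst hXY
    rw [List.map_nil, pos_nil, av_empty, List.nil_append,
      ind_of_not (not_not.2 fun _ _ _ _ h => h)]
    simp
  | cons v vs ih =>
    obtain ⟨Z, h1, h2⟩ := runs_append.1 hr
    have hl' : Lay σ κ u (vd κ v :: (vs.map (vd κ) ++ ds)) := hl
    have hv : u + 2 ≤ v ∧ v + κ ≤ σ := ⟨hl'.gr_head.1, hl'.gr_head.2.1⟩
    have hlen : (vs.map (vd κ) ++ ds).length + 1 ≤ M := by
      simp only [List.length_append, List.length_map, List.length_cons] at hd ⊢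
      omega
    have hf0 : 0 ≤ flt u S (pos (vd κ v :: (vs.map (vd κ) ++ ds))) z0 := flt_nonneg S
    have hn0 : (0 : ℝ) ≤ vs.length := Nat.cast_nonneg _
    show av (pos (vd κ v :: vs.map (vd κ))) (fun ρ => ind (¬ ∀ z, InR (pos ds) ρ z → HP ds z → ∀ y,
      Msg (eV M) (vd κ v :: (vs.map (vd κ) ++ ds)) X z y → Msg (eV M) ds Y z y)) z0 ≤
      ((vs.length + 1 : ℕ) : ℝ) * (2 ^ (4 * u) * flt u S (pos (vd κ v :: (vs.map (vd κ) ++ ds))) z0)
    by_cases hβ : flt u S (pos (vd κ v :: (vs.map (vd κ) ++ ds))) z0 ≤ (1 / 2) ^ (4 * u)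
    · obtain ⟨r0, F', hF, hm⟩ := san_vers hp hl' hlen h0 h1 hβ
      have step1 : av (pos (vd κ v :: vs.map (vd κ))) (fun ρ => ind (¬ ∀ z, InR (pos ds) ρ z →
          HP ds z → ∀ y, Msg (eV M) (vd κ v :: (vs.map (vd κ) ++ ds)) X z y →
            Msg (eV M) ds Y z y)) z0 ≤
          av (pos (vd κ v :: vs.map (vd κ))) (fun ρ => ind (¬ ∀ z, InR (pos ds) ρ z →
          HP ds z → ∀ y, Msg (eV M) (vs.map (vd κ) ++ ds) Z z y → Msg (eV M) ds Y z y)) z0 := by
        refine av_mono fun ρ hρ => ind_mono (mt fun hg z hz hH y hy => hg z hz hH y ?_)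
        have hz0 : InR (pos (vd κ v :: (vs.map (vd κ) ++ ds))) z0 z := by
          refine (hρ.mono (pos_mono fun e he => ?_)).trans (hz.mono (pos_mono fun e he => ?_))
          · rcases List.mem_cons.1 he with rfl | he
            · exact List.mem_cons_self
            · exact List.mem_cons_of_mem _ (List.mem_append_left _ he)
          · exact List.mem_cons_of_mem _ (List.mem_append_right _ he)
        have hok := (OK_base hz0).1 hy.ok
        have hz1 : InR (pos (vs.map (vd κ) ++ ds)) (put z0 v κ (get z v κ)) z :=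
          gr_inR_slice (by rw [← gr_pos_vd]; exact hz0)
        have hv1 := gr_valid (hF _ (Or.inr hok)).1
          ((hF (get z v κ) (Or.inr hok)).2.trans (gr_eV_div M κ))
        exact ⟨F', hv1.base hz1, hm z y hz0 (gr_hp_vd hH) hy⟩
      have step2 : av (pos (vd κ v :: vs.map (vd κ))) (fun ρ => ind (¬ ∀ z, InR (pos ds) ρ z →
          HP ds z → ∀ y, Msg (eV M) (vs.map (vd κ) ++ ds) Z z y → Msg (eV M) ds Y z y)) z0 ≤
          av (Set.Ico v (v + κ)) (fun z =>
            (vs.length * 2 ^ (4 * u)) * flt u S (pos (vs.map (vd κ) ++ ds)) z) z0 := by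
        rw [gr_pos_vd, ← av_av]
        refine av_mono fun z hz => ?_
        have := ih (z0 := z) hl'.gr_tail (by simp only [List.length_cons] at hd; omega)
          (hz.home (fun _ hj => hv.1.trans hj.1) h0) h2
        rw [mul_assoc]
        exact this
      rw [av_mul, av_flt, ← gr_pos_vd] at step2
      refine (step1.trans step2).trans ?_
      have e3 : 0 ≤ 2 ^ (4 * u) * flt u S (pos (vd κ v :: (vs.map (vd κ) ++ ds))) z0 := by positivity
      push_cast
      nlinarith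
    · have e1 := gr_one_le hβ
      refine (av_ind_le_one _).trans ?_
      push_cast
      nlinarith

end Vale.Agent.P330.Amp
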