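import Vale.Agent.P330.GroupA

/-! Majority along all version dimensions and the group lemma (task Group).
Plan for `maj_spec` (`D = vd κ v :: ds`): like a sweep. For a message point class `z` with value
`γ z` keep: a version outside `B i ∪ R i z` is valid with the value `γ z` at `z`; `B 0 = ∅`, `R 0 z` =
versions without the value. Step along `q'`: a line is calm if all its bundles are valid and
`6 k ^ 2 (κ+1) ^ 4 2 ^ (4 u + κ) flt < 1`; then `sb_msg` (with `qs = []`) has no exception and every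
output has the median bit. `B (i+1)` = line not calm or at least `1/4` of the line in `B i`,
`R (i+1) z` = at least `1/4` of the line in `R i z`; fewer than half of a good line is wrong, so
the median is `γ z`. `R` is invariant along the treated dimensions, so it is empty at the end
(`4 ^ M / 8 ^ M < 1`). `nOK` grows additively (`sb_ok`). At the end (`T ≠ []`) all versions outside
`B` and outside the exceptions of the last `sb_ok` are `OKL (eV / 2)` with the same message, so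
with the same codeword (`PolyL.ext`, `PolyL.comp_put`); this codeword is valid for the big bundle.
`group_spec`: `cascade_good`, `cascade_ok`, Markov over the values of `ps`, `maj_spec`. -/

namespace Vale.Agent.P330.Amp

open Vale.Agent.Lib.H23 Vale.Agent.P325 Finset
open scoped BigOperators

variable {σ κ u M v : ℕ} {ds : List Dim} {orc : ℕ → Vec σ → Bool} {S : Vec σ → Prop}
  {X Y : Vec σ → Val} {z0 : Vec σ}

theorem gp_three_mul_le_pow (hκ : 6 ≤ κ) : 3 * κ ≤ 2 ^ κ := by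
  induction κ, hκ using Nat.le_induction with
  | base => norm_num
  | succ k hk ih => rw [pow_succ]; omega

theorem grp_num1 (hp : Par κ u M) {n : ℕ} (hn : n ≤ M) :
    ((n : ℝ) * (κ ^ 2 + 1) + 1) * 2 ^ (4 * u + κ) ≤ 2 ^ (5 * u) := by
  have h1 := gp_three_mul_le_pow hp.hκ
  have h2 := hp.hu
  have h3 : κ + 1 ≤ 2 ^ κ := Nat.lt_two_pow_self
  have h4 : n + 1 ≤ 2 ^ n := Nat.lt_two_pow_self
  have h5 : (n * (κ ^ 2 + 1) + 1) * 2 ^ (4 * u + κ) ≤ 2 ^ (5 * u) :=
    calc (n * (κ ^ 2 + 1) + 1) * 2 ^ (4 * u + κ)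
        ≤ ((n + 1) * (κ + 1) ^ 2) * 2 ^ (4 * u + κ) := Nat.mul_le_mul_right _ (by nlinarith)
      _ ≤ (2 ^ n * (2 ^ κ) ^ 2) * 2 ^ (4 * u + κ) := by gcongr
      _ = 2 ^ (n + κ * 2 + (4 * u + κ)) := by rw [← pow_mul, ← pow_add, ← pow_add]
      _ ≤ 2 ^ (5 * u) := Nat.pow_le_pow_right (by norm_num) (by omega)
  exact_mod_cast h5

theorem grp_num2 (hp : Par κ u M) {n : ℕ} (hn : n ≤ M) :
    (4 : ℝ) ^ n * (6 * (2 ^ κ) ^ 2 * (κ + 1) ^ 4 * (1 / 2) ^ u) + (1 / 2) ^ u ≤ eV M / 2 := by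
  have h1 := gp_three_mul_le_pow hp.hκ
  have h2 := hp.hu
  have h3 : κ + 1 ≤ 2 ^ κ := Nat.lt_two_pow_self
  have h5 : (4 ^ n * (6 * (2 ^ κ) ^ 2 * (κ + 1) ^ 4) + 1) * (2 * 64 ^ M) ≤ 2 ^ u :=
    calc (4 ^ n * (6 * (2 ^ κ) ^ 2 * (κ + 1) ^ 4) + 1) * (2 * 64 ^ M)
        ≤ (4 ^ n * (2 ^ 3 * (2 ^ κ) ^ 2 * (κ + 1) ^ 4)) * (2 * 64 ^ M) := by
          refine Nat.mul_le_mul_right _ ?_
          have : 1 ≤ 4 ^ n * ((2 ^ κ) ^ 2 * (κ + 1) ^ 4) := Nat.one_le_iff_ne_zero.2 (by positivity)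
          nlinarith
      _ ≤ ((2 ^ 2) ^ M * (2 ^ 3 * (2 ^ κ) ^ 2 * (2 ^ κ) ^ 4)) * (2 ^ 1 * (2 ^ 6) ^ M) := by
          have : 4 ^ n ≤ (2 ^ 2) ^ M := Nat.pow_le_pow_right (by norm_num) hn
          gcongr <;> norm_num
      _ = 2 ^ (2 * M + (3 + κ * 2 + κ * 4) + (1 + 6 * M)) := by
          simp only [← pow_mul, ← pow_add]
      _ ≤ 2 ^ u := Nat.pow_le_pow_right (by norm_num) (by omega)
  have h6 : (((4 : ℝ) ^ n * (6 * (2 ^ κ) ^ 2 * (κ + 1) ^ 4) + 1) * (2 * 64 ^ M)) ≤ 2 ^ u := by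
    exact_mod_cast h5
  rw [eV, one_div_pow, one_div_pow, div_div, le_div_iff₀ (by positivity)]
  calc _ = (((4 : ℝ) ^ n * (6 * (2 ^ κ) ^ 2 * (κ + 1) ^ 4) + 1) * (2 * 64 ^ M)) / 2 ^ u := by ring
    _ ≤ 1 := div_le_one_of_le₀ h6 (by positivity)

theorem gp_mix_put_in {P : Set ℕ} {z y : Vec σ} {p w : ℕ} (h : ∀ j, p ≤ j → j < p + w → j ∈ P)
    (s : Vec w) : mix P (put z p w s) y = mix P z y := by
  funext j
  by_cases hj : j.val ∈ P
  · rw [mix_in hj, mix_in hj]
  · rw [mix_out hj, mix_out hj, put_out _ fun h1 => hj (h _ h1.1 h1.2)]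

theorem gp_mix_put_out {P : Set ℕ} {z y : Vec σ} {p w : ℕ} (h : ∀ j, p ≤ j → j < p + w → j ∉ P)
    (s : Vec w) : mix P (put z p w s) y = put (mix P z y) p w s := by
  funext j
  by_cases hj : p ≤ j.val ∧ j.val < p + w
  · rw [mix_out (h _ hj.1 hj.2), put_in _ hj, put_in _ hj]
  · rw [put_out _ hj]
    by_cases hp : j.val ∈ P
    · rw [mix_in hp, mix_in hp]
    · rw [mix_out hp, mix_out hp, put_out _ hj]

theorem gp_inR_mix_base {P Q : Set ℕ} {y z : Vec σ} (h : InR (P ∪ Q) y z) : InR Q y (mix P z y) := by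
  intro j hj
  by_cases hp : j.val ∈ P
  · rw [mix_in hp]
  · rw [mix_out hp]
    exact h j fun h1 => h1.elim hp hj

/-- a codeword of one version, read in all versions. -/
theorem gp_loC_mix {A D : List Dim} (hl : Lay σ κ u (A ++ D)) {y0 z : Vec σ} {F : Vec σ → ZMod 2}
    (hF : PolyL D y0 F) (hz : InR (pos (A ++ D)) y0 z) {e : Dim} (he : e ∈ D) :
    LoC e.1 (line (fun z => F (mix (pos A) z y0)) z e) := by
  have h := hF e he (mix (pos A) z y0) (gp_inR_mix_base (pos_append ▸ hz))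
  have e1 : line (fun z => F (mix (pos A) z y0)) z e = line F (mix (pos A) z y0) e := by
    funext s
    exact congrArg F (gp_mix_put_out (fun j h1 h2 hj => hl.disj hj ⟨e, he, h1, h2⟩) s)
  rwa [e1]

theorem maj_spec {T : List ℕ} {c0 : Bool} {c : Cond} (hp : Par κ u M)
    (hl : Lay σ κ u (T.map (vd κ) ++ vd κ v :: ds)) (hd : T.length + ds.length + 1 ≤ M)
    (hT : T ≠ []) (h0 : Home u z0)
    (hr : Runs κ orc S (T.flatMap fun q' => sb κ u v ds [] q' false c) X Y)
    (hc : ∀ z, InR (pos (T.map (vd κ) ++ vd κ v :: ds)) z0 z → c.ev orc z = c0)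
    (hs : nOK M (vd κ v :: ds) (pos (T.map (vd κ))) X z0 +
      2 ^ (5 * u) * flt u S (pos (T.map (vd κ) ++ vd κ v :: ds)) z0 ≤ (1 / 2) ^ u)
    (hcl : ∀ z, InR (pos (T.map (vd κ) ++ vd κ v :: ds)) z0 z → HP ds z → ∃ γ : Bool,
      av (pos (T.map (vd κ))) (fun z' => ind (¬ Msg (eV M) (vd κ v :: ds) X z' (b2 γ))) z
        ≤ (1 / 8) ^ M) :
    ∃ F, Valid (eV M) (T.map (vd κ) ++ vd κ v :: ds) Y z0 F ∧
      ∀ z, InR (pos (T.map (vd κ) ++ vd κ v :: ds)) z0 z → HP ds z → ∀ γ : Bool,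
        av (pos (T.map (vd κ))) (fun z' => ind (¬ Msg (eV M) (vd κ v :: ds) X z' (b2 γ))) z
          ≤ (1 / 8) ^ M → F z = b2 γ := by
  classical
  have hD : Lay σ κ u (vd κ v :: ds) := hl.sublist (List.sublist_append_right _ _)
  have hd' : ds.length + 1 ≤ M := by omega
  have hdisj : ∀ j ∈ pos (T.map (vd κ)), j ∉ pos ds := fun j hj hj' =>
    hl.disj hj (pos_mono (fun e he => List.mem_cons_of_mem _ he) hj')
  have h8 : (1 / 8 : ℝ) ^ M ≤ 1 / 8 := pow_le_of_le_one (by norm_num) (by norm_num)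
    (by have := hp.hM; omega)
  obtain ⟨g, hg, hg1, hg2⟩ : ∃ g : Vec σ → Bool,
      (∀ z z', InR (pos (T.map (vd κ))) z z' → g z' = g z) ∧
      (∀ z, InR (pos (T.map (vd κ) ++ vd κ v :: ds)) z0 z → HP ds z →
        av (pos (T.map (vd κ))) (fun z' => ind (¬ Msg (eV M) (vd κ v :: ds) X z' (b2 (g z)))) z
          ≤ (1 / 8) ^ M) ∧
      ∀ z γ, av (pos (T.map (vd κ))) (fun z' => ind (¬ Msg (eV M) (vd κ v :: ds) X z' (b2 γ))) z
          ≤ (1 / 8) ^ M → g z = γ := by
    refine ⟨fun z => decide (av (pos (T.map (vd κ)))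
      (fun z' => ind (¬ Msg (eV M) (vd κ v :: ds) X z' (b2 true))) z ≤ (1 / 8) ^ M),
      fun z z' h => by simp only [av_base h], fun z hz hH => ?_, fun z γ h => ?_⟩
    · by_cases h : av (pos (T.map (vd κ)))
        (fun z' => ind (¬ Msg (eV M) (vd κ v :: ds) X z' (b2 true))) z ≤ (1 / 8) ^ M
      · simp only [decide_eq_true h]
        exact h
      · simp only [decide_eq_false h]
        obtain ⟨γ, hγ⟩ := hcl z hz hH
        cases γ
        · exact hγ
        · exact absurd hγ h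
    · cases γ
      · refine decide_eq_false fun h' => ?_
        have h1 : av (pos (T.map (vd κ))) (fun _ => (1 : ℝ)) z ≤ av (pos (T.map (vd κ)))
            (fun z' => ind (¬ Msg (eV M) (vd κ v :: ds) X z' (b2 false)) +
              ind (¬ Msg (eV M) (vd κ v :: ds) X z' (b2 true))) z := by
          refine av_mono fun y _ => le_trans (le_of_eq (ind_of ?_).symm) (ind_or_le _ _)
          by_contra hh
          rw [not_or, not_not, not_not] at hh
          have := Msg.unique hD hp.hM hd' hh.1 hh.2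
          simp [b2] at this
        rw [av_const, av_add] at h1
        linarith
      · exact decide_eq_true h
  have hφ : 0 ≤ flt u S (pos (T.map (vd κ) ++ vd κ v :: ds)) z0 := flt_nonneg S
  have hn1 := mul_le_mul_of_nonneg_right (grp_num1 hp (n := T.length) (by omega)) hφ
  rw [mul_assoc] at hn1
  have hn2 := grp_num2 hp (n := T.length) (by omega)
  have hν : 0 ≤ 2 ^ (4 * u + κ) * flt u S (pos (T.map (vd κ) ++ vd κ v :: ds)) z0 :=
    mul_nonneg (by positivity) hφ
  obtain ⟨B, R, hB, hR, hm, hb, hr'⟩ := maj_iter hp hl hd' h0 hc hg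
    (a := 6 * (2 ^ κ) ^ 2 * (κ + 1) ^ 4 * (1 / 2) ^ u) T X ∅ (fun _ => False)
    (fun z => ¬ Msg (eV M) (vd κ v :: ds) X z (b2 (g z))) (fun _ h => h) hr
    (mul_le_mul_of_nonneg_left (by linarith) (by positivity))
    (fun _ _ _ => Iff.rfl)
    (fun z z' h => by rw [show z' = z from funext fun j => h j id])
    (fun z _ _ _ h => not_not.1 h)
  have hRn : ∀ z, InR (pos (T.map (vd κ) ++ vd κ v :: ds)) z0 z → HP ds z → ¬ R z := by
    intro z hz hH hRz
    have h1 := hr' z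
    rw [av_congr (g := fun _ => 1) fun y hy => ind_of ((hR z y (hy.mono Set.subset_union_right)).2
      hRz), av_const, av_congr (g := fun z' => ind (¬ Msg (eV M) (vd κ v :: ds) X z' (b2 (g z))))
      fun y hy => by rw [hg z y hy]] at h1
    have h2 := mul_le_mul_of_nonneg_left (hg1 z hz hH) (show (0 : ℝ) ≤ 4 ^ T.length by positivity)
    have h3 : (4 : ℝ) ^ T.length * (1 / 8) ^ M ≤ 4 ^ M * (1 / 8) ^ M :=
      mul_le_mul_of_nonneg_right (pow_le_pow_right₀ (by norm_num) (by omega)) (by positivity)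
    rw [← mul_pow] at h3
    have h4 : ((4 : ℝ) * (1 / 8)) ^ M < 1 :=
      pow_lt_one₀ (by norm_num) (by norm_num) (by have := hp.hM; omega)
    linarith
  have hL := maj_iter_ok hp hl hd' h0 hc T X (fun _ h => h) hT hr
  have hbad : av (pos (T.map (vd κ)))
      (fun y => ind (B y ∨ ¬ OKL (eV M / 2) (vd κ v :: ds) Y y)) z0 ≤ eV M / 2 := by
    refine ((av_mono fun z _ => ind_or_le _ _).trans av_add.le).trans ?_
    rw [av_congr (g := fun _ => 0) fun _ _ => ind_of_not id, av_const, zero_add] at hb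
    have : (0 : ℝ) ≤ 6 * (2 ^ κ) ^ 2 * (κ + 1) ^ 4 * (1 / 2) ^ u := by positivity
    nlinarith
  have he1 : eV M ≤ 1 := pow_le_one₀ (by norm_num) (by norm_num)
  have he0 := eV_pos M
  -- the codeword of a good version carries the message `g`
  have hgood : ∀ y, InR (pos (T.map (vd κ))) z0 y → ¬ B y → ∀ F, PolyL (vd κ v :: ds) y F →
      err (vd κ v :: ds) Y F y ≤ eV M / 2 → ∀ z, InR (pos (vd κ v :: ds)) y z → HP ds z →
        F z = b2 (g z) := by
    intro y hy hb F hF he z hz hH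
    have hz' := (hy.mono (gp_pos_T_sub (v := v) (ds := ds))).trans (hz.mono gp_pos_D_sub)
    have hV : Valid (eV M) (vd κ v :: ds) Y y F :=
      ⟨hF.polyD.mono (by norm_num), he.trans (by linarith)⟩
    exact (hV.msg_iff hD hp.hM hd' hz).1
      (hm z hz' hH (fun h => hb ((hB y z hz).1 h)) (hRn z hz' hH))
  obtain ⟨y0, hy0, hb0⟩ := exists_of_av_lt (hbad.trans_lt (show eV M / 2 < 1 by linarith))
  have hb1 : ¬ (B y0 ∨ ¬ OKL (eV M / 2) (vd κ v :: ds) Y y0) := fun h => by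
    rw [ind_of h] at hb0
    exact lt_irrefl _ hb0
  rw [not_or, not_not] at hb1
  obtain ⟨hb1, F, hF, he⟩ := hb1
  have hy0' := hy0.mono (gp_pos_T_sub (v := v) (ds := ds))
  have hFg : ∀ z, InR (pos (T.map (vd κ) ++ vd κ v :: ds)) z0 z → HP ds z →
      F (mix (pos (T.map (vd κ))) z y0) = b2 (g z) := by
    intro z hz hH
    rw [hgood y0 hy0 hb1 F hF he _ (gp_inR_mix_base (pos_append ▸ hy0'.symm.trans hz))
      (hH.gp_inR (inR_mix y0) hdisj), hg z _ (inR_mix y0)]
  refine ⟨fun z => F (mix (pos (T.map (vd κ))) z y0), ⟨fun e he z hz => ?_, ?_⟩,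
    fun z hz hH γ hγ => by rw [← hg2 z γ hγ]; exact hFg z hz hH⟩
  · rcases List.mem_append.1 he with he | he
    · have e1 : line (fun z => F (mix (pos (T.map (vd κ))) z y0)) z e =
          fun _ => F (mix (pos (T.map (vd κ))) z y0) := by
        funext s
        exact congrArg F (gp_mix_put_in (P := pos (T.map (vd κ)))
          (fun j h1 h2 => Exists.intro e ⟨he, h1, h2⟩) s)
      rw [e1]
      exact Deg.const _
    · refine (gp_loC_mix hl hF (hy0'.symm.trans hz) he).deg.mono ?_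
      split_ifs <;> norm_num
  · rw [← av_err (Q := pos (T.map (vd κ))) (ds' := vd κ v :: ds) pos_append.symm]
    refine le_trans (av_mono (g := fun y =>
      ind (B y ∨ ¬ OKL (eV M / 2) (vd κ v :: ds) Y y) + eV M / 2) fun y hy => ?_) ?_
    · by_cases h : B y ∨ ¬ OKL (eV M / 2) (vd κ v :: ds) Y y
      · rw [ind_of h]
        exact (av_ind_le_one _).trans (by linarith)
      · rw [ind_of_not h, zero_add]
        rw [not_or, not_not] at h
        obtain ⟨h1, F', hF', he'⟩ := h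
        have hy' := hy.mono (gp_pos_T_sub (v := v) (ds := ds))
        refine le_trans (le_of_eq (av_congr fun z hz => ?_)) he'
        rw [PolyL.ext (F := F') (F' := fun z => F (mix (pos (T.map (vd κ))) z y0)) hD hF'
          (fun e he z hz => gp_loC_mix hl hF ((hy0'.symm.trans hy').trans (hz.mono gp_pos_D_sub)) he)
          (fun z hz hH => ?_) hz]
        rw [hgood y hy h1 F' hF' he' z hz (gp_HP_vd.1 hH),
          hFg z (hy'.trans (hz.mono gp_pos_D_sub)) (gp_HP_vd.1 hH)]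
    · rw [av_add, av_const]
      linarith

/-- the big bundle is valid and its message is given by the initial fractions. -/
def GroupGood (κ M v : ℕ) (ds : List Dim) (T ps : List ℕ) (c0 : Bool) (X Y : Vec σ → Val)
    (y : Vec σ) : Prop :=
  ∃ F, Valid (eV M) (T.map (vd κ) ++ vd κ v :: ds) Y y F ∧
    ∀ z, InR (pos (T.map (vd κ) ++ vd κ v :: ds)) y z → HP ds z → ∀ δ,
      Pre κ true c0 (frac M (vd κ v :: ds) (pos ((T ++ ps).map (vd κ))) X z) δ → F z = b2 δ

theorem group_spec {qs ps : List ℕ} {q : ℕ} {c0 : Bool} {c : Cond} (hp : Par κ u M)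
    (hl : Lay σ κ u ((q :: qs ++ ps).map (vd κ) ++ vd κ v :: ds))
    (hd : qs.length + ds.length + 2 ≤ M) (hps : ps ≠ []) (h0 : Home u z0)
    (hr : Runs κ orc S (group κ u v ds qs q ps c) X Y)
    (hc : ∀ z, InR (pos ((q :: qs ++ ps).map (vd κ) ++ vd κ v :: ds)) z0 z → c.ev orc z = c0) :
    av (pos (ps.map (vd κ))) (fun y => ind (¬ GroupGood κ M v ds (q :: qs) ps c0 X Y y)) z0 ≤
      (2 ^ κ) ^ ds.countP (fun e => e.1) / (2 ^ κ) ^ ps.length +
      2 ^ (u + 2) * ((qs.length + ps.length + 1) * κ + 1) ^ 8 *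
        (nOK M (vd κ v :: ds) (pos ((q :: qs ++ ps).map (vd κ))) X z0 +
          2 ^ (5 * u) * flt u S (pos ((q :: qs ++ ps).map (vd κ) ++ vd κ v :: ds)) z0) := by
  obtain ⟨Z, hr1, hr2⟩ := runs_append.1 hr
  have h1 := cascade_good hp hl (by omega) hps h0 hr1 hc
  have h2 := cascade_ok hp hl (by omega) h0 hr1 hc
  have hl' : Lay σ κ u ((q :: qs).map (vd κ) ++ vd κ v :: ds) :=
    hl.sublist (((List.sublist_append_left _ _).map _).append (List.Sublist.refl _))
  have e1 : pos (ps.map (vd κ)) ∪ pos ((q :: qs).map (vd κ)) = pos ((q :: qs ++ ps).map (vd κ)) := by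
    rw [List.map_append, pos_append, Set.union_comm]
  have e2 : pos (ps.map (vd κ)) ∪ pos ((q :: qs).map (vd κ) ++ vd κ v :: ds) =
      pos ((q :: qs ++ ps).map (vd κ) ++ vd κ v :: ds) := by
    rw [pos_append, pos_append, ← Set.union_assoc, e1]
  have h3 := av_markov (P := pos (ps.map (vd κ))) (z0 := z0) (f := fun y =>
    nOK M (vd κ v :: ds) (pos ((q :: qs).map (vd κ))) Z y +
      2 ^ (5 * u) * flt u S (pos ((q :: qs).map (vd κ) ++ vd κ v :: ds)) y)
    (fun y => add_nonneg gp_nOK_nonneg (mul_nonneg (by positivity) (flt_nonneg S)))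
    (s := (1 / 2) ^ u) (by positivity)
  have e3 : av (pos (ps.map (vd κ))) (nOK M (vd κ v :: ds) (pos ((q :: qs).map (vd κ))) Z) z0 =
      nOK M (vd κ v :: ds) (pos ((q :: qs ++ ps).map (vd κ))) Z z0 := by
    rw [← e1]
    exact av_av
  rw [av_add, av_mul, av_flt, e2, e3, one_div_pow, div_div_eq_mul_div, div_one] at h3
  have h4 : av (pos (ps.map (vd κ)))
      (fun y => ind (¬ GroupGood κ M v ds (q :: qs) ps c0 X Y y)) z0 ≤ _ :=
    (av_mono fun y hy => le_trans (ind_mono ?_) (ind_or_le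
      (¬ CascGood κ M v ds (q :: qs) ps c0 X Z y)
      (1 / 2 ^ u ≤ nOK M (vd κ v :: ds) (pos ((q :: qs).map (vd κ))) Z y +
        2 ^ (5 * u) * flt u S (pos ((q :: qs).map (vd κ) ++ vd κ v :: ds)) y))).trans av_add.le
  · refine h4.trans ?_
    have hN : 0 ≤ nOK M (vd κ v :: ds) (pos ((q :: qs ++ ps).map (vd κ))) X z0 := gp_nOK_nonneg
    have hν : 0 ≤ 2 ^ (5 * u) * flt u S (pos ((q :: qs ++ ps).map (vd κ) ++ vd κ v :: ds)) z0 :=
      mul_nonneg (by positivity) (flt_nonneg S)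
    generalize nOK M (vd κ v :: ds) (pos ((q :: qs ++ ps).map (vd κ))) X z0 = N at *
    generalize 2 ^ (5 * u) * flt u S (pos ((q :: qs ++ ps).map (vd κ) ++ vd κ v :: ds)) z0 = ν at *
    have hn : (1 : ℝ) ≤ (qs.length + ps.length + 1) * κ + 1 :=
      le_add_of_nonneg_left (by positivity)
    generalize ((qs.length : ℝ) + ps.length + 1) * κ + 1 = n at *
    have h5 : n ^ 3 ≤ n ^ 8 := pow_le_pow_right₀ hn (by norm_num)
    have h6 : 1 ≤ n ^ 8 := one_le_pow₀ hn
    have h7 : N + n ^ 3 * ν + ν ≤ 3 * (n ^ 8 * (N + ν)) := by nlinarith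
    have h8 := mul_le_mul_of_nonneg_right (add_le_add_left h2 ν |>.trans h7)
      (show (0 : ℝ) ≤ 2 ^ u by positivity)
    rw [pow_add]
    linarith
  · intro hn
    by_contra hh
    rw [not_or, not_not, not_le, ← one_div_pow] at hh
    have hy' : InR (pos ((q :: qs ++ ps).map (vd κ) ++ vd κ v :: ds)) z0 y :=
      hy.mono (e2 ▸ Set.subset_union_left)
    obtain ⟨F, hF, hF'⟩ := maj_spec (T := q :: qs) (z0 := y) (c0 := c0) hp hl'
      (by rw [List.length_cons]; omega) (List.cons_ne_nil _ _) (hl.home h0 hy') hr2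
      (fun z hz => hc z (hy'.trans (hz.mono (e2 ▸ Set.subset_union_right)))) hh.2.le
      fun z hz hH => (hh.1 z hz hH).imp fun γ h => h.1
    refine hn ⟨F, hF, fun z hz hH δ hδ => ?_⟩
    obtain ⟨γ, h5, h6⟩ := hh.1 z hz hH
    rw [← h6 δ hδ]
    exact hF' z hz hH γ h5

end Vale.Agent.P330.Amp
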