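import Vale.Agent.P330.Casc

/-! One majority step along a version dimension and its iteration (helper file of Group). -/

namespace Vale.Agent.P330.Amp

open Vale.Agent.Lib.H23 Vale.Agent.P325 Finset
open scoped BigOperators

variable {σ κ u M v : ℕ} {ds : List Dim} {orc : ℕ → Vec σ → Bool} {S : Vec σ → Prop}
  {X Y : Vec σ → Val} {z0 : Vec σ}

theorem gp_inR_mix_mix {P Q : Set ℕ} {z z' : Vec σ} (h : InR P z z') (y : Vec σ) :
    InR P (mix Q z y) (mix Q z' y) := by
  intro j hj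
  by_cases hq : j.val ∈ Q
  · rw [mix_in hq, mix_in hq]
  · rw [mix_out hq, mix_out hq, h j hj]

theorem gp_av_inv {P Q : Set ℕ} {f : Vec σ → ℝ} (hf : ∀ z z', InR P z z' → f z' = f z)
    {z z' : Vec σ} (h : InR P z z') : av Q f z' = av Q f z :=
  expect_congr rfl fun y _ => hf _ _ (gp_inR_mix_mix h y)

theorem HP.gp_inR {P : Set ℕ} {z z' : Vec σ} (h : HP ds z) (hz : InR P z z')
    (hP : ∀ j ∈ P, j ∉ pos ds) : HP ds z' := by
  intro e he h1
  obtain ⟨a, ha, hg⟩ := h e he h1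
  exact ⟨a, ha, (hz.get fun j h2 h3 hj => hP j hj ⟨e, he, h2, h3⟩).trans hg⟩

theorem gp_HP_vd {z : Vec σ} : HP (vd κ v :: ds) z ↔ HP ds z := by
  constructor
  · intro h e he
    exact h e (List.mem_cons_of_mem _ he)
  · intro h e he h1
    rcases List.mem_cons.1 he with rfl | he
    · simp [vd] at h1
    · exact h e he h1

theorem gp_av_sub_av {P Q : Set ℕ} {f : Vec σ → ℝ} (h : Q ⊆ P) : av P (av Q f) z0 = av P f z0 := by
  rw [av_av, Set.union_eq_left.2 h]

theorem gp_av_markov_sub {P Q : Set ℕ} {R : Vec σ → Prop} (h : Q ⊆ P) :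
    av P (fun z => ind (1 / 4 ≤ av Q (fun y => ind (R y)) z)) z0 ≤
      4 * av P (fun y => ind (R y)) z0 := by
  have h1 := av_markov (P := P) (z0 := z0) (f := av Q fun y => ind (R y))
    (fun z => av_ind_nonneg R) (s := 1 / 4) (by norm_num)
  rw [gp_av_sub_av h] at h1
  linarith

theorem gp_nOK_nonneg {D : List Dim} {B : Set ℕ} {z : Vec σ} : 0 ≤ nOK M D B X z := av_ind_nonneg _

theorem OKL.gp_ok {D : List Dim} {z : Vec σ} (h : OKL (eV M / 2) D X z) : OK (eV M) D X z := by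
  obtain ⟨F, hF⟩ := h.ok
  exact ⟨F, hF.mono (by linarith [eV_pos M])⟩

section step

variable {T : List ℕ} {q : ℕ} {c0 : Bool} {c : Cond}

theorem gp_pos_q_sub (hq : q ∈ T) : pos ([q].map (vd κ)) ⊆ pos (T.map (vd κ)) :=
  pos_mono fun e he => by
    simp only [List.map_cons, List.map_nil, List.mem_singleton] at he
    exact he ▸ List.mem_map_of_mem hq

theorem gp_pos_q_sub' (hq : q ∈ T) :
    pos ([q].map (vd κ) ++ vd κ v :: ds) ⊆ pos (T.map (vd κ) ++ vd κ v :: ds) := by
  rw [pos_append, pos_append]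
  exact Set.union_subset_union_left _ (gp_pos_q_sub hq)

theorem gp_lay_q (hl : Lay σ κ u (T.map (vd κ) ++ vd κ v :: ds)) (hq : q ∈ T) :
    Lay σ κ u ([q].map (vd κ) ++ vd κ v :: ds) :=
  hl.sublist (((List.singleton_sublist.2 hq).map _).append (List.Sublist.refl _))

theorem gp_pos_T_sub : pos (T.map (vd κ)) ⊆ pos (T.map (vd κ) ++ vd κ v :: ds) := by
  rw [pos_append]
  exact Set.subset_union_left

theorem gp_pos_D_sub : pos (vd κ v :: ds) ⊆ pos (T.map (vd κ) ++ vd κ v :: ds) := by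
  rw [pos_append]
  exact Set.subset_union_right

theorem gp_av_nOK_q (hq : q ∈ T) :
    av (pos (T.map (vd κ))) (nOK M (vd κ v :: ds) (pos ([q].map (vd κ))) X) z0 =
      nOK M (vd κ v :: ds) (pos (T.map (vd κ))) X z0 :=
  gp_av_sub_av (gp_pos_q_sub hq)

theorem gp_av_flt_q (hq : q ∈ T) :
    av (pos (T.map (vd κ))) (flt u S (pos ([q].map (vd κ) ++ vd κ v :: ds))) z0 =
      flt u S (pos (T.map (vd κ) ++ vd κ v :: ds)) z0 := by
  rw [av_flt, pos_append, pos_append, ← Set.union_assoc, Set.union_eq_left.2 (gp_pos_q_sub hq)]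

/-- one step: validity. -/
theorem maj_step_ok (hp : Par κ u M) (hl : Lay σ κ u (T.map (vd κ) ++ vd κ v :: ds))
    (hd : ds.length + 1 ≤ M) (h0 : Home u z0) (hq : q ∈ T)
    (hr : Runs κ orc S (sb κ u v ds [] q false c) X Y)
    (hc : ∀ z, InR (pos (T.map (vd κ) ++ vd κ v :: ds)) z0 z → c.ev orc z = c0) :
    av (pos (T.map (vd κ))) (fun y => ind (¬ OKL (eV M / 2) (vd κ v :: ds) Y y)) z0 ≤
      nOK M (vd κ v :: ds) (pos (T.map (vd κ))) X z0 + (κ ^ 2 + 1) *
        (2 ^ (4 * u + κ) * flt u S (pos (T.map (vd κ) ++ vd κ v :: ds)) z0) := by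
  rw [← gp_av_sub_av (gp_pos_q_sub hq), ← gp_av_nOK_q hq, ← gp_av_flt_q hq, ← av_mul, ← av_mul, ← av_add]
  refine av_mono fun y hy => ?_
  have hy' := hy.mono (gp_pos_T_sub (v := v) (ds := ds))
  have h := sb_ok (qs := []) (q := q) (z0 := y) (c0 := c0) hp (gp_lay_q hl hq) hd (hl.home h0 hy') hr
    fun z hz => hc z (hy'.trans (hz.mono (gp_pos_q_sub' hq)))
  simpa using h

/-- the line through `y` is calm. -/
def GpCalm (κ u M v : ℕ) (ds : List Dim) (S : Vec σ → Prop) (q : ℕ) (X : Vec σ → Val) (y : Vec σ) :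
    Prop :=
  6 * (2 : ℝ) ^ κ * (κ + 1) ^ 4 * (nOK M (vd κ v :: ds) (pos ([q].map (vd κ))) X y +
    2 ^ (4 * u + κ) * flt u S (pos ([q].map (vd κ) ++ vd κ v :: ds)) y) < 1 / 2 ^ κ

theorem gp_calm_inv {y y' : Vec σ} (h : InR (pos (vd κ v :: ds)) y y') :
    GpCalm κ u M v ds S q X y' ↔ GpCalm κ u M v ds S q X y := by
  unfold GpCalm nOK
  rw [flt_base S (h.mono gp_pos_D_sub),
    gp_av_inv (P := pos (vd κ v :: ds)) (fun z z' hz => ind_congr (not_congr (OK_base hz))) h]

theorem gp_calm_dens (hq : q ∈ T) :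
    av (pos (T.map (vd κ))) (fun y => ind (¬ GpCalm κ u M v ds S q X y)) z0 ≤
      6 * (2 ^ κ) ^ 2 * (κ + 1) ^ 4 * (nOK M (vd κ v :: ds) (pos (T.map (vd κ))) X z0 +
        2 ^ (4 * u + κ) * flt u S (pos (T.map (vd κ) ++ vd κ v :: ds)) z0) := by
  have h1 := av_markov (P := pos (T.map (vd κ))) (z0 := z0) (f := fun y =>
    6 * (2 : ℝ) ^ κ * (κ + 1) ^ 4 * (nOK M (vd κ v :: ds) (pos ([q].map (vd κ))) X y +
      2 ^ (4 * u + κ) * flt u S (pos ([q].map (vd κ) ++ vd κ v :: ds)) y))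
    (fun y => mul_nonneg (by positivity) (add_nonneg gp_nOK_nonneg
      (mul_nonneg (by positivity) (flt_nonneg S)))) (s := 1 / 2 ^ κ) (by positivity)
  rw [av_mul, av_add, av_mul, gp_av_nOK_q hq, gp_av_flt_q hq] at h1
  refine le_trans (le_of_eq (av_congr fun y _ => ind_congr not_lt)) (h1.trans (le_of_eq ?_))
  field_simp

theorem gp_median_bit (hκ : 1 ≤ κ) {f : ℝ} {γ : Bool} (h1 : γ = true → 1 / 2 < f)
    (h2 : γ = false → f < 1 / 2) (z : Vec σ) :
    decide (((rank (bitsOf (([] : List ℕ).map (vd κ))) z +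
      2 ^ (([] : List ℕ).length * κ) * s0 κ false c0 : ℕ) : ℝ) <
        2 ^ ((([] : List ℕ).length + 1) * κ) * f) = γ := by
  have e1 : rank (bitsOf (([] : List ℕ).map (vd κ))) z = 0 := by
    have := rank_lt (bitsOf (([] : List ℕ).map (vd κ))) z
    simpa [bitsOf] using this
  have e2 : ((s0 κ false c0 : ℕ) : ℝ) = 2 ^ κ / 2 := by
    obtain ⟨k, rfl⟩ : ∃ k, κ = k + 1 := ⟨κ - 1, by omega⟩
    have : s0 (k + 1) false c0 = 2 ^ k := by simp [s0, pow_succ]
    rw [this]
    push_cast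
    ring
  have hk : (0 : ℝ) < 2 ^ κ := by positivity
  rw [e1]
  simp only [List.length_nil, zero_mul, pow_zero, one_mul, zero_add, e2]
  cases γ
  · have := h2 rfl
    exact decide_eq_false (by nlinarith)
  · have := h1 rfl
    exact decide_eq_true (by nlinarith)

/-- one step: the median of a calm line. -/
theorem maj_step_msg (hp : Par κ u M) (hl : Lay σ κ u (T.map (vd κ) ++ vd κ v :: ds))
    (hd : ds.length + 1 ≤ M) (h0 : Home u z0) (hq : q ∈ T)
    (hr : Runs κ orc S (sb κ u v ds [] q false c) X Y)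
    (hc : ∀ z, InR (pos (T.map (vd κ) ++ vd κ v :: ds)) z0 z → c.ev orc z = c0)
    {z : Vec σ} (hz : InR (pos (T.map (vd κ) ++ vd κ v :: ds)) z0 z) (hH : HP ds z)
    (hcalm : GpCalm κ u M v ds S q X z) {γ : Bool}
    (hγ : av (pos ([q].map (vd κ))) (fun y => ind (¬ Msg (eV M) (vd κ v :: ds) X y (b2 γ))) z
      < 1 / 2) : Msg (eV M) (vd κ v :: ds) Y z (b2 γ) := by
  have hD : Lay σ κ u (vd κ v :: ds) := hl.sublist (List.sublist_append_right _ _)
  have h := sb_msg (qs := []) (q := q) (z0 := z) (c0 := c0) hp (gp_lay_q hl hq) hd (hl.home h0 hz) hH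
    hr fun y hy => hc y (hz.trans (hy.mono (gp_pos_q_sub' hq)))
  have hf1 : γ = true → 1 / 2 < frac M (vd κ v :: ds) (pos (([] ++ [q]).map (vd κ))) X z := by
    rintro rfl
    have : av (pos ([q].map (vd κ))) (fun y => ind (¬ Msg (eV M) (vd κ v :: ds) X y (b2 true))) z
        = 1 - frac M (vd κ v :: ds) (pos (([] ++ [q]).map (vd κ))) X z := by
      simp only [ind_not]
      rw [av_sub, av_const]
      rfl
    linarith
  have hf2 : γ = false → frac M (vd κ v :: ds) (pos (([] ++ [q]).map (vd κ))) X z < 1 / 2 := by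
    rintro rfl
    refine lt_of_le_of_lt (av_mono fun y _ => ind_mono fun h1 h2 => ?_) hγ
    have := Msg.unique hD hp.hM hd h1 h2
    simp [b2] at this
  simp only [gp_median_bit (κ := κ) (c0 := c0) (by have := hp.hκ; omega) hf1 hf2] at h
  have h2 := le_av_list (z := z) (f := fun y => ind (¬ Msg (eV M) (vd κ v :: ds) Y y (b2 γ)))
    (fun _ => ind_nonneg _) (bitsOf ([q].map (vd κ))) (pos ([q].map (vd κ)))
    fun j hj => mem_bitsOf.2 hj
  rw [length_bitsOf_vd] at h2
  by_contra hn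
  rw [ind_of hn] at h2
  unfold GpCalm at hcalm
  have hk : (0 : ℝ) < 2 ^ κ := by positivity
  simp only [List.nil_append, List.length_nil, Nat.cast_zero, zero_add, one_mul,
    List.length_singleton] at h h2
  have h3 := h.trans_lt hcalm
  rw [lt_div_iff₀ hk] at h3
  linarith

theorem gp_nOK_le_nL {D : List Dim} {B : Set ℕ} :
    nOK M D B X z0 ≤ av B (fun y => ind (¬ OKL (eV M / 2) D X y)) z0 :=
  av_mono fun _ _ => ind_mono fun h1 h2 => h1 h2.gp_ok

/-- validity after several steps. -/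
theorem maj_iter_ok (hp : Par κ u M) (hl : Lay σ κ u (T.map (vd κ) ++ vd κ v :: ds))
    (hd : ds.length + 1 ≤ M) (h0 : Home u z0)
    (hc : ∀ z, InR (pos (T.map (vd κ) ++ vd κ v :: ds)) z0 z → c.ev orc z = c0) (l : List ℕ) :
    ∀ X : Vec σ → Val, (∀ q ∈ l, q ∈ T) → l ≠ [] →
      Runs κ orc S (l.flatMap fun q' => sb κ u v ds [] q' false c) X Y →
      av (pos (T.map (vd κ))) (fun y => ind (¬ OKL (eV M / 2) (vd κ v :: ds) Y y)) z0 ≤
        nOK M (vd κ v :: ds) (pos (T.map (vd κ))) X z0 + l.length * ((κ ^ 2 + 1) *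
          (2 ^ (4 * u + κ) * flt u S (pos (T.map (vd κ) ++ vd κ v :: ds)) z0)) := by
  induction l with
  | nil => exact fun _ _ h => absurd rfl h
  | cons q l ih =>
    intro X hT _ hr
    rw [List.flatMap_cons, runs_append] at hr
    obtain ⟨Z, hr1, hr2⟩ := hr
    have h1 := maj_step_ok hp hl hd h0 (hT q List.mem_cons_self) hr1 hc
    by_cases hn : l = []
    · subst hn
      have : Z = Y := hr2
      subst this
      simpa using h1
    · have h2 := ih Z (fun q hq => hT q (List.mem_cons_of_mem _ hq)) hn hr2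
      have h3 := gp_nOK_le_nL (M := M) (D := vd κ v :: ds) (B := pos (T.map (vd κ))) (X := Z)
        (z0 := z0)
      rw [List.length_cons]
      push_cast
      linarith

/-- the message after several steps. -/
theorem maj_iter (hp : Par κ u M) (hl : Lay σ κ u (T.map (vd κ) ++ vd κ v :: ds))
    (hd : ds.length + 1 ≤ M) (h0 : Home u z0)
    (hc : ∀ z, InR (pos (T.map (vd κ) ++ vd κ v :: ds)) z0 z → c.ev orc z = c0)
    {g : Vec σ → Bool} (hg : ∀ z z', InR (pos (T.map (vd κ))) z z' → g z' = g z) {a : ℝ}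
    (l : List ℕ) :
    ∀ (X : Vec σ → Val) (P : Set ℕ) (B R : Vec σ → Prop), (∀ q ∈ l, q ∈ T) →
      Runs κ orc S (l.flatMap fun q' => sb κ u v ds [] q' false c) X Y →
      6 * (2 ^ κ) ^ 2 * (κ + 1) ^ 4 * (nOK M (vd κ v :: ds) (pos (T.map (vd κ))) X z0 +
        (l.length * (κ ^ 2 + 1) + 1) *
          (2 ^ (4 * u + κ) * flt u S (pos (T.map (vd κ) ++ vd κ v :: ds)) z0)) ≤ a →
      (∀ z z', InR (pos (vd κ v :: ds)) z z' → (B z' ↔ B z)) →
      (∀ z z', InR P z z' → (R z' ↔ R z)) →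
      (∀ z, InR (pos (T.map (vd κ) ++ vd κ v :: ds)) z0 z → HP ds z → ¬ B z → ¬ R z →
        Msg (eV M) (vd κ v :: ds) X z (b2 (g z))) →
      ∃ B' R' : Vec σ → Prop, (∀ z z', InR (pos (vd κ v :: ds)) z z' → (B' z' ↔ B' z)) ∧
        (∀ z z', InR (P ∪ pos (l.map (vd κ))) z z' → (R' z' ↔ R' z)) ∧
        (∀ z, InR (pos (T.map (vd κ) ++ vd κ v :: ds)) z0 z → HP ds z → ¬ B' z → ¬ R' z →
          Msg (eV M) (vd κ v :: ds) Y z (b2 (g z))) ∧
        av (pos (T.map (vd κ))) (fun z => ind (B' z)) z0 + a ≤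
          4 ^ l.length * (av (pos (T.map (vd κ))) (fun z => ind (B z)) z0 + a) ∧
        ∀ z, av (pos (T.map (vd κ))) (fun z => ind (R' z)) z ≤
          4 ^ l.length * av (pos (T.map (vd κ))) (fun z => ind (R z)) z := by
  induction l with
  | nil =>
    intro X P B R _ hr _ hB hR hm
    have : X = Y := hr
    subst this
    refine ⟨B, R, hB, ?_, hm, by simp, by simp⟩
    simpa [pos_nil] using hR
  | cons q l ih =>
    intro X P B R hT hr ha hB hR hm
    rw [List.flatMap_cons, runs_append] at hr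
    obtain ⟨Z, hr1, hr2⟩ := hr
    have hq := hT q List.mem_cons_self
    have h1 := (gp_nOK_le_nL (M := M) (D := vd κ v :: ds) (B := pos (T.map (vd κ))) (X := Z)
        (z0 := z0)).trans (maj_step_ok hp hl hd h0 hq hr1 hc)
    have hν : 0 ≤ 2 ^ (4 * u + κ) * flt u S (pos (T.map (vd κ) ++ vd κ v :: ds)) z0 :=
      mul_nonneg (by positivity) (flt_nonneg S)
    have hN : 0 ≤ nOK M (vd κ v :: ds) (pos (T.map (vd κ))) X z0 := gp_nOK_nonneg
    have hC : (0 : ℝ) ≤ 6 * (2 ^ κ) ^ 2 * (κ + 1) ^ 4 := by positivity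
    rw [List.length_cons] at ha
    push_cast at ha
    have hdisj : ∀ j ∈ pos ([q].map (vd κ)), j ∉ pos ds := fun j hj hj' =>
      (gp_lay_q hl hq).disj hj (pos_mono (fun e he => List.mem_cons_of_mem _ he) hj')
    obtain ⟨B', R', hB', hR', hm', hb, hr⟩ := ih Z (P ∪ pos ([q].map (vd κ)))
      (fun z => ¬ GpCalm κ u M v ds S q X z ∨
        1 / 4 ≤ av (pos ([q].map (vd κ))) (fun y => ind (B y)) z)
      (fun z => 1 / 4 ≤ av (pos ([q].map (vd κ))) (fun y => ind (R y)) z)
      (fun q hq => hT q (List.mem_cons_of_mem _ hq)) hr2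
      (le_trans (mul_le_mul_of_nonneg_left (by linarith) hC) ha)
      (fun z z' h => by
        rw [gp_calm_inv h, gp_av_inv (P := pos (vd κ v :: ds)) (fun y y' hy => ind_congr (hB y y' hy)) h])
      (fun z z' h => by
        obtain ⟨y, h2, h3⟩ := h.union
        rw [av_base h3, gp_av_inv (P := P) (fun y y' hy => ind_congr (hR y y' hy)) h2])
      (fun z hz hH hb hr => by
        rw [not_or, not_not, not_le] at hb
        rw [not_le] at hr
        refine maj_step_msg hp hl hd h0 hq hr1 hc hz hH hb.1 (lt_of_le_of_lt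
          (av_mono (g := fun y => ind (B y) + ind (R y)) fun y hy => ?_) ?_)
        · refine le_trans (ind_mono fun hn => ?_) (ind_or_le _ _)
          by_contra hh
          rw [not_or] at hh
          have := hm y (hz.trans (hy.mono ((gp_pos_q_sub hq).trans gp_pos_T_sub))) (hH.gp_inR hy hdisj)
            hh.1 hh.2
          rw [hg z y (hy.mono (gp_pos_q_sub hq))] at this
          exact hn this
        · rw [av_add]
          linarith [hb.2])
    refine ⟨B', R', hB', fun z z' h => hR' z z' (h.mono ?_), hm', ?_, fun z => ?_⟩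
    · rw [Set.union_assoc, ← pos_append, ← List.map_append]
      exact subset_rfl
    · refine hb.trans ?_
      rw [List.length_cons, pow_succ, mul_assoc]
      refine mul_le_mul_of_nonneg_left ?_ (by positivity)
      have h2 : av (pos (T.map (vd κ))) (fun z => ind (¬ GpCalm κ u M v ds S q X z ∨
          1 / 4 ≤ av (pos ([q].map (vd κ))) (fun y => ind (B y)) z)) z0 ≤ _ :=
        (av_mono fun z _ => ind_or_le _ _).trans av_add.le
      have h3 := gp_calm_dens (κ := κ) (u := u) (M := M) (v := v) (ds := ds) (S := S) (X := X)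
        (z0 := z0) hq
      have h4 := gp_av_markov_sub (z0 := z0) (R := B) (gp_pos_q_sub (κ := κ) hq)
      have h5 : 6 * (2 ^ κ) ^ 2 * (κ + 1) ^ 4 * (nOK M (vd κ v :: ds) (pos (T.map (vd κ))) X z0 +
          2 ^ (4 * u + κ) * flt u S (pos (T.map (vd κ) ++ vd κ v :: ds)) z0) ≤ a := by
        refine le_trans (mul_le_mul_of_nonneg_left ?_ hC) ha
        have : (0 : ℝ) ≤ (l.length + 1) * (κ ^ 2 + 1) := by positivity
        nlinarith
      have h6 : 0 ≤ a := le_trans (mul_nonneg hC (add_nonneg hN hν)) h5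
      linarith
    · refine (hr z).trans ?_
      rw [List.length_cons, pow_succ, mul_assoc]
      exact mul_le_mul_of_nonneg_left (gp_av_markov_sub (gp_pos_q_sub hq)) (by positivity)

end step

end Vale.Agent.P330.Amp
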