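import Vale.Agent.P330.HardSound
import Vale.Agent.P330.Dnf

/-! Polynomial time of the exact hardness reduction, and the theorem `hard`. -/

namespace Vale.Agent.P330.Hard

open Vale.Agent.Lib.H23 Vale.Agent.P325 Vale.Agent.P333 Enc Polynomial

variable {α : Type} [Enc α]

@[fun_prop] theorem pt_S {f : α → EOL} (hf : PT f) : PT fun x => (f x).S :=
  PT.fst (f := fun x => ((f x).S, (f x).P)) (hf.of_enc fun _ => rfl)

@[fun_prop] theorem pt_P {f : α → EOL} (hf : PT f) : PT fun x => (f x).P :=
  PT.snd (f := fun x => ((f x).S, (f x).P)) (hf.of_enc fun _ => rfl)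

@[fun_prop] theorem pt_gates {f : α → BCircuit} (hf : PT f) : PT fun x => (f x).gates :=
  PT.fst (f := fun x => ((f x).gates, (f x).outs)) (hf.of_enc fun _ => rfl)

@[fun_prop] theorem pt_outs {f : α → BCircuit} (hf : PT f) : PT fun x => (f x).outs :=
  PT.snd (f := fun x => ((f x).gates, (f x).outs)) (hf.of_enc fun _ => rfl)

@[fun_prop] theorem pt_nums {f : α → BGate} (hf : PT f) : PT fun x => (f x).nums :=
  hf.of_enc fun _ => rfl

@[fun_prop] theorem pt_n {f : α → EOL} (hf : PT f) : PT fun x => (f x).n := by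
  unfold EOL.n; fun_prop

theorem pu_n : PU fun I : EOL => I.n := PU.len (l := fun I : EOL => I.S.outs) (by fun_prop)

theorem pu_nB : PU nB :=
  (PU.const 22).mul (((PU.const 2).mul pu_n).add (PU.const 2))

theorem pu_nK : PU nK := (PU.const 23).mul (pu_nB.add (PU.const 1))

theorem pu_nW : PU nW :=
  ((pu_nK.add (PU.len (l := fun I : EOL => I.S.gates) (by fun_prop))).add
    (PU.len (l := fun I : EOL => I.P.gates) (by fun_prop))).add (PU.const 30)

/-- conditional on a comparison -/
theorem ite_eq {β : Type} [Enc β] {f g : α → ℕ} {u v : α → β} (hf : PT f) (hg : PT g)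
    (hu : PT u) (hv : PT v) : PT fun x => if f x = g x then u x else v x :=
  pt_ite (pt_decEq hf hg) hu hv

theorem ite_lt {β : Type} [Enc β] {f g : α → ℕ} {u v : α → β} (hf : PT f) (hg : PT g)
    (hu : PT u) (hv : PT v) : PT fun x => if f x < g x then u x else v x :=
  pt_ite (pt_decLt hf hg) hu hv

attribute [fun_prop] ite_eq ite_lt

section
variable {I : α → EOL} {a b c d : α → ℕ}

@[fun_prop] theorem pt_nB (hI : PT I) : PT fun x => nB (I x) := pu_nB.pt.comp hI
@[fun_prop] theorem pt_nK (hI : PT I) : PT fun x => nK (I x) := pu_nK.pt.comp hI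
theorem pt_rn (hI : PT I) : PT fun x => List.range (I x).n := pu_n.range.comp hI
theorem pt_rW (hI : PT I) : PT fun x => List.range (nW (I x)) := pu_nW.range.comp hI
theorem pt_rK (hI : PT I) : PT fun x => List.range (nK (I x)) := pu_nK.range.comp hI

@[fun_prop] theorem pt_circ (hI : PT I) (ha : PT a) : PT fun x => circ (I x) (a x) := by
  unfold circ; fun_prop

@[fun_prop] theorem pt_inp (hI : PT I) (ha : PT a) : PT fun x => inp (I x) (a x) := by
  unfold inp; fun_prop

@[fun_prop] theorem pt_clsL (ha : PT a) (hb : PT b) : PT fun x => clsL (a x) (b x) := by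
  unfold clsL; fun_prop

@[fun_prop] theorem pt_wireT {g : α → List ℕ} (ha : PT a) (hb : PT b) (hc : PT c) (hg : PT g) :
    PT fun x => wireT (a x) (b x) (c x) (g x) := by
  unfold wireT
  refine ite_eq (by fun_prop) (by fun_prop) ?_ (by fun_prop)
  refine (ite_lt (f := fun x => (g x).getD 1 0) (g := c) (by fun_prop) hc
    (ite_lt (f := fun x => (g x).getD 2 0) (g := c) (by fun_prop) hc
      (u := fun x => [[(((4, a x, b x, (g x).getD 1 0) : Nm), true),
        ((4, a x, b x, (g x).getD 2 0), true)]]) (by fun_prop) (PT.const [])) (PT.const [])).congr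
    fun x => ?_
  rw [ite_and]

@[fun_prop] theorem pt_regT {v : α → Nm} (ha : PT a) (hb : PT b) (hc : PT c) (hv : PT v) :
    PT fun x => regT (a x) (b x) (c x) (v x) := by
  unfold regT; fun_prop

@[fun_prop] theorem pt_t2 (ha : PT a) (hb : PT b) (hc : PT c) :
    PT fun x => t2 (a x) (b x) (c x) := by
  unfold t2; fun_prop

@[fun_prop] theorem pt_t3 (ha : PT a) (hb : PT b) : PT fun x => t3 (a x) (b x) := by
  unfold t3; fun_prop

@[fun_prop] theorem pt_t6 {u v : α → Nm} (hu : PT u) (hv : PT v) : PT fun x => t6 (u x) (v x) := by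
  unfold t6; fun_prop

@[fun_prop] theorem pt_zone (ha : PT a) (hb : PT b) : PT fun x => zone (a x) (b x) := by
  unfold zone cellv; fun_prop

@[fun_prop] theorem pt_t8 (ha : PT a) (hb : PT b) : PT fun x => t8 (a x) (b x) := by
  have : PT fun x => cellsZ (b x) :=
    (pt_filter (f := fun x (q : ℕ × ℕ) => eqb (zone q.1 q.2) (b x)) (l := fun _ => cells)
      (by fun_prop) (PT.const _)).congr fun x => rfl
  unfold t8; fun_prop

@[fun_prop] theorem pt_zf (ha : PT a) (z : ℕ) (l : List ℕ) : PT fun x => zf (a x) z l := by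
  unfold zf; fun_prop

@[fun_prop] theorem pt_t9 (ha : PT a) (hb : PT b) : PT fun x => t9 (a x) (b x) := by
  unfold t9; fun_prop

@[fun_prop] theorem pt_t11 (ha : PT a) (hb : PT b) (hc : PT c) :
    PT fun x => t11 (a x) (b x) (c x) := by
  unfold t11; fun_prop

@[fun_prop] theorem pt_t4 (hI : PT I) (ha : PT a) (hb : PT b) (hc : PT c) :
    PT fun x => t4 (I x) (a x) (b x) (c x) := by
  unfold t4; fun_prop

@[fun_prop] theorem pt_t5 (hI : PT I) (ha : PT a) (hb : PT b) (hc : PT c) :
    PT fun x => t5 (I x) (a x) (b x) (c x) := by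
  unfold t5; fun_prop

@[fun_prop] theorem pt_t6' (hI : PT I) (ha : PT a) (hb : PT b) (hc : PT c) :
    PT fun x => t6' (I x) (a x) (b x) (c x) := by
  unfold t6'; fun_prop

@[fun_prop] theorem pt_t7 (hI : PT I) (ha : PT a) (hb : PT b) :
    PT fun x => t7 (I x) (a x) (b x) := by
  exact PT.cons (PT.map (by unfold l7; fun_prop) (pt_rn hI)) (PT.const [])

@[fun_prop] theorem pt_t10 (hI : PT I) (ha : PT a) (hb : PT b) :
    PT fun x => t10 (I x) (a x) (b x) := by
  have h : ∀ A B : List (ℕ × ℕ × ℕ), PT fun x => (if b x = 0 then A else B).map fun q =>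
      (((2, a x, 0, q.2.1), true) : Nm × Bool) :: ((2, a x, 1, q.2.2), true) :: clsL (a x) q.1 :=
    fun A B => by fun_prop
  exact ite_lt hb (PT.const _) (h _ _) (by fun_prop)

@[fun_prop] theorem pt_terms (hI : PT I) (ha : PT a) (hb : PT b) (hc : PT c) (hd : PT d) :
    PT fun x => terms (I x) (a x) (b x) (c x) (d x) := by
  unfold terms; fun_prop

@[fun_prop] theorem pt_gate {v : α → Nm} (hI : PT I) (hv : PT v) :
    PT fun x => gate (I x) (v x) := by
  have h : PT fun x => if (v x).1 = 1 then ((1, (0, (v x).2), []) : DG)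
      else (0, v x, terms (I x) (v x).1 (v x).2.1 (v x).2.2.1 (v x).2.2.2) := by fun_prop
  refine (ite_eq (f := fun x => (v x).1) (g := fun _ => 0) (by fun_prop) (by fun_prop)
    (ite_eq (f := fun x => (v x).2.2.2) (g := fun _ => 0) (by fun_prop) (by fun_prop) h
      (v := fun x => ((2, (0, (v x).2.1, (v x).2.2.1, (v x).2.2.2 - 1), []) : DG)) (by fun_prop))
    h).congr fun x => ?_
  unfold gate
  by_cases h1 : (v x).1 = 0 <;> by_cases h2 : (v x).2.2.2 = 0 <;> simp [h1, h2]

end

theorem pt_ncirc : PT ncirc := by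
  have h1 : PT fun q : EOL × ℕ => (List.range (nW q.1)).flatMap fun a =>
      (List.range (nW q.1)).flatMap fun b => (List.range (nW q.1)).map fun c =>
        ((q.2, a, b, c) : Nm) :=
    pt_flatMap (pt_flatMap (PT.map (by fun_prop) (pt_rW (by fun_prop))) (pt_rW (by fun_prop)))
      (pt_rW (by fun_prop))
  have h2 : PT nodes := pt_flatMap h1 (PT.const _)
  exact PT.map (f := fun I v => (v, gate I v)) (by fun_prop) h2

theorem eval_nums (w : List Bool) (g : BGate) : g.eval w =
    if g.nums.getD 0 0 = 0 then w.getD (g.nums.getD 1 0) false && w.getD (g.nums.getD 2 0) false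
    else if g.nums.getD 0 0 = 1 then
      w.getD (g.nums.getD 1 0) false || w.getD (g.nums.getD 2 0) false
    else !w.getD (g.nums.getD 1 0) false := by
  cases g <;> rfl

@[fun_prop] theorem pt_geval {w : α → List Bool} {g : α → BGate} (hw : PT w) (hg : PT g) :
    PT fun x => (g x).eval (w x) := by
  simp only [eval_nums]; fun_prop

@[fun_prop] theorem pt_eval {C : α → BCircuit} {w : α → List Bool} (hC : PT C) (hw : PT w) :
    PT fun x => (C x).eval (w x) := by
  have : PT fun x => (C x).gates.foldl (fun w g => w ++ [g.eval w]) (w x) :=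
    PT.foldl' (f := fun _ (w : List Bool) (g : BGate) => w ++ [g.eval w]) (by fun_prop)
      (by fun_prop) hw ⟨4, fun _ s g => by
        have := sz_append s [g.eval s]
        have := sz_bool (g.eval s)
        simp at *; omega⟩
  exact PT.map (f := fun x o => ((C x).gates.foldl (fun w g => w ++ [g.eval w]) (w x)).getD o false)
    (PT.getD (this.comp PT.fst') PT.snd' (PT.const _)) (pt_outs hC)

/-- equality test -/
def eqB (u w : List Bool) : Bool :=
  eqb u.length w.length && (u.zip w).all fun q => !(xor q.1 q.2)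

theorem eqB_iff (u w : List Bool) : eqB u w = true ↔ u = w := by
  induction u generalizing w with
  | nil => cases w <;> simp [eqB]
  | cons a u ih =>
    cases w with
    | nil => simp [eqB]
    | cons b w =>
      have := ih w
      simp only [eqB, eqb_eq, Bool.and_eq_true, decide_eq_true_eq, List.length_cons,
        List.zip_cons_cons, List.all_cons, List.cons.injEq, ← this] at this ⊢
      cases a <;> cases b <;> simp

@[fun_prop] theorem pt_eqB {u w : α → List Bool} (hu : PT u) (hw : PT w) :
    PT fun x => eqB (u x) (w x) := by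
  unfold eqB; fun_prop

/-- test for solutions -/
def solB (I : EOL) (v : List Bool) : Bool :=
  eqb v.length I.n && !eqB v (I.S.outs.map fun _ => false) &&
    (!eqB (I.P.eval (I.S.eval v)) v || !eqB (I.S.eval (I.P.eval v)) v)

theorem solB_iff (I : EOL) (v : List Bool) : solB I v = true ↔ I.Sol v := by
  simp [solB, EOL.Sol, ← eqB_iff, and_assoc, EOL.zero, EOL.n]

/-- the decoder -/
def decode (I : EOL) (σ : Nm → ℕ) : List Bool :=
  (((List.range (nK I)).flatMap fun k => [cand I σ k 2, cand I σ k (2 + I.n)]).filter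
    (solB I)).headD []

theorem hard : HardStmt := by
  obtain ⟨R, V, hR, hV, h⟩ := dnf
  refine ⟨fun I => R (ncirc I), fun q => decode q.1 fun v => V ((ncirc q.1, q.2), v),
    hR.comp pt_ncirc, ?_, fun I => ⟨(h _).1, fun hI x hx => ?_⟩⟩
  · have h1 := pt_ncirc
    have h2 : PT fun q : (EOL × List ℕ) × ℕ × ℕ =>
        cand q.1.1 (fun v => V ((ncirc q.1.1, q.1.2), v)) q.2.1 q.2.2 :=
      (PT.map (f := fun (q : (EOL × List ℕ) × ℕ × ℕ) i =>
        ltb 2 (V ((ncirc q.1.1, q.1.2), (1, q.2.2 + i, 10, q.2.1))))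
        (PT.ltb (PT.const _) (hV.comp (PT.pair (PT.pair (h1.comp (by fun_prop)) (by fun_prop))
          (by fun_prop))))
        (l := fun q => List.range q.1.1.n) (pt_rn (by fun_prop))).congr fun _ =>
          List.map_congr_left fun _ _ => by rw [ltb_eq, decide_eq_decide]; exact Iff.rfl
    have h3 : PT fun q : (EOL × List ℕ) × ℕ =>
        [cand q.1.1 (fun v => V ((ncirc q.1.1, q.1.2), v)) q.2 2,
          cand q.1.1 (fun v => V ((ncirc q.1.1, q.1.2), v)) q.2 (2 + q.1.1.n)] :=
      PT.cons (h2.comp (g := fun q : (EOL × List ℕ) × ℕ => (q.1, q.2, 2)) (by fun_prop))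
        (PT.cons (h2.comp (g := fun q : (EOL × List ℕ) × ℕ => (q.1, q.2, 2 + q.1.1.n))
          (by fun_prop)) (PT.const []))
    unfold decode
    refine PT.headD (pt_filter (by unfold solB; fun_prop) (pt_flatMap h3 (pt_rK PT.fst')))
      (PT.const [])
  · obtain ⟨k, hk, hs⟩ := sound I hI _ ((h _).2 (by
      simp only [ncirc, List.mem_map]
      rintro _ ⟨v, -, rfl⟩ _ ⟨v', -, rfl⟩ (rfl : v = v')
      rfl) x hx)
    set σ : Nm → ℕ := fun v => V ((ncirc I, x), v)
    show I.Sol (decode I σ)
    unfold decode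
    generalize hl : (List.range (nK I)).flatMap _ = l
    have : ∃ v ∈ l, solB I v = true := by
      rw [← hl]
      rcases hs with hs | hs
      · exact ⟨_, List.mem_flatMap.2 ⟨k, by simpa using hk, by simp⟩, (solB_iff _ _).2 hs⟩
      · exact ⟨_, List.mem_flatMap.2 ⟨k, by simpa using hk, by simp⟩, (solB_iff _ _).2 hs⟩
    obtain ⟨v, hv, hs⟩ := this
    cases e : l.filter (solB I) with
    | nil => exact absurd (List.mem_filter.2 ⟨hv, hs⟩) (by rw [e]; simp)
    | cons a t =>
      have : a ∈ l.filter (solB I) := by rw [e]; simp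
      exact (solB_iff _ _).1 (List.mem_filter.1 this).2

end Vale.Agent.P330.Hard
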