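import Mathlib

/-! The control square of the exact hardness proof: zones, label tables and the case analysis on
the two registers. -/

namespace Vale.Agent.P330.Hard

/-- zone (times `64`) and six label bits of the cells of the control square -/
def tab : List (List ℕ) :=
  [[319, 255, 255, 255, 255, 255, 255, 255, 255, 255, 255, 149, 149, 149, 149, 149, 149, 149, 149, 149, 149, 149, 85],
   [319, 317, 253, 253, 253, 253, 253, 253, 253, 253, 253, 149, 149, 149, 149, 149, 149, 149, 148, 148, 148, 84, 85],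
   [319, 317, 317, 253, 253, 253, 253, 253, 252, 252, 252, 132, 132, 132, 148, 148, 148, 148, 148, 148, 84, 84, 85],
   [319, 317, 317, 316, 252, 252, 252, 252, 252, 252, 252, 132, 132, 134, 134, 134, 134, 150, 150, 86, 84, 84, 85],
   [319, 319, 317, 316, 316, 252, 254, 254, 254, 254, 254, 166, 166, 134, 134, 134, 134, 134, 70, 86, 84, 84, 85],
   [319, 319, 317, 316, 316, 318, 254, 254, 254, 254, 254, 183, 167, 167, 135, 135, 135, 71, 70, 70, 84, 84, 85],
   [319, 319, 317, 316, 316, 318, 319, 255, 255, 255, 255, 183, 183, 167, 165, 133, 69, 71, 71, 70, 68, 84, 85],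
   [319, 319, 317, 316, 316, 318, 319, 319, 255, 255, 255, 149, 181, 165, 165, 101, 69, 71, 71, 70, 68, 84, 85],
   [319, 319, 317, 316, 316, 318, 318, 319, 319, 255, 255, 149, 181, 165, 101, 101, 69, 71, 71, 70, 70, 68, 85],
   [319, 319, 317, 317, 316, 318, 318, 319, 319, 575, 575, 533, 565, 549, 101, 101, 69, 71, 71, 70, 70, 68, 85],
   [319, 319, 317, 317, 316, 318, 318, 319, 319, 575, 575, 565, 565, 549, 101, 101, 69, 71, 71, 70, 70, 68, 85],
   [362, 363, 361, 361, 360, 360, 362, 362, 362, 554, 554, 544, 544, 544, 32, 32, 1, 1, 3, 2, 2, 0, 0],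
   [362, 363, 361, 361, 360, 360, 362, 362, 362, 554, 554, 544, 544, 544, 32, 32, 1, 1, 3, 2, 2, 0, 0],
   [362, 363, 361, 361, 360, 360, 362, 362, 426, 554, 554, 544, 544, 544, 32, 32, 1, 1, 3, 2, 2, 0, 0],
   [362, 363, 363, 361, 360, 360, 362, 426, 426, 426, 426, 480, 480, 480, 32, 32, 1, 1, 3, 3, 2, 0, 0],
   [362, 363, 363, 361, 360, 360, 426, 426, 426, 426, 426, 480, 480, 480, 480, 0, 0, 1, 3, 3, 2, 0, 0],
   [362, 363, 363, 361, 361, 424, 426, 424, 424, 424, 424, 480, 480, 480, 480, 448, 0, 1, 3, 3, 2, 0, 0],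
   [362, 363, 363, 361, 425, 424, 424, 424, 424, 424, 424, 481, 481, 481, 449, 449, 449, 1, 3, 3, 2, 0, 0],
   [362, 363, 363, 425, 425, 425, 425, 425, 425, 425, 425, 481, 481, 481, 449, 449, 451, 451, 3, 3, 2, 0, 0],
   [362, 363, 427, 425, 425, 425, 425, 425, 427, 427, 427, 483, 483, 451, 451, 451, 451, 451, 451, 3, 2, 2, 0],
   [362, 427, 427, 427, 427, 427, 427, 427, 427, 427, 427, 483, 451, 451, 450, 450, 450, 450, 450, 450, 2, 2, 0],
   [426, 427, 427, 426, 426, 426, 426, 426, 426, 426, 426, 482, 450, 450, 450, 450, 450, 450, 450, 450, 450, 2, 0],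
   [426, 426, 426, 426, 426, 426, 426, 426, 426, 426, 426, 448, 448, 448, 448, 448, 448, 448, 448, 448, 448, 448, 0]]

def cellv (x y : ℕ) : ℕ := (tab.getD x []).getD y 0

def zone (x y : ℕ) : ℕ := cellv x y / 64

/-- the label of the control coordinate `c` for the class `k` -/
def rawl (k c x y : ℕ) : Bool := (cellv x y).testBit (2 * k + c)

/-- zones allowed in a block of type `t` -/
def zok (t z : ℕ) : Bool :=
  if t < 8 then z = t ∨ z = (t + 1) % 8
  else if t < 12 then z = 8 ∨ z = (t - 2) % 8 ∨ z = (t - 1) % 8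
  else if t = 12 then z = 8 else z < 9

/-- groups of classes that may occur together in a block of type `t` -/
def grp (t z k : ℕ) : ℕ :=
  if (k = 0 ∧ z = 8) ∨ (k = 2 ∧ (z = 3 ∨ z = 4 ∨ z = 5)) then 9
  else if t = 2 then (if k = 1 then 1 else 0)
  else if t = 5 then (if k = 0 then 0 else 1)
  else if t < 8 then k
  else if t < 12 then (if k = 2 then 2 else 0)
  else if t = 12 then (if k = 2 then 2 else 9) else 0

def blk (x y : ℕ) : Bool :=
  (List.range 14).any fun t =>
    ([0, 1].all fun i => [0, 1].all fun j => zok t (zone (x + i) (y + j))) &&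
    (List.range 3).all fun g => [0, 1].any fun c => [false, true].any fun s =>
      [0, 1].all fun i => [0, 1].all fun j => (List.range 3).all fun k =>
        grp t (zone (x + i) (y + j)) k != g || rawl k c (x + i) (y + j) == s

theorem blk_all : ((List.range 22).all fun x => (List.range 22).all fun y => blk x y) = true := by
  decide +kernel

theorem rawl_bd : ((List.range 3).all fun k => (List.range 23).all fun y =>
    rawl k 0 0 y && !rawl k 0 22 y && rawl k 1 y 0 && !rawl k 1 y 22) = true := by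
  decide +kernel

theorem zone_lt : ((List.range 23).all fun x => (List.range 23).all fun y =>
    decide (zone x y < 9)) = true := by
  decide +kernel

theorem blk_spec {x y : ℕ} (hx : x < 22) (hy : y < 22) : ∃ t < 14,
    (∀ i < 2, ∀ j < 2, zok t (zone (x + i) (y + j)) = true) ∧ ∀ g < 3, ∃ c < 2, ∃ s, ∀ i < 2,
      ∀ j < 2, ∀ k < 3, grp t (zone (x + i) (y + j)) k = g → rawl k c (x + i) (y + j) = s := by
  have h := blk_all
  simp only [List.all_eq_true, List.mem_range] at h
  have h := h x hx y hy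
  simp only [blk, List.any_eq_true, List.all_eq_true, List.mem_range, Bool.and_eq_true,
    Bool.or_eq_true, bne_iff_ne, beq_iff_eq] at h
  have m2 : ∀ i : ℕ, i < 2 → i ∈ [0, 1] := fun i hi => by interval_cases i <;> simp
  obtain ⟨t, ht, h1, h2⟩ := h
  refine ⟨t, ht, fun i hi j hj => h1 i (m2 i hi) j (m2 j hj), fun g hg => ?_⟩
  obtain ⟨c, hc, s, -, h3⟩ := h2 g hg
  refine ⟨c, by simp at hc; omega, s, fun i hi j hj k hk e => ?_⟩
  exact (h3 i (m2 i hi) j (m2 j hj) k hk).resolve_left (by simpa using e)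

section abs

variable (S P : List Bool → List Bool) (o : List Bool)

/-- target of the register `A` -/
def tA (z : ℕ) (a b : List Bool) : List Bool :=
  if z = 1 ∨ z = 2 then b else if z = 3 ∨ z = 4 then S b else if z = 8 then o else a

/-- target of the register `B` -/
def tB (z : ℕ) (a b : List Bool) : List Bool :=
  if z = 5 ∨ z = 6 then P a else if z = 7 ∨ z = 0 then a else if z = 8 then o else b

/-- validity of the registers -/
def vld (z : ℕ) (nA nB : Bool) (a b : List Bool) : Prop :=
  if z = 0 ∨ z = 1 then nA ∧ nB ∧ a = b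
  else if z = 2 ∨ z = 3 then nB
  else if z = 4 ∨ z = 5 then nA ∧ nB ∧ a = S b ∧ b = P a
  else if z = 6 ∨ z = 7 then nA else nA ∧ nB ∧ a = o ∧ b = o

/-- the registers are in the starting state -/
def strt (z : ℕ) (a b : List Bool) : Prop :=
  if z = 2 then b = o else if z = 3 ∨ z = 4 ∨ z = 5 then False else a = o

instance (z : ℕ) (nA nB : Bool) (a b : List Bool) : Decidable (vld S P o z nA nB a b) := by
  unfold vld; infer_instance

instance (z : ℕ) (a b : List Bool) : Decidable (strt o z a b) := by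
  unfold strt; infer_instance

/-- class: `0` valid, `1` default, `2` start -/
def cls (z : ℕ) (nA nB : Bool) (a b : List Bool) : ℕ :=
  if vld S P o z nA nB a b then (if strt o z a b then 2 else 0) else 1

theorem cls_eight (nA nB : Bool) (a b : List Bool) : cls S P o 8 nA nB a b ≠ 0 := by
  by_cases h : nA ∧ nB ∧ a = o ∧ b = o
  · simp [cls, vld, strt, h]
  · have : ¬ vld S P o 8 nA nB a b := by simpa [vld] using h
    simp [cls, this]

theorem cls_ne_two {z : ℕ} (h : z = 3 ∨ z = 4 ∨ z = 5) (nA nB : Bool) (a b : List Bool) :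
    cls S P o z nA nB a b ≠ 2 := by
  have : ¬ strt o z a b := by rcases h with rfl | rfl | rfl <;> simp [strt]
  unfold cls; rw [if_neg this]; split_ifs <;> omega

theorem cls_lt (z : ℕ) (nA nB : Bool) (a b : List Bool) : cls S P o z nA nB a b < 3 := by
  unfold cls; split_ifs <;> omega

variable {S P o} {ι : Type} {z : ι → ℕ} {nA nB : ι → Bool} {a b : ι → List Bool}

theorem grp_ring (sA : ∀ k0 k, nA k0 → a k = a k0) (sB : ∀ k0 k, nB k0 → b k = b k0)
    (hA : ∀ u, (∀ k, tA S o (z k) (a k) (b k) = u) → ∀ k, nA k ∧ a k = u)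
    (hB : ∀ u, (∀ k, tB P o (z k) (a k) (b k) = u) → ∀ k, nB k ∧ b k = u)
    (hP : P o = o) (hS : S o ≠ o) (hPS : P (S o) = o)
    (na : ∀ k, a k = o ∨ S (P (a k)) = a k) (nb : ∀ k, b k = o ∨ P (S (b k)) = b k)
    {t : ℕ} (h8 : t < 8) (hz : ∀ k, zok t (z k) = true) :
    ∃ g < 3, ∀ k, grp t (z k) (cls S P o (z k) (nA k) (nB k) (a k) (b k)) = g := by
  have all : ∀ u w, (∀ k, tA S o (z k) (a k) (b k) = u) → (∀ k, tB P o (z k) (a k) (b k) = w) →
      ∀ k, nA k ∧ nB k ∧ a k = u ∧ b k = w :=
    fun u w h1 h2 k => ⟨(hA u h1 k).1, (hB w h2 k).1, (hA u h1 k).2, (hB w h2 k).2⟩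
  by_cases hv : ∃ k0, vld S P o (z k0) (nA k0) (nB k0) (a k0) (b k0)
  swap
  · push Not at hv
    refine ⟨1, by omega, fun k => ?_⟩
    simp only [cls, hv k, if_false, grp]
    interval_cases t <;> simp
  obtain ⟨k0, hv⟩ := hv
  have z0 := hz k0
  interval_cases t <;> simp [zok] at hz z0
  · have h : nA k0 ∧ nB k0 ∧ a k0 = b k0 := by rcases z0 with e | e <;> simpa [vld, e] using hv
    have h' := all (a k0) (a k0)
      (fun k => by rcases hz k with e | e <;> simp [tA, e, sA k0 k h.1, sB k0 k h.2.1, h.2.2])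
      (fun k => by rcases hz k with e | e <;> simp [tB, e, sA k0 k h.1, sB k0 k h.2.1, h.2.2])
    refine ⟨if a k0 = o then 2 else 0, by split_ifs <;> omega, fun k => ?_⟩
    rcases hz k with e | e <;> by_cases h0 : a k0 = o <;> simp [grp, cls, vld, strt, e, h' k, h0]
  · have h : nB k0 := by rcases z0 with e | e <;> simp [vld, e] at hv <;> simp [hv]
    have h' := all (b k0) (b k0)
      (fun k => by rcases hz k with e | e <;> simp [tA, e, sB k0 k h])
      (fun k => by rcases hz k with e | e <;> simp [tB, e, sB k0 k h])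
    refine ⟨if b k0 = o then 2 else 0, by split_ifs <;> omega, fun k => ?_⟩
    rcases hz k with e | e <;> by_cases h0 : b k0 = o <;> simp [grp, cls, vld, strt, e, h' k, h0]
  · have h : nB k0 := by rcases z0 with e | e <;> simpa [vld, e] using hv
    have h' := hB (b k0) (fun k => by rcases hz k with e | e <;> simp [tB, e, sB k0 k h])
    refine ⟨0, by omega, fun k => ?_⟩
    rcases hz k with e | e <;> by_cases h0 : b k0 = o <;> simp [grp, cls, vld, strt, e, h' k, h0]
  · have h : nB k0 := by rcases z0 with e | e <;> simp [vld, e] at hv <;> simp [hv]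
    have h' := all (S (b k0)) (b k0)
      (fun k => by rcases hz k with e | e <;> simp [tA, e, sB k0 k h])
      (fun k => by rcases hz k with e | e <;> simp [tB, e, sB k0 k h])
    have h1 : b k0 = P (S (b k0)) := by
      rcases nb k0 with e | e
      · rw [e, hPS]
      · exact e.symm
    refine ⟨0, by omega, fun k => ?_⟩
    rcases hz k with e | e <;> simp [grp, cls, vld, strt, e, h' k, ← h1]
  · have h : nA k0 ∧ nB k0 ∧ a k0 = S (b k0) ∧ b k0 = P (a k0) := by
      rcases z0 with e | e <;> simpa [vld, e] using hv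
    have h' := all (a k0) (b k0)
      (fun k => by
        rcases hz k with e | e <;> simp [tA, e, sA k0 k h.1, sB k0 k h.2.1, ← h.2.2.1])
      (fun k => by
        rcases hz k with e | e <;> simp [tB, e, sA k0 k h.1, sB k0 k h.2.1, ← h.2.2.2])
    refine ⟨0, by omega, fun k => ?_⟩
    rcases hz k with e | e <;> simp [grp, cls, vld, strt, e, h' k, ← h.2.2.1, ← h.2.2.2]
  · have h : nA k0 := by rcases z0 with e | e <;> simp [vld, e] at hv <;> simp [hv]
    have h' := all (a k0) (P (a k0))
      (fun k => by rcases hz k with e | e <;> simp [tA, e, sA k0 k h])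
      (fun k => by rcases hz k with e | e <;> simp [tB, e, sA k0 k h])
    by_cases h0 : a k0 = o
    · refine ⟨1, by omega, fun k => ?_⟩
      rcases hz k with e | e <;> simp [grp, cls, vld, strt, e, h' k, h0, hP, hS.symm]
    · have h1 : a k0 = S (P (a k0)) := ((na k0).resolve_left h0).symm
      refine ⟨0, by omega, fun k => ?_⟩
      rcases hz k with e | e <;> simp [grp, cls, vld, strt, e, h' k, h0, ← h1]
  · have h : nA k0 := by rcases z0 with e | e <;> simpa [vld, e] using hv
    have h' := hA (a k0) (fun k => by rcases hz k with e | e <;> simp [tA, e, sA k0 k h])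
    refine ⟨if a k0 = o then 2 else 0, by split_ifs <;> omega, fun k => ?_⟩
    rcases hz k with e | e <;> by_cases h0 : a k0 = o <;> simp [grp, cls, vld, strt, e, h' k, h0]
  · have h : nA k0 := by rcases z0 with e | e <;> simp [vld, e] at hv <;> simp [hv]
    have h' := all (a k0) (a k0)
      (fun k => by rcases hz k with e | e <;> simp [tA, e, sA k0 k h])
      (fun k => by rcases hz k with e | e <;> simp [tB, e, sA k0 k h])
    refine ⟨if a k0 = o then 2 else 0, by split_ifs <;> omega, fun k => ?_⟩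
    rcases hz k with e | e <;> by_cases h0 : a k0 = o <;> simp [grp, cls, vld, strt, e, h' k, h0]

theorem grp_mid (sA : ∀ k0 k, nA k0 → a k = a k0) (sB : ∀ k0 k, nB k0 → b k = b k0)
    (hA : ∀ u, (∀ k, tA S o (z k) (a k) (b k) = u) → ∀ k, nA k ∧ a k = u)
    (hB : ∀ u, (∀ k, tB P o (z k) (a k) (b k) = u) → ∀ k, nB k ∧ b k = u)
    (hP : P o = o)
    {t : ℕ} (h8 : 8 ≤ t ∧ t < 12) (hz : ∀ k, zok t (z k) = true) :
    ∃ g < 3, ∀ k, grp t (z k) (cls S P o (z k) (nA k) (nB k) (a k) (b k)) = g := by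
  have all : ∀ u w, (∀ k, tA S o (z k) (a k) (b k) = u) → (∀ k, tB P o (z k) (a k) (b k) = w) →
      ∀ k, nA k ∧ nB k ∧ a k = u ∧ b k = w :=
    fun u w h1 h2 k => ⟨(hA u h1 k).1, (hB w h2 k).1, (hA u h1 k).2, (hB w h2 k).2⟩
  by_cases hv : ∃ k0, cls S P o (z k0) (nA k0) (nB k0) (a k0) (b k0) = 2
  swap
  · push Not at hv
    refine ⟨0, by omega, fun k => ?_⟩
    have h1 := hv k
    have h2 : z k = 8 → cls S P o (z k) (nA k) (nB k) (a k) (b k) ≠ 0 := fun e => by
      rw [e]; exact cls_eight S P o _ _ _ _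
    unfold grp
    rw [if_neg (fun h => h.elim (fun h => h2 h.2 h.1) fun h => h1 h.1), if_neg (by omega),
      if_neg (by omega), if_neg (by omega),
      if_pos h8.2, if_neg h1]
  obtain ⟨k0, hv⟩ := hv
  have hv : vld S P o (z k0) (nA k0) (nB k0) (a k0) (b k0) ∧ strt o (z k0) (a k0) (b k0) := by
    unfold cls at hv; split_ifs at hv with h1 h2 <;> first | exact ⟨h1, h2⟩ | omega
  have z0 := hz k0
  obtain ⟨h8, h12⟩ := h8
  have h' : ∀ k, nA k ∧ nB k ∧ a k = o ∧ b k = o := by
    interval_cases t <;> simp [zok] at hz z0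
    · have h : nA k0 ∧ a k0 = o := by
        rcases z0 with e | e | e <;> simp [vld, strt, e] at hv <;> grind
      exact all o o
        (fun k => by rcases hz k with e | e | e <;> simp [tA, e, sA k0 k h.1, h.2])
        (fun k => by rcases hz k with e | e | e <;> simp [tB, e, sA k0 k h.1, h.2, hP])
    · have h : nA k0 ∧ a k0 = o := by
        rcases z0 with e | e | e <;> simp [vld, strt, e] at hv <;> grind
      exact all o o
        (fun k => by rcases hz k with e | e | e <;> simp [tA, e, sA k0 k h.1, h.2])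
        (fun k => by rcases hz k with e | e | e <;> simp [tB, e, sA k0 k h.1, h.2])
    · have h : nA k0 ∧ a k0 = o ∧ nB k0 ∧ b k0 = o := by
        rcases z0 with e | e | e <;> simp [vld, strt, e] at hv <;> grind
      exact all o o
        (fun k => by
          rcases hz k with e | e | e <;> simp [tA, e, sA k0 k h.1, sB k0 k h.2.2.1, h.2])
        (fun k => by
          rcases hz k with e | e | e <;> simp [tB, e, sA k0 k h.1, sB k0 k h.2.2.1, h.2])
    · have h : nB k0 ∧ b k0 = o := by
        rcases z0 with e | e | e <;> simp [vld, strt, e] at hv <;> grind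
      exact all o o
        (fun k => by rcases hz k with e | e | e <;> simp [tA, e, sB k0 k h.1, h.2])
        (fun k => by rcases hz k with e | e | e <;> simp [tB, e, sB k0 k h.1, h.2])
  refine ⟨2, by omega, fun k => ?_⟩
  have hk := hz k
  interval_cases t <;> simp [zok] at hk <;>
    rcases hk with e | e | e <;> simp [grp, cls, vld, strt, e, h' k]

theorem grp_const (sA : ∀ k0 k, nA k0 → a k = a k0) (sB : ∀ k0 k, nB k0 → b k = b k0)
    (hA : ∀ u, (∀ k, tA S o (z k) (a k) (b k) = u) → ∀ k, nA k ∧ a k = u)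
    (hB : ∀ u, (∀ k, tB P o (z k) (a k) (b k) = u) → ∀ k, nB k ∧ b k = u)
    (hP : P o = o) (hS : S o ≠ o) (hPS : P (S o) = o)
    (na : ∀ k, a k = o ∨ S (P (a k)) = a k) (nb : ∀ k, b k = o ∨ P (S (b k)) = b k)
    {t : ℕ} (ht : t < 14) (hz : ∀ k, zok t (z k) = true) :
    ∃ g < 3, ∀ k, grp t (z k) (cls S P o (z k) (nA k) (nB k) (a k) (b k)) = g := by
  have all : ∀ u w, (∀ k, tA S o (z k) (a k) (b k) = u) → (∀ k, tB P o (z k) (a k) (b k) = w) →
      ∀ k, nA k ∧ nB k ∧ a k = u ∧ b k = w :=
    fun u w h1 h2 k => ⟨(hA u h1 k).1, (hB w h2 k).1, (hA u h1 k).2, (hB w h2 k).2⟩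
  rcases (by omega : t < 8 ∨ (8 ≤ t ∧ t < 12) ∨ t = 12 ∨ t = 13) with h8 | h8 | rfl | rfl
  · exact grp_ring sA sB hA hB hP hS hPS na nb h8 hz
  · exact grp_mid sA sB hA hB hP h8 hz
  · simp [zok] at hz
    have h' := all o o (fun k => by simp [tA, hz k]) (fun k => by simp [tB, hz k])
    exact ⟨2, by omega, fun k => by simp [grp, cls, vld, strt, hz k, h' k]⟩
  · refine ⟨0, by omega, fun k => ?_⟩
    have h2 : z k = 8 → cls S P o (z k) (nA k) (nB k) (a k) (b k) ≠ 0 := fun e => by
      rw [e]; exact cls_eight S P o _ _ _ _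
    have h3 : (z k = 3 ∨ z k = 4 ∨ z k = 5) → cls S P o (z k) (nA k) (nB k) (a k) (b k) ≠ 2 :=
      fun e => cls_ne_two S P o e _ _ _ _
    unfold grp
    rw [if_neg (fun h => h.elim (fun h => h2 h.2 h.1) fun h => h3 h.2 h.1)]
    simp

end abs

end Vale.Agent.P330.Hard
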