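import Vale.Agent.P330.Stmt
import Vale.Agent.P330.HardTab

/-! The labeling of the grid `{0,…,22}^(2n+2)`: a set of close points that carries both labels in
every coordinate gives a solution of the End-of-Line instance. -/

namespace Vale.Agent.P330.Hard

/-- the rounded register that starts at coordinate `s` -/
def reg (n s : ℕ) (p : ℕ → ℕ) : List Bool := (List.range n).map fun i => decide (10 < p (s + i))

/-- the register is near a corner -/
def near (n s : ℕ) (p : ℕ → ℕ) : Bool :=
  (List.range n).all fun i => decide (p (s + i) ≤ 1 ∨ 20 < p (s + i))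

/-- label of a register coordinate with value `m` and target `d` -/
def ovr (m : ℕ) (d : Bool) : Bool := decide (m = 0) || (decide (m ≠ 22) && d)

variable (I : EOL)

/-- class of a point -/
def cl (p : ℕ → ℕ) : ℕ :=
  cls I.S.eval I.P.eval I.zero (zone (p 0) (p 1)) (near I.n 2 p) (near I.n (2 + I.n) p)
    (reg I.n 2 p) (reg I.n (2 + I.n) p)

/-- the labeling -/
def lam (p : ℕ → ℕ) (c : ℕ) : Bool :=
  if c < 2 then rawl (cl I p) c (p 0) (p 1)
  else if c < 2 + I.n then ovr (p c) ((tA I.S.eval I.zero (zone (p 0) (p 1)) (reg I.n 2 p)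
    (reg I.n (2 + I.n) p)).getD (c - 2) false)
  else ovr (p c) ((tB I.P.eval I.zero (zone (p 0) (p 1)) (reg I.n 2 p)
    (reg I.n (2 + I.n) p)).getD (c - (2 + I.n)) false)

variable {I}

theorem cl_lt (p : ℕ → ℕ) : cl I p < 3 := cls_lt _ _ _ _ _ _ _ _

theorem lam_bd {p : ℕ → ℕ} (h0 : p 0 ≤ 22) (h1 : p 1 ≤ 22) (c : ℕ) :
    (p c = 0 → lam I p c = true) ∧ (p c = 22 → lam I p c = false) := by
  have h := rawl_bd
  simp only [List.all_eq_true, List.mem_range, Bool.and_eq_true, Bool.not_eq_true'] at h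
  have ha := h _ (cl_lt (I := I) p) (p 0) (by omega)
  have hb := h _ (cl_lt (I := I) p) (p 1) (by omega)
  unfold lam
  split_ifs with c2 c3
  · interval_cases c <;> constructor <;> intro e <;> rw [e] <;> simp [ha, hb]
  · constructor <;> intro e <;> simp [ovr, e]
  · constructor <;> intro e <;> simp [ovr, e]

theorem length_reg (n s : ℕ) (p : ℕ → ℕ) : (reg n s p).length = n := by simp [reg]

section
variable {ι : Type} {p : ι → ℕ → ℕ} {b : ℕ → ℕ} {n s : ℕ}

theorem reg_stable (h : ∀ k, ∀ i < n, b (s + i) ≤ p k (s + i) ∧ p k (s + i) ≤ b (s + i) + 1)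
    (k0 k : ι) (hk : near n s (p k0)) : reg n s (p k) = reg n s (p k0) := by
  simp only [near, List.all_eq_true, List.mem_range, decide_eq_true_eq] at hk
  refine List.map_congr_left fun i hi => ?_
  rw [List.mem_range] at hi
  have := h k i hi
  have := h k0 i hi
  have := hk i hi
  rw [decide_eq_decide]
  omega

theorem reg_target
    (h : ∀ k, ∀ i < n, b (s + i) ≤ p k (s + i) ∧ p k (s + i) ≤ b (s + i) + 1 ∧ p k (s + i) ≤ 22)
    {u : List Bool} (hu : u.length = n)
    (h2 : ∀ i < n, ∀ t, ∃ k, ovr (p k (s + i)) (u.getD i false) = t) (k : ι) :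
    near n s (p k) ∧ reg n s (p k) = u := by
  have key : ∀ i < n, (u.getD i false = true ∧ 20 < p k (s + i)) ∨
      (u.getD i false = false ∧ p k (s + i) ≤ 1) := fun i hi => by
    have h3 := h k i hi
    cases e : u.getD i false
    · obtain ⟨k', hk'⟩ := h2 i hi true
      have := h k' i hi
      simp only [ovr, e, Bool.and_false, Bool.or_false, decide_eq_true_eq] at hk'
      exact Or.inr ⟨rfl, by omega⟩
    · obtain ⟨k', hk'⟩ := h2 i hi false
      have := h k' i hi
      simp [ovr, -List.getD_eq_getElem?_getD, e] at hk'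
      exact Or.inl ⟨rfl, by omega⟩
  constructor
  · simp only [near, List.all_eq_true, List.mem_range, decide_eq_true_eq]
    intro i hi
    have := key i hi
    omega
  · refine List.ext_getElem (by rw [length_reg, hu]) fun i h1 h3 => ?_
    have h4 := key i (by omega)
    rw [List.getD_eq_getElem _ _ h3] at h4
    simp only [reg, List.getElem_map, List.getElem_range]
    rcases h4 with ⟨e, h5⟩ | ⟨e, h5⟩ <;> rw [e] <;> simp <;> omega

end

theorem core (hI : I.Valid) {ι : Type} [Nonempty ι] (p : ι → ℕ → ℕ) (b : ℕ → ℕ)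
    (h1 : ∀ k, ∀ c < 2 * I.n + 2, b c ≤ p k c ∧ p k c ≤ b c + 1 ∧ p k c ≤ 22)
    (h2 : ∀ c < 2 * I.n + 2, ∀ s, ∃ k, lam I (p k) c = s) :
    ∃ k, I.Sol (reg I.n 2 (p k)) ∨ I.Sol (reg I.n (2 + I.n) (p k)) := by
  by_contra hno
  push Not at hno
  obtain ⟨-, hn, hP, hS, hPS⟩ := hI
  have lS : ∀ v, (I.S.eval v).length = I.n := fun v => by simp [BCircuit.eval, EOL.n]
  have lP : ∀ v, (I.P.eval v).length = I.n := fun v => by simp [BCircuit.eval, hn]
  have lo : I.zero.length = I.n := by simp [EOL.zero]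
  obtain ⟨t, ht, hz, hg⟩ := blk_spec (x := min (b 0) 21) (y := min (b 1) 21) (by omega) (by omega)
  have hx : ∀ k, ∃ i < 2, ∃ j < 2, p k 0 = min (b 0) 21 + i ∧ p k 1 = min (b 1) 21 + j := fun k => by
    have := h1 k 0 (by omega)
    have := h1 k 1 (by omega)
    exact ⟨p k 0 - min (b 0) 21, by omega, p k 1 - min (b 1) 21, by omega, by omega, by omega⟩
  have ns : ∀ v : List Bool, v.length = I.n → ¬ I.Sol v →
      v = I.zero ∨ (I.P.eval (I.S.eval v) = v ∧ I.S.eval (I.P.eval v) = v) := fun v hv h => by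
    by_contra h'
    push Not at h'
    exact h ⟨hv, h'.1, by by_cases e : I.P.eval (I.S.eval v) = v; exacts [.inr (h'.2 e), .inl e]⟩
  obtain ⟨g, hg3, hgr⟩ := grp_const (S := I.S.eval) (P := I.P.eval) (o := I.zero)
    (z := fun k => zone (p k 0) (p k 1)) (nA := fun k => near I.n 2 (p k))
    (nB := fun k => near I.n (2 + I.n) (p k)) (a := fun k => reg I.n 2 (p k))
    (b := fun k => reg I.n (2 + I.n) (p k))
    (reg_stable (b := b) fun k i hi => by have := h1 k (2 + i) (by omega); omega)
    (reg_stable (b := b) fun k i hi => by have := h1 k (2 + I.n + i) (by omega); omega)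
    (fun u hu => reg_target (b := b) (fun k i hi => h1 k (2 + i) (by omega))
      (by
        rw [← hu (Classical.arbitrary ι)]; unfold tA
        split_ifs <;> simp [length_reg, lS, lo])
      fun i hi s => by
        obtain ⟨k, hk⟩ := h2 (2 + i) (by omega) s
        refine ⟨k, ?_⟩
        rw [lam, if_neg (by omega), if_pos (by omega), hu k, Nat.add_sub_cancel_left] at hk
        exact hk)
    (fun u hu => reg_target (b := b) (fun k i hi => h1 k (2 + I.n + i) (by omega))
      (by
        rw [← hu (Classical.arbitrary ι)]; unfold tB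
        split_ifs <;> simp [length_reg, lP, lo])
      fun i hi s => by
        obtain ⟨k, hk⟩ := h2 (2 + I.n + i) (by omega) s
        refine ⟨k, ?_⟩
        rw [lam, if_neg (by omega), if_neg (by omega), hu k, Nat.add_sub_cancel_left] at hk
        exact hk)
    hP hS hPS (fun k => (ns _ (length_reg _ _ _) (hno k).1).imp_right And.right)
    (fun k => (ns _ (length_reg _ _ _) (hno k).2).imp_right And.left) ht
    (fun k => by
      obtain ⟨i, hi, j, hj, e1, e2⟩ := hx k
      rw [e1, e2]; exact hz i hi j hj)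
  obtain ⟨c, hc, s, hs⟩ := hg g hg3
  obtain ⟨k, hk⟩ := h2 c (by omega) (!s)
  obtain ⟨i, hi, j, hj, e1, e2⟩ := hx k
  have h3 := hs i hi j hj (cl I (p k)) (cl_lt _) (by rw [← e1, ← e2]; exact hgr k)
  rw [lam, if_pos hc, e1, e2, h3] at hk
  simp at hk

end Vale.Agent.P330.Hard
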