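import Vale.Agent.P330.DnfDefs
import Vale.Agent.P330.HardCore

/-! The circuit of the exact hardness proof. -/

namespace Vale.Agent.P330.Hard

/-- terms of a gate in normal form -/
abbrev Terms : Type := List (List (Nm × Bool))

/-- all cells of the control square -/
def cells : List (ℕ × ℕ) := (List.range 23).flatMap fun x => (List.range 23).map fun y => (x, y)

/-- cells and classes with label true -/
def cellsT (c : ℕ) : List (ℕ × ℕ × ℕ) :=
  (cells.flatMap fun q => (List.range 3).map fun κ => (κ, q)).filter fun q => rawl q.1 c q.2.1 q.2.2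

/-- cells of a zone -/
def cellsZ (z : ℕ) : List (ℕ × ℕ) := cells.filter fun q => zone q.1 q.2 == z

/-- literals that say that the class is `κ` -/
def clsL (k κ : ℕ) : List (Nm × Bool) :=
  if κ = 0 then [((9, k, 0, 0), true), ((9, k, 1, 0), false)]
  else if κ = 1 then [((9, k, 0, 0), false)] else [((9, k, 0, 0), true), ((9, k, 1, 0), true)]

/-- terms of a Boolean gate with numbers `g` at wire `i` -/
def wireT (k s i : ℕ) (g : List ℕ) : Terms :=
  if g.getD 0 0 = 0 then
    (if g.getD 1 0 < i ∧ g.getD 2 0 < i then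
      [[((4, k, s, g.getD 1 0), true), ((4, k, s, g.getD 2 0), true)]] else [])
  else if g.getD 0 0 = 1 then
    (if g.getD 1 0 < i then [[((4, k, s, g.getD 1 0), true)]] else []) ++
      (if g.getD 2 0 < i then [[((4, k, s, g.getD 2 0), true)]] else [])
  else if g.getD 1 0 < i then [[((4, k, s, g.getD 1 0), false)]] else [[]]

/-- a term of the label of a register coordinate -/
def regT (k c z : ℕ) (v : Nm) : List (Nm × Bool) :=
  [((2, k, c, 22), false), ((8, k, z, 0), true), (v, true)]

def t2 (k c m : ℕ) : Terms :=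
  [(if m = 0 then [] else [((1, c, m - 1, k), true)]) ++
    (if m = 22 then [] else [((1, c, m, k), false)])]

def t3 (k c : ℕ) : Terms := [[((1, c, 1, k), false)], [((1, c, 20, k), true)]]

def t6 (x y : Nm) : Terms := [[(x, true), (y, true)], [(x, false), (y, false)]]

def t8 (k z : ℕ) : Terms := (cellsZ z).map fun q => [((2, k, 0, q.1), true), ((2, k, 1, q.2), true)]

/-- a conjunction of a zone and flags -/
def zf (k z : ℕ) (l : List ℕ) : List (Nm × Bool) :=
  ((8, k, z, 0), true) :: l.map fun e => ((7, k, e, 0), true)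

def t9 (k e : ℕ) : Terms :=
  if e = 0 then [zf k 0 [0, 1, 2], zf k 1 [0, 1, 2], zf k 2 [1], zf k 3 [1], zf k 4 [0, 1, 3, 4],
    zf k 5 [0, 1, 3, 4], zf k 6 [0], zf k 7 [0], zf k 8 [0, 1, 5, 6]]
  else [zf k 0 [5], zf k 1 [5], zf k 2 [6], zf k 6 [5], zf k 7 [5], zf k 8 [5]]

def t11 (c k t : ℕ) : Terms :=
  if t = 0 then [[]] else if k = 0 then []
  else [[((11, c, k - 1, t), true)], [((10, k - 1, c, 0), true), ((11, c, k - 1, t - 1), true)]]

variable (I : EOL)

/-- bound for the number of bad samples -/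
def nB : ℕ := 22 * (2 * I.n + 2)

/-- number of samples -/
def nK : ℕ := 23 * (nB I + 1)

/-- bound for all indices -/
def nW : ℕ := nK I + I.S.gates.length + I.P.gates.length + 30

/-- the two circuits -/
def circ (s : ℕ) : BCircuit := if s = 0 then I.S else I.P

/-- first coordinate of the input register of a circuit -/
def inp (s : ℕ) : ℕ := if s = 0 then 2 + I.n else 2

def t4 (k s i : ℕ) : Terms :=
  if i < I.n then [[((1, inp I s + i, 10, k), true)]]
  else wireT k s i (((circ I s).gates.map BGate.nums).getD (i - I.n) [])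

def t5 (k s i : ℕ) : Terms :=
  if (circ I s).outs.getD i 0 < I.n + (circ I s).gates.length then
    [[((4, k, s, (circ I s).outs.getD i 0), true)]] else []

def t6' (k e i : ℕ) : Terms :=
  if e = 0 then t6 (1, 2 + i, 10, k) (1, 2 + I.n + i, 10, k)
  else if e = 1 then t6 (1, 2 + i, 10, k) (5, k, 0, i) else t6 (1, 2 + I.n + i, 10, k) (5, k, 1, i)

/-- the literal number `i` of the flag `e` -/
def l7 (k e i : ℕ) : Nm × Bool :=
  if e = 0 then ((3, k, 2 + i, 0), true) else if e = 1 then ((3, k, 2 + I.n + i, 0), true)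
  else if e = 5 then ((1, 2 + i, 10, k), false) else if e = 6 then ((1, 2 + I.n + i, 10, k), false)
  else ((6, k, e - 2, i), true)

def t7 (k e : ℕ) : Terms := [(List.range I.n).map fun i => l7 I k e i]

def t10 (k c : ℕ) : Terms :=
  if c < 2 then ((if c = 0 then cellsT 0 else cellsT 1).map fun q =>
    ((2, k, 0, q.2.1), true) :: ((2, k, 1, q.2.2), true) :: clsL k q.1)
  else if c < 2 + I.n then
    [[((2, k, c, 0), true)], regT k c 0 (1, c, 10, k), regT k c 1 (1, c + I.n, 10, k),
      regT k c 2 (1, c + I.n, 10, k), regT k c 3 (5, k, 0, c - 2), regT k c 4 (5, k, 0, c - 2),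
      regT k c 5 (1, c, 10, k), regT k c 6 (1, c, 10, k), regT k c 7 (1, c, 10, k)]
  else
    [[((2, k, c, 0), true)], regT k c 0 (1, c - I.n, 10, k), regT k c 1 (1, c, 10, k),
      regT k c 2 (1, c, 10, k), regT k c 3 (1, c, 10, k), regT k c 4 (1, c, 10, k),
      regT k c 5 (5, k, 1, c - (2 + I.n)), regT k c 6 (5, k, 1, c - (2 + I.n)),
      regT k c 7 (1, c - I.n, 10, k)]

/-- terms of the node `(t, a, b, c)` -/
def terms (t a b c : ℕ) : Terms :=
  if t = 0 then [[((11, a, nK I, (b + 1) * (nB I + 1)), true)]]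
  else if t = 2 then t2 a b c else if t = 3 then t3 a b else if t = 4 then t4 I a b c
  else if t = 5 then t5 I a b c else if t = 6 then t6' I a b c else if t = 7 then t7 I a b
  else if t = 8 then t8 a b else if t = 9 then t9 a b else if t = 10 then t10 I a b
  else t11 a b c

/-- the gate of a node -/
def gate (v : Nm) : DG :=
  if v.1 = 0 ∧ v.2.2.2 ≠ 0 then (2, (0, v.2.1, v.2.2.1, v.2.2.2 - 1), [])
  else if v.1 = 1 then (1, (0, v.2), []) else (0, v, terms I v.1 v.2.1 v.2.2.1 v.2.2.2)

/-- all nodes -/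
def nodes : List Nm :=
  (List.range 12).flatMap fun t => (List.range (nW I)).flatMap fun a =>
    (List.range (nW I)).flatMap fun b => (List.range (nW I)).map fun c => (t, a, b, c)

/-- the named circuit -/
def ncirc : List (Nm × DG) := (nodes I).map fun v => (v, gate I v)

/-- the register of a sample, read from an assignment -/
def cand (σ : Nm → ℕ) (k s : ℕ) : List Bool :=
  (List.range I.n).map fun i => decide (3 ≤ σ (1, s + i, 10, k))

/-- soundness of the circuit -/
def SoundStmt : Prop :=
  ∀ I : EOL, I.Valid → ∀ σ : Nm → ℕ, (∀ e ∈ ncirc I, DOk σ e.1 e.2) →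
    ∃ k < nK I, I.Sol (cand I σ k 2) ∨ I.Sol (cand I σ k (2 + I.n))

end Vale.Agent.P330.Hard
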