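import Vale.Agent.P330.HardDefs

/-! The nodes of a good sample are pure and compute the labeling. -/

namespace Vale.Agent.P330.Hard

/-- the node has a pure value -/
def Pur (σ : Nm → ℕ) (v : Nm) : Prop := σ v = 0 ∨ 3 ≤ σ v

/-- the Boolean value of a node -/
def bv (σ : Nm → ℕ) (v : Nm) : Bool := decide (3 ≤ σ v)

theorem dnf_val {σ : Nm → ℕ} {z a : Nm} {T : Terms} (h : DOk σ z (0, a, T))
    (hp : ∀ t ∈ T, ∀ l ∈ t, Pur σ l.1) :
    Pur σ z ∧ (bv σ z = true ↔ ∃ t ∈ T, ∀ l ∈ t, bv σ l.1 = l.2) := by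
  simp only [DOk, if_true] at h
  by_cases e : ∃ t ∈ T, ∀ l ∈ t, bv σ l.1 = l.2
  · have : 3 ≤ σ z := by
      obtain ⟨t, ht, hl⟩ := e
      refine h.1 ⟨t, ht, fun l hl' => ?_⟩
      have h1 := hl l hl'
      have h2 := hp t ht l hl'
      unfold LitT; unfold bv at h1; unfold Pur at h2
      cases e : l.2 <;> simp [e] at h1 ⊢ <;> omega
    exact ⟨Or.inr this, by simp [bv, this]; simpa [bv] using e⟩
  · have : σ z = 0 := by
      push Not at e
      refine h.2 fun t ht => ?_
      obtain ⟨l, hl, h1⟩ := e t ht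
      refine ⟨l, hl, ?_⟩
      have h2 := hp t ht l hl
      unfold LitF; unfold bv at h1; unfold Pur at h2
      cases e : l.2 <;> simp [e] at h1 ⊢ <;> omega
    exact ⟨Or.inl this, by simp [bv, this]; simpa [bv] using e⟩

/-- the values of all wires -/
def wires (l : List BGate) (x : List Bool) : List Bool := l.foldl (fun w g => w ++ [g.eval w]) x

theorem wires_spec (l : List BGate) (x : List Bool) :
    (wires l x).length = x.length + l.length ∧ (wires l x).take x.length = x ∧
      ∀ j (hj : j < l.length), (wires l x).getD (x.length + j) false =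
        l[j].eval ((wires l x).take (x.length + j)) := by
  induction l generalizing x with
  | nil => simp [wires]
  | cons g l ih =>
    obtain ⟨h1, h2, h3⟩ := ih (x ++ [g.eval x])
    have e : wires (g :: l) x = wires l (x ++ [g.eval x]) := rfl
    simp only [List.length_append, List.length_singleton] at h1 h2 h3
    have h4 : (wires l (x ++ [g.eval x])).take x.length = x := by
      have := congrArg (List.take x.length) h2
      rwa [List.take_take, min_eq_left (by omega), List.take_left'  rfl] at this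
    rw [e]
    refine ⟨by rw [h1, List.length_cons]; omega, h4, fun j hj => ?_⟩
    cases j with
    | zero =>
      have := congrArg (fun w => w.getD x.length false) h2
      simp only [List.getD_eq_getElem?_getD, List.getElem?_take, Nat.lt_succ_self, if_true] at this
      simp only [Nat.add_zero, h4, List.getElem_cons_zero, List.getD_eq_getElem?_getD, this]
      simp
    | succ j =>
      have := h3 j (by simpa using hj)
      rw [show x.length + (j + 1) = x.length + 1 + j by omega]
      simpa using this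

theorem getD_take (w : List Bool) (i a : ℕ) :
    (w.take i).getD a false = (decide (a < i) && w.getD a false) := by
  simp only [List.getD_eq_getElem?_getD, List.getElem?_take]
  split_ifs with h <;> simp [h]

attribute [-simp] Prod.forall Prod.exists

variable {I : EOL} {σ : Nm → ℕ} {k : ℕ}

theorem mem_nodes {t a b c : ℕ} (ht : t < 12) (ha : a < nW I) (hb : b < nW I) (hc : c < nW I) :
    (t, a, b, c) ∈ nodes I := by
  simp [nodes, ht, ha, hb, hc]

/-- all gates hold -/
def AllOk (I : EOL) (σ : Nm → ℕ) : Prop := ∀ e ∈ ncirc I, DOk σ e.1 e.2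

theorem AllOk.gate (H : AllOk I σ) {t a b c : ℕ} (ht : t < 12) (ha : a < nW I) (hb : b < nW I)
    (hc : c < nW I) : DOk σ (t, a, b, c) (gate I (t, a, b, c)) :=
  H _ (List.mem_map.2 ⟨_, mem_nodes ht ha hb hc, rfl⟩)

theorem AllOk.dnf (H : AllOk I σ) {t a b c : ℕ} (ht : 2 ≤ t ∧ t < 12) (ha : a < nW I)
    (hb : b < nW I) (hc : c < nW I) :
    DOk σ (t, a, b, c) (0, (t, a, b, c), terms I t a b c) := by
  have := H.gate ht.2 ha hb hc
  rwa [Hard.gate, if_neg (by simp; omega), if_neg (by simp; omega)] at this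

/-- all leaves of the sample are pure -/
def Good (I : EOL) (σ : Nm → ℕ) (k : ℕ) : Prop :=
  k < nK I ∧ ∀ c < 2 * I.n + 2, ∀ j < 22, Pur σ (1, c, j, k)

/-- the leaves of the sample are the unary code of the point `p` -/
def Un (I : EOL) (σ : Nm → ℕ) (k : ℕ) (p : ℕ → ℕ) : Prop :=
  ∀ c < 2 * I.n + 2, p c ≤ 22 ∧ ∀ j < 22, bv σ (1, c, j, k) = decide (j < p c)

theorem nW_big (I : EOL) : nK I + 30 ≤ nW I ∧ 3 * I.n + 30 ≤ nW I ∧
    ∀ s, I.n + (circ I s).gates.length < nW I := by
  refine ⟨by unfold nW; omega, by unfold nW nK nB; omega, fun s => ?_⟩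
  unfold nW nK nB circ
  split_ifs <;> omega

theorem n2 (H : AllOk I σ) (G : Good I σ k) {c m : ℕ} (hc : c < 2 * I.n + 2) (hm : m ≤ 22) :
    Pur σ (2, k, c, m) ∧ ∀ p, Un I σ k p → bv σ (2, k, c, m) = decide (p c = m) := by
  obtain ⟨w1, w2, -⟩ := nW_big I
  have hk := G.1
  obtain ⟨h1, h2⟩ := dnf_val (H.dnf (t := 2) (a := k) (b := c) (c := m) (by omega) (by omega)
    (by omega) (by omega)) (by
      simp only [terms, t2]
      intro t ht l hl
      simp at ht
      subst ht
      rw [List.mem_append] at hl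
      rcases hl with hl | hl <;> split_ifs at hl <;> simp at hl <;> subst hl <;>
        exact G.2 c hc _ (by omega))
  refine ⟨h1, fun p U => ?_⟩
  obtain ⟨u1, u2⟩ := U c hc
  rw [Bool.eq_iff_iff, h2]
  simp only [terms, t2]
  by_cases e0 : m = 0
  · simp [e0, u2 0 (by omega)]
  · by_cases e1 : m = 22
    · simp [e1, u2 21 (by omega)]; omega
    · simp [e0, e1, u2 (m - 1) (by omega), u2 m (by omega)]; omega

theorem n3 (H : AllOk I σ) (G : Good I σ k) {c : ℕ} (hc : c < 2 * I.n + 2) :
    Pur σ (3, k, c, 0) ∧ ∀ p, Un I σ k p → bv σ (3, k, c, 0) = decide (p c ≤ 1 ∨ 20 < p c) := by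
  obtain ⟨w1, w2, -⟩ := nW_big I
  have hk := G.1
  obtain ⟨h1, h2⟩ := dnf_val (H.dnf (t := 3) (a := k) (b := c) (c := 0) (by omega) (by omega)
    (by omega) (by omega)) (by simp [terms, t3, G.2 c hc])
  refine ⟨h1, fun p U => ?_⟩
  rw [Bool.eq_iff_iff, h2]
  simp [terms, t3, (U c hc).2]

theorem getD_reg (n s : ℕ) (p : ℕ → ℕ) {i : ℕ} (hi : i < n) :
    (reg n s p).getD i false = decide (10 < p (s + i)) := by
  simp [reg, List.getD_eq_getElem?_getD, hi]

theorem n4 (H : AllOk I σ) (G : Good I σ k) {s : ℕ} (hs : s < 2) (i : ℕ)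
    (hi : i < I.n + (circ I s).gates.length) :
    Pur σ (4, k, s, i) ∧ ∀ p, Un I σ k p →
      bv σ (4, k, s, i) = (wires (circ I s).gates (reg I.n (inp I s) p)).getD i false := by
  obtain ⟨w1, w2, w3⟩ := nW_big I
  have hk := G.1
  have w4 := w3 s
  induction i using Nat.strong_induction_on with
  | _ i ih =>
  have D := H.dnf (t := 4) (a := k) (b := s) (c := i) (by omega) (by omega) (by omega) (by omega)
  have hin : inp I s ≤ 2 + I.n := by unfold inp; split_ifs <;> omega
  by_cases hn : i < I.n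
  · obtain ⟨h1, h2⟩ := dnf_val D (by simp [terms, t4, hn, G.2 (inp I s + i) (by omega)])
    refine ⟨h1, fun p U => ?_⟩
    have h3 := congrArg (fun w => w.getD i false)
      (wires_spec (circ I s).gates (reg I.n (inp I s) p)).2.1
    simp only [getD_take, length_reg, hn, decide_true, Bool.true_and, getD_reg _ _ _ hn] at h3
    rw [Bool.eq_iff_iff, h2, h3]
    simp [terms, t4, hn, (U (inp I s + i) (by omega)).2]
  · obtain ⟨j, rfl⟩ := Nat.exists_eq_add_of_le (not_lt.1 hn)
    have hj : j < (circ I s).gates.length := by omega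
    have e : terms I 4 k s (I.n + j) = wireT k s (I.n + j) ((circ I s).gates[j]).nums := by
      simp [terms, t4, List.getD_eq_getElem?_getD, hj]
    rw [e] at D
    have ihp : ∀ a, a < I.n + j → Pur σ (4, k, s, a) := fun a ha => (ih a ha (by omega)).1
    obtain ⟨h1, h2⟩ := dnf_val D (by
      cases (circ I s).gates[j] <;> simp only [wireT, BGate.nums] <;> simp <;> grind)
    refine ⟨h1, fun p U => ?_⟩
    have h3 := (wires_spec (circ I s).gates (reg I.n (inp I s) p)).2.2 j hj
    rw [length_reg] at h3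
    have ihv : ∀ a, a < I.n + j → bv σ (4, k, s, a) =
        (wires (circ I s).gates (reg I.n (inp I s) p)).getD a false :=
      fun a ha => (ih a ha (by omega)).2 p U
    rw [Bool.eq_iff_iff, h2, h3]
    generalize wires (circ I s).gates (reg I.n (inp I s) p) = w at *
    cases (circ I s).gates[j] with
    | and a b =>
      simp only [wireT, BGate.nums, BGate.eval, getD_take, List.getD_cons_zero,
        List.getD_cons_succ]
      by_cases ha : a < I.n + j <;> by_cases hb : b < I.n + j <;>
        simp [ha, hb, ihv, -List.getD_eq_getElem?_getD]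
    | or a b =>
      simp only [wireT, BGate.nums, BGate.eval, getD_take, List.getD_cons_zero,
        List.getD_cons_succ]
      by_cases ha : a < I.n + j <;> by_cases hb : b < I.n + j <;>
        simp [ha, hb, ihv, -List.getD_eq_getElem?_getD]
    | not a =>
      simp only [wireT, BGate.nums, BGate.eval, getD_take, List.getD_cons_zero,
        List.getD_cons_succ]
      by_cases ha : a < I.n + j <;> simp [ha, ihv, -List.getD_eq_getElem?_getD]

theorem n5 (H : AllOk I σ) (G : Good I σ k) {s i : ℕ} (hs : s < 2) (hi : i < I.n) :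
    Pur σ (5, k, s, i) ∧ ∀ p, Un I σ k p → i < (circ I s).outs.length →
      bv σ (5, k, s, i) = ((circ I s).eval (reg I.n (inp I s) p)).getD i false := by
  obtain ⟨w1, w2, -⟩ := nW_big I
  have hk := G.1
  obtain ⟨h1, h2⟩ := dnf_val (H.dnf (t := 5) (a := k) (b := s) (c := i) (by omega) (by omega)
    (by omega) (by omega)) (by
      rw [show terms I 5 k s i = t5 I k s i from rfl, t5]
      split_ifs with h
      · simp [n4 H G hs _ h, -List.getD_eq_getElem?_getD]
      · simp)
  refine ⟨h1, fun p U ho => ?_⟩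
  have e : ((circ I s).eval (reg I.n (inp I s) p)).getD i false =
      (wires (circ I s).gates (reg I.n (inp I s) p)).getD ((circ I s).outs.getD i 0) false := by
    simp [BCircuit.eval, wires, List.getD_eq_getElem?_getD, ho]
  rw [Bool.eq_iff_iff, h2, e]
  simp only [terms, t5]
  by_cases h : (circ I s).outs.getD i 0 < I.n + (circ I s).gates.length
  · simp [h, (n4 H G hs _ h).2 p U, -List.getD_eq_getElem?_getD]
  · rw [List.getD_eq_default (wires _ _) _ (by
      rw [(wires_spec _ _).1, length_reg]; omega)]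
    simp [h, -List.getD_eq_getElem?_getD]

theorem t6_val {x y : Nm} : (∃ t ∈ t6 x y, ∀ l ∈ t, bv σ l.1 = l.2) ↔ bv σ x = bv σ y := by
  simp only [t6]
  cases e' : bv σ x <;> cases e : bv σ y <;> simp [e, e']

/-- the two strings compared by the flag `e + 2` -/
def cmp (I : EOL) (p : ℕ → ℕ) (e : ℕ) : List Bool × List Bool :=
  if e = 0 then (reg I.n 2 p, reg I.n (2 + I.n) p)
  else if e = 1 then (reg I.n 2 p, I.S.eval (reg I.n (2 + I.n) p))
  else (reg I.n (2 + I.n) p, I.P.eval (reg I.n 2 p))

theorem n6 (H : AllOk I σ) (G : Good I σ k) {e i : ℕ} (he : e < 3) (hi : i < I.n) :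
    Pur σ (6, k, e, i) ∧ ∀ p, Un I σ k p → I.P.outs.length = I.n →
      (bv σ (6, k, e, i) = true ↔ (cmp I p e).1.getD i false = (cmp I p e).2.getD i false) := by
  obtain ⟨w1, w2, -⟩ := nW_big I
  have hk := G.1
  have a1 := G.2 (2 + i) (by omega) 10 (by omega)
  have a2 := G.2 (2 + I.n + i) (by omega) 10 (by omega)
  have a3 := n5 H G (s := 0) (by omega) hi
  have a4 := n5 H G (s := 1) (by omega) hi
  obtain ⟨h1, h2⟩ := dnf_val (H.dnf (t := 6) (a := k) (b := e) (c := i) (by omega) (by omega)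
    (by omega) (by omega)) (by
      rw [show terms I 6 k e i = t6' I k e i from rfl, t6']
      split_ifs <;> simp [t6, a1, a2, a3.1, a4.1])
  refine ⟨h1, fun p U hP => ?_⟩
  rw [h2, show terms I 6 k e i = t6' I k e i from rfl, t6', cmp]
  have b1 := (U (2 + i) (by omega)).2 10 (by omega)
  have b2 := (U (2 + I.n + i) (by omega)).2 10 (by omega)
  split_ifs <;> rw [t6_val]
  · rw [getD_reg _ _ _ hi, getD_reg _ _ _ hi, b1, b2]
  · rw [getD_reg _ _ _ hi, b1, a3.2 p U hi]; rfl
  · rw [getD_reg _ _ _ hi, b2, a4.2 p U (by rw [circ, if_neg (by omega), hP]; exact hi)]; rfl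

theorem list_eq_iff {u w : List Bool} {n : ℕ} (hu : u.length = n) (hw : w.length = n) :
    (∀ i < n, u.getD i false = w.getD i false) ↔ u = w := by
  refine ⟨fun h => List.ext_getElem (by omega) fun i h1 h2 => ?_, fun h _ _ => by rw [h]⟩
  have := h i (by omega)
  rwa [List.getD_eq_getElem _ _ h1, List.getD_eq_getElem _ _ h2] at this

/-- the meaning of the flags -/
def flag (I : EOL) (p : ℕ → ℕ) (e : ℕ) : Prop :=
  if e = 0 then near I.n 2 p = true else if e = 1 then near I.n (2 + I.n) p = true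
  else if e = 5 then reg I.n 2 p = I.zero else if e = 6 then reg I.n (2 + I.n) p = I.zero
  else (cmp I p (e - 2)).1 = (cmp I p (e - 2)).2

theorem n7 (H : AllOk I σ) (G : Good I σ k) {e : ℕ} (he : e < 7) :
    Pur σ (7, k, e, 0) ∧ ∀ p, Un I σ k p → I.P.outs.length = I.n →
      (bv σ (7, k, e, 0) = true ↔ flag I p e) := by
  obtain ⟨w1, w2, -⟩ := nW_big I
  have hk := G.1
  obtain ⟨h1, h2⟩ := dnf_val (H.dnf (t := 7) (a := k) (b := e) (c := 0) (by omega) (by omega)
    (by omega) (by omega)) (by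
      rw [show terms I 7 k e 0 = t7 I k e from rfl, t7]
      simp only [List.mem_singleton, forall_eq, List.mem_map, List.mem_range]
      rintro _ ⟨i, hi, rfl⟩
      unfold l7
      split_ifs
      exacts [(n3 H G (by omega)).1, (n3 H G (by omega)).1, G.2 _ (by omega) _ (by omega),
        G.2 _ (by omega) _ (by omega), (n6 H G (by omega) hi).1])
  refine ⟨h1, fun p U hP => ?_⟩
  rw [h2, show terms I 7 k e 0 = t7 I k e from rfl, t7]
  simp only [List.mem_singleton, exists_eq_left, List.mem_map, List.mem_range,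
    forall_exists_index, and_imp, forall_apply_eq_imp_iff₂]
  have lo : I.zero.length = I.n := by simp [EOL.zero]
  have z0 : ∀ i, I.zero.getD i false = false := fun i => by
    simp only [EOL.zero, List.getD_eq_getElem?_getD, List.getElem?_replicate]
    split_ifs <;> rfl
  unfold l7 flag
  split_ifs with e0 e1 e5 e6
  · simp only [near, List.all_eq_true, List.mem_range]
    exact forall₂_congr fun i hi => by rw [(n3 H G (by omega)).2 p U]
  · simp only [near, List.all_eq_true, List.mem_range]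
    exact forall₂_congr fun i hi => by rw [(n3 H G (by omega)).2 p U]
  · rw [← list_eq_iff (length_reg _ _ _) lo]
    exact forall₂_congr fun i hi => by
      rw [(U _ (by omega)).2 10 (by omega), getD_reg _ _ _ hi, z0]
  · rw [← list_eq_iff (length_reg _ _ _) lo]
    exact forall₂_congr fun i hi => by
      rw [(U _ (by omega)).2 10 (by omega), getD_reg _ _ _ hi, z0]
  · rw [← list_eq_iff (n := I.n) (by unfold cmp; split_ifs <;> simp [length_reg])
      (by unfold cmp; split_ifs <;> simp [length_reg, BCircuit.eval, hP, EOL.n])]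
    exact forall₂_congr fun i hi => (n6 H G (by omega) hi).2 p U hP

theorem mem_cells {q : ℕ × ℕ} : q ∈ cells ↔ q.1 ≤ 22 ∧ q.2 ≤ 22 := by
  obtain ⟨x, y⟩ := q
  simp [cells]; omega

theorem n8 (H : AllOk I σ) (G : Good I σ k) {z : ℕ} (hz : z < 9) :
    Pur σ (8, k, z, 0) ∧ ∀ p, Un I σ k p → (bv σ (8, k, z, 0) = true ↔ zone (p 0) (p 1) = z) := by
  obtain ⟨w1, w2, -⟩ := nW_big I
  have hk := G.1
  obtain ⟨h1, h2⟩ := dnf_val (H.dnf (t := 8) (a := k) (b := z) (c := 0) (by omega) (by omega)
    (by omega) (by omega)) (by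
      rw [show terms I 8 k z 0 = t8 k z from rfl, t8]
      simp only [List.mem_map, cellsZ, List.mem_filter, mem_cells]
      rintro _ ⟨q, ⟨⟨q1, q2⟩, -⟩, rfl⟩
      simp [(n2 H G (c := 0) (by omega) q1).1, (n2 H G (c := 1) (by omega) q2).1])
  refine ⟨h1, fun p U => ?_⟩
  rw [h2, show terms I 8 k z 0 = t8 k z from rfl, t8]
  simp only [List.mem_map, cellsZ, List.mem_filter, mem_cells, beq_iff_eq]
  constructor
  · rintro ⟨_, ⟨q, ⟨⟨q1, q2⟩, e⟩, rfl⟩, h⟩
    simp [(n2 H G (c := 0) (by omega) q1).2 p U, (n2 H G (c := 1) (by omega) q2).2 p U] at h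
    rw [h.1, h.2, e]
  · intro e
    have q1 := (U 0 (by omega)).1
    have q2 := (U 1 (by omega)).1
    refine ⟨_, ⟨(p 0, p 1), ⟨⟨q1, q2⟩, e⟩, rfl⟩, ?_⟩
    simp [(n2 H G (c := 0) (by omega) q1).2 p U, (n2 H G (c := 1) (by omega) q2).2 p U]

theorem zone_lt' {x y : ℕ} (hx : x ≤ 22) (hy : y ≤ 22) : zone x y < 9 := by
  have h := zone_lt
  simp only [List.all_eq_true, List.mem_range, decide_eq_true_eq] at h
  exact h x (by omega) y (by omega)

theorem n9 (H : AllOk I σ) (G : Good I σ k) {e : ℕ} (he : e < 2) :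
    Pur σ (9, k, e, 0) ∧ ∀ p, Un I σ k p → I.P.outs.length = I.n →
      (bv σ (9, k, e, 0) = true ↔ if e = 0 then vld I.S.eval I.P.eval I.zero (zone (p 0) (p 1))
        (near I.n 2 p) (near I.n (2 + I.n) p) (reg I.n 2 p) (reg I.n (2 + I.n) p)
        else strt I.zero (zone (p 0) (p 1)) (reg I.n 2 p) (reg I.n (2 + I.n) p)) := by
  obtain ⟨w1, w2, -⟩ := nW_big I
  have hk := G.1
  obtain ⟨h1, h2⟩ := dnf_val (H.dnf (t := 9) (a := k) (b := e) (c := 0) (by omega) (by omega)
    (by omega) (by omega)) (by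
      rw [show terms I 9 k e 0 = t9 k e from rfl, t9]
      split_ifs <;> simp [zf, n7 H G, n8 H G])
  refine ⟨h1, fun p U hP => ?_⟩
  rw [h2, show terms I 9 k e 0 = t9 k e from rfl, t9]
  have a7 : ∀ e < 7, bv σ (7, k, e, 0) = true ↔ flag I p e := fun e he => (n7 H G he).2 p U hP
  have a8 : ∀ z < 9, bv σ (8, k, z, 0) = true ↔ zone (p 0) (p 1) = z :=
    fun e he => (n8 H G he).2 p U
  have hz := zone_lt' (U 0 (by omega)).1 (U 1 (by omega)).1
  generalize zone (p 0) (p 1) = z at *
  split_ifs <;> simp [zf, a7, a8, flag, cmp] <;> interval_cases z <;> simp [vld, strt]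

theorem clsL_val (H : AllOk I σ) (G : Good I σ k) {p : ℕ → ℕ} (U : Un I σ k p)
    (hP : I.P.outs.length = I.n) {κ : ℕ} (hκ : κ < 3) :
    (∀ l ∈ clsL k κ, bv σ l.1 = l.2) ↔ cl I p = κ := by
  have a0 := (n9 H G (e := 0) (by omega)).2 p U hP
  have a1 := (n9 H G (e := 1) (by omega)).2 p U hP
  simp only [if_true, one_ne_zero, if_false] at a0 a1
  unfold cl cls
  simp only [← a0, ← a1]
  cases e0 : bv σ (9, k, 0, 0) <;> cases e1 : bv σ (9, k, 1, 0) <;> interval_cases κ <;>
    simp [clsL, e0, e1]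

theorem mem_cellsT {c : ℕ} {q : ℕ × ℕ × ℕ} :
    q ∈ cellsT c ↔ q.1 < 3 ∧ q.2.1 ≤ 22 ∧ q.2.2 ≤ 22 ∧ rawl q.1 c q.2.1 q.2.2 = true := by
  obtain ⟨κ, q⟩ := q
  simp [cellsT, mem_cells]; tauto

theorem n10 (H : AllOk I σ) (G : Good I σ k) {c : ℕ} (hc : c < 2 * I.n + 2) :
    Pur σ (10, k, c, 0) ∧ ∀ p, Un I σ k p → I.P.outs.length = I.n →
      bv σ (10, k, c, 0) = lam I p c := by
  obtain ⟨w1, w2, -⟩ := nW_big I
  have hk := G.1
  have ec : c < 2 → (if c = 0 then cellsT 0 else cellsT 1) = cellsT c := fun h => by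
    interval_cases c <;> rfl
  obtain ⟨h1, h2⟩ := dnf_val (H.dnf (t := 10) (a := k) (b := c) (c := 0) (by omega) (by omega)
    (by omega) (by omega)) (by
      rw [show terms I 10 k c 0 = t10 I k c from rfl, t10]
      by_cases c2 : c < 2
      · rw [if_pos c2, ec c2]
        simp only [List.mem_map, mem_cellsT]
        rintro _ ⟨q, ⟨-, q1, q2, -⟩, rfl⟩
        simp only [List.forall_mem_cons, (n2 H G (c := 0) (by omega) q1).1,
          (n2 H G (c := 1) (by omega) q2).1, true_and, clsL]
        split_ifs <;> simp [n9 H G]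
      · rw [if_neg c2]
        split_ifs
        · simp [regT, n2 H G hc, n8 H G, G.2 c hc, G.2 (c + I.n) (by omega),
            n5 H G (s := 0) (i := c - 2) (by omega) (by omega)]
        · simp [regT, n2 H G hc, n8 H G, G.2 c hc, G.2 (c - I.n) (by omega),
            n5 H G (s := 1) (i := c - (2 + I.n)) (by omega) (by omega)])
  refine ⟨h1, fun p U hP => ?_⟩
  rw [Bool.eq_iff_iff, h2, show terms I 10 k c 0 = t10 I k c from rfl, t10, lam]
  have q1 := (U 0 (by omega)).1
  have q2 := (U 1 (by omega)).1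
  by_cases c2 : c < 2
  · rw [if_pos c2, if_pos c2, ec c2]
    simp only [List.mem_map, mem_cellsT]
    constructor
    · rintro ⟨_, ⟨q, ⟨q0, q1, q2, e⟩, rfl⟩, h⟩
      simp only [List.forall_mem_cons, (n2 H G (c := 0) (by omega) q1).2 p U,
        (n2 H G (c := 1) (by omega) q2).2 p U, clsL_val H G U hP q0, decide_eq_true_eq] at h
      rw [h.1, h.2.1, h.2.2, e]
    · intro e
      refine ⟨_, ⟨(cl I p, p 0, p 1), ⟨cl_lt p, q1, q2, e⟩, rfl⟩, ?_⟩
      simp only [List.forall_mem_cons, (n2 H G (c := 0) (by omega) q1).2 p U,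
        (n2 H G (c := 1) (by omega) q2).2 p U, clsL_val H G U hP (cl_lt p), decide_true, and_self]
  rw [if_neg c2, if_neg c2]
  have a8 : ∀ z < 9, bv σ (8, k, z, 0) = true ↔ zone (p 0) (p 1) = z :=
    fun e he => (n8 H G he).2 p U
  have hz := zone_lt' q1 q2
  have a0 := (n2 H G hc (m := 0) (by omega)).2 p U
  have a22 := (n2 H G hc (m := 22) (by omega)).2 p U
  have z0 : ∀ i, I.zero.getD i false = false := fun i => by
    simp only [EOL.zero, List.getD_eq_getElem?_getD, List.getElem?_replicate]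
    split_ifs <;> rfl
  generalize zone (p 0) (p 1) = z at *
  split_ifs with c3
  · have b1 := (U c hc).2 10 (by omega)
    have b2 := (U (c + I.n) (by omega)).2 10 (by omega)
    have b3 := (n5 H G (s := 0) (i := c - 2) (by omega) (by omega)).2 p U (by
      rw [circ, if_pos rfl]; unfold EOL.n at c3; omega)
    have b4 := getD_reg I.n 2 p (i := c - 2) (by omega)
    have b5 := getD_reg I.n (2 + I.n) p (i := c - 2) (by omega)
    rw [show 2 + (c - 2) = c by omega] at b4
    rw [show 2 + I.n + (c - 2) = c + I.n by omega] at b5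
    simp only [circ, inp, if_true] at b3
    simp [regT, a8, a0, a22, b1, b2, b3, ovr, -List.getD_eq_getElem?_getD]
    interval_cases z <;> simp [tA, b4, b5, z0, -List.getD_eq_getElem?_getD]
  · have b1 := (U c hc).2 10 (by omega)
    have b2 := (U (c - I.n) (by omega)).2 10 (by omega)
    have b3 := (n5 H G (s := 1) (i := c - (2 + I.n)) (by omega) (by omega)).2 p U (by
      rw [circ, if_neg (by omega)]; omega)
    have b4 := getD_reg I.n 2 p (i := c - (2 + I.n)) (by omega)
    have b5 := getD_reg I.n (2 + I.n) p (i := c - (2 + I.n)) (by omega)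
    rw [show 2 + (c - (2 + I.n)) = c - I.n by omega] at b4
    rw [show 2 + I.n + (c - (2 + I.n)) = c by omega] at b5
    simp only [circ, inp, one_ne_zero, if_false] at b3
    simp [regT, a8, a0, a22, b1, b2, b3, ovr, -List.getD_eq_getElem?_getD]
    interval_cases z <;> simp [tB, b4, b5, z0, -List.getD_eq_getElem?_getD]

end Vale.Agent.P330.Hard
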