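import Vale.Agent.P330.HardSample

/-! Purification chains, thresholds and soundness of the circuit. -/

namespace Vale.Agent.P330.Hard

open Finset

attribute [-simp] Prod.forall Prod.exists

variable {I : EOL} {σ : Nm → ℕ}

theorem leaf_ok (H : AllOk I σ) {c j k : ℕ} (hc : c < nW I) (hj : j < nW I) (hk : k < nW I) :
    (2 ≤ σ (0, c, j, k) → 3 ≤ σ (1, c, j, k)) ∧ (σ (0, c, j, k) = 0 → σ (1, c, j, k) = 0) := by
  simpa [gate, DOk, ok] using H.gate (t := 1) (by omega) hc hj hk

theorem chain_ok (H : AllOk I σ) {c j k : ℕ} (hc : c < nW I) (hj : j < nW I) (hk : k + 1 < nW I) :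
    (3 ≤ σ (0, c, j, k) → 3 ≤ σ (0, c, j, k + 1)) ∧
      (σ (0, c, j, k) ≤ 1 → σ (0, c, j, k + 1) = 0) := by
  simpa [gate, DOk, ok] using H.gate (t := 0) (by omega) hc hj hk

theorem chain_pure (H : AllOk I σ) {c j k : ℕ} (hc : c < nW I) (hj : j < nW I) (d : ℕ)
    (hk : k + d < nW I) : (3 ≤ σ (0, c, j, k) → 3 ≤ σ (0, c, j, k + d)) ∧
      (σ (0, c, j, k) = 0 → σ (0, c, j, k + d) = 0) := by
  induction d with
  | zero => simp
  | succ d ih =>
    have h1 := ih (by omega)
    have h2 := chain_ok H hc hj (k := k + d) hk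
    exact ⟨fun h => h2.1 (h1.1 h), fun h => h2.2 (by rw [h1.2 h]; omega)⟩

theorem leaf_unique (H : AllOk I σ) {c j k k' : ℕ} (hc : c < nW I) (hj : j < nW I)
    (hk : k < k') (hk' : k' < nW I) : Pur σ (1, c, j, k) ∨ Pur σ (1, c, j, k') := by
  by_cases h : 2 ≤ σ (0, c, j, k)
  · exact .inl (.inr ((leaf_ok H hc hj (by omega)).1 h))
  · obtain ⟨d, rfl⟩ := Nat.exists_eq_add_of_le (show k + 1 ≤ k' from hk)
    exact .inr (.inl ((leaf_ok H hc hj hk').2 ((chain_pure H hc hj d hk').2
      ((chain_ok H hc hj (by omega)).2 (by omega)))))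

open Classical in
theorem bad_card (H : AllOk I σ) : ((range (nK I)).filter fun k => ¬ Good I σ k).card ≤ nB I := by
  obtain ⟨w1, w2, -⟩ := nW_big I
  have h1 : ((range (nK I)).filter fun k => ¬ Good I σ k) ⊆
      (range (2 * I.n + 2) ×ˢ range 22).biUnion fun q =>
        (range (nK I)).filter fun k => ¬ Pur σ (1, q.1, q.2, k) := by
    intro k hk
    simp only [mem_filter, mem_range, mem_biUnion, mem_product] at hk ⊢
    obtain ⟨h1, h2⟩ := hk
    by_contra h3
    exact h2 ⟨h1, fun c hc j hj => by_contra fun h => h3 ⟨(c, j), ⟨hc, hj⟩, h1, h⟩⟩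
  refine (card_le_card h1).trans ((card_biUnion_le_card_mul _ _ 1 fun q hq => ?_).trans ?_)
  · simp only [mem_product, mem_range] at hq
    refine card_le_one.2 fun k hk k' hk' => ?_
    simp only [mem_filter, mem_range] at hk hk'
    by_contra hne
    rcases Nat.lt_or_gt_of_ne hne with h | h
    · exact (leaf_unique H (by omega) (by omega) h (by omega)).elim hk.2 hk'.2
    · exact (leaf_unique H (by omega) (by omega) h (by omega)).elim hk'.2 hk.2
  · simp [nB, mul_comm]

theorem thr_ok (H : AllOk I σ) {c : ℕ} (hc : c < nW I) (k : ℕ) (hk : k < nW I) : ∀ t < nW I,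
    (t ≤ ((range k).filter fun i => 3 ≤ σ (10, i, c, 0)).card → 3 ≤ σ (11, c, k, t)) ∧
    (((range k).filter fun i => σ (10, i, c, 0) ≠ 0).card < t → σ (11, c, k, t) = 0) := by
  induction k with
  | zero =>
    intro t ht
    have h := H.dnf (t := 11) (by omega) hc hk ht
    rw [show terms I 11 c 0 t = t11 c 0 t from rfl] at h
    by_cases e : t = 0
    · simpa [DOk, t11, e] using h
    · simp [DOk, t11, e] at h
      simp [e, h]
  | succ k ih =>
    intro t ht
    have h := H.dnf (t := 11) (by omega) hc hk ht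
    rw [show terms I 11 c (k + 1) t = t11 c (k + 1) t from rfl] at h
    by_cases e : t = 0
    · simpa [DOk, t11, e] using h
    simp [DOk, t11, e, LitT, LitF] at h
    have a := ih (by omega) t ht
    have b := ih (by omega) (t - 1) (by omega)
    simp only [range_add_one, filter_insert]
    constructor
    · intro h1
      split_ifs at h1 with h2
      · rw [card_insert_of_notMem (by simp)] at h1
        exact h.1 (.inr ⟨h2, b.1 (by omega)⟩)
      · exact h.1 (.inl (a.1 h1))
    · intro h1
      split_ifs at h1 with h2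
      · rw [card_insert_of_notMem (by simp)] at h1
        exact h.2 (a.2 (by omega)) (.inr (b.2 (by omega)))
      · exact h.2 (a.2 h1) (.inl (by simpa using h2))

theorem sound : SoundStmt := by
  classical
  intro I hI σ (H : AllOk I σ)
  obtain ⟨w1, w2, -⟩ := nW_big I
  have hB := bad_card H
  have hK : nK I = 23 * (nB I + 1) := rfl
  set one : ℕ → ℕ := fun c => ((range (nK I)).filter fun i => 3 ≤ σ (10, i, c, 0)).card with hone
  set nz : ℕ → ℕ := fun c => ((range (nK I)).filter fun i => σ (10, i, c, 0) ≠ 0).card with hnz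
  have top : ∀ c < 2 * I.n + 2, ∀ j < 22, ∀ k < nK I,
      ((j + 1) * (nB I + 1) ≤ one c → 3 ≤ σ (1, c, j, k)) ∧
      (nz c < (j + 1) * (nB I + 1) → σ (1, c, j, k) = 0) := fun c hc j hj k hk => by
    have h0 := H.gate (t := 0) (a := c) (b := j) (c := 0) (by omega) (by omega) (by omega)
      (by omega)
    simp [gate, DOk, terms, LitT, LitF] at h0
    have h1 := thr_ok H (c := c) (by omega) (nK I) (by omega) ((j + 1) * (nB I + 1)) (by
      have := Nat.mul_le_mul_right (nB I + 1) (show j + 1 ≤ 22 by omega); omega)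
    have h2 := chain_pure H (c := c) (j := j) (k := 0) (by omega) (by omega) k (by omega)
    have h3 := leaf_ok H (c := c) (j := j) (k := k) (by omega) (by omega) (by omega)
    rw [Nat.zero_add] at h2
    exact ⟨fun h => h3.1 (le_trans (by omega) (h2.1 (h0.1 (h1.1 h)))),
      fun h => h3.2 (h2.2 (h0.2 (h1.2 h)))⟩
  have sub : ∀ (q r : ℕ → Prop) [DecidablePred q] [DecidablePred r],
      (∀ k, Good I σ k → q k → r k) →
      ((range (nK I)).filter q).card ≤ ((range (nK I)).filter r).card + nB I := by
    intro q r _ _ h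
    refine le_trans (card_le_card fun k hk => ?_) ((card_union_le _ _).trans
      (Nat.add_le_add_left hB _))
    simp only [mem_union, mem_filter] at hk ⊢
    by_cases g : Good I σ k
    exacts [.inl ⟨hk.1, h k g hk.2⟩, .inr ⟨hk.1, g⟩]
  have gap : ∀ c < 2 * I.n + 2, nz c ≤ one c + nB I := fun c hc =>
    sub _ _ fun k g h => (n10 H g hc).1.resolve_left h
  set b : ℕ → ℕ := fun c => min 22 (one c / (nB I + 1)) with hb
  set p : ℕ → ℕ → ℕ := fun k c =>
    if b c < 22 ∧ 3 ≤ σ (1, c, b c, k) then b c + 1 else b c with hp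
  have U : ∀ k, Good I σ k → Un I σ k (p k) := fun k g c hc => by
    refine ⟨by simp only [hp, hb]; split_ifs <;> omega, fun j hj => ?_⟩
    have h1 := top c hc j hj k g.1
    have h2 := gap c hc
    have h3 := Nat.div_mul_le_self (one c) (nB I + 1)
    have h4 := Nat.lt_div_mul_add (a := one c) (show 0 < nB I + 1 by omega)
    unfold bv
    rw [decide_eq_decide]
    rcases lt_trichotomy j (b c) with h | h | h
    · have h5 : j + 1 ≤ one c / (nB I + 1) := by simp only [hb] at h; omega
      have := h1.1 ((Nat.mul_le_mul_right _ h5).trans h3)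
      simp only [hp]; split_ifs <;> omega
    · simp only [hp, ← h]; split_ifs <;> omega
    · have h5 : one c / (nB I + 1) + 2 ≤ j + 1 := by simp only [hb] at h; omega
      have h6 := Nat.mul_le_mul_right (nB I + 1) h5
      have := h1.2 (by rw [add_mul] at h6; omega)
      simp only [hp]; split_ifs <;> omega
  have hne : ∃ k, Good I σ k := by
    by_contra h
    push Not at h
    rw [filter_true_of_mem fun k _ => h k, card_range] at hB
    omega
  have : Nonempty {k // Good I σ k} := ⟨⟨_, hne.choose_spec⟩⟩
  obtain ⟨k, hk⟩ := core hI (ι := {k // Good I σ k}) (fun k => p k.1) b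
    (fun k c hc => ⟨by simp only [hp]; split_ifs <;> omega, by simp only [hp]; split_ifs <;> omega,
      (U k.1 k.2 c hc).1⟩)
    (fun c hc s => by
      by_contra h
      push Not at h
      obtain ⟨k, g⟩ := hne
      have bd := lam_bd (I := I) (U k g 0 (by omega)).1 (U k g 1 (by omega)).1 c
      have hv : ∀ k, Good I σ k → bv σ (10, k, c, 0) = !s := fun k g => by
        rw [(n10 H g hc).2 _ (U k g) hI.2.1]
        exact Bool.eq_not_iff.2 (h ⟨k, g⟩)
      have hk := h ⟨k, g⟩
      have u := U k g c hc
      cases s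
      · have h1 := sub (fun _ => True) (fun i => 3 ≤ σ (10, i, c, 0))
          fun k g _ => by simpa [bv] using hv k g
        rw [filter_true, card_range] at h1
        have h2 := (top c hc 21 (by omega) k g.1).1 (by simp only [hone]; omega)
        have h3 := u.2 21 (by omega)
        simp only [bv, h2, decide_true, true_eq_decide_iff] at h3
        exact hk (bd.2 (by omega))
      · have h1 := sub (fun i => σ (10, i, c, 0) ≠ 0) (fun _ => False) fun k g h => by
          have := hv k g
          simp only [bv, Bool.not_true, decide_eq_false_iff_not] at this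
          exact (n10 H g hc).1.elim h this
        rw [filter_false, card_empty] at h1
        have h2 := (top c hc 0 (by omega) k g.1).2 (by simp only [hnz]; omega)
        have h3 := u.2 0 (by omega)
        simp [bv, h2] at h3
        exact hk (bd.1 h3))
  have e : ∀ s, s ≤ 2 + I.n → cand I σ k.1 s = reg I.n s (p k.1) := fun s hs =>
    List.map_congr_left fun i hi => by
      rw [List.mem_range] at hi
      exact (U k.1 k.2 (s + i) (by omega)).2 10 (by omega)
  exact ⟨k.1, k.2.1, by rw [e 2 (by omega), e _ le_rfl]; exact hk⟩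

end Vale.Agent.P330.Hard
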