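import Vale.Agent.P330.InstPT

/-! Choice of the first generators (task Init).
Plan. `k0 = β = 2 * 3 ^ l` with the least `l` such that `m ≤ 2 * 3 ^ l`; `g` = companion matrix of
`X ^ k0 + X ^ (k0 / 2) + 1` = cyclotomic `3 ^ (l+1)` over `ZMod 2` (multiplication by `X` on the basis
of powers), `gens 1 = g`, `gens 2 = g ^ (3 ^ (l+1) - 1)` or its explicit entries
(`g⁻¹ e_s = e_(s-1)`, `g⁻¹ e_0 = e_(k0-1) + e_(k0/2-1)`), all other generators `1`. Irreducibility:
`ZMod.irreducible_of_dvd_cyclotomic_of_natDegree` and the order of 2 modulo `3 ^ (l+1)` is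
`2 * 3 ^ l` (lifting the exponent, e.g. `ZMod.orderOf_one_add_mul_prime` for `4 = 1 + 3`). A nonzero
polynomial of degree `< k0` is coprime to the irreducible one, so `alpha` is a unit. With `b = 0` the
blocks are trivial: transport labels along the unique elements, all wiring maps act as before. -/

namespace Vale.Agent.P330.Amp

open Vale.Agent.Lib.H23 Vale.Agent.P333 Vale.Agent.P325 Finset Matrix
open scoped BigOperators

namespace InitA

theorem exists_root (l : ℕ) : ∃ ζ : AlgebraicClosure (ZMod 2), ζ ≠ 0 ∧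
    ζ ^ (2 * 3 ^ l) = 1 + ζ ^ 3 ^ l ∧
    LinearIndependent (ZMod 2) fun i : Fin (2 * 3 ^ l) => ζ ^ (i : ℕ) := by
  have hc : Nat.Coprime 2 (3 ^ (l + 1)) := Nat.Coprime.pow_right _ (by norm_num)
  have : NeZero ((3 ^ (l + 1) : ℕ) : AlgebraicClosure (ZMod 2)) := ⟨fun h => by
    rw [CharP.cast_eq_zero_iff _ 2] at h
    exact absurd (Nat.Coprime.eq_one_of_dvd hc h) (by norm_num)⟩
  obtain ⟨ζ, hζ⟩ := HasEnoughRootsOfUnity.exists_primitiveRoot (AlgebraicClosure (ZMod 2))
    (3 ^ (l + 1))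
  have hint : IsIntegral (ZMod 2) ζ := Algebra.IsIntegral.isIntegral ζ
  refine ⟨ζ, hζ.ne_zero (by positivity), ?_, ?_⟩
  · have h := (hζ.pow (by positivity) (pow_succ 3 l)).geom_sum_eq_zero (by norm_num)
    simp only [sum_range_succ, sum_range_zero, zero_add, pow_zero, pow_one] at h
    rw [mul_comm, pow_mul]
    exact (CharTwo.add_eq_zero.1 h).symm
  · have hd : minpoly (ZMod 2) ζ ∣ Polynomial.cyclotomic (3 ^ (l + 1)) (ZMod 2) := by
      apply minpoly.dvd
      rw [Polynomial.aeval_def, Polynomial.eval₂_eq_eval_map, Polynomial.map_cyclotomic]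
      exact hζ.isRoot_cyclotomic (by positivity)
    have hdeg := Polynomial.natDegree_of_dvd_cyclotomic_of_irreducible (p := 2) (f := 1)
      (by simp) hc hd (minpoly.irreducible hint)
    have h1 : (2 : ZMod (3 ^ (l + 1))) ^ (minpoly (ZMod 2) ζ).natDegree = 1 := by
      have := congrArg Units.val (pow_orderOf_eq_one (ZMod.unitOfCoprime _ (hc.pow_left 1)))
      rw [← hdeg] at this
      simpa using this
    have h2 : 3 ^ l ∣ (minpoly (ZMod 2) ζ).natDegree := by
      rw [← ZMod.orderOf_one_add_prime Nat.prime_three (by norm_num) l, orderOf_dvd_iff_pow_eq_one]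
      have e : (1 + (3 : ℕ) : ZMod (3 ^ (l + 1))) = 2 * 2 := by norm_num
      rw [e, mul_pow, h1, one_mul]
    have h3 : 2 ∣ (minpoly (ZMod 2) ζ).natDegree := by
      have := congrArg (ZMod.castHom (dvd_pow_self 3 (Nat.succ_ne_zero l)) (ZMod 3)) h1
      rw [map_pow, map_one, map_ofNat, show (2 : ZMod 3) = -1 from rfl,
        neg_one_pow_eq_one_iff_even (by decide)] at this
      exact this.two_dvd
    have h4 : 2 * 3 ^ l ≤ (minpoly (ZMod 2) ζ).natDegree :=
      Nat.le_of_dvd (minpoly.natDegree_pos hint)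
        (Nat.Coprime.mul_dvd_of_dvd_of_dvd (Nat.Coprime.pow_right _ (by norm_num)) h3 h2)
    exact (linearIndependent_pow (K := ZMod 2) ζ).comp (Fin.castLE h4) (Fin.castLE_injective h4)

/-- entries of the generators -/
def ent (ρ : Fin 7) (h i j : ℕ) : Bool :=
  if ρ = 1 then decide (i = j + 1) || (decide (j + 1 = 2 * h) && (decide (i = 0) || decide (i = h)))
  else if ρ = 2 then
    decide (i + 1 = j) || (decide (j = 0) && (decide (i + 1 = 2 * h) || decide (i + 1 = h)))
  else decide (i = j)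

/-- the generators -/
def gn (h : ℕ) : Fin 7 → Mat (2 * h) := fun ρ => Matrix.of fun i j => b2 (ent ρ h i j)

section lin

variable {K : Type} [Field K] [Algebra (ZMod 2) K] {n h : ℕ} (ζ : K)

/-- the element of the field with given coordinates -/
def io (v : Vec n) : K := ∑ i, v i • ζ ^ (i : ℕ)

theorem io_mulVec (A : Mat n) (z : K) (hA : ∀ j, ∑ i, A i j • ζ ^ (i : ℕ) = z * ζ ^ (j : ℕ))
    (v : Vec n) : io ζ (A *ᵥ v) = z * io ζ v := by
  simp only [io, mulVec, dotProduct, sum_smul, mul_sum]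
  rw [sum_comm]
  refine sum_congr rfl fun j _ => ?_
  rw [mul_smul_comm, ← hA, smul_sum]
  exact sum_congr rfl fun i _ => by rw [mul_comm, mul_smul]

theorem io_sum {ι : Type} (s : Finset ι) (v : ι → Vec n) :
    io ζ (∑ a ∈ s, v a) = ∑ a ∈ s, io ζ (v a) := by
  simp only [io, Finset.sum_apply, sum_smul]
  exact sum_comm

theorem io_inj (hl : LinearIndependent (ZMod 2) fun i : Fin n => ζ ^ (i : ℕ)) {v w : Vec n}
    (e : io ζ v = io ζ w) : v = w :=
  funext (Fintype.linearIndependent_iffₛ.1 hl v w e)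

theorem ofN_two_pow (s : Fin n) : ofN n (2 ^ (s : ℕ)) = Pi.single s 1 := by
  funext i
  rw [ofN, Nat.testBit_two_pow, Pi.single_apply]
  by_cases e : i = s
  · subst e; simp [b2]
  · simp [b2, e, Fin.val_inj, Ne.symm e]

theorem io_two_pow (s : Fin n) : io ζ (ofN n (2 ^ (s : ℕ))) = ζ ^ (s : ℕ) := by
  rw [ofN_two_pow, io, sum_eq_single s (fun i _ hi => by simp [hi]) (by simp)]
  simp

theorem col1 (h0 : 0 < h) (hζ : ζ ^ (2 * h) = 1 + ζ ^ h) (j : Fin (2 * h)) :
    ∑ i, gn h 1 i j • ζ ^ (i : ℕ) = ζ * ζ ^ (j : ℕ) := by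
  have hj := j.2
  rw [← pow_succ']
  simp only [gn, of_apply]
  rw [Fin.sum_univ_eq_sum_range (fun i => b2 (ent 1 h i j) • ζ ^ i)]
  by_cases c : (j : ℕ) + 1 = 2 * h
  · rw [sum_eq_add_of_mem 0 h (mem_range.2 (by omega)) (mem_range.2 (by omega)) h0.ne
      (fun i hi hi' => by
        have := mem_range.1 hi
        simp [ent, b2, hi'.1, hi'.2, show i ≠ j + 1 by omega]), c, hζ]
    simp [ent, b2, c]
  · rw [sum_eq_single_of_mem ((j : ℕ) + 1) (mem_range.2 (by omega))
      (fun i _ hi' => by simp [ent, b2, hi', c])]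
    simp [ent, b2]

theorem col2 (h0 : 0 < h) (hz : ζ ≠ 0) (hζ : ζ ^ (2 * h) = 1 + ζ ^ h) (j : Fin (2 * h)) :
    ∑ i, gn h 2 i j • ζ ^ (i : ℕ) = ζ⁻¹ * ζ ^ (j : ℕ) := by
  have hj := j.2
  simp only [gn, of_apply]
  rw [Fin.sum_univ_eq_sum_range (fun i => b2 (ent 2 h i j) • ζ ^ i), eq_inv_mul_iff_mul_eq₀ hz]
  by_cases c : (j : ℕ) = 0
  · rw [sum_eq_add_of_mem (2 * h - 1) (h - 1) (mem_range.2 (by omega)) (mem_range.2 (by omega))
      (by omega) (fun i hi hi' => by
        simp [ent, b2, c, show i + 1 ≠ 2 * h by omega, show i + 1 ≠ h by omega])]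
    have e1 : 2 * h - 1 + 1 = 2 * h := by omega
    have e2 : h - 1 + 1 = h := by omega
    have : CharP K 2 := charP_of_injective_algebraMap (algebraMap (ZMod 2) K).injective 2
    simp only [ent, b2, c, e1, e2]
    simp only [Fin.reduceEq, if_false, if_true, decide_true, Bool.true_or, Bool.or_true,
      Bool.and_self, one_smul, pow_zero]
    rw [mul_add, ← pow_succ', ← pow_succ', e1, e2, hζ, add_assoc, CharTwo.add_self_eq_zero,
      add_zero]
  · rw [sum_eq_single_of_mem ((j : ℕ) - 1) (mem_range.2 (by omega))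
      (fun i _ hi' => by simp [ent, b2, c, show i + 1 ≠ j by omega])]
    have e1 : (j : ℕ) - 1 + 1 = j := by omega
    simp only [ent, b2, e1]
    simp only [Fin.reduceEq, if_false, if_true, decide_true, Bool.true_or, one_smul]
    rw [← pow_succ', e1]

end lin

theorem good (l : ℕ) : GoodG (2 * 3 ^ l) (gn (3 ^ l)) := by
  obtain ⟨ζ, hz, hζ, hl⟩ := exists_root l
  have h0 : 0 < 3 ^ l := by positivity
  have m1 := io_mulVec ζ _ _ (col1 ζ h0 hζ)
  have m2 := io_mulVec ζ _ _ (col2 ζ h0 hz hζ)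
  have mp : ∀ s v, io ζ ((gn (3 ^ l) 1 ^ s) *ᵥ v) = ζ ^ s * io ζ v := by
    intro s v
    induction s with
    | zero => simp
    | succ s ih => rw [pow_succ', ← mulVec_mulVec, m1, ih, pow_succ', mul_assoc]
  have pw : ∀ s < 2 * 3 ^ l, (gn (3 ^ l) 1 ^ s) *ᵥ ofN _ 1 = ofN _ (2 ^ s) := by
    intro s hs
    apply io_inj ζ hl
    have e0 : io ζ (ofN (2 * 3 ^ l) 1) = ζ ^ 0 := io_two_pow ζ ⟨0, by omega⟩
    rw [mp, e0, pow_zero, mul_one]
    exact (io_two_pow ζ ⟨s, hs⟩).symm
  refine ⟨by omega, le_rfl, ?_, ?_, fun a ha ha' => ?_, pw, fun φ hφ => ?_⟩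
  · ext i j
    by_cases e : i = j <;> simp [gn, ent, b2, one_apply, e, Fin.val_inj]
  · refine ext_of_mulVec_single fun i => io_inj ζ hl ?_
    rw [← mulVec_mulVec, m1, m2, one_mulVec, mul_inv_cancel_left₀ hz]
  · have key : ∀ v, io ζ (alpha (gn (3 ^ l) 1) (2 * 3 ^ l) a *ᵥ v)
        = io ζ (ofN (2 * 3 ^ l) a) * io ζ v := by
      intro v
      rw [alpha, sum_mulVec, io_sum, io, sum_mul, Finset.sum_range]
      refine sum_congr rfl fun s _ => ?_
      rw [ofN]
      cases a.testBit s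
      · simp [b2, io]
      · simp [b2, mp]
    have hne : io ζ (ofN (2 * 3 ^ l) a) ≠ 0 := by
      intro e
      have e1 : ofN (2 * 3 ^ l) a = ofN _ 0 := io_inj ζ hl (by rw [e, ofN_zero]; simp [io])
      have e2 := congrArg toN e1
      rw [toN_ofN, toN_ofN, Nat.mod_eq_of_lt ha', Nat.zero_mod] at e2
      omega
    rw [← mulVec_injective_iff_isUnit]
    intro v w e
    apply io_inj ζ hl
    apply mul_left_cancel₀ hne
    rw [← key, ← key, e]
  · refine (Pi.basisFun (ZMod 2) _).ext fun s => ?_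
    have := hφ (List.replicate s 1)
    rw [List.map_replicate, List.prod_replicate, pw s s.2, ofN_two_pow] at this
    simpa using this

/-- half of the block size -/
def hh (u : List Unit) : ℕ := u.foldl (fun h _ => if u.length ≤ 2 * h then h else 3 * h) 1

theorem fold_inv (m : ℕ) (t : List Unit) : ∀ h n : ℕ,
    ((∃ l, h = 3 ^ l) ∧ 2 * h ≤ 3 * m + 2 ∧ (m ≤ 2 * h ∨ n < h)) →
    let r := t.foldl (fun h _ => if m ≤ 2 * h then h else 3 * h) h
    (∃ l, r = 3 ^ l) ∧ 2 * r ≤ 3 * m + 2 ∧ (m ≤ 2 * r ∨ n + t.length < r) := by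
  induction t with
  | nil => intro h n H; exact H
  | cons a t ih =>
    intro h n ⟨⟨l, hl⟩, h1, h2⟩
    rw [List.foldl_cons, List.length_cons, add_comm t.length, ← add_assoc]
    refine ih _ (n + 1) ?_
    split_ifs with c
    · exact ⟨⟨l, hl⟩, h1, Or.inl c⟩
    · exact ⟨⟨l + 1, by rw [hl, pow_succ']⟩, by omega, by omega⟩

theorem hh_spec (u : List Unit) :
    (∃ l, hh u = 3 ^ l) ∧ 2 * hh u ≤ 3 * u.length + 2 ∧ u.length ≤ 2 * hh u := by
  obtain ⟨h1, h2, h3⟩ := fold_inv u.length u 1 0 ⟨⟨0, rfl⟩, by omega, by omega⟩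
  refine ⟨h1, h2, ?_⟩
  change u.length ≤ 2 * hh u ∨ 0 + u.length < hh u at h3
  omega

open Polynomial in
theorem pt_hh : PT hh := by
  refine PT.foldl (f := fun (u : List Unit) (h : ℕ) (_ : Unit) =>
    if u.length ≤ 2 * h then h else 3 * h) (l := fun u => u) (i := fun _ => 1)
    (pt_ite (pt_decLe (by fun_prop) (by fun_prop)) (by fun_prop) (by fun_prop)) PT.id (PT.const 1)
    ⟨12 * X + 9, fun u k => ?_⟩
  obtain ⟨-, h2, -⟩ := fold_inv u.length (u.take k) 1 0 ⟨⟨0, rfl⟩, by omega, by omega⟩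
  have h3 := length_lt_sz u
  have h4 := sz_nat_le ((show _ ≤ 3 * u.length + 2 by omega).trans_lt
    (Nat.lt_two_pow_self (n := 3 * u.length + 2)) :
      (u.take k).foldl (fun h _ => if u.length ≤ 2 * h then h else 3 * h) 1 < _)
  simp only [eval_add, eval_mul, eval_X, eval_ofNat]
  omega

theorem pu_hh : PU fun u => 2 * hh u :=
  (((PU.const 3).mul (PU.len PT.id)).add (PU.const 2)).of_le ((PT.const 2).mul pt_hh)
    fun u => (hh_spec u).2.1

theorem pt_ent {X : Type} [Enc X] (ρ : Fin 7) {h i j : X → ℕ} (hh : PT h) (hi : PT i) (hj : PT j) :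
    PT fun x => ent ρ (h x) (i x) (j x) := by
  unfold ent
  split_ifs
  · exact (pt_decEq hi (by fun_prop)).or ((pt_decEq (by fun_prop) (by fun_prop)).and
      ((pt_decEq hi (by fun_prop)).or (pt_decEq hi hh)))
  · exact (pt_decEq (by fun_prop) hj).or ((pt_decEq hj (by fun_prop)).and
      ((pt_decEq (by fun_prop) (by fun_prop)).or (pt_decEq (by fun_prop) hh)))
  · exact pt_decEq hi hj

/-- the new instance -/
def newI (G : Inst 2) (u : List Unit) : Inst 2 where
  b := 0
  β := 2 * hh u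
  σ := G.σ
  τ := G.τ
  k0 := 2 * hh u
  gens := gn (hh u)
  op := G.nop
  win := G.win
  lab := fun t a => G.lab t (fun _ => 0, a.2)

theorem idx_eq {b β σ : ℕ} (hb : b = 0) (a : Addr b β σ) : idx a = toN a.2 := by
  have h := idx_lt a
  subst hb
  rw [zero_mul, add_zero] at h
  conv_rhs => rw [← unidx_idx a, toN_unidx_small, Nat.mod_eq_of_lt h]

theorem addr_ext {b β σ : ℕ} (hb : b = 0) {a a' : Addr b β σ} (h : a.2 = a'.2) : a = a' :=
  Prod.ext (funext fun i => absurd i.2 (by omega)) h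

theorem nA_eq (G : Inst 2) (hb : G.b = 0) (u : List Unit) : (newI G u).nA = G.nA := by
  simp [Inst.nA, newI, hb]

theorem viol_eq (G : Inst 2) (hb : G.b = 0) (u : List Unit) (s : Asg) :
    (newI G u).violA s = G.violA s := by
  have hv : ∀ t (a : (newI G u).A) (a' : G.A), a.2 = a'.2 → (newI G u).val s t a = G.val s t a' := by
    intro t a a' e
    rw [Inst.val, Inst.val, nA_eq G hb, idx_eq (b := (newI G u).b) rfl a, idx_eq hb a', e]
    rfl
  refine expect_congr rfl fun t _ => Fintype.expect_bijective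
    (fun a : (newI G u).A => ((fun _ => 0, a.2) : G.A))
    ⟨fun a a' e => addr_ext rfl (congrArg (fun z : G.A => z.2) e),
      fun a => ⟨(fun _ => 0, a.2), addr_ext hb rfl⟩⟩ _ _ fun a => ?_
  refine ind_congr (not_congr (iff_of_eq ?_))
  unfold Inst.sat
  rw [hv t a (fun _ => 0, a.2) rfl]
  congr 1
  funext i
  rw [hv _ _ (act G.gens (G.op t i) (fun _ => 0, a.2))
    (congrArg Prod.snd (act_nrm G.gens (G.op t i) (fun _ => 0, a.2)))]
  rfl

theorem pt_gt {X : Type} [Enc X] {u : X → List Unit} (hu : PT u) (ρ : Fin 7) :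
    PT fun x => (List.range (2 * hh (u x))).map fun i =>
      (List.range (2 * hh (u x))).map fun j => ent ρ (hh (u x)) i j := by
  have hk : PT fun x => List.range (2 * hh (u x)) := (pu_hh.comp hu).range
  have h1 : PT fun p : (X × ℕ) × ℕ => hh (u p.1.1) := pt_hh.comp (hu.comp PT.fst'.fst)
  have h2 : PT fun p : X × ℕ => (List.range (2 * hh (u p.1))).map
      fun j => ent ρ (hh (u p.1)) p.2 j :=
    PT.map (f := fun (p : X × ℕ) (j : ℕ) => ent ρ (hh (u p.1)) p.2 j)
      (pt_ent ρ h1 PT.fst'.snd PT.snd') (hk.comp PT.fst')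
  exact PT.map (f := fun x i => (List.range (2 * hh (u x))).map fun j => ent ρ (hh (u x)) i j) h2 hk

theorem gtab_eq (G : Inst 2) (u : List Unit) : (newI G u).gtab = (List.finRange 7).map fun ρ =>
    (List.range (2 * hh u)).map fun i => (List.range (2 * hh u)).map fun j => ent ρ (hh u) i j := by
  rw [Inst.gtab, List.ofFn_eq_map]
  refine List.map_congr_left fun ρ _ => List.ext_getElem (by simp [newI]) fun i _ _ => ?_
  rw [List.getElem_ofFn, List.getElem_map]
  refine List.ext_getElem (by simp [newI]) fun j _ _ => ?_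
  simp only [newI, gn, List.getElem_ofFn, List.getElem_map, List.getElem_range, of_apply]
  exact decide_b2 _

theorem pt_newI : PT fun x : {p : Inst 2 × List Unit // p.1.b = 0} => newI x.1.1 x.1.2 := by
  have hG : PT fun x : {p : Inst 2 × List Unit // p.1.b = 0} => x.1.1 := (pt_val PT.id).fst
  have hu : PT fun x : {p : Inst 2 × List Unit // p.1.b = 0} => x.1.2 := (pt_val PT.id).snd
  have hk := pu_hh.comp hu
  have h1 := pu_σ hG
  have h2 := pu_τ hG
  have h3 := pu_T hG
  refine pt_inst (PU.const 0) hk h1 h2 hk.pt ?_ h3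
    ((pu_nA hG).congr fun x => congrArg List.range (nA_eq _ x.2 _))
    (fun i => pt_nop (hG.comp (pt_val PT.id).fst) (pt_val PT.id).snd (fun p => p.2) i)
    (fun i => pt_win (hG.comp (pt_val PT.id).fst) (pt_val PT.id).snd (fun p => p.2) i) ?_
  · exact (pt_mapConst (List.finRange 7) fun ρ => pt_gt hu ρ).congr fun x => gtab_eq _ _
  · refine (pt_lab (hG.comp (pt_val PT.id).fst) (pt_val PT.id).snd.fst (pt_val PT.id).snd.snd
      (fun p => p.2.1) fun p => nA_eq _ p.1.1.2 p.1.1.1.2 ▸ p.2.2).congr fun p => ?_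
    exact congrArg (fun a => (⟨p.1.1.1.1.lab p.1.2.1 a⟩ : Code ((Fin 2 → Bool) → Bool)))
      (addr_ext p.1.1.2 rfl)

end InitA

open InitA in
theorem init : InitStmt := by
  refine ⟨fun x => newI x.1.1 x.1.2, fun x => ⟨?_, rfl, rfl, rfl, rfl, (hh_spec _).2.2,
    (hh_spec _).2.1⟩, pt_newI, fun p => p.2, PT.snd', fun x s => (viol_eq _ x.2 _ s).ge⟩
  obtain ⟨l, hl⟩ := (hh_spec x.1.2).1
  change GoodG (2 * hh x.1.2) (gn (hh x.1.2))
  rw [hl]
  exact good l

end Vale.Agent.P330.Amp
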