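import Vale.Agent.P330.Pure

/-!
Models and interfaces of the proof of the PCP theorem for PPAD (see notes/P330.md).
-/

namespace Vale.Agent.P330.Amp

open Vale.Agent.Lib.H23 Vale.Agent.P325 Finset Matrix
open scoped BigOperators

/-! ### encodings -/

instance encSub {α : Type} [Enc α] {p : α → Prop} : Enc {x // p x} := ⟨fun x => Enc.enc x.1⟩

/-! ### bits and values -/

abbrev Vec (n : ℕ) : Type := Fin n → ZMod 2

def b2 (b : Bool) : ZMod 2 := if b then 1 else 0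

def ofN (n a : ℕ) : Vec n := fun i => b2 (a.testBit i)

def toN {n : ℕ} (v : Vec n) : ℕ := Nat.ofBits fun i => decide (v i = 1)

/-- four values: pure false, low garbage, high garbage, pure true. -/
abbrev Val : Type := Fin 4

/-- the pure values. -/
def pv (β : Bool) : Val := if β then 3 else 0

/-- reading a value through the low (`false`) or high (`true`) window. -/
def rd (w : Bool) (v : Val) : Option Bool :=
  if w then (if v ≤ 1 then some false else if v = 2 then none else some true)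
  else (if v = 0 then some false else if v = 1 then none else some true)

/-- `r` resolves the readings `ρ`. -/
def Res {ι : Type} (ρ : ι → Option Bool) (r : ι → Bool) : Prop := ∀ i γ, ρ i = some γ → r i = γ

/-- hazard free semantics of a gate `f` with readings `ρ` and output `y`. -/
def HF {ι : Type} (ρ : ι → Option Bool) (f : (ι → Bool) → Bool) (y : Val) : Prop :=
  ∀ β, (∀ r, Res ρ r → f r = β) → y = pv β

/-! ### instances with affine wiring -/

/-- wiring maps: add `gens ρ` times block `l'` to block `l`; flip the first bit of block `l`;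
translate the small bits. -/
inductive Op
  | E (l l' : ℕ) (ρ : Fin 7)
  | N (l : ℕ)
  | Tr (v : ℕ)

def Op.data : Op → ℕ × ℕ × ℕ × ℕ
  | .E l l' ρ => (0, l, l', ρ)
  | .N l => (1, l, 0, 0)
  | .Tr v => (2, v, 0, 0)

instance encOp : Enc Op := ⟨fun o => Enc.enc o.data⟩

abbrev Mat (β : ℕ) : Type := Matrix (Fin β) (Fin β) (ZMod 2)

abbrev Big (b β : ℕ) : Type := Fin b → Vec β

abbrev Addr (b β σ : ℕ) : Type := Big b β × Vec σ

/-- block number `l` (zero outside the range). -/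
def blk {b β : ℕ} (x : Big b β) (l : ℕ) : Vec β := if h : l < b then x ⟨l, h⟩ else 0

/-- add `v` to block `l`. -/
def addBlk {b β : ℕ} (x : Big b β) (l : ℕ) (v : Vec β) : Big b β :=
  fun i => if i.val = l then x i + v else x i

/-- action of the wiring maps on the blocks. -/
def actB {b β : ℕ} (gens : Fin 7 → Mat β) : Op → Big b β → Big b β
  | .E l l' ρ, x => if l = l' then x else addBlk x l (gens ρ *ᵥ blk x l')
  | .N l, x => addBlk x l (ofN β 1)
  | .Tr _, x => x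

/-- action of the wiring maps on the small bits. -/
def actS {σ : ℕ} : Op → Vec σ → Vec σ
  | .Tr v, z => z + ofN σ v
  | _, z => z

def act {b β σ : ℕ} (gens : Fin 7 → Mat β) (o : Op) (a : Addr b β σ) : Addr b β σ :=
  (actB gens o a.1, actS o a.2)

/-- normal form of a wiring map (same action, small parameters). -/
def nrm (b σ : ℕ) : Op → Op
  | .E l l' ρ => if l < b ∧ l' < b then .E l l' ρ else .Tr 0
  | .N l => if l < b then .N l else .Tr 0
  | .Tr v => .Tr (v % 2 ^ σ)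

/-- bit number `j` of an address: first the small bits, then the blocks. -/
def bitA {b β σ : ℕ} (a : Addr b β σ) (j : ℕ) : Bool :=
  if h : j < σ then decide (a.2 ⟨j, h⟩ = 1) else (toN (blk a.1 ((j - σ) / β))).testBit ((j - σ) % β)

def idx {b β σ : ℕ} (a : Addr b β σ) : ℕ := Nat.ofBits fun j : Fin (σ + b * β) => bitA a j

def unidx (b β σ n : ℕ) : Addr b β σ :=
  (fun l i => b2 (n.testBit (σ + l * β + i)), ofN σ n)

/-- An instance of fan-in `W`: the node `(t, a)`, `t < 2 ^ τ`, reads the nodes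
`(t - 1, act (op t i) a)` (time is cyclic) through the windows `win t i` and applies `lab t a`. -/
structure Inst (W : ℕ) where
  b : ℕ
  β : ℕ
  σ : ℕ
  τ : ℕ
  k0 : ℕ
  gens : Fin 7 → Mat β
  op : ℕ → Fin W → Op
  win : ℕ → Fin W → Bool
  lab : ℕ → Addr b β σ → (Fin W → Bool) → Bool

/-- assignments as data. -/
abbrev Asg : Type := List ℕ

namespace Inst

variable {W : ℕ} (G : Inst W)

abbrev A : Type := Addr G.b G.β G.σ

/-- number of addresses. -/
def nA : ℕ := 2 ^ (G.σ + G.b * G.β)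

def prev (t : ℕ) : ℕ := (t + 2 ^ G.τ - 1) % 2 ^ G.τ

def sat (x : ℕ → G.A → Val) (t : ℕ) (a : G.A) : Prop :=
  HF (fun i => rd (G.win t i) (x (G.prev t) (act G.gens (G.op t i) a))) (G.lab t a) (x t a)

/-- fraction of violated nodes. -/
noncomputable def viol (x : ℕ → G.A → Val) : ℝ :=
  𝔼 t : Fin (2 ^ G.τ), 𝔼 a : G.A, ind (¬ G.sat x t a)

/-- the assignment described by a list. -/
def val (s : Asg) (t : ℕ) (a : G.A) : Val := Fin.ofNat 4 (s.getD (t * G.nA + idx a) 0)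

/-- the list describing an assignment. -/
def mkAsg (x : ℕ → G.A → Val) : Asg :=
  (List.range (2 ^ G.τ * G.nA)).map fun n => (x (n / G.nA) (unidx _ _ _ (n % G.nA))).val

noncomputable def violA (s : Asg) : ℝ := G.viol (G.val s)

/-- the wiring in normal form (only this is stored in the code of an instance). -/
def nop (t : ℕ) (i : Fin W) : Op := nrm G.b G.σ (G.op t i)

/-- table of the generators. -/
def gtab : List (List (List Bool)) :=
  List.ofFn fun ρ => List.ofFn fun i => List.ofFn fun j => decide (G.gens ρ i j = 1)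

/-- the instance as data. -/
noncomputable def tab : (List ℕ × List ℕ × List ℕ × List ℕ × ℕ) × List (List (List Bool)) ×
    List ((Fin W → Op) × (Fin W → Bool)) × List (Code ((Fin W → Bool) → Bool)) :=
  ((List.range G.b, List.range G.β, List.range G.σ, List.range G.τ, G.k0), G.gtab,
    (List.range (2 ^ G.τ)).map fun t => (G.nop t, G.win t),
    (List.range (2 ^ G.τ * G.nA)).map fun n => ⟨G.lab (n / G.nA) (unidx _ _ _ (n % G.nA))⟩)

end Inst

noncomputable instance encInst {W : ℕ} : Enc (Inst W) := ⟨fun G => Enc.enc G.tab⟩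

/-- the ring elements given by the bits of `a`. -/
def alpha {β : ℕ} (g : Mat β) (m a : ℕ) : Mat β :=
  ∑ s ∈ range m, if a.testBit s then g ^ s else 0

/-- the words in the generators span the block from the first basis vector. -/
def Spans {β : ℕ} (gens : Fin 7 → Mat β) : Prop :=
  ∀ φ : Vec β →ₗ[ZMod 2] ZMod 2,
    (∀ w : List (Fin 7), φ ((w.map gens).prod *ᵥ ofN β 1) = 0) → φ = 0

structure GoodG {β : ℕ} (k0 : ℕ) (gens : Fin 7 → Mat β) : Prop where
  one_le : 1 ≤ k0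
  le : k0 ≤ β
  g0 : gens 0 = 1
  g12 : gens 1 * gens 2 = 1
  unit : ∀ a, 0 < a → a < 2 ^ k0 → IsUnit (alpha (gens 1) k0 a)
  pw : ∀ s < k0, (gens 1 ^ s) *ᵥ ofN β 1 = ofN β (2 ^ s)
  spans : Spans gens

def Inst.Good {W : ℕ} (G : Inst W) : Prop := GoodG G.k0 G.gens

/-- `R` is a polynomial time reduction with a polynomial time decoder; `Φ x v' v` relates the
violation `v'` of an assignment of `R x` and the violation `v` of the decoded assignment. -/
def Red {X : Type} [Enc X] {W W' : ℕ} (src : X → Inst W) (R : X → Inst W')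
    (Φ : X → ℝ → ℝ → Prop) : Prop :=
  PT R ∧ ∃ D : X × Asg → Asg, PT D ∧
    ∀ x s, Φ x ((R x).violA s) ((src x).violA (D (x, s)))

/-! ### the two ends -/

/-- Pure circuits as instances without blocks. -/
def SeqStmt : Prop :=
  ∃ (R : PC → Inst 3) (D : PC × Asg → List ℕ), PT R ∧ PT D ∧ ∀ C : PC, (R C).b = 0 ∧
    (C.WF → ∀ s, (R C).violA s = 0 → ∀ z < C.length, C.OkAt (D (C, s)) z)

/-- Instances as pure circuits. -/
def OutStmt : Prop :=
  ∃ (c : ℕ) (R : Inst 2 → PC) (D : Inst 2 × List ℕ → Asg), PT R ∧ PT D ∧ ∀ G, (R G).WF ∧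
    ∀ x, G.violA (D (G, x)) * (R G).length ≤ c * (R G).bad x

/-! ### transformations of instances -/

/-- Reduction of the fan-in. -/
def CompileStmt : Prop :=
  ∀ W : ℕ, ∃ (C : ℕ) (R : Inst W → Inst 2), (∀ G, (R G).b = G.b ∧ (R G).β = G.β ∧
      (R G).k0 = G.k0 ∧ (R G).σ ≤ G.σ + C ∧ 2 ^ (R G).τ ≤ C * 2 ^ G.τ ∧ (G.Good → (R G).Good)) ∧
    Red id R fun _ v' v => v ≤ C * v'

/-- Choice of the block size and the first generators. -/
def InitStmt : Prop :=
  ∃ R : {p : Inst 2 × List Unit // p.1.b = 0} → Inst 2, (∀ x, (R x).Good ∧ (R x).b = 0 ∧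
      (R x).σ = x.1.1.σ ∧ (R x).τ = x.1.1.τ ∧ (R x).β = (R x).k0 ∧ x.1.2.length ≤ (R x).k0 ∧
      (R x).k0 ≤ 3 * x.1.2.length + 2) ∧
    Red (fun x => x.1.1) R fun _ v' v => v ≤ v'

abbrev AbsIn : Type :=
  {p : Inst 2 × List Unit // p.1.Good ∧ 2 ^ ((p.1.σ / p.1.k0 + 1) * p.1.β) ≤ p.2.length}

/-- The small bits are moved into new blocks. -/
def AbsorbStmt : Prop :=
  ∃ (C : ℕ) (R : AbsIn → Inst 2), (∀ x, (R x).Good ∧ (R x).σ = 0 ∧ (R x).β = x.1.1.β ∧
      (R x).k0 = x.1.1.k0 ∧ x.1.1.b + 1 ≤ (R x).b ∧ (R x).b ≤ x.1.1.b + x.1.1.σ / x.1.1.k0 + C ∧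
      2 ^ (R x).τ ≤ C * (x.1.1.σ + 1) ^ 2 * 2 ^ x.1.1.τ) ∧
    Red (fun x => x.1.1) R fun x v' v => v ≤ C * (x.1.1.σ + 1) ^ 2 * v'

abbrev MrgIn : Type := {G : Inst 2 // G.Good ∧ G.σ = 0 ∧ 1 ≤ G.b}

/-- Four blocks are merged into one. -/
def MergeStmt : Prop :=
  ∃ (C : ℕ) (R : MrgIn → Inst 2), (∀ x, (R x).Good ∧ (R x).σ = 0 ∧ (R x).β = 4 * x.1.β ∧
      (R x).k0 = x.1.k0 ∧ x.1.b ≤ 4 * (R x).b ∧ (R x).b ≤ x.1.b / 4 + C ∧
      2 ^ (R x).τ ≤ C * 2 ^ x.1.τ) ∧
    Red (fun x => x.1) R fun _ v' v => v ≤ C * v'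

abbrev RIn (C : ℕ) : Type :=
  {p : Inst 2 × ℕ // p.1.Good ∧ p.1.σ = 0 ∧ 1 ≤ p.1.b ∧ 1 ≤ p.2 ∧ C * p.2 ≤ p.1.k0}

/-- the loss of a round. -/
def rLoss (A C b τ c : ℕ) : ℝ := C * (b + τ + c) ^ C * 2 ^ (A * c)

/-- One round of gap amplification. -/
def RoundStmt : Prop :=
  ∃ (W A C : ℕ) (R : RIn C → Inst W), 1 ≤ A ∧ (∀ x, (R x).Good ∧ (R x).b = x.1.1.b + 2 ∧
      (R x).β = x.1.1.β ∧ (R x).k0 = x.1.1.k0 ∧ (R x).σ ≤ x.1.1.τ + C * x.1.2 ∧
      2 ^ (R x).τ ≤ C * (x.1.1.b + x.1.1.τ + x.1.2) ^ C) ∧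
    Red (fun x => x.1.1) R fun x v' v =>
      v' * 2 ^ x.1.1.τ * rLoss A C x.1.1.b x.1.1.τ x.1.2 ≤ 1 →
        v ≤ v' * rLoss A C x.1.1.b x.1.1.τ x.1.2 * x.1.1.b / 2 ^ (100 * A * x.1.2)

/-- Constant gap by iteration. -/
def IterStmt : Prop :=
  ∃ (γ : ℝ) (R : {G : Inst 2 // G.b = 0} → Inst 2), 0 < γ ∧
    Red (fun x => x.1) R fun _ v' v => v' ≤ γ → v = 0

/-! ### expander and units -/

/-- the 32 wiring maps of the lazy walk on the blocks `l`, `l + 1`. -/
def stepOp (l i : ℕ) : Op :=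
  if h : i < 7 then .E l (l + 1) ⟨i, h⟩ else if h' : i < 14 then .E (l + 1) l ⟨i - 7, by omega⟩
  else if i = 14 then .N l else if i = 15 then .N (l + 1) else .Tr 0

/-- a walk on pairs of blocks. -/
def walk {β : ℕ} (gens : Fin 7 → Mat β) (w : List ℕ) (x : Big 2 β) : Big 2 β :=
  w.foldr (fun i y => actB gens (stepOp 0 i) y) x

/-- Sampling along walks of constant length. -/
def ExpStmt : Prop :=
  ∃ ck : ℕ, 1 ≤ ck ∧ ∀ (β : ℕ) (gens : Fin 7 → Mat β), gens 0 = 1 → Spans gens →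
    ∀ f : Big 2 β → ℝ, (∀ x, 0 ≤ f x ∧ f x ≤ 1) →
      (𝔼 x, ind (1 / 100 ≤ |(𝔼 K : Fin ck → Fin 32, f (walk gens (List.ofFn fun i => (K i : ℕ)) x))
        - 𝔼 y, f y|)) ≤ 1 / 1000

/-- direction of the unit number `a` in the class `j`. -/
def Lv {β : ℕ} (b : ℕ) (g : Mat β) (m a : ℕ) (j : Vec β) : Big b β :=
  fun l => (alpha g m a ^ (l.val + 1)) *ᵥ j

/-- The incidence of nodes and units is a sampler. -/
def UnitStmt : Prop :=
  ∀ (b β m : ℕ) (g : Mat β), (∀ a, 0 < a → a < 2 ^ m → IsUnit (alpha g m a)) →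
    ∀ φ : Big b β → Vec β → ℝ, (∀ x j, 0 ≤ φ x j ∧ φ x j ≤ 1) → ∀ s : ℝ, 0 < s →
      (𝔼 x, 𝔼 j, φ x j) ≤ s / 2 →
      (𝔼 y, ind (s ≤ 𝔼 j, 𝔼 a : Fin (2 ^ m), φ (y + Lv b g m a j) j))
        ≤ 4 * (b / 2 ^ m) * (𝔼 x, 𝔼 j, φ x j) / s ^ 2

end Vale.Agent.P330.Amp
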