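import Vale.Agent.P330.Inst

/-! Basic lemmas on bits, addresses and assignments (task IB; add whatever is useful, never change
a statement). -/

namespace Vale.Agent.P330.Amp

open Vale.Agent.Lib.H23 Vale.Agent.P325 Finset Matrix
open scoped BigOperators

variable {b β σ n W : ℕ}

theorem b2_eq_one {x : Bool} : b2 x = 1 ↔ x = true := by cases x <;> simp [b2]

theorem b2_decide (y : ZMod 2) : b2 (decide (y = 1)) = y := by revert y; decide

theorem b2_xor (x y : Bool) : b2 (xor x y) = b2 x + b2 y := by cases x <;> cases y <;> decide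

theorem decide_b2 (x : Bool) : decide (b2 x = 1) = x := by cases x <;> decide

theorem vec_add_self (v : Vec n) : v + v = 0 := by
  funext i
  exact CharTwo.add_self_eq_zero (v i)

theorem toN_lt (v : Vec n) : toN v < 2 ^ n := Nat.ofBits_lt_two_pow _

theorem testBit_toN (v : Vec n) (i : Fin n) : (toN v).testBit i = decide (v i = 1) :=
  Nat.testBit_ofBits_lt _ _ i.2

theorem ofN_toN (v : Vec n) : ofN n (toN v) = v := by
  funext i
  rw [ofN, testBit_toN, b2_decide]

theorem toN_ofN (n a : ℕ) : toN (ofN n a) = a % 2 ^ n := by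
  rw [← Nat.ofBits_testBit]
  exact congrArg Nat.ofBits (funext fun i => decide_b2 _)

theorem ofN_xor (n a c : ℕ) : ofN n (a ^^^ c) = ofN n a + ofN n c := by
  funext i
  simp only [ofN, Pi.add_apply, Nat.testBit_xor, b2_xor]

theorem toN_add (v w : Vec n) : toN (v + w) = toN v ^^^ toN w := by
  conv_lhs => rw [← ofN_toN v, ← ofN_toN w, ← ofN_xor]
  rw [toN_ofN, Nat.mod_eq_of_lt (Nat.xor_lt_two_pow (toN_lt v) (toN_lt w))]

theorem ofN_zero (n : ℕ) : ofN n 0 = 0 := by
  funext i
  simp [ofN, b2]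

theorem ofN_mod (n a : ℕ) : ofN n (a % 2 ^ n) = ofN n a := by
  rw [← toN_ofN, ofN_toN]

/-- bit vectors and numbers. -/
def vecEquiv (n : ℕ) : Vec n ≃ Fin (2 ^ n) where
  toFun v := ⟨toN v, toN_lt v⟩
  invFun a := ofN n a
  left_inv v := ofN_toN v
  right_inv a := Fin.ext ((toN_ofN n a).trans (Nat.mod_eq_of_lt a.2))

/-- averages over bit vectors are averages over numbers. -/
theorem expect_vec (f : Vec n → ℝ) : (𝔼 v, f v) = 𝔼 a : Fin (2 ^ n), f (ofN n a) :=
  Fintype.expect_equiv (vecEquiv n) _ _ fun v => by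
    rw [show ofN n (vecEquiv n v) = v from ofN_toN v]

theorem idx_lt (a : Addr b β σ) : idx a < 2 ^ (σ + b * β) := Nat.ofBits_lt_two_pow _

theorem testBit_idx (a : Addr b β σ) {j : ℕ} (h : j < σ + b * β) : (idx a).testBit j = bitA a j :=
  Nat.testBit_ofBits_lt _ _ h

theorem blk_of_lt (x : Big b β) {l : ℕ} (h : l < b) : blk x l = x ⟨l, h⟩ := dif_pos h

theorem blk_of_ge (x : Big b β) {l : ℕ} (h : b ≤ l) : blk x l = 0 := dif_neg (not_lt.2 h)

theorem blk_coe (x : Big b β) (l : Fin b) : blk x l = x l := dif_pos l.2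

theorem unidx_idx (a : Addr b β σ) : unidx b β σ (idx a) = a := by
  refine Prod.ext (funext fun l => funext fun i => ?_) (funext fun i => ?_)
  · have hl := l.2
    have hi := i.2
    have h1 : σ + l * β + i < σ + b * β := by
      have := Nat.mul_le_mul_right β (Nat.succ_le_of_lt hl)
      rw [Nat.succ_mul] at this
      omega
    have h2 : σ + l * β + i - σ = i + β * l := by rw [mul_comm β]; omega
    change b2 ((idx a).testBit (σ + l * β + i)) = a.1 l i
    rw [testBit_idx a h1, bitA, dif_neg (by omega), h2, Nat.add_mul_div_left _ _ (by omega),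
      Nat.add_mul_mod_self_left, Nat.div_eq_of_lt hi, Nat.mod_eq_of_lt hi, zero_add, blk_coe,
      testBit_toN, b2_decide]
  · have hi := i.2
    change b2 ((idx a).testBit i) = a.2 i
    rw [testBit_idx a (by omega), bitA, dif_pos hi, b2_decide]

theorem idx_unidx {m : ℕ} (h : m < 2 ^ (σ + b * β)) : idx (unidx b β σ m) = m := by
  rw [← Nat.mod_eq_of_lt h, ← Nat.ofBits_testBit, Nat.ofBits_testBit, Nat.mod_eq_of_lt h]
  conv_rhs => rw [← Nat.mod_eq_of_lt h, ← Nat.ofBits_testBit]
  refine congrArg Nat.ofBits (funext fun j => ?_)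
  have hj := j.2
  by_cases c : (j : ℕ) < σ
  · rw [bitA, dif_pos c]
    exact decide_b2 _
  · have h1 : (j : ℕ) - σ < b * β := by omega
    have hβ : 0 < β := Nat.pos_of_ne_zero fun z => by simp [z] at h1
    have h2 : ((j : ℕ) - σ) / β < b := (Nat.div_lt_iff_lt_mul hβ).2 h1
    have h3 : ((j : ℕ) - σ) % β < β := Nat.mod_lt _ hβ
    rw [bitA, dif_neg c, blk_of_lt _ h2, testBit_toN _ ⟨_, h3⟩]
    refine (decide_b2 _).trans ?_
    have h4 := Nat.div_add_mod' ((j : ℕ) - σ) β
    exact congrArg m.testBit (by simp only []; omega)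

theorem toN_unidx_small (m : ℕ) : toN (unidx b β σ m).2 = m % 2 ^ σ := toN_ofN σ m

theorem toN_unidx_blk (m l : ℕ) (h : l < b) :
    toN (blk (unidx b β σ m).1 l) = m / 2 ^ (σ + l * β) % 2 ^ β := by
  rw [← toN_ofN, blk_of_lt _ h]
  refine congrArg toN (funext fun i => ?_)
  simp only [unidx, ofN, Nat.testBit_div_two_pow, add_comm]

/-- addresses and numbers. -/
def addrEquiv (b β σ : ℕ) : Addr b β σ ≃ Fin (2 ^ (σ + b * β)) where
  toFun a := ⟨idx a, idx_lt a⟩
  invFun m := unidx b β σ m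
  left_inv a := unidx_idx a
  right_inv m := Fin.ext (idx_unidx m.2)

theorem expect_addr (f : Addr b β σ → ℝ) :
    (𝔼 a, f a) = 𝔼 m : Fin (2 ^ (σ + b * β)), f (unidx b β σ m) :=
  Fintype.expect_equiv (addrEquiv b β σ) _ _ fun a => by
    rw [show unidx b β σ (addrEquiv b β σ a) = a from unidx_idx a]

theorem addBlk_addBlk (x : Big b β) (l : ℕ) (v : Vec β) : addBlk (addBlk x l v) l v = x := by
  funext i
  unfold addBlk
  split_ifs
  · rw [add_assoc, vec_add_self, add_zero]
  · rfl

theorem blk_addBlk_ne (x : Big b β) {l l' : ℕ} (h : l ≠ l') (v : Vec β) :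
    blk (addBlk x l v) l' = blk x l' := by
  unfold blk
  split_ifs
  · exact if_neg h.symm
  · rfl

theorem addBlk_zero (x : Big b β) (l : ℕ) : addBlk x l 0 = x := by
  funext i
  simp [addBlk]

theorem addBlk_of_ge (x : Big b β) {l : ℕ} (h : b ≤ l) (v : Vec β) : addBlk x l v = x := by
  funext i
  exact if_neg (by have := i.2; omega)

theorem actB_actB (g : Fin 7 → Mat β) (o : Op) (x : Big b β) : actB g o (actB g o x) = x := by
  cases o with
  | E l l' ρ =>
    by_cases h : l = l'
    · simp only [actB, if_pos h]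
    · simp only [actB, if_neg h, blk_addBlk_ne _ h, addBlk_addBlk]
  | N l => exact addBlk_addBlk _ _ _
  | Tr v => rfl

theorem act_act (g : Fin 7 → Mat β) (o : Op) (a : Addr b β σ) : act g o (act g o a) = a := by
  refine Prod.ext (actB_actB g o a.1) ?_
  cases o with
  | E l l' ρ => rfl
  | N l => rfl
  | Tr v =>
    change a.2 + ofN σ v + ofN σ v = a.2
    rw [add_assoc, vec_add_self, add_zero]

theorem act_zero (g : Fin 7 → Mat β) (a : Addr b β σ) : act g (.Tr 0) a = a := by
  refine Prod.ext rfl ?_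
  change a.2 + ofN σ 0 = a.2
  rw [ofN_zero, add_zero]

theorem act_nrm (g : Fin 7 → Mat β) (o : Op) (a : Addr b β σ) : act g (nrm b σ o) a = act g o a := by
  cases o with
  | E l l' ρ =>
    simp only [nrm]
    split_ifs with h
    · rfl
    · rw [act_zero]
      refine Prod.ext ?_ rfl
      change a.1 = if l = l' then a.1 else addBlk a.1 l (g ρ *ᵥ blk a.1 l')
      split_ifs
      · rfl
      · by_cases c : l < b
        · rw [blk_of_ge _ (by omega), mulVec_zero, addBlk_zero]
        · rw [addBlk_of_ge _ (by omega)]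
  | N l =>
    simp only [nrm]
    split_ifs with h
    · rfl
    · rw [act_zero]
      exact Prod.ext (addBlk_of_ge _ (by omega) _).symm rfl
  | Tr v =>
    refine Prod.ext rfl ?_
    change a.2 + ofN σ (v % 2 ^ σ) = a.2 + ofN σ v
    rw [ofN_mod]

theorem expect_act (g : Fin 7 → Mat β) (o : Op) (f : Addr b β σ → ℝ) :
    (𝔼 a, f (act g o a)) = 𝔼 a, f a :=
  Fintype.expect_bijective _ (Function.Involutive.bijective (act_act g o)) _ _ fun _ => rfl

theorem rd_pv (w γ : Bool) : rd w (pv γ) = some γ := by cases w <;> cases γ <;> decide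

theorem pv_inj {x y : Bool} : pv x = pv y ↔ x = y := by cases x <;> cases y <;> decide

theorem ib_countP (p : ℕ → Prop) [DecidablePred p] (n : ℕ) :
    (((List.range n).countP fun m => decide (p m) : ℕ) : ℝ) = ∑ m ∈ range n, ind (p m) := by
  induction n with
  | zero => simp
  | succ n ih =>
    rw [List.range_succ, List.countP_append, Nat.cast_add, ih, sum_range_succ]
    by_cases h : p n <;> simp [ind, h]

theorem ib_expect2 (T N : ℕ) (F : ℕ → ℕ → ℝ) : (𝔼 t : Fin T, 𝔼 m : Fin N, F t m) =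
    (∑ m ∈ range (T * N), F (m / N) (m % N)) / (T * N : ℕ) := by
  rw [← expect_product' univ univ fun (t : Fin T) (m : Fin N) => F t m, univ_product_univ,
    expect_eq_sum_div_card, card_univ, Fintype.card_prod, Fintype.card_fin, Fintype.card_fin,
    sum_range]
  congr 1
  exact (Fintype.sum_equiv finProdFinEquiv.symm _ _ fun _ => rfl).symm

namespace Inst

variable (G : Inst W)

theorem prev_lt (t : ℕ) : G.prev t < 2 ^ G.τ := Nat.mod_lt _ (Nat.two_pow_pos _)

theorem prev_succ {t : ℕ} (h : t + 1 < 2 ^ G.τ) : G.prev (t + 1) = t := by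
  rw [prev, show t + 1 + 2 ^ G.τ - 1 = t + 2 ^ G.τ by omega, Nat.add_mod_right,
    Nat.mod_eq_of_lt (by omega)]

theorem prev_zero : G.prev 0 = 2 ^ G.τ - 1 := by
  have := Nat.two_pow_pos G.τ
  rw [prev, zero_add, Nat.mod_eq_of_lt (by omega)]

theorem nA_pos : 0 < G.nA := Nat.two_pow_pos _

theorem idx_lt_nA (a : G.A) : idx a < G.nA := idx_lt a

theorem val_mkAsg (x : ℕ → G.A → Val) {t : ℕ} (h : t < 2 ^ G.τ) (a : G.A) :
    G.val (G.mkAsg x) t a = x t a := by
  have h1 := G.idx_lt_nA a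
  have h2 : t * G.nA + idx a < 2 ^ G.τ * G.nA := by
    have := Nat.mul_le_mul_right G.nA (Nat.succ_le_of_lt h)
    rw [Nat.succ_mul] at this
    omega
  have h3 : (t * G.nA + idx a) / G.nA = t := by
    rw [add_comm, Nat.add_mul_div_right _ _ G.nA_pos, Nat.div_eq_of_lt h1, zero_add]
  have h4 : (t * G.nA + idx a) % G.nA = idx a := by
    rw [add_comm, Nat.add_mul_mod_self_right, Nat.mod_eq_of_lt h1]
  rw [val, mkAsg, List.getD_eq_getElem _ _ (by simpa using h2), List.getElem_map,
    List.getElem_range, h3, h4, unidx_idx]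
  exact Fin.ext (Nat.mod_eq_of_lt (x t a).2)

theorem sat_congr {x y : ℕ → G.A → Val} (h : ∀ t < 2 ^ G.τ, ∀ a, x t a = y t a) {t : ℕ}
    (ht : t < 2 ^ G.τ) (a : G.A) : G.sat x t a ↔ G.sat y t a := by
  simp only [sat, h t ht, h _ (G.prev_lt t)]

theorem viol_congr {x y : ℕ → G.A → Val} (h : ∀ t < 2 ^ G.τ, ∀ a, x t a = y t a) :
    G.viol x = G.viol y :=
  expect_congr rfl fun t _ => expect_congr rfl fun a _ => by rw [G.sat_congr h t.2]

theorem violA_mkAsg (x : ℕ → G.A → Val) : G.violA (G.mkAsg x) = G.viol x :=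
  G.viol_congr fun _ h a => G.val_mkAsg x h a

theorem viol_nonneg (x : ℕ → G.A → Val) : 0 ≤ G.viol x :=
  expect_nonneg fun _ _ => expect_nonneg fun _ _ => ind_nonneg _

theorem viol_le_one (x : ℕ → G.A → Val) : G.viol x ≤ 1 :=
  expect_le univ_nonempty fun _ _ => expect_le univ_nonempty fun _ _ => ind_le_one _

theorem viol_eq_zero {x : ℕ → G.A → Val} :
    G.viol x = 0 ↔ ∀ t < 2 ^ G.τ, ∀ a, G.sat x t a := by
  rw [viol, expect_eq_zero_iff_of_nonneg fun _ _ => expect_nonneg fun _ _ => ind_nonneg _]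
  constructor
  · intro h t ht a
    have := (expect_eq_zero_iff_of_nonneg fun _ _ => ind_nonneg _).1 (h ⟨t, ht⟩ (mem_univ _)) a
      (mem_univ _)
    by_contra c
    rw [ind, if_pos c] at this
    exact one_ne_zero this
  · intro h t _
    exact expect_eq_zero fun a _ => if_neg (not_not.2 (h t t.2 a))

theorem viol_eq_sum (x : ℕ → G.A → Val) : G.viol x =
    (∑ m ∈ range (2 ^ G.τ * G.nA), ind (¬ G.sat x (m / G.nA) (unidx _ _ _ (m % G.nA)))) /
      (2 ^ G.τ * G.nA : ℕ) := by
  rw [viol]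
  simp only [expect_addr]
  exact ib_expect2 (2 ^ G.τ) G.nA fun t m => ind (¬ G.sat x t (unidx _ _ _ m))

/-- a violation below one node is no violation. -/
theorem viol_eq_zero_of_lt {x : ℕ → G.A → Val} (h : G.viol x * (2 ^ G.τ * G.nA : ℕ) < 1) :
    G.viol x = 0 := by
  have hT : (0 : ℝ) < (2 ^ G.τ * G.nA : ℕ) :=
    Nat.cast_pos.2 (Nat.mul_pos (Nat.two_pow_pos _) G.nA_pos)
  rw [viol_eq_sum] at h ⊢
  rw [div_mul_cancel₀ _ hT.ne'] at h
  rw [sum_eq_zero, zero_div]
  intro m hm
  refine ind_of_not fun c => absurd h (not_lt.2 ?_)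
  have := single_le_sum (f := fun m => ind (¬ G.sat x (m / G.nA) (unidx _ _ _ (m % G.nA))))
    (fun _ _ => ind_nonneg _) hm
  rwa [ind_of c] at this

/-- the addresses that are violated at some time. -/
theorem expect_flt (x : ℕ → G.A → Val) :
    (𝔼 a : G.A, ind (∃ t < 2 ^ G.τ, ¬ G.sat x t a)) ≤ 2 ^ G.τ * G.viol x := by
  have hT : (0 : ℝ) < 2 ^ G.τ := by positivity
  rw [viol, expect_eq_sum_div_card (s := (univ : Finset (Fin (2 ^ G.τ)))), card_univ,
    Fintype.card_fin, Nat.cast_pow, Nat.cast_ofNat, mul_div_cancel₀ _ hT.ne', ← expect_sum_comm]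
  refine expect_le_expect fun a _ => ?_
  by_cases c : ∃ t < 2 ^ G.τ, ¬ G.sat x t a
  · obtain ⟨t, ht, c'⟩ := c
    refine (ind_le_one _).trans ?_
    have := single_le_sum (f := fun t : Fin (2 ^ G.τ) => ind (¬ G.sat x t a))
      (fun _ _ => ind_nonneg _) (mem_univ ⟨t, ht⟩)
    rwa [ind, if_pos c'] at this
  · rw [ind, if_neg c]
    exact sum_nonneg fun _ _ => ind_nonneg _

open Classical in
/-- the number of violated nodes. -/
noncomputable def cnt (s : Asg) : ℕ :=
  (List.range (2 ^ G.τ * G.nA)).countP fun m =>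
    decide (¬ G.sat (G.val s) (m / G.nA) (unidx _ _ _ (m % G.nA)))

theorem violA_eq (s : Asg) : G.violA s = G.cnt s / (2 ^ G.τ * G.nA : ℕ) := by
  classical
  rw [cnt, ib_countP fun m => ¬ G.sat (G.val s) (m / G.nA) (unidx _ _ _ (m % G.nA)), violA,
    viol_eq_sum]

/-- the wiring maps on numbers. -/
def actN (o : Op) (m : ℕ) : ℕ := idx (act G.gens o (unidx G.b G.β G.σ m))

end Inst

end Vale.Agent.P330.Amp
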