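import Vale.Agent.P330.IterEarly

/-! The iteration (task Iter).
Plan. Input `G` with `b = 0`; `n = σ + τ + n0` (`n0` a large constant), so `violA < 2 ^ (-n)` gives `0`
(`viol_eq_zero_of_lt`). A cycle with parameter `c` is Round, Compile, Absorb: `σ = 0` again,
`b + 2 ≤ b' ≤ b + C' + (τ + C' c) / k0`, `2 ^ τ' ≤ poly (b + τ + c)`; if `poly (b + τ + c) ≤ 2 ^ (A c)`
(all polynomial factors and `b` together) then: `v' ≤ 2 ^ (-τ - 3 A c)` implies
`v ≤ v' 2 ^ (-90 A c)`. Choose `C2` with `poly (B) ≤ 2 ^ (A C2 size B)`; `m = C C2 size (C3 n)`,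
Init with `m`, Absorb. Early phase: `n` cycles would be too many; take `r = n / c + 1` cycles with the
fixed `c = C2 size (C3 n)` (`b ≤ C3 n` throughout, `τ ≤ A c ≤ k0`-ish after the first cycle), so the
number of address bits stays `O (n)` (`β = k0 = O (c)`), `b ≥ 2 r`, and `v' ≤ 2 ^ (-4 A c)` implies
`v = 0` (the first cycle has large `τ` and no gain). Late phase: while `b > bstar`: cycle with
`c = C2 size b`, then Merge; `b / 4 ≤ b' ≤ b / 2`, `b' β' ≤ (b + C'') β`, so the number of bits grows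
by `∏ (1 + C'' / b i) = O (1)` since the `b i` at least halve and stay above `bstar`; invariant:
`2 ^ τ ≤ poly b`, and `v' ≤ 2 ^ (-5 A c)` (with the `c` of the last cycle) implies `v = 0`; the
next `c` is at least half of the last one. At the end `bstar / 4 ≤ b ≤ bstar` and `γ` is a constant.
Polynomial time: folds (`PT.foldl`) over subtypes of states closed under the step (Good, `σ = 0`,
`1 ≤ b`, side conditions), carrying a padding list of length `N ^ C` for Absorb; for the decoder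
keep the list of the intermediate states and fold the decoders backwards (`sz_inst`, `Red.comp`).
A convenient general lemma: for a reduction `Red src (src ∘ step) Φ` with `step : S → S`, `PT step`,
and a polynomial size bound along the trajectory, the iterate is a reduction. -/

namespace Vale.Agent.P330.Amp

open Vale.Agent.Lib.H23 Vale.Agent.P333 Vale.Agent.P325 Finset Matrix
open scoped BigOperators

theorem st_size (n : ℕ) : 2 ^ n.size ≤ 2 * (n + 1) := by
  rcases h : n.size with _ | m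
  · omega
  · have := Nat.lt_size.1 (show m < n.size by omega)
    rw [pow_succ]
    omega

theorem st_unit {X : Type} [Enc X] {f : X → ℕ} (h : PU f) :
    PT fun x => List.replicate (f x) () :=
  (PT.map (f := fun _ _ => ()) (PT.const ()) h.range).congr fun x => by simp

theorem st_phi {δ e c u M n k b t : ℕ} (hk : k ≤ e * u) (hb : b + t ≤ n + c * k + (c + 4 * u))
    (hn : n ≤ M) (hu : 1 ≤ u) :
    b + t + (M / u + 2 + 1) * (δ * k) ≤ (δ * e + 1) * M + (c * e + c + 4 + 3 * (δ * e)) * u := by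
  have h1 := Nat.mul_le_mul_left c hk
  have h2 := Nat.mul_le_mul_left ((M / u + 2 + 1) * δ) hk
  have h3 := Nat.mul_le_mul_left (δ * e) (Nat.div_mul_le_self M u)
  have h4 := Nat.le_mul_of_pos_right c hu
  nlinarith

theorem start {A C D b0 : ℕ} (hA : 1 ≤ A) (hD : 1 ≤ D) (hI : InitStmt) (hB : AbsorbStmt) :
    ∃ j : {G : Inst 2 // G.b = 0} → {p // EarlyOk A C D b0 p}, PT j ∧
      Red (fun x => x.1) (fun x => (j x).1.1) fun x v' v =>
        v' * 2 ^ (3 * (A * (D * (4 * (j x).1.2.2.2))) +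
          98 * (A * (D * (4 * (j x).1.2.2.2)) * (j x).1.2.2.1.length)) ≤ 1 →
        v * 2 ^ (x.1.σ + x.1.τ + 1) ≤ 1 := by
  obtain ⟨R1, p1, r1⟩ := hI
  obtain ⟨c, R2, p2, r2⟩ := hB
  obtain ⟨e, he⟩ : ∃ e, e = 12 * (C * D) + 2 := ⟨_, rfl⟩
  obtain ⟨d, hd⟩ : ∃ d, d = (C + A) * e := ⟨_, rfl⟩
  obtain ⟨H, hH⟩ : ∃ H, H = c * e + c + 4 + 3 * d + 4 * D + 2 + (d + 2) + b0 + e := ⟨_, rfl⟩
  let n : {G : Inst 2 // G.b = 0} → ℕ := fun x => x.1.σ + x.1.τ
  let u : {G : Inst 2 // G.b = 0} → ℕ := fun x => (n x).size / 2 + (H + 4)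
  let L : {G : Inst 2 // G.b = 0} → ℕ := fun x =>
    (2 * (2 ^ x.1.τ * x.1.nA)) ^ (3 * ((d + 2) * 2 ^ (2 * (H + 4) + 1)))
  have hv : PT fun x : {G : Inst 2 // G.b = 0} => x.1 := pt_val PT.id
  have hn : PU n := (pu_σ hv).add (pu_τ hv)
  have hu : PU u := (((pu_size hn.pt).of_le (hn.pt.size.div (PT.const 2))
    fun _ => Nat.div_le_self _ _)).add (PU.const _)
  have hL : PU L := ((PU.const 2).mul ((pu_T hv).mul (pu_nA hv))).pow _
  have f0 : ∀ x, H + 4 ≤ u x := fun x => Nat.le_add_left _ _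
  have f1 : ∀ x, n x < 2 ^ (2 * u x) := fun x => Nat.size_le.1 (by dsimp only [u]; omega)
  have f2 : ∀ x, 2 ^ (2 * u x) ≤ 2 ^ (2 * (H + 4) + 1) * (n x + 1) := fun x => by
    refine (Nat.pow_le_pow_right two_pos (show _ ≤ 2 * (H + 4) + (n x).size by
      dsimp only [u]; omega)).trans ?_
    rw [pow_add _ _ (n x).size, pow_succ _ (2 * (H + 4)), mul_assoc]
    exact Nat.mul_le_mul_left _ (st_size _)
  have f3 : ∀ x, H * u x ≤ 2 ^ u x := fun x => it_exp (f0 x)
  have f4 : ∀ x, 2 ^ u x ≤ 2 ^ (2 * u x) := fun x => Nat.pow_le_pow_right two_pos (by omega)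
  have f5 : ∀ x, 2 ^ (3 * ((d + 2) * 2 ^ (2 * u x))) ≤ L x := fun x => by
    have : 2 * (2 ^ x.1.τ * x.1.nA) = 2 ^ (n x + 1) := by
      rw [Inst.nA, x.2]; dsimp only [n]; ring
    dsimp only [L]
    rw [this, ← pow_mul, mul_comm (n x + 1), mul_assoc, mul_assoc]
    exact Nat.pow_le_pow_right two_pos (Nat.mul_le_mul_left _ (Nat.mul_le_mul_left _ (f2 x)))
  have hM : PU fun x => 2 ^ (2 * u x) := ((PU.const _).mul (hn.add (PU.const 1))).of_le
    (pt_two_pow ((PU.const 2).mul hu)) f2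
  have hr : PU fun x => 2 ^ (2 * u x) / u x + 2 :=
    (hM.of_le (hM.pt.div hu.pt) fun _ => Nat.div_le_self _ _).add (PU.const 2)
  let j1 : {G : Inst 2 // G.b = 0} → {p : Inst 2 × List Unit // p.1.b = 0} := fun x =>
    ⟨(x.1, List.replicate (C * (D * (4 * u x))) ()), x.2⟩
  have hj1 : PT j1 := pt_sub (hv.pair
    (st_unit ((PU.const C).mul ((PU.const D).mul ((PU.const 4).mul hu))))) _
  have k1 : ∀ x, (R1 (j1 x)).k0 ≤ e * u x := fun x => by
    have a1 := (p1 (j1 x)).2.2.2.2.2.2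
    have a2 := f0 x
    dsimp only [j1] at a1 ⊢
    rw [List.length_replicate] at a1
    nlinarith
  have k2 : ∀ x (a : ℕ), a ≤ H → a * u x ≤ 2 ^ u x := fun x a ha =>
    (Nat.mul_le_mul_right _ ha).trans (f3 x)
  let j2 : {G : Inst 2 // G.b = 0} → AbsIn := fun x =>
    ⟨(R1 (j1 x), List.replicate (L x) ()), (p1 _).1, by
      obtain ⟨-, -, q1, -, q2, -⟩ := p1 (j1 x)
      have a1 := Nat.div_mul_le_self (R1 (j1 x)).σ (R1 (j1 x)).k0
      have a2 := ((k1 x).trans (k2 x e (by omega))).trans (f4 x)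
      have a3 := f1 x
      have a4 : (R1 (j1 x)).σ = x.1.σ := q1
      dsimp only
      rw [List.length_replicate, q2, add_one_mul]
      refine le_trans (Nat.pow_le_pow_right two_pos ?_) (f5 x)
      rw [add_mul]
      dsimp only [n] at a3
      omega⟩
  have hj2 : PT j2 := pt_sub ((r1.1.comp hj1).pair (st_unit hL)) _
  have k3 : ∀ x, c * ((R1 (j1 x)).σ + 1) ^ 2 ≤ 2 ^ (c + 4 * u x) := fun x => by
    have a4 : (R1 (j1 x)).σ = x.1.σ := (p1 (j1 x)).2.2.1
    have a3 := f1 x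
    rw [pow_add, a4, show 4 * u x = 2 * u x * 2 by ring, pow_mul]
    exact Nat.mul_le_mul Nat.lt_two_pow_self.le
      (Nat.pow_le_pow_left (by dsimp only [n] at a3; omega) 2)
  have k4 : ∀ x, c + 4 * u x + n x + 1 ≤ A * (D * (4 * u x)) * (2 ^ (2 * u x) / u x + 1) :=
    fun x => by
      have a1 := f0 x
      have a2 := Nat.lt_mul_div_succ (2 ^ (2 * u x)) (show 0 < u x by omega)
      have a3 := (k2 x (c + 4) (by omega)).trans (f4 x)
      have a4 := f1 x
      have a5 := Nat.le_mul_of_pos_right c (show 0 < u x by omega)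
      refine le_trans ?_ (Nat.mul_le_mul_right _
        ((Nat.le_mul_of_pos_left _ hD).trans (Nat.le_mul_of_pos_left _ hA)))
      rw [add_mul] at a3
      rw [mul_assoc]
      omega
  have k5 : ∀ x, EarlyOk A C D b0 (R2 (j2 x), List.replicate (L x) (),
      List.replicate (2 ^ (2 * u x) / u x + 2) (), u x) := fun x => by
    obtain ⟨-, q1, q2, q3, q4, q5, -⟩ := p1 (j1 x)
    obtain ⟨q6, q7, q8, q9, q10, q11, q12⟩ := p2 (j2 x)
    change (R2 (j2 x)).β = (R1 (j1 x)).β at q8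
    change (R2 (j2 x)).k0 = (R1 (j1 x)).k0 at q9
    change (R2 (j2 x)).b ≤ (R1 (j1 x)).b + (R1 (j1 x)).σ / (R1 (j1 x)).k0 + c at q11
    change (R1 (j1 x)).σ = x.1.σ at q2
    change (R1 (j1 x)).τ = x.1.τ at q3
    have a0 := f0 x
    have a1 : (R2 (j2 x)).τ ≤ c + 4 * u x + x.1.τ := by
      refine (Nat.pow_le_pow_iff_right one_lt_two).1 (q12.trans ?_)
      rw [pow_add _ _ x.1.τ, ← q3]
      exact Nat.mul_le_mul_right _ (k3 x)
    have a2 : (R2 (j2 x)).b * (R1 (j1 x)).k0 ≤ x.1.σ + c * (R1 (j1 x)).k0 := by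
      refine (Nat.mul_le_mul_right _ q11).trans ?_
      rw [q1, zero_add, add_mul, q2]
      exact Nat.add_le_add_right (Nat.div_mul_le_self _ _) _
    have a3 := st_phi (δ := C + A) (c := c) (b := (R2 (j2 x)).b * (R1 (j1 x)).k0)
      (t := (R2 (j2 x)).τ) (k1 x) (by dsimp only [n]; omega) (f1 x).le (by omega)
    have a4 := (k2 x (c * e + c + 4 + 3 * d + 4 * D + 2) (by omega)).trans (f4 x)
    have a5 : ePhi A C (R2 (j2 x), List.replicate (L x) (),
        List.replicate (2 ^ (2 * u x) / u x + 2) (), u x) + D * (4 * u x) + 2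
        ≤ (d + 2) * 2 ^ (2 * u x) := by
      dsimp only [ePhi]
      rw [List.length_replicate, q9]
      rw [← hd] at a3
      nlinarith
    have a6 := k4 x
    refine ⟨q6, q7, le_trans (Nat.le_add_left _ _) q10, q8.trans (q4.trans q9.symm),
      by dsimp only; omega, ?_, ?_, a5.trans ?_, ?_, ?_, ?_⟩
    · rw [List.length_replicate] at q5
      exact q5.trans q9.ge
    · dsimp only [n] at a6 ⊢
      rw [List.length_replicate, show 2 ^ (2 * u x) / u x + 2 - 1 = 2 ^ (2 * u x) / u x + 1 from rfl]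
      omega
    · rw [show 4 * u x = 2 * u x + 2 * u x by ring, pow_add]
      exact Nat.mul_le_mul_right _ (((Nat.le_mul_of_pos_right _ (by omega)).trans
        (k2 x (d + 2) (by omega))).trans (f4 x))
    · dsimp only
      rw [List.length_replicate]
      exact le_trans (Nat.pow_le_pow_right two_pos (by omega)) (f5 x)
    · dsimp only
      rw [List.length_replicate]
      refine le_trans ?_ ((Nat.le_add_right _ 2).trans (Nat.le_add_left _ _))
      rw [Nat.le_div_iff_mul_le (by omega), two_mul, pow_add _ (u x) (u x)]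
      exact Nat.mul_le_mul_left _ Nat.lt_two_pow_self.le
    · exact (Nat.le_mul_of_pos_right _ (by omega)).trans (k2 x b0 (by omega))
  refine ⟨fun x => ⟨_, k5 x⟩, pt_sub ((r2.1.comp hj2).pair ((st_unit hL).pair
    ((st_unit hr).pair hu.pt))) _, ((r1.pre hj1).comp r2 hj2 fun _ => rfl).mono ?_⟩
  rintro x v2 v h2 - ⟨v1, -, e1, e0⟩ h3
  refine it_real (c := c * ((R1 (j1 x)).σ + 1) ^ 2) h2 (e0.trans (by exact_mod_cast e1)) (k3 x)
    ?_ h3
  have a1 := k4 x
  dsimp only [n] at a1 ⊢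
  rw [List.length_replicate, show 2 ^ (2 * u x) / u x + 2 = 2 ^ (2 * u x) / u x + 1 + 1 from rfl,
    mul_add_one]
  omega

theorem iter (hI : InitStmt) (hA : AbsorbStmt) (hM : MergeStmt) (hC : CompileStmt)
    (hR : RoundStmt) : IterStmt := by
  obtain ⟨A, E, C, R, h1, h2, h3⟩ := cyc hA hC hR
  obtain ⟨D, K, b0, γ, R', h4, h5, h6, r3⟩ := late h1 h2 h3 hM
  obtain ⟨fin, h7, r2⟩ := early (K := K) (b0 := b0) h1 h2 h3 h4 h5
  obtain ⟨j, h8, r1⟩ := start (C := C) (b0 := b0) h1 h5 hI hA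
  obtain ⟨k1, Dc, k2, k3⟩ := (r1.comp r2 h8 fun _ => rfl).comp r3 (h7.comp h8) fun _ => rfl
  refine ⟨γ, _, h6, k1, Dc, k2, fun x s h9 => x.1.viol_eq_zero_of_lt ?_⟩
  obtain ⟨v2, -, e2, v1, -, e1, e0⟩ := k3 x s
  have e := e0 (e1 (e2 h9))
  rw [pow_succ, ← mul_assoc] at e
  rw [Inst.nA, x.2, zero_mul, add_zero, ← pow_add, add_comm]
  push_cast
  change x.1.violA _ * _ < 1
  linarith

end Vale.Agent.P330.Amp
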