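import Vale.Agent.P330.IterLate

/-! The early phase: cycles with a fixed parameter. -/

namespace Vale.Agent.P330.Amp

open Vale.Agent.Lib.H23 Vale.Agent.P333 Vale.Agent.P325 Finset Polynomial
open scoped BigOperators

abbrev ESt : Type := Inst 2 × List Unit × List Unit × ℕ

/-- the potential of the early phase. -/
def ePhi (A C : ℕ) (p : ESt) : ℕ :=
  p.1.b * p.1.k0 + p.1.τ + (p.2.2.1.length + 1) * ((C + A) * p.1.k0)

/-- invariant of the early phase. -/
structure EarlyOk (A C D b0 : ℕ) (p : ESt) : Prop where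
  good : p.1.Good
  sig : p.1.σ = 0
  pos : 1 ≤ p.1.b
  bet : p.1.β = p.1.k0
  upos : 1 ≤ p.2.2.2
  kk : C * (D * (4 * p.2.2.2)) ≤ p.1.k0
  tau : p.1.τ ≤ A * (D * (4 * p.2.2.2)) + 98 * (A * (D * (4 * p.2.2.2)) * (p.2.2.1.length - 1))
  phi : ePhi A C p + D * (4 * p.2.2.2) + 2 ≤ 2 ^ (4 * p.2.2.2)
  pad : 2 ^ (3 * ePhi A C p) ≤ p.2.1.length
  low : 2 ^ p.2.2.2 ≤ p.1.b + p.2.2.1.length
  big : b0 ≤ 2 ^ p.2.2.2

theorem EarlyOk.le {A C D b0 : ℕ} {p : ESt} (h : EarlyOk A C D b0 p) :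
    p.1.b ≤ p.1.b * p.1.k0 ∧ p.1.b * p.1.k0 + p.1.τ + (C + A) * p.1.k0 ≤ ePhi A C p :=
  ⟨Nat.le_mul_of_pos_right _ h.good.one_le,
    Nat.add_le_add_left (Nat.le_mul_of_pos_left _ (Nat.succ_pos _)) _⟩

theorem early {A E C D K b0 : ℕ} {R : {p // CycOk A E C p} → Inst 2} (hA : 1 ≤ A) (hC : 1 ≤ C)
    (h : CycP A E C R) (hE : E ≤ D) (hD : 1 ≤ D) :
    ∃ fin : {p // EarlyOk A C D b0 p} → {p // LateOk A C D K b0 p}, PT fin ∧
      Red (fun x => x.1.1) (fun x => (fin x).1.1) fun x v' v =>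
        v' * 2 ^ (98 * (A * (D * (fin x).1.1.b.size))) ≤ 1 →
        v * 2 ^ (3 * (A * (D * (4 * x.1.2.2.2))) +
          98 * (A * (D * (4 * x.1.2.2.2)) * x.1.2.2.1.length)) ≤ 1 := by
  obtain ⟨p1, r1⟩ := h
  have k3 : ∀ p, EarlyOk A C D b0 p → CycOk A E C (p.1, p.2.1, D * (4 * p.2.2.2)) := fun p hp => by
    obtain ⟨a1, a2⟩ := hp.le
    have a3 := hp.phi
    have a4 := hp.upos
    refine ⟨hp.good, hp.sig, hp.pos, Nat.mul_pos hD (by omega), hp.kk, ?_,
      le_trans (Nat.pow_le_pow_right two_pos ?_) hp.pad⟩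
    · refine (Nat.pow_le_pow_left (show _ ≤ 2 ^ (4 * p.2.2.2) by dsimp only; omega) E).trans ?_
      rw [← pow_mul, mul_comm]
      exact Nat.pow_le_pow_right two_pos
        ((Nat.mul_le_mul_right _ hE).trans (Nat.le_mul_of_pos_left _ hA))
    · have a5 := Nat.div_mul_le_self p.1.τ p.1.k0
      dsimp only
      rw [hp.bet, add_mul]
      rw [add_mul] at a2
      omega
  let j1 : {p // EarlyOk A C D b0 p} → {p // CycOk A E C p} := fun x => ⟨_, k3 x.1 x.2⟩
  have hv : PT fun x : {p // EarlyOk A C D b0 p} => x.1 := pt_val PT.id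
  have hj1 : PT j1 := pt_sub (hv.fst.pair (hv.snd.fst.pair
    ((PT.const D).mul ((PT.const 4).mul hv.snd.snd.snd)))) _
  obtain ⟨fin, h1, r3⟩ := red_loop (I := EarlyOk A C D b0)
    (new := fun x => (R (j1 x), x.1.2.1, x.1.2.2.1.tail, x.1.2.2.2))
    (P := fun p v => v * 2 ^ (3 * (A * (D * (4 * p.2.2.2))) +
      98 * (A * (D * (4 * p.2.2.2)) * p.2.2.1.length)) ≤ 1) (μ := fun p => p.2.2.1.length)
    ((r1.pre hj1).mono (by
      intro x v' v h2 _ e0 hx hP
      have a1 := x.2.tau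
      dsimp only [j1] at e0 hP
      rw [List.length_tail] at hP
      obtain ⟨i, hi⟩ : ∃ i, x.1.2.2.1.length = i + 1 := ⟨_, (Nat.succ_pred_eq_of_pos hx).symm⟩
      rw [hi, Nat.add_sub_cancel] at a1 hP
      have a2 := e0 (it_real (c := 1) (k := 0) h2 (by simp) le_rfl (by omega) hP)
      rw [hi, mul_add_one, mul_add, ← add_assoc, add_comm, pow_add, ← mul_assoc]
      exact (mul_le_mul_of_nonneg_right a2 (by positivity)).trans hP))
    (hv.snd.fst.pair (hv.snd.snd.fst.tail.pair hv.snd.snd.snd)) (PU.len PT.snd'.snd.fst)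
    (fun x hx => by
      obtain ⟨q1, q2, q3, q4, q5, q6, q7⟩ := p1 (j1 x)
      dsimp only [j1] at q3 q4 q5 q6 q7
      have a1 : ePhi A C (R (j1 x), x.1.2.1, x.1.2.2.1.tail, x.1.2.2.2) ≤ ePhi A C x.1 := by
        obtain ⟨i, hi⟩ : ∃ i, x.1.2.2.1.length = i + 1 := ⟨_, (Nat.succ_pred_eq_of_pos hx).symm⟩
        have a2 := Nat.div_mul_le_self x.1.1.τ x.1.1.k0
        have a3 := Nat.mul_le_mul_right x.1.1.k0 q6
        have a4 := Nat.mul_le_mul_left A ((Nat.le_mul_of_pos_left _ hC).trans x.2.kk)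
        dsimp only [ePhi, j1]
        rw [List.length_tail, q4, hi, Nat.add_sub_cancel, add_one_mul (i + 1), add_mul C]
        rw [add_mul, add_mul] at a3
        omega
      have a2 := x.2.low
      refine ⟨⟨q1, q2, le_trans (Nat.le_add_left _ _) q5, q3.trans (x.2.bet.trans q4.symm),
        x.2.upos, x.2.kk.trans q4.ge, q7.trans (Nat.le_add_right _ _),
        le_trans (by dsimp only; omega) x.2.phi,
        le_trans (Nat.pow_le_pow_right two_pos (by omega)) x.2.pad, ?_, x.2.big⟩, ?_⟩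
      · dsimp only [j1]
        rw [List.length_tail]
        omega
      · dsimp only
        rw [List.length_tail]
        omega)
    (fun x => by
      have := sz_tail_le x.1.2.2.1
      rw [sz_prod x.1.2, sz_prod x.1.2.2]
      simp only [sz_pair]
      omega) fun p hp => by
      obtain ⟨a1, a2⟩ := hp.le
      have a3 : 2 ^ (3 * ePhi A C p) ≤ sz p.2 := by
        have := hp.pad.trans (length_lt_sz _).le
        rw [sz_prod]
        omega
      have a4 := Nat.lt_two_pow_self.le.trans a3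
      have a5 : p.1.k0 ≤ (C + A) * p.1.k0 := Nat.le_mul_of_pos_left _ (by omega)
      have a6 := hp.bet
      refine ⟨by omega, by omega, by omega, le_trans ?_ a3⟩
      rw [Inst.nA, ← pow_add, hp.sig, a6]
      exact Nat.pow_le_pow_right two_pos (by omega)
  have k4 : ∀ p, EarlyOk A C D b0 p → p.2.2.1.length = 0 →
      A * (D * (4 * p.2.2.2)) ≤ 4 * (A * (D * p.1.b.size)) := fun p hp h0 => by
    have a1 := hp.low
    rw [h0, add_zero] at a1
    rw [mul_left_comm 4, mul_left_comm 4]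
    exact Nat.mul_le_mul_left _ (Nat.mul_le_mul_left _
      (Nat.mul_le_mul_left _ (Nat.lt_size.2 a1).le))
  have k5 : ∀ p, EarlyOk A C D b0 p → p.2.2.1.length = 0 → LateOk A C D K b0 (p.1, p.2.1) :=
    fun p hp h0 => by
      obtain ⟨a1, a2⟩ := hp.le
      have a3 := hp.low
      have a4 := hp.big
      have a5 := hp.phi
      have a6 := hp.tau
      have a7 := k4 p hp h0
      have a8 := Nat.mul_le_mul_right p.1.k0 (Nat.sub_le p.1.b K)
      rw [h0] at a3 a6
      refine ⟨hp.good, hp.sig, by dsimp only; omega, le_trans (Nat.mul_le_mul_left _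
        (Nat.mul_le_mul_left _ (Nat.size_le.2 (by dsimp only; omega)))) hp.kk,
        by dsimp only; omega, le_trans (Nat.pow_le_pow_right two_pos ?_) hp.pad⟩
      dsimp only
      rw [hp.bet]
      omega
  refine ⟨fun x => ⟨_, k5 _ (fin x).2.1 (fin x).2.2⟩,
    pt_sub ((pt_val h1).fst.pair (pt_val h1).snd.fst) _, r3.mono fun x v' v h0 _ e h2 => e ?_⟩
  have a1 := k4 _ (fin x).2.1 (fin x).2.2
  have a2 : (fin x).1.2.2.1.length = 0 := (fin x).2.2
  rw [a2]
  exact it_real (c := 1) (k := 0) h0 (by simp) le_rfl (by dsimp only; omega) h2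

end Vale.Agent.P330.Amp
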