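import Vale.Agent.P330.IterCyc

/-! The late phase: cycle and merge until the number of blocks is bounded. -/

namespace Vale.Agent.P330.Amp

open Vale.Agent.Lib.H23 Vale.Agent.P333 Vale.Agent.P325 Finset Polynomial
open scoped BigOperators

theorem it_sq {u : ℕ} (h : 4 ≤ u) : u * u ≤ 2 ^ u := by
  induction u, h using Nat.le_induction with
  | base => norm_num
  | succ u h ih => rw [pow_succ]; nlinarith

theorem it_exp {H u : ℕ} (h : H + 4 ≤ u) : H * u ≤ 2 ^ u :=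
  (Nat.mul_le_mul_right u (by omega)).trans (it_sq (by omega))

theorem it_real {v v' : ℝ} {c k m n : ℕ} (h0 : 0 ≤ v') (h : v ≤ c * v') (hc : c ≤ 2 ^ k)
    (hn : k + m ≤ n) (h1 : v' * 2 ^ n ≤ 1) : v * 2 ^ m ≤ 1 := by
  have h2 : (c : ℝ) ≤ 2 ^ k := by exact_mod_cast hc
  calc v * 2 ^ m ≤ c * v' * 2 ^ m := by gcongr
    _ ≤ 2 ^ k * v' * 2 ^ m := by gcongr
    _ = v' * 2 ^ (k + m) := by ring
    _ ≤ v' * 2 ^ n := by gcongr; norm_num
    _ ≤ 1 := h1

theorem it_size {b b' : ℕ} (h : b ≤ 4 * b') : b.size ≤ b'.size + 2 := by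
  have := Nat.lt_size_self b'
  rw [Nat.size_le, pow_add]
  omega

/-- invariant of the late phase. -/
def LateOk (A C D K b0 : ℕ) (p : Inst 2 × List Unit) : Prop :=
  p.1.Good ∧ p.1.σ = 0 ∧ b0 ≤ p.1.b ∧ C * (D * p.1.b.size) ≤ p.1.k0 ∧
    p.1.τ ≤ 4 * (A * (D * p.1.b.size)) ∧ 2 ^ (3 * ((p.1.b - K) * p.1.β)) ≤ p.2.length

theorem LateOk.tau {A C D K b0 : ℕ} {p : Inst 2 × List Unit} (h : LateOk A C D K b0 p)
    (hC : 1 ≤ C) : p.1.τ ≤ 4 * A * p.1.k0 := by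
  refine h.2.2.2.2.1.trans ?_
  rw [← mul_assoc]
  exact Nat.mul_le_mul_left _ ((Nat.le_mul_of_pos_left _ hC).trans h.2.2.2.1)

theorem late {A E C : ℕ} {R : {p // CycOk A E C p} → Inst 2} (hA : 1 ≤ A) (hC : 1 ≤ C)
    (h : CycP A E C R) (hM : MergeStmt) :
    ∃ (D K b0 : ℕ) (γ : ℝ) (R' : {p // LateOk A C D K b0 p} → Inst 2), E ≤ D ∧ 1 ≤ D ∧ 0 < γ ∧
      Red (fun x => x.1.1) R' fun x v' v =>
        v' ≤ γ → v * 2 ^ (98 * (A * (D * x.1.1.b.size))) ≤ 1 := by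
  obtain ⟨p1, r1⟩ := h
  obtain ⟨c, R2, p2, r2⟩ := hM
  obtain ⟨D, hD⟩ : ∃ D, D = 2 * E + c + 1 := ⟨_, rfl⟩
  obtain ⟨K, hK⟩ : ∃ K, K = 4 * A + C + 4 * c := ⟨_, rfl⟩
  obtain ⟨b0, b1, b2⟩ : ∃ b0, 2 * K ≤ b0 ∧ 2 ^ ((4 * A + 1) * D + 6) ≤ b0 :=
    ⟨_, le_max_left _ _, le_max_right _ _⟩
  have hs : ∀ b, b0 ≤ b → (4 * A + 1) * D + 6 ≤ b.size := fun b hb =>
    (Nat.lt_size.2 (b2.trans hb)).le
  have k1 : ∀ p, LateOk A C D K b0 p → p.1.τ / p.1.k0 ≤ 4 * A := fun p hp =>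
    Nat.div_le_of_le_mul (by rw [mul_comm]; exact hp.tau hC)
  have k2 : ∀ p, LateOk A C D K b0 p → K * p.1.β ≤ (p.1.b - K) * p.1.β := fun p hp =>
    Nat.mul_le_mul_right _ (by have := hp.2.2.1; omega)
  have k3 : ∀ p, LateOk A C D K b0 p → CycOk A E C (p.1, p.2, D * p.1.b.size) := fun p hp => by
    have a1 := hs _ hp.2.2.1
    have a2 := hp.2.2.1
    refine ⟨hp.1, hp.2.1, by dsimp only; omega, Nat.mul_pos (by omega) (by omega), hp.2.2.2.1,
      ?_, le_trans (Nat.pow_le_pow_right two_pos ?_) hp.2.2.2.2.2⟩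
    · have a3 := Nat.lt_size_self p.1.b
      have a4 := it_exp (H := (4 * A + 1) * D + 2) (u := p.1.b.size) (by omega)
      have a5 := hp.2.2.2.2.1
      have a6 : p.1.b + p.1.τ + D * p.1.b.size + 2 ≤ 2 ^ (p.1.b.size + 1) := by
        rw [pow_succ]
        nlinarith
      refine (Nat.pow_le_pow_left a6 E).trans ?_
      rw [← pow_mul]
      refine Nat.pow_le_pow_right two_pos (le_trans ?_ (Nat.le_mul_of_pos_left _ hA))
      have a7 : 1 ≤ p.1.b.size := by omega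
      nlinarith
    · have a3 := k2 p hp
      have a4 := Nat.mul_le_mul_right p.1.β (show p.1.τ / p.1.k0 + C ≤ K by
        have := k1 p hp; omega)
      dsimp only
      omega
  let j1 : {p // LateOk A C D K b0 p} → {p // CycOk A E C p} := fun x => ⟨_, k3 x.1 x.2⟩
  have hv : PT fun x : {p // LateOk A C D K b0 p} => x.1 := pt_val PT.id
  have hj1 : PT j1 :=
    pt_sub (hv.fst.pair (hv.snd.pair ((PT.const D).mul (pu_b hv.fst).pt.size))) _
  let j2 : {p // LateOk A C D K b0 p} → MrgIn := fun x =>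
    ⟨R (j1 x), (p1 _).1, (p1 _).2.1, le_trans (Nat.le_add_left _ _) (p1 _).2.2.2.2.1⟩
  have hj2 : PT j2 := pt_sub (r1.1.comp hj1) _
  have k4 : ∀ x, 0 < x.1.1.b + 1 - 4 * b0 → 4 * (R2 (j2 x)).b ≤ x.1.1.b + K ∧
      b0 ≤ (R2 (j2 x)).b ∧ A * (D * x.1.1.b.size) ≤ 2 * (A * (D * (R2 (j2 x)).b.size)) ∧
      c ≤ A * (D * (R2 (j2 x)).b.size) := fun x hx => by
    obtain ⟨-, -, -, -, q1, q2, -⟩ := p1 (j1 x)
    obtain ⟨-, -, -, -, q3, q4, -⟩ := p2 (j2 x)
    have a1 := k1 _ x.2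
    dsimp only [j1, j2] at q1 q2 q3 q4 ⊢
    have a2 : b0 ≤ (R2 (j2 x)).b := by dsimp only [j1, j2]; omega
    have a3 := hs _ a2
    have a4 := it_size (show x.1.1.b ≤ 4 * (R2 (j2 x)).b by dsimp only [j1, j2]; omega)
    refine ⟨by omega, a2, ?_, ?_⟩
    · rw [mul_left_comm 2, mul_left_comm 2]
      exact Nat.mul_le_mul_left _ (Nat.mul_le_mul_left _ (a4.trans (by
        change (R2 (j2 x)).b.size + 2 ≤ 2 * (R2 (j2 x)).b.size
        omega)))
    · refine le_trans ?_ (Nat.le_mul_of_pos_left _ hA)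
      exact le_trans (by omega) (Nat.le_mul_of_pos_right D (show 0 < (R2 (j2 x)).b.size by omega))
  obtain ⟨fin, -, r3⟩ := red_loop (I := LateOk A C D K b0) (new := fun x => (R2 (j2 x), x.1.2))
    (P := fun p v => v * 2 ^ (98 * (A * (D * p.1.b.size))) ≤ 1) (μ := fun p => p.1.b + 1 - 4 * b0)
    (((r1.pre hj1).comp r2 hj2 fun _ => rfl).mono (by
      rintro x v2 v h2 - ⟨v1, h1, e1, e0⟩ hx hP
      obtain ⟨-, -, a1, a2⟩ := k4 x hx
      have a3 := x.2.2.2.2.2.1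
      have a4 := it_real h2 e1 Nat.lt_two_pow_self.le
        (m := x.1.1.τ + 2 * (A * (D * x.1.1.b.size))) (by dsimp only; omega) hP
      exact (e0 a4).trans ((le_mul_of_one_le_right h1 (one_le_pow₀ one_le_two)).trans a4)))
    hv.snd (((pu_b PT.fst').add (PU.const 1)).of_le
      (((pu_b PT.fst').pt.add (PT.const 1)).sub (PT.const _)) fun _ => Nat.sub_le _ _)
    (fun x hx => by
      obtain ⟨a1, a2, a3, a4⟩ := k4 x hx
      obtain ⟨-, -, q1, q2, -, -, q3⟩ := p1 (j1 x)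
      obtain ⟨q4, q5, q6, q7, -, -, q8⟩ := p2 (j2 x)
      have a5 : (R2 (j2 x)).b < x.1.1.b := by omega
      refine ⟨⟨q4, q5, a2, ?_, ?_, le_trans (Nat.pow_le_pow_right two_pos ?_) x.2.2.2.2.2.2⟩,
        by dsimp only at hx ⊢; omega⟩
      · exact (Nat.mul_le_mul_left _ (Nat.mul_le_mul_left _ (Nat.size_le_size a5.le))).trans
          (x.2.2.2.2.1.trans (q7.trans q2).ge)
      · have a6 : 2 ^ (R2 (j2 x)).τ ≤ 2 ^ (c + A * (D * x.1.1.b.size)) := by
          rw [pow_add]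
          exact q8.trans (Nat.mul_le_mul Nat.lt_two_pow_self.le (Nat.pow_le_pow_right two_pos q3))
        have a7 := (Nat.pow_le_pow_iff_right one_lt_two).1 a6
        dsimp only
        omega
      · have a6 : (R2 (j2 x)).β = 4 * x.1.1.β := q6.trans (congrArg _ q1)
        dsimp only
        rw [a6, ← mul_assoc _ 4]
        exact Nat.mul_le_mul_left _ (Nat.mul_le_mul_right _ (by omega)))
    (fun _ => le_rfl) fun p hp => by
      have a1 := k2 p hp
      have a2 := hp.tau hC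
      have a3 := hp.1.one_le
      have a4 := hp.1.le
      have a5 := hp.2.2.1
      have a6 := hp.2.2.2.2.2.trans (length_lt_sz _).le
      have a7 := Nat.lt_two_pow_self.le.trans a6
      have a8 : p.1.b * p.1.β ≤ 2 * ((p.1.b - K) * p.1.β) := by
        rw [← mul_assoc]; exact Nat.mul_le_mul_right _ (by omega)
      have a9 : p.1.b ≤ p.1.b * p.1.β := Nat.le_mul_of_pos_right _ (by omega)
      have a10 : p.1.β ≤ p.1.b * p.1.β := Nat.le_mul_of_pos_left _ (by omega)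
      have a11 : 4 * A * p.1.k0 ≤ K * p.1.β := Nat.mul_le_mul (by omega) a4
      refine ⟨by omega, by omega, by omega, le_trans ?_ a6⟩
      rw [Inst.nA, ← pow_add, hp.2.1]
      exact Nat.pow_le_pow_right two_pos (by omega)
  refine ⟨D, K, b0, 1 / 2 ^ (98 * (A * (D * (4 * b0).size))), _, by omega, by omega,
    by positivity, r3.mono fun x v' v h0 _ e h1 => e ?_⟩
  rw [le_div_iff₀ (by positivity)] at h1
  refine le_trans ?_ h1
  have a1 : (fin x).1.1.b ≤ 4 * b0 := by have := (fin x).2.2; omega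
  have a2 := Nat.size_le_size a1
  gcongr
  norm_num

end Vale.Agent.P330.Amp
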