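import Vale.Agent.P330.Code

/-! Local testability of the tensor code (task LTC).
Plan. Induction on the list, first dimension `e` (width `w ≤ 2 ^ κ`, `q = 2 ^ 2 ^ κ`), `m = length`.
For a slice `s : Vec w` (base point `put z0 p w s`) let `T s` be the sum of the failure densities of
the other dimensions; `𝔼 T s ≤ T`. `s` is good if `T s * 4 q * 256 ^ (m-1) ≤ 1`; at most `1/256` of
the slices are bad; a good slice has a codeword `F s` at distance `≤ 32 ^ (m-1) T s`. Let `C` be the
line code of `e` as a submodule of `Vec w → ZMod 2`. For a point `y` let `ℓ y : good → ZMod 2`,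
`ℓ y s = F s (put y p w s)`. Outside a set of density `< 8 ^ (-(m-1))` of `y`, `ℓ y` is the restriction
of the line of `x`, a codeword. For every linear form `λ` that kills the restricted code,
`y ↦ λ (ℓ y)` is a codeword of the smaller tensor code (linear combination) of small weight, so
zero (`minw`); hence `ℓ y` lies in the restricted code for all `y`. The restriction map is injective
on `C` (`Deg.weight`), take a linear left inverse `Λ : (good → ZMod 2) →ₗ C` and
`G z = Λ (ℓ z) (get z p w)`. Distance: if the line of `x` at `y` is a codeword different from that of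
`G`, they differ in at least `1/8 - 1/256 ≥ 1/16` good slices. -/

namespace Vale.Agent.P330.Amp

open Vale.Agent.Lib.H23 Vale.Agent.P325 Finset
open scoped BigOperators

variable {σ : ℕ}

theorem lt_ind_nonneg (p : Prop) : 0 ≤ ind p := by unfold ind; split_ifs <;> norm_num

theorem lt_ind_le_one (p : Prop) : ind p ≤ 1 := by unfold ind; split_ifs <;> norm_num

theorem lt_ind_pos {p : Prop} (h : p) : ind p = 1 := if_pos h

theorem lt_ind_neg {p : Prop} (h : ¬ p) : ind p = 0 := if_neg h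

theorem lt_ind_le_or {p q r : Prop} (h : p → q ∨ r) : ind p ≤ ind q + ind r := by
  by_cases hp : p
  · rcases h hp with hq | hr
    · rw [lt_ind_pos hp, lt_ind_pos hq]; linarith [lt_ind_nonneg r]
    · rw [lt_ind_pos hp, lt_ind_pos hr]; linarith [lt_ind_nonneg q]
  · rw [lt_ind_neg hp]; linarith [lt_ind_nonneg r, lt_ind_nonneg q]

/-- the line code as a submodule. -/
def ltCode (m : Bool) (w : ℕ) : Submodule (ZMod 2) (Vec w → ZMod 2) where
  carrier := {P | LoC m P}
  add_mem' := fun h h' => LoC.add h h'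
  zero_mem' := LoC.zero
  smul_mem' := fun c _ h => LoC.smul h c

open Classical in
/-- restriction to the good slices. -/
noncomputable def ltRes {w : ℕ} (g : Vec w → Prop) : (Vec w → ZMod 2) →ₗ[ZMod 2] (Vec w → ZMod 2) where
  toFun P s := if g s then P s else 0
  map_add' P Q := by funext s; by_cases h : g s <;> simp [h]
  map_smul' c P := by funext s; by_cases h : g s <;> simp [h]

theorem ltRes_pos {w : ℕ} {g : Vec w → Prop} {s : Vec w} (h : g s) (P : Vec w → ZMod 2) :
    ltRes g P s = P s := if_pos h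

theorem ltRes_neg {w : ℕ} {g : Vec w → Prop} {s : Vec w} (h : ¬ g s) (P : Vec w → ZMod 2) :
    ltRes g P s = 0 := if_neg h

theorem lt_weight {m : Bool} {w : ℕ} {P : Vec w → ZMod 2} (hP : LoC m P) (h : P ≠ 0) :
    (1 / 2 : ℝ) ≤ 𝔼 t, ind (P t ≠ 0) := by
  obtain ⟨s, hs⟩ := Function.ne_iff.1 h
  refine le_trans ?_ (hP.deg.weight hs)
  split_ifs <;> norm_num

theorem lt_polyL_sum {ds : List Dim} {z0 : Vec σ} {ι : Type} (t : Finset ι)
    {R : ι → Vec σ → ZMod 2} (c : ι → ZMod 2) (h : ∀ i, PolyL ds z0 (R i)) :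
    PolyL ds z0 fun z => ∑ i ∈ t, c i * R i z := by
  classical
  intro e he z hz
  induction t using Finset.induction_on with
  | empty => simp only [Finset.sum_empty]; exact LoC.zero
  | insert a t ha ih =>
    have h1 := ((h a e he z hz).smul (c a)).add ih
    simp only [Finset.sum_insert ha]
    exact h1

theorem lt_polyL_lin {ds : List Dim} {z0 : Vec σ} {w : ℕ} {R : Vec σ → Vec w → ZMod 2}
    (h : ∀ s, PolyL ds z0 fun z => R z s) (φ : (Vec w → ZMod 2) →ₗ[ZMod 2] ZMod 2) :
    PolyL ds z0 fun z => φ (R z) := by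
  classical
  have h1 := lt_polyL_sum Finset.univ (fun s => φ fun j => if s = j then 1 else 0) h
  refine h1.congr fun z _ => ?_
  rw [LinearMap.pi_apply_eq_sum_univ φ (R z)]
  refine Finset.sum_congr rfl fun s _ => ?_
  rw [smul_eq_mul, mul_comm]

theorem lt_inR_put {P : Set ℕ} {z z' : Vec σ} {p w : ℕ}
    (h : InR (Set.Ico p (p + w) ∪ P) z z') (s : Vec w) : InR P (put z p w s) (put z' p w s) := by
  intro j hj
  unfold put
  by_cases h1 : p ≤ j ∧ j < p + w
  · simp [h1]
  · simp only [h1, dif_neg, not_false_eq_true]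
    refine h j ?_
    rintro (h2 | h2)
    · exact h1 h2
    · exact hj h2

theorem lt_expect_list {ι α : Type} [Fintype ι] (l : List α) (f : α → ι → ℝ) :
    (𝔼 s, (l.map fun a => f a s).sum) = (l.map fun a => 𝔼 s, f a s).sum := by
  induction l with
  | nil => simp
  | cons a l ih => simp only [List.map_cons, List.sum_cons, Finset.expect_add_distrib, ih]

theorem lt_card (w : ℕ) : (Fintype.card (Vec w) : ℝ) = 2 ^ w := by
  simp [Vec, ZMod.card]

theorem lt_sum_eq (w : ℕ) (f : Vec w → ℝ) : ∑ s, f s = 2 ^ w * 𝔼 s, f s := by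
  rw [← lt_card, Fintype.card_mul_expect]

theorem lt_ind_exists {ι : Type} [Fintype ι] (p : ι → Prop) : ind (∃ i, p i) ≤ ∑ i, ind (p i) := by
  by_cases h : ∃ i, p i
  · obtain ⟨i, hi⟩ := h
    rw [lt_ind_pos ⟨i, hi⟩, ← lt_ind_pos hi]
    exact Finset.single_le_sum (f := fun i => ind (p i)) (fun i _ => lt_ind_nonneg _) (Finset.mem_univ i)
  · rw [lt_ind_neg h]
    exact Finset.sum_nonneg fun i _ => lt_ind_nonneg _

/-- the gluing step. -/
theorem lt_step {κ u : ℕ} {e : Dim} {ds : List Dim} (hl : Lay σ κ u (e :: ds)) (z0 : Vec σ)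
    (x : Vec σ → ZMod 2) (g : Vec e.2.2 → Prop) (F : Vec e.2.2 → Vec σ → ZMod 2) {a b : ℝ}
    (hg : (𝔼 s, ind (¬ g s)) ≤ 1 / 256)
    (hF : ∀ s, g s → PolyL ds (put z0 e.2.1 e.2.2 s) (F s))
    (ha : av (pos ds) (fun y => ind (¬ LoC e.1 (line x y e))) z0 ≤ a)
    (hb : (𝔼 s, av (pos ds) (fun y => ind (g s ∧ x (put y e.2.1 e.2.2 s) ≠
      F s (put y e.2.1 e.2.2 s))) z0) ≤ b)
    (hab : a + 2 ^ e.2.2 * b < (1 / 8) ^ ds.length) :
    ∃ G, PolyL (e :: ds) z0 G ∧
      av (pos ds) (fun y => 𝔼 s, ind (x (put y e.2.1 e.2.2 s) ≠ G (put y e.2.1 e.2.2 s))) z0 ≤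
        a + 16 * b := by
  classical
  have hσ : e.2.1 + e.2.2 ≤ σ := (hl.1 e List.mem_cons_self).2.1
  have hl' : Lay σ κ u ds := hl.sublist (List.sublist_cons_self _ _)
  have hdis : ∀ e' ∈ ds, e.2.1 + e.2.2 ≤ e'.2.1 ∨ e'.2.1 + e'.2.2 ≤ e.2.1 :=
    (List.pairwise_cons.1 hl.2).1
  set ℓ : Vec σ → Vec e.2.2 → ZMod 2 :=
    fun y => ltRes g fun s => F s (put y e.2.1 e.2.2 s) with hℓ
  have hℓP : ∀ z, InR (pos (e :: ds)) z0 z → ∀ s, PolyL ds z fun y => ℓ y s := by
    intro z hz s
    by_cases h : g s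
    · simp only [hℓ, ltRes_pos h]
      rw [pos_cons] at hz
      exact ((hF s h).base (lt_inR_put hz s)).comp_put hdis
    · simp only [hℓ, ltRes_neg h]
      exact PolyL.zero
  have hinj : LinearMap.ker ((ltRes g).comp (ltCode e.1 e.2.2).subtype) = ⊥ := by
    rw [LinearMap.ker_eq_bot']
    intro P hP
    by_contra hne
    have h1 := lt_weight (m := e.1) (P := P.1) P.2 (fun h => hne (Subtype.ext h))
    have h2 : (𝔼 t, ind (P.1 t ≠ 0)) ≤ 𝔼 s, ind (¬ g s) := by
      refine Finset.expect_le_expect fun s _ => ?_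
      by_cases h : g s
      · have h3 := congrFun hP s
        have h4 : P.1 s = 0 := by
          rw [← ltRes_pos h P.1]; exact h3
        rw [lt_ind_neg (not_not.2 h4)]
        exact lt_ind_nonneg _
      · rw [lt_ind_pos h]; exact lt_ind_le_one _
    linarith
  obtain ⟨Λ, hΛ⟩ := LinearMap.exists_leftInverse_of_injective _ hinj
  have hmem : ∀ y, InR (pos ds) z0 y → ℓ y ∈ (ltCode e.1 e.2.2).map (ltRes g) := by
    intro y hy
    rw [← Subspace.forall_mem_dualAnnihilator_apply_eq_zero_iff]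
    intro φ hφ
    rw [Submodule.mem_dualAnnihilator] at hφ
    by_contra hne
    have h1 := lt_polyL_lin (hℓP z0 InR.refl) φ
    have h2 := minw hl' (h1.polyD.mono (by norm_num)) hy hne
    have h3 : av (pos ds) (fun z => ind (φ (ℓ z) ≠ 0)) z0 ≤
        av (pos ds) (fun y => ind (¬ LoC e.1 (line x y e)) + ∑ s, ind (g s ∧
          x (put y e.2.1 e.2.2 s) ≠ F s (put y e.2.1 e.2.2 s))) z0 := by
      refine av_mono fun z _ => le_trans (lt_ind_le_or (r := ∃ s, g s ∧
          x (put z e.2.1 e.2.2 s) ≠ F s (put z e.2.1 e.2.2 s)) fun h => ?_)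
          (add_le_add le_rfl (lt_ind_exists _))
      by_contra hc
      push Not at hc
      refine h (hφ _ ⟨line x z e, hc.1, ?_⟩)
      funext s
      by_cases h4 : g s
      · simp only [hℓ, ltRes_pos h4]
        exact hc.2 s h4
      · simp only [hℓ, ltRes_neg h4]
    rw [av_add, av_sum, lt_sum_eq] at h3
    have h4 : (2 : ℝ) ^ e.2.2 * (𝔼 s, av (pos ds) (fun y => ind (g s ∧ x (put y e.2.1 e.2.2 s) ≠
      F s (put y e.2.1 e.2.2 s))) z0) ≤ 2 ^ e.2.2 * b := mul_le_mul_of_nonneg_left hb (by positivity)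
    linarith
  have hℓput : ∀ z s, ℓ (put z e.2.1 e.2.2 s) = ℓ z := by
    intro z s
    simp only [hℓ, put_put]
  refine ⟨fun z => (Λ (ℓ z)).1 (get z e.2.1 e.2.2), ?_, ?_⟩
  · intro e' he' z hz
    rcases List.mem_cons.1 he' with h | h
    · subst h
      have : line (fun z => (Λ (ℓ z)).1 (get z e'.2.1 e'.2.2)) z e' = (Λ (ℓ z)).1 := by
        funext s
        simp only [line, hℓput, get_put hσ]
      rw [this]
      exact (Λ (ℓ z)).2
    · have h1 := lt_polyL_lin (hℓP z hz) ((LinearMap.proj (get z e.2.1 e.2.2)).comp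
        ((ltCode e.1 e.2.2).subtype.comp Λ)) e' h z InR.refl
      have : line (fun z => (Λ (ℓ z)).1 (get z e.2.1 e.2.2)) z e' =
          line (fun y => (Λ (ℓ y)).1 (get z e.2.1 e.2.2)) z e' := by
        funext s
        simp only [line, get_put_disj (hdis e' h).symm]
      rw [this]
      exact h1
  · have h3 : av (pos ds) (fun y => 𝔼 s, ind (x (put y e.2.1 e.2.2 s) ≠
        (Λ (ℓ (put y e.2.1 e.2.2 s))).1 (get (put y e.2.1 e.2.2 s) e.2.1 e.2.2))) z0 ≤
        av (pos ds) (fun y => ind (¬ LoC e.1 (line x y e)) + 16 * 𝔼 s, ind (g s ∧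
          x (put y e.2.1 e.2.2 s) ≠ F s (put y e.2.1 e.2.2 s))) z0 := by
      refine av_mono fun y hy => ?_
      simp only [hℓput, get_put hσ]
      have hn : 0 ≤ 𝔼 s, ind (g s ∧ x (put y e.2.1 e.2.2 s) ≠ F s (put y e.2.1 e.2.2 s)) :=
        Finset.expect_nonneg fun s _ => lt_ind_nonneg _
      have h1 : (𝔼 s, ind (x (put y e.2.1 e.2.2 s) ≠ (Λ (ℓ y)).1 s)) ≤ 1 :=
        Finset.expect_le Finset.univ_nonempty fun s _ => lt_ind_le_one _
      by_cases hc : LoC e.1 (line x y e)
      · rw [lt_ind_neg (not_not.2 hc)]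
        by_cases heq : line x y e = (Λ (ℓ y)).1
        · have h2 : (𝔼 s, ind (x (put y e.2.1 e.2.2 s) ≠ (Λ (ℓ y)).1 s)) ≤ 0 :=
            Finset.expect_le Finset.univ_nonempty fun s _ =>
              (lt_ind_neg (not_not.2 (congrFun heq s))).le
          linarith
        · obtain ⟨P, hP, hPy⟩ := hmem y hy
          have h4 : (Λ (ℓ y)).1 = P := by
            rw [← hPy]
            exact congrArg Subtype.val (LinearMap.congr_fun hΛ ⟨P, hP⟩)
          rw [h4] at heq
          have h5 : LoC e.1 (line x y e - P) := (ltCode e.1 e.2.2).sub_mem hc hP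
          have h6 := lt_weight h5 (sub_ne_zero.2 heq)
          have h7 : (𝔼 t, ind ((line x y e - P) t ≠ 0)) ≤ (𝔼 s, ind (¬ g s)) +
              𝔼 s, ind (g s ∧ x (put y e.2.1 e.2.2 s) ≠ F s (put y e.2.1 e.2.2 s)) := by
            rw [← Finset.expect_add_distrib]
            refine Finset.expect_le_expect fun s _ => lt_ind_le_or fun h => ?_
            by_cases h8 : g s
            · refine Or.inr ⟨h8, fun h9 => h ?_⟩
              have h10 := congrFun hPy s
              simp only [hℓ, ltRes_pos h8] at h10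
              rw [Pi.sub_apply, h10, ← h9]
              exact sub_self _
            · exact Or.inl h8
          linarith
      · rw [lt_ind_pos hc]
        linarith
    refine h3.trans ?_
    rw [av_add, av_mul, av_expect]
    linarith

theorem ltc {κ u : ℕ} {ds : List Dim} (hl : Lay σ κ u ds) (z0 : Vec σ) (x : Vec σ → ZMod 2) {T : ℝ}
    (hT : (ds.map fun e => av (pos ds) (fun z => ind (¬ LoC e.1 (line x z e))) z0).sum ≤ T)
    (h : T * 4 * 2 ^ 2 ^ κ * 256 ^ ds.length ≤ 1) :
    ∃ F, PolyL ds z0 F ∧ av (pos ds) (fun z => ind (x z ≠ F z)) z0 ≤ 32 ^ ds.length * T := by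
  induction ds generalizing z0 T with
  | nil =>
    refine ⟨x, fun e he => by simp at he, ?_⟩
    simp only [List.map_nil, List.sum_nil] at hT
    simp only [ne_eq, not_true_eq_false, lt_ind_neg not_false, av_const, List.length_nil, pow_zero,
      one_mul]
    exact hT
  | cons e ds ih =>
    classical
    have hσ : e.2.1 + e.2.2 ≤ σ := (hl.1 e List.mem_cons_self).2.1
    have hw : e.2.2 ≤ 2 ^ κ := (hl.1 e List.mem_cons_self).2.2.2
    have hl' : Lay σ κ u ds := hl.sublist (List.sublist_cons_self _ _)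
    have hnot : ∀ j, e.2.1 ≤ j → j < e.2.1 + e.2.2 → j ∉ pos ds := fun j h1 h2 =>
      Lay.disj (ds := [e]) (ds' := ds) hl ⟨e, List.mem_cons_self, h1, h2⟩
    have I1 : ∀ f : Vec σ → ℝ, av (pos (e :: ds)) f z0 =
        𝔼 s, av (pos ds) f (put z0 e.2.1 e.2.2 s) := by
      intro f
      rw [pos_cons, ← av_av, av_Ico hσ]
    have I2 : ∀ f : Vec σ → ℝ, av (pos (e :: ds)) f z0 =
        av (pos ds) (fun y => 𝔼 s, f (put y e.2.1 e.2.2 s)) z0 := by
      intro f
      rw [pos_cons, Set.union_comm, ← av_av]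
      exact av_congr fun y _ => av_Ico hσ
    set Ts : Vec e.2.2 → ℝ := fun s => (ds.map fun e' => av (pos ds)
      (fun z => ind (¬ LoC e'.1 (line x z e'))) (put z0 e.2.1 e.2.2 s)).sum with hTs
    set a : ℝ := av (pos (e :: ds)) (fun z => ind (¬ LoC e.1 (line x z e))) z0 with ha
    have ha0 : 0 ≤ a := av_ind_nonneg _
    have hTs0 : ∀ s, 0 ≤ Ts s := fun s => List.sum_nonneg fun r hr => by
      obtain ⟨e', _, rfl⟩ := List.mem_map.1 hr
      exact av_ind_nonneg _
    have hE : a + (𝔼 s, Ts s) ≤ T := by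
      refine le_trans (le_of_eq ?_) hT
      rw [List.map_cons, List.sum_cons, hTs, lt_expect_list]
      simp only [I1]
      rw [ha, I1]
    have hE0 : 0 ≤ 𝔼 s, Ts s := Finset.expect_nonneg fun s _ => hTs0 s
    set K : ℝ := 4 * 2 ^ 2 ^ κ * 256 ^ ds.length with hK
    have hK0 : 0 < K := by positivity
    have hTK : T * K ≤ 1 / 256 := by
      rw [List.length_cons, pow_succ] at h
      rw [hK]
      linarith
    have hgood : ∀ s, ∃ F : Vec σ → ZMod 2, Ts s * K ≤ 1 → PolyL ds (put z0 e.2.1 e.2.2 s) F ∧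
        av (pos ds) (fun z => ind (x z ≠ F z)) (put z0 e.2.1 e.2.2 s) ≤ 32 ^ ds.length * Ts s := by
      intro s
      by_cases hs : Ts s * K ≤ 1
      · obtain ⟨F, hF⟩ := ih hl' (put z0 e.2.1 e.2.2 s) (T := Ts s) le_rfl (by rw [hK] at hs; linarith)
        exact ⟨F, fun _ => hF⟩
      · exact ⟨x, fun h => absurd h hs⟩
    choose F hF using hgood
    have hg : (𝔼 s, ind (¬ Ts s * K ≤ 1)) ≤ 1 / 256 := by
      have h1 : (𝔼 s, ind (¬ Ts s * K ≤ 1)) ≤ 𝔼 s, Ts s * K := by
        refine Finset.expect_le_expect fun s _ => ?_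
        by_cases hs : Ts s * K ≤ 1
        · rw [lt_ind_neg (not_not.2 hs)]
          exact mul_nonneg (hTs0 s) hK0.le
        · rw [lt_ind_pos hs]
          exact (not_le.1 hs).le
      rw [← Finset.expect_mul] at h1
      have h2 : (𝔼 s, Ts s) * K ≤ T * K := mul_le_mul_of_nonneg_right (by linarith) hK0.le
      linarith
    have hb : (𝔼 s, av (pos ds) (fun y => ind (Ts s * K ≤ 1 ∧ x (put y e.2.1 e.2.2 s) ≠
        F s (put y e.2.1 e.2.2 s))) z0) ≤ 32 ^ ds.length * 𝔼 s, Ts s := by
      rw [Finset.mul_expect]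
      refine Finset.expect_le_expect fun s _ => ?_
      by_cases hs : Ts s * K ≤ 1
      · refine le_trans (le_of_eq ?_) (hF s hs).2
        rw [← av_put hnot]
        simp only [hs, true_and]
      · simp only [hs, false_and, lt_ind_neg not_false, av_const]
        exact mul_nonneg (by positivity) (hTs0 s)
    have ha' : av (pos ds) (fun y => ind (¬ LoC e.1 (line x y e))) z0 ≤ a := by
      rw [ha, I2]
      refine le_of_eq (av_congr fun y _ => ?_)
      have : ∀ s, line x (put y e.2.1 e.2.2 s) e = line x y e := by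
        intro s; funext s'; simp only [line, put_put]
      simp only [this]
      rw [Finset.expect_const Finset.univ_nonempty]
    have h32 : (1 : ℝ) ≤ 32 ^ ds.length := one_le_pow₀ (by norm_num)
    obtain ⟨G, hG, hd⟩ := lt_step hl z0 x (fun s => Ts s * K ≤ 1) F hg (fun s hs => (hF s hs).1) ha' hb
      (by
        have h1 : (2 : ℝ) ^ e.2.2 ≤ 2 ^ 2 ^ κ := pow_le_pow_right₀ (by norm_num) hw
        have h2 : (1 : ℝ) ≤ 2 ^ 2 ^ κ := one_le_pow₀ (by norm_num)
        have h3 : (1 : ℝ) ≤ 2 ^ 2 ^ κ * 32 ^ ds.length := one_le_mul_of_one_le_of_one_le h2 h32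
        have h4 : a + 2 ^ e.2.2 * (32 ^ ds.length * 𝔼 s, Ts s) ≤ 2 ^ 2 ^ κ * 32 ^ ds.length * T := by
          have h5 : (2 : ℝ) ^ e.2.2 * (32 ^ ds.length * 𝔼 s, Ts s) ≤
              2 ^ 2 ^ κ * (32 ^ ds.length * 𝔼 s, Ts s) :=
            mul_le_mul_of_nonneg_right h1 (by positivity)
          have h6 : 2 ^ 2 ^ κ * 32 ^ ds.length * (a + 𝔼 s, Ts s) ≤ 2 ^ 2 ^ κ * 32 ^ ds.length * T :=
            mul_le_mul_of_nonneg_left hE (by positivity)
          nlinarith
        have h7 : (32 : ℝ) ^ ds.length = 256 ^ ds.length * (1 / 8) ^ ds.length := by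
          rw [← mul_pow]; norm_num
        have h8 : (0 : ℝ) < (1 / 8) ^ ds.length := by positivity
        have h9 : 2 ^ 2 ^ κ * 32 ^ ds.length * T = T * K / 4 * (1 / 8) ^ ds.length := by
          rw [h7, hK]; ring
        have h10 : T * K / 4 * (1 / 8) ^ ds.length < 1 * (1 / 8) ^ ds.length :=
          mul_lt_mul_of_pos_right (by linarith) h8
        linarith)
    refine ⟨G, hG, ?_⟩
    rw [I2]
    refine hd.trans ?_
    rw [List.length_cons, pow_succ]
    nlinarith [mul_le_mul_of_nonneg_left hE (by positivity : (0 : ℝ) ≤ 32 ^ ds.length * 32),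
      mul_nonneg (sub_nonneg.2 h32) ha0, mul_nonneg (by positivity : (0 : ℝ) ≤ 32 ^ ds.length) hE0,
      mul_nonneg (by positivity : (0 : ℝ) ≤ 32 ^ ds.length) ha0]

end Vale.Agent.P330.Amp
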