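import Vale.Agent.P330.Word

/-! Algebra for `Merge`: blocks of four quarters, the new generators, words for products. -/

namespace Vale.Agent.P330.Amp

open Vale.Agent.Lib.H23 Vale.Agent.P325 Finset Matrix
open scoped BigOperators

variable {b β : ℕ}

/-! ### commutators -/

theorem comm_addBlk (x : Big b β) {L L' M : ℕ} (hL : L < b) (hM : M < b) (h1 : L ≠ M) (h2 : L' ≠ M)
    {a c : Mat β} (h3 : L = L' → c * a = 0) {A C : Big b β → Big b β}
    (hA : ∀ y, A y = addBlk y L (a *ᵥ blk y M)) (hC : ∀ y, C y = addBlk y M (c *ᵥ blk y L')) :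
    A (C (A (C x))) = addBlk x L ((a * c) *ᵥ blk x L') := by
  have e1 : blk (A (C x)) L' = blk x L' + if L = L' then a *ᵥ blk (C x) M else 0 := by
    rw [hA, blk_addBlk _ hL]
    split_ifs with h h' h'
    · rw [hC, blk_addBlk_ne' _ h1, h']
    · exact absurd h.symm h'
    · exact absurd h'.symm h
    · rw [hC, blk_addBlk_ne' _ h2, add_zero]
  have e2 : c *ᵥ blk (A (C x)) L' = c *ᵥ blk x L' := by
    rw [e1, mulVec_add]
    split_ifs with h
    · rw [mulVec_mulVec, h3 h, zero_mulVec, add_zero]
    · rw [mulVec_zero, add_zero]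
  have e3 : C (A (C x)) = addBlk x L (a *ᵥ blk x M + (a * c) *ᵥ blk x L') := by
    rw [hC (A _), e2, hA, hC, blk_addBlk_self _ hM, mulVec_add, mulVec_mulVec]
    refine big_ext fun m _ => ?_
    simp only [blk_addBlk _ hL, blk_addBlk _ hM, if_neg h1, if_neg h1.symm, if_true]
    by_cases e : m = M
    · simp only [e, if_true, if_neg h1.symm, vec_add_add_cancel]
    · simp only [if_neg e]
  rw [e3, hA, blk_addBlk_ne' _ h1.symm, addBlk_addBlk', vec_add_add_cancel']

/-- a word that adds the product of the generators `w` times block `L'` to block `L`. -/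
def prodW : List (Fin 7) → ℕ → ℕ → ℕ → List Op
  | [], L, L', _ => [.E L L' 0]
  | r :: w, L, L', M => (.E L M r :: prodW w M L' L) ++ (.E L M r :: prodW w M L' L)

theorem length_prodW (w : List (Fin 7)) (L L' M : ℕ) :
    (prodW w L L' M).length + 2 = 3 * 2 ^ w.length := by
  induction w generalizing L M with
  | nil => rfl
  | cons r w ih =>
    have := ih M L
    simp only [prodW, List.length_append, List.length_cons, pow_succ]
    omega

theorem mem_prodW {w : List (Fin 7)} {L L' M : ℕ} {o : Op} (h : o ∈ prodW w L L' M) :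
    ∃ l l' ρ, o = .E l l' ρ ∧ (l = L ∨ l = M) := by
  induction w generalizing L M with
  | nil => exact ⟨L, L', 0, by simpa [prodW] using h, Or.inl rfl⟩
  | cons r w ih =>
    simp only [prodW, List.mem_append, List.mem_cons, or_self] at h
    rcases h with h | h
    · exact ⟨L, M, r, h, Or.inl rfl⟩
    · obtain ⟨l, l', ρ, e, h'⟩ := ih h
      exact ⟨l, l', ρ, e, h'.symm⟩

theorem actBW_prodW {g : Fin 7 → Mat β} (g0 : g 0 = 1) (w : List (Fin 7)) {L L' M : ℕ}
    (hL : L < b) (hM : M < b) (h1 : L ≠ M) (h2 : L' ≠ M) (h3 : L ≠ L') (x : Big b β) :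
    actBW g (prodW w L L' M) x = addBlk x L ((w.map g).prod *ᵥ blk x L') := by
  induction w generalizing L M x with
  | nil => simp [prodW, actB_E g h3, g0]
  | cons r w ih =>
    simp only [prodW, actBW_append, actBW_cons, List.map_cons, List.prod_cons]
    exact comm_addBlk x hL hM h1 h2 (fun h => absurd h h3) (A := actB g (.E L M r))
      (C := actBW g (prodW w M L' L)) (actB_E g h1 r) (ih hM hL h1.symm h3.symm h2.symm)

/-! ### quarters -/

abbrev M4 (β : ℕ) : Type := Matrix (Fin 4) (Fin 4) (Mat β)

/-- block matrices as matrices. -/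
def bigH (β : ℕ) : M4 β →+* Mat (4 * β) :=
  (reindexRingEquiv (ZMod 2) finProdFinEquiv).toRingHom.comp
    (compRingEquiv (Fin 4) (Fin β) (ZMod 2)).toRingHom

theorem bigH_apply (F : M4 β) (j j' : Fin (4 * β)) :
    bigH β F j j' = F j.divNat j'.divNat j.modNat j'.modNat := rfl

/-- quarter number `q`. -/
def qt (q : Fin 4) (v : Vec (4 * β)) : Vec β := fun i => v (finProdFinEquiv (q, i))

/-- the vector with only one quarter. -/
def inQ (q : Fin 4) (v : Vec β) : Vec (4 * β) := fun j => if j.divNat = q then v j.modNat else 0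

theorem divNat_fin (q : Fin 4) (i : Fin β) : (finProdFinEquiv (q, i)).divNat = q :=
  congrArg Prod.fst (finProdFinEquiv.symm_apply_apply (q, i))

theorem modNat_fin (q : Fin 4) (i : Fin β) : (finProdFinEquiv (q, i)).modNat = i :=
  congrArg Prod.snd (finProdFinEquiv.symm_apply_apply (q, i))

theorem fin_divNat_modNat (j : Fin (4 * β)) : finProdFinEquiv (j.divNat, j.modNat) = j :=
  finProdFinEquiv.apply_symm_apply j

theorem qt_ext {v w : Vec (4 * β)} (h : ∀ q, qt q v = qt q w) : v = w :=
  funext fun j => by
    have := congrFun (h j.divNat) j.modNat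
    rwa [qt, qt, fin_divNat_modNat] at this

theorem qt_add (q : Fin 4) (v w : Vec (4 * β)) : qt q (v + w) = qt q v + qt q w := rfl

theorem qt_zero (q : Fin 4) : qt q (0 : Vec (4 * β)) = 0 := rfl

theorem qt_inQ (q q' : Fin 4) (v : Vec β) : qt q (inQ q' v) = if q = q' then v else 0 := by
  funext i
  simp only [qt, inQ, divNat_fin, modNat_fin]
  split_ifs <;> rfl

theorem qt_mulVec (F : M4 β) (v : Vec (4 * β)) (q : Fin 4) :
    qt q (bigH β F *ᵥ v) = ∑ q', F q q' *ᵥ qt q' v := by
  funext i
  simp only [qt, mulVec, dotProduct, Finset.sum_apply]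
  rw [← finProdFinEquiv.sum_comp, Fintype.sum_prod_type]
  simp only [bigH_apply, divNat_fin, modNat_fin]

theorem single_mulVec_big (q q' : Fin 4) (u : Mat β) (v : Vec (4 * β)) :
    bigH β (single q q' u) *ᵥ v = inQ q (u *ᵥ qt q' v) :=
  qt_ext fun p => by
    rw [qt_mulVec, qt_inQ, sum_eq_single q' (fun c _ hc => by simp [single, hc.symm]) (by simp)]
    by_cases h : p = q
    · simp [h]
    · simp [single, h, Ne.symm h]

theorem sum_inQ (v : Vec (4 * β)) : ∑ q, inQ q (qt q v) = v :=
  qt_ext fun p => by
    have : qt p (∑ q, inQ q (qt q v)) = ∑ q, qt p (inQ q (qt q v)) := by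
      funext i; simp only [qt, Finset.sum_apply]
    simp [this, qt_inQ]

theorem ofN_big {n : ℕ} (h : n < 2 ^ β) : ofN (4 * β) n = inQ 0 (ofN β n) :=
  qt_ext fun q => by
    rw [qt_inQ]
    funext i
    simp only [qt, ofN, finProdFinEquiv_apply_val]
    split_ifs with e
    · simp [e, ofN]
    · have : β ≤ i + β * q := by
        have : 1 ≤ q.val := Nat.pos_of_ne_zero fun h => e (Fin.ext h)
        nlinarith
      rw [Nat.testBit_lt_two_pow (h.trans_le (Nat.pow_le_pow_right (by omega) this))]
      rfl

/-! ### the new generators -/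

/-- the generators as block matrices. -/
def mg (g : Fin 7 → Mat β) : Fin 7 → M4 β :=
  ![1, scalar (Fin 4) (g 1), scalar (Fin 4) (g 2), of fun q q' => if q = q' + 1 then 1 else 0,
    of fun q q' => if q + 1 = q' then 1 else 0, single 0 0 1, diagonal ![g 3, g 4, g 5, g 6]]

def mgens (g : Fin 7 → Mat β) (ρ : Fin 7) : Mat (4 * β) := bigH β (mg g ρ)

theorem prod_mgens (g : Fin 7 → Mat β) (w : List (Fin 7)) :
    (w.map (mgens g)).prod = bigH β (w.map (mg g)).prod := by
  rw [map_list_prod, List.map_map]; rfl

theorem shift_single (g : Fin 7 → Mat β) (q q' : Fin 4) (u : Mat β) :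
    mg g 3 * single q q' u = single (q + 1) q' u := by
  ext1 i j
  rw [mul_apply, sum_eq_single q (fun c _ hc => by simp [single, hc.symm]) (by simp)]
  simp only [mg, single, of_apply, Matrix.cons_val, true_and]
  by_cases h : i = q + 1 <;> by_cases h' : q' = j <;> simp [h, h', eq_comm]

theorem single_shift (g : Fin 7 → Mat β) (q q' : Fin 4) (u : Mat β) :
    single q q' u * mg g 4 = single q (q' + 1) u := by
  ext1 i j
  rw [mul_apply, sum_eq_single q' (fun c _ hc => by simp [single, hc.symm]) (by simp)]
  simp only [mg, single, of_apply, Matrix.cons_val, and_true]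
  by_cases h : q = i <;> by_cases h' : q' + 1 = j <;> simp [h, h']

/-- generators with product the matrix unit `q, q'`. -/
def unitW (q q' : Fin 4) : List (Fin 7) := List.replicate q 3 ++ 5 :: List.replicate q' 4

theorem prod_unitW (g : Fin 7 → Mat β) (q q' : Fin 4) :
    ((unitW q q').map (mg g)).prod = single q q' 1 := by
  have h1 : ∀ (n : ℕ) (p : Fin 4), mg g 3 ^ n * single 0 p 1 = single (Fin.ofNat 4 n) p 1 := by
    intro n p
    induction n with
    | zero => simp
    | succ n ih =>
      rw [pow_succ', mul_assoc, ih, shift_single]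
      congr 1
      ext; simp [Fin.val_add]
  have h2 : ∀ n : ℕ, mg g 5 * mg g 4 ^ n = single 0 (Fin.ofNat 4 n) 1 := by
    intro n
    induction n with
    | zero => simp [mg]
    | succ n ih =>
      rw [pow_succ, ← mul_assoc, ih, single_shift]
      congr 1
      ext; simp [Fin.val_add]
  simp only [unitW, List.map_append, List.map_cons, List.map_replicate, List.prod_append,
    List.prod_cons, List.prod_replicate, h2, h1, Fin.ofNat_val_eq_self]

/-- generators with product `g ρ` at the diagonal place `q`. -/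
def diagW (q : Fin 4) (ρ : Fin 7) : List (Fin 7) :=
  if ρ.val < 3 then unitW q q ++ [ρ]
  else unitW q (Fin.ofNat 4 (ρ - 3)) ++ 6 :: unitW (Fin.ofNat 4 (ρ - 3)) q

theorem single_mul_diag (q q' : Fin 4) (u : Mat β) (d : Fin 4 → Mat β) :
    single q q' u * diagonal d = single q q' (u * d q') := by
  ext1 i j
  rw [mul_diagonal]
  simp only [single, of_apply]
  split_ifs with h
  · rw [h.2]
  · rw [zero_mul]

theorem prod_diagW {g : Fin 7 → Mat β} (g0 : g 0 = 1) (q : Fin 4) (ρ : Fin 7) :
    ((diagW q ρ).map (mg g)).prod = single q q (g ρ) := by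
  have h6 : mg g 6 = diagonal ![g 3, g 4, g 5, g 6] := rfl
  unfold diagW
  split_ifs with h
  · rw [List.map_append, List.prod_append, prod_unitW]
    fin_cases ρ <;> simp at h <;> simp [mg, g0, scalar_apply, single_mul_diag]
  · rw [List.map_append, List.prod_append, List.map_cons, List.prod_cons, prod_unitW, prod_unitW,
      ← mul_assoc, h6, single_mul_diag, single_mul_single_same, one_mul, mul_one]
    fin_cases ρ <;> simp at h <;> rfl

theorem length_unitW (q q' : Fin 4) : (unitW q q').length ≤ 7 := by
  simp only [unitW, List.length_append, List.length_cons, List.length_replicate]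
  omega

theorem length_diagW (q : Fin 4) (ρ : Fin 7) : (diagW q ρ).length ≤ 15 := by
  have h1 := length_unitW q q
  have h2 := length_unitW q (Fin.ofNat 4 (ρ - 3))
  have h3 := length_unitW (Fin.ofNat 4 (ρ - 3)) q
  unfold diagW
  split_ifs <;> simp only [List.length_append, List.length_cons, List.length_nil] <;> omega

theorem good_mgens {k0 : ℕ} {g : Fin 7 → Mat β} (h : GoodG k0 g) : GoodG k0 (mgens g) := by
  have h1 : 1 < 2 ^ β := Nat.one_lt_two_pow (by have := h.one_le; have := h.le; omega)
  let Ψ : Mat β →+* Mat (4 * β) := (bigH β).comp (scalar (Fin 4))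
  have hΨ : ∀ (u : Mat β) (v : Vec β), Ψ u *ᵥ inQ 0 v = inQ 0 (u *ᵥ v) := fun u v =>
    qt_ext fun q => by
      change qt q (bigH β (scalar (Fin 4) u) *ᵥ _) = _
      rw [qt_mulVec, sum_eq_single q (fun c _ hc => by simp [hc.symm]) (by simp), qt_inQ, qt_inQ]
      split_ifs <;> simp
  refine ⟨h.one_le, h.le.trans (by omega), map_one _, ?_, fun a h0 ha => ?_, fun s hs => ?_,
    fun φ hφ => ?_⟩
  · change Ψ (g 1) * Ψ (g 2) = 1
    rw [← map_mul, h.g12, map_one]
  · have : alpha (mgens g 1) k0 a = Ψ (alpha (g 1) k0 a) := by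
      unfold alpha
      rw [map_sum]
      refine sum_congr rfl fun s _ => ?_
      split_ifs
      · rw [map_pow]; rfl
      · rw [map_zero]
    rw [this]
    exact (h.unit a h0 ha).map Ψ
  · change Ψ (g 1) ^ s *ᵥ _ = _
    rw [← map_pow, ofN_big h1, hΨ, h.pw s hs,
      ofN_big (Nat.pow_lt_pow_right (by omega) (hs.trans_le h.le))]
  · have hq : ∀ q v, φ (inQ q v) = 0 := by
      intro q
      let ι : Vec β →ₗ[ZMod 2] Vec (4 * β) :=
        { toFun := inQ q
          map_add' := fun v w => funext fun j => by
            simp only [inQ, Pi.add_apply]; split_ifs <;> simp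
          map_smul' := fun c v => funext fun j => by simp [inQ] }
      have := h.spans (φ.comp ι) fun w => by
        have e : ((w.flatMap (diagW q) ++ unitW q 0).map (mg g)).prod =
            single q 0 (w.map g).prod := by
          induction w with
          | nil => simp [prod_unitW]
          | cons r w ih =>
            rw [List.flatMap_cons, List.append_assoc, List.map_append, List.prod_append, ih,
              prod_diagW h.g0, single_mul_single_same, List.map_cons, List.prod_cons]
        have := hφ (w.flatMap (diagW q) ++ unitW q 0)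
        rwa [prod_mgens, e, single_mulVec_big, ofN_big h1, qt_inQ, if_pos rfl] at this
      exact fun v => LinearMap.congr_fun this v
    refine LinearMap.ext fun v => ?_
    rw [← sum_inQ v, map_sum]
    simp [hq]

/-! ### the words -/

/-- adds `g ρ` times quarter `q'` of block `L'` to quarter `q` of block `L`. -/
def mrgE (q q' : Fin 4) (ρ : Fin 7) (L L' M M' : ℕ) : List Op :=
  (prodW (diagW q ρ) L M M' ++ prodW (unitW q q') M L' M') ++
    (prodW (diagW q ρ) L M M' ++ prodW (unitW q q') M L' M')

/-- flips the first bit of quarter `q` of block `L`. -/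
def mrgN (q : Fin 4) (L M M' : ℕ) : List Op :=
  (prodW (unitW q 0) L M M' ++ [.N M]) ++ (prodW (unitW q 0) L M M' ++ [.N M])

theorem actBW_mrgE {g : Fin 7 → Mat β} (g0 : g 0 = 1) {q q' : Fin 4} (ρ : Fin 7) {L L' M M' : ℕ}
    (h1 : L < M) (h2 : L' < M) (h3 : M < M') (h4 : M' < b) (h : L = L' → q ≠ q')
    (x : Big b (4 * β)) :
    actBW (mgens g) (mrgE q q' ρ L L' M M') x =
      addBlk x L (inQ q (g ρ *ᵥ qt q' (blk x L'))) := by
  have m0 : mgens g 0 = 1 := map_one _
  simp only [mrgE, actBW_append]
  rw [comm_addBlk x (L := L) (L' := L') (M := M) (by omega) (by omega) (by omega) (by omega)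
    (a := bigH β (single q q (g ρ))) (c := bigH β (single q q' 1))
    (A := actBW (mgens g) (prodW (diagW q ρ) L M M'))
    (C := actBW (mgens g) (prodW (unitW q q') M L' M')) (fun e => by
      rw [← map_mul, single_mul_single_of_ne (h := (h e).symm), map_zero])
    (fun y => by rw [actBW_prodW m0 _ (by omega) (by omega) (by omega) (by omega) (by omega),
      prod_mgens, prod_diagW g0])
    (fun y => by rw [actBW_prodW m0 _ (by omega) (by omega) (by omega) (by omega) (by omega),
      prod_mgens, prod_unitW]),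
    ← map_mul, single_mul_single_same, mul_one, single_mulVec_big]

theorem actBW_mrgN {g : Fin 7 → Mat β} (hβ : 1 ≤ β) (q : Fin 4) {L M M' : ℕ}
    (h1 : L < M) (h3 : M < M') (h4 : M' < b) (x : Big b (4 * β)) :
    actBW (mgens g) (mrgN q L M M') x = addBlk x L (inQ q (ofN β 1)) := by
  have m0 : mgens g 0 = 1 := map_one _
  have hL : L < b := by omega
  have hM : M < b := by omega
  have hne : L ≠ M := by omega
  have e : ∀ y, actBW (mgens g) (prodW (unitW q 0) L M M') y =
      addBlk y L (bigH β (single q 0 1) *ᵥ blk y M) := fun y => by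
    rw [actBW_prodW m0 _ hL h4 (by omega) (by omega) hne, prod_mgens, prod_unitW]
  have e' : inQ q (ofN β 1) = bigH β (single q 0 1) *ᵥ ofN (4 * β) 1 := by
    rw [single_mulVec_big, ofN_big (Nat.one_lt_two_pow (by omega)), qt_inQ, if_pos rfl, one_mulVec]
  simp only [mrgN, actBW_append, actBW_cons, actBW_nil, e, actB_N, e']
  refine big_ext fun m _ => ?_
  simp only [blk_addBlk _ hL, blk_addBlk _ hM, if_neg hne, if_neg hne.symm, if_true, mulVec_add,
    vec_add_add_cancel]
  split_ifs
  · rw [add_assoc, vec_add_add_cancel']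
  · subst m; rfl
  · rfl

theorem length_mrgE (q q' : Fin 4) (ρ : Fin 7) (L L' M M' : ℕ) :
    (mrgE q q' ρ L L' M M').length + 2 ≤ 2 ^ 18 := by
  have h1 := length_prodW (diagW q ρ) L M M'
  have h2 := length_prodW (unitW q q') M L' M'
  have h3 := Nat.pow_le_pow_right (by omega : 0 < 2) (length_diagW q ρ)
  have h4 := Nat.pow_le_pow_right (by omega : 0 < 2) (length_unitW q q')
  simp only [mrgE, List.length_append]
  omega

theorem length_mrgN (q : Fin 4) (L M M' : ℕ) : (mrgN q L M M').length + 2 ≤ 2 ^ 18 := by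
  have h1 := length_prodW (unitW q 0) L M M'
  have h4 := Nat.pow_le_pow_right (by omega : 0 < 2) (length_unitW q 0)
  simp only [mrgN, List.length_append, List.length_cons, List.length_nil]
  omega

end Vale.Agent.P330.Amp
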