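import Vale.Agent.P330.Sim
import Vale.Agent.P330.MergeAlg

/-! Four blocks are merged into one: old block `l` is quarter `l % 4` of new block `l / 4`; two
helper blocks and one track block are added (algebra in `MergeAlg.lean`). -/

namespace Vale.Agent.P330.Amp

open Vale.Agent.Lib.H23 Vale.Agent.P333 Vale.Agent.P325 Finset Matrix
open scoped BigOperators

/-- old addresses as new addresses. -/
def mUp (G : Inst 2) (a : G.A) : Addr (G.b / 4 + 4) (4 * G.β) 0 :=
  (fun L j => blk a.1 (4 * L + j.divNat) j.modNat, 0)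

/-- the old address inside a new address. -/
def mDn (G : Inst 2) (c : Addr (G.b / 4 + 4) (4 * G.β) 0) : G.A :=
  (fun l => qt (Fin.ofNat 4 l) (blk c.1 (l / 4)), 0)

/-- the words. -/
def mWd (b : ℕ) : Op → List Op
  | .E l l' ρ => if l = l' then [] else
      mrgE (Fin.ofNat 4 l) (Fin.ofNat 4 l') ρ (l / 4) (l' / 4) (b / 4 + 1) (b / 4 + 2)
  | .N l => mrgN (Fin.ofNat 4 l) (l / 4) (b / 4 + 1) (b / 4 + 2)
  | .Tr _ => []

/-- the simulation data. -/
abbrev mrgD (G : Inst 2) : SimD G where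
  b := G.b / 4 + 4
  β := 4 * G.β
  lam := 18
  h := G.b / 4 + 3
  gens := mgens G.gens
  up := mUp G
  dn := mDn G
  wd := mWd G.b

variable {G : Inst 2}

theorem qt_blk_up (a : G.A) (L : ℕ) (q : Fin 4) :
    qt q (blk (mUp G a).1 L) = blk a.1 (4 * L + q) := by
  by_cases h : L < G.b / 4 + 4
  · rw [blk_of_lt _ h]
    funext i
    simp only [qt, mUp, divNat_fin, modNat_fin]
  · rw [blk_of_le _ (not_lt.mp h), blk_of_le _ (by omega)]
    rfl

theorem blk_dn (c : Addr (G.b / 4 + 4) (4 * G.β) 0) {l : ℕ} (h : l < G.b) :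
    blk (mDn G c).1 l = qt (Fin.ofNat 4 l) (blk c.1 (l / 4)) := blk_of_lt _ h

theorem up_addBlk {l : ℕ} (h : l < G.b) (v : Vec G.β) (z : Vec G.σ) :
    (mUp G (addBlk 0 l v, z)).1 = addBlk 0 (l / 4) (inQ (Fin.ofNat 4 l) v) := by
  refine big_ext fun L _ => qt_ext fun q => ?_
  rw [qt_blk_up, blk_addBlk _ h, blk_addBlk _ (show l / 4 < G.b / 4 + 4 by omega)]
  simp only [blk_zero, zero_add]
  by_cases e : L = l / 4
  · rw [if_pos e, qt_inQ]
    refine if_congr ?_ rfl rfl
    rw [Fin.ext_iff, Fin.val_ofNat]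
    omega
  · rw [if_neg e, if_neg (by omega)]
    rfl

theorem addBlk_add_self {b β : ℕ} (x : Big b β) (l : ℕ) (v : Vec β) :
    addBlk x l v + x = addBlk 0 l v := by
  rw [addBlk_eq_add, add_right_comm, show x + x = 0 from funext fun _ => vec_add_self _, zero_add]

theorem mrgD_ok (hG : G.Good) (hσ : G.σ = 0) : (mrgD G).OK := by
  have hβ : 1 ≤ G.β := hG.one_le.trans hG.le
  have hs : ∀ z z' : Vec G.σ, z = z' := fun z z' => funext fun i => by have := i.2; omega
  have up0 : (mUp G 0).1 = 0 := big_ext fun L _ => qt_ext fun q => by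
    rw [qt_blk_up, Prod.fst_zero, blk_zero, blk_zero]; rfl
  have av : ∀ {w L L' M o}, o ∈ prodW w L L' M → L < G.b / 4 + 3 → M < G.b / 4 + 3 →
      o.Avoid (G.b / 4 + 3) := by
    intro w L L' M o h h1 h2
    obtain ⟨l, l', ρ, rfl, h⟩ := mem_prodW h
    change l ≠ _
    omega
  refine ⟨show 1 ≤ 4 * G.β by omega, show G.b / 4 + 3 < G.b / 4 + 4 by omega, fun a a' => ?_,
    fun c c' => ?_, fun a => ?_, fun a => ?_, fun v => ?_, fun o _ => ?_, fun o ho o' h => ?_,
    fun o ho c => ?_⟩ <;> dsimp only at *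
  · refine Prod.ext (big_ext fun L _ => qt_ext fun q => ?_) (Subsingleton.elim _ _)
    rw [Prod.fst_add, blk_add, qt_add, qt_blk_up, qt_blk_up, qt_blk_up, Prod.fst_add, blk_add]
  · refine Prod.ext (big_ext fun l hl => ?_) (hs _ _)
    rw [Prod.fst_add, blk_add, blk_dn _ hl, blk_dn _ hl, blk_dn _ hl, Prod.fst_add, blk_add, qt_add]
  · refine Prod.ext (big_ext fun l hl => ?_) (hs _ _)
    rw [blk_dn _ hl, qt_blk_up, Fin.val_ofNat, Nat.div_add_mod]
  · refine qt_ext fun q => ?_
    rw [qt_blk_up, blk_of_le _ (show G.b ≤ 4 * (G.b / 4 + 3) + q by omega)]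
    rfl
  · refine Prod.ext (big_ext fun l hl => ?_) (hs _ _)
    rw [blk_dn _ hl, blk_addBlk_ne' _ (show l / 4 ≠ G.b / 4 + 3 by omega), blk_zero, Prod.fst_zero,
      blk_zero]
    rfl
  · cases o with
    | E l l' ρ =>
      simp only [mWd]
      split_ifs
      · simp
      · exact length_mrgE ..
    | N l => exact length_mrgN ..
    | Tr v => simp [mWd]
  · cases o with
    | E l l' ρ =>
      have h1 : l < G.b := ho.1
      simp only [mWd] at h
      split_ifs at h
      · simp at h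
      · simp only [mrgE, List.mem_append, or_self] at h
        rcases h with h | h <;> exact av h (by omega) (by omega)
    | N l =>
      have h1 : l < G.b := ho
      simp only [mWd, mrgN, List.mem_append, or_self, List.mem_singleton] at h
      rcases h with h | rfl
      · exact av h (by omega) (by omega)
      · change _ ≠ _
        omega
    | Tr v => simp [mWd] at h
  · refine Prod.ext ?_ (Subsingleton.elim _ _)
    rw [actW_fst, Prod.fst_add]
    cases o with
    | E l l' ρ =>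
      obtain ⟨h1, h2⟩ : l < G.b ∧ l' < G.b := ho
      by_cases e : l = l'
      · have e1 : act G.gens (.E l l' ρ) (mDn G c) = mDn G c :=
          Prod.ext (if_pos e) rfl
        rw [e1, addr_add_self, up0, add_zero]
        simp only [mWd, if_pos e, actBW_nil]
      · have e1 : act G.gens (.E l l' ρ) (mDn G c) + mDn G c =
            (addBlk 0 l (G.gens ρ *ᵥ blk (mDn G c).1 l'), 0) :=
          Prod.ext (by rw [← addBlk_add_self, ← actB_E G.gens e]; rfl) (hs _ _)
        rw [e1, up_addBlk h1, ← addBlk_eq_add, blk_dn _ h2]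
        simp only [mWd, if_neg e]
        refine actBW_mrgE hG.g0 ρ (by omega) (by omega) (by omega) (by omega) (fun h h' => ?_) _
        rw [Fin.ext_iff, Fin.val_ofNat, Fin.val_ofNat] at h'
        omega
    | N l =>
      have h1 : l < G.b := ho
      have e1 : act G.gens (.N l) (mDn G c) + mDn G c = (addBlk 0 l (ofN G.β 1), 0) :=
        Prod.ext (addBlk_add_self _ _ _) (hs _ _)
      rw [e1, up_addBlk h1, ← addBlk_eq_add]
      exact actBW_mrgN hβ _ (by omega) (by omega) (show G.b / 4 + 2 < G.b / 4 + 4 by omega) _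
    | Tr v =>
      have e1 : act G.gens (.Tr v) (mDn G c) = mDn G c := Prod.ext rfl (hs _ _)
      rw [e1, addr_add_self, up0, add_zero]
      rfl

/-! ### polynomial time -/

section pt

variable {X : Type} [Enc X]

theorem pt_prodW (w : List (Fin 7)) {L L' M : X → ℕ} (hL : PT L) (hL' : PT L') (hM : PT M) :
    PT fun x => prodW w (L x) (L' x) (M x) := by
  induction w generalizing L M with
  | nil => exact PT.cons (pt_opE hL hL' 0) (PT.const _)
  | cons r w ih =>
    exact PT.append (PT.cons (pt_opE hL hM r) (ih hM hL)) (PT.cons (pt_opE hL hM r) (ih hM hL))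

theorem pt_quarter {l : X → ℕ} (hl : PT l) : PT fun x => (⟨Fin.ofNat 4 (l x)⟩ : Code (Fin 4)) :=
  pt_codeFin (pt_mod hl (PT.const 4))

/-- the blocks of the new generators. -/
def kind : Fin 7 → Fin 4 → Fin 4 → Option (Fin 7) :=
  ![fun q q' => if q = q' then some 0 else none, fun q q' => if q = q' then some 1 else none,
    fun q q' => if q = q' then some 2 else none, fun q q' => if q = q' + 1 then some 0 else none,
    fun q q' => if q + 1 = q' then some 0 else none,
    fun q q' => if 0 = q ∧ 0 = q' then some 0 else none,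
    fun q q' => if q = q' then some (![3, 4, 5, 6] q) else none]

theorem mg_kind {β : ℕ} {g : Fin 7 → Mat β} (g0 : g 0 = 1) (ρ : Fin 7) (q q' : Fin 4) :
    mg g ρ q q' = (kind ρ q q').elim 0 g := by
  fin_cases ρ <;> simp only [mg, kind, Fin.reduceFinMk, Matrix.cons_val, one_apply, scalar_apply,
    diagonal_apply, of_apply, single] <;> split_ifs <;> simp only [Option.elim, g0]
  fin_cases q <;> rfl

end pt

theorem merge : MergeStmt := by
  have hs : PT fun x : MrgIn => x.1 := pt_val PT.id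
  have hb : PU fun x : MrgIn => x.1.b / 4 + 4 :=
    ((pu_b hs).of_le (PT.div (pu_b hs).pt (PT.const 4)) fun _ => Nat.div_le_self _ _).add
      (PU.const 4)
  have hβ : PU fun x : MrgIn => 4 * x.1.β := (PU.const 4).mul (pu_β hs)
  have hb4 : PT fun x : MrgIn => x.1.b / 4 := PT.div (pu_b hs).pt (PT.const 4)
  refine ⟨2 ^ 20, fun x => (mrgD x.1).inst, fun x => ⟨good_mgens x.2.1, rfl, rfl, rfl,
    show x.1.b ≤ 4 * (x.1.b / 4 + 4) by omega, show x.1.b / 4 + 4 ≤ _ by omega,
    show 2 ^ (x.1.τ + 18) ≤ _ by rw [pow_add]; omega⟩,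
    (sim (src := fun x : MrgIn => x.1) (fun x => mrgD x.1) (fun x => mrgD_ok x.2.1 x.2.2.1) hs hb hβ
      (PU.const (2 ^ 18)) ?_ (PT.add hb4 (PT.const 3)) ?_ ?_ ?_ ?_).mono fun x v' v _ _ h => ?_⟩
  · refine ((pu_nA hs).pow 17).of_le (pt_two_pow (hb.mul hβ)) fun x => ?_
    have h1 := x.2.2.2
    change 2 ^ ((x.1.b / 4 + 4) * (4 * x.1.β)) ≤ _
    rw [Inst.nA, ← pow_mul]
    refine Nat.pow_le_pow_right (by omega) ?_
    have h2 : 4 * (x.1.b / 4 + 4) ≤ 17 * x.1.b := by omega
    nlinarith [Nat.mul_le_mul_right x.1.β h2]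
  · have hx : PT fun p : (MrgIn × ℕ) × ℕ => p.1.1.1 := hs.comp PT.fst'.fst
    have hi : PT fun p : (MrgIn × ℕ) × ℕ => p.1.2 := PT.fst'.snd
    have hj : PT fun p : (MrgIn × ℕ) × ℕ => p.2 := PT.snd'
    have hn := (pu_β hx).pt
    refine pt_gtab_of hβ (f := fun x ρ i j =>
      (kind ρ (Fin.ofNat 4 (i / x.1.β)) (Fin.ofNat 4 (j / x.1.β))).elim false
        fun ρ' => gent x.1 ρ' (i % x.1.β) (j % x.1.β)) (fun ρ => ?_) fun x ρ i j => ?_
    · refine pt_caseCode (g := fun (k : Option (Fin 7)) (p : (MrgIn × ℕ) × ℕ) => k.elim false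
        fun ρ' => gent p.1.1.1 ρ' (p.1.2 % p.1.1.1.β) (p.2 % p.1.1.1.β))
        (pt_mk2 (kind ρ) (pt_quarter (PT.div hi hn)) (pt_quarter (PT.div hj hn))) fun k => ?_
      cases k with
      | none => exact PT.const _
      | some ρ' => exact pt_gent hx ρ' (pt_mod hi hn) (pt_mod hj hn)
    · have e : ∀ i : Fin (4 * x.1.β), Fin.ofNat 4 (i / x.1.β) = i.divNat := fun i =>
        Fin.ofNat_val_eq_self i.divNat
      change decide (mg x.1.gens ρ (Fin.divNat i) (Fin.divNat j) (Fin.modNat i) (Fin.modNat j) = 1)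
        = _
      rw [mg_kind x.2.1.g0, e i, e j]
      cases kind ρ (Fin.divNat i) (Fin.divNat j) with
      | none => simp
      | some ρ' => exact (gent_eq x.1 ρ' (Fin.modNat i) (Fin.modNat j)).symm
  · refine pt_opCases (fE := fun (p : MrgIn × Op) l l' ρ => if l = l' then [] else
        mrgE (Fin.ofNat 4 l) (Fin.ofNat 4 l') ρ (l / 4) (l' / 4) (p.1.1.b / 4 + 1) (p.1.1.b / 4 + 2))
      (fN := fun p l => mrgN (Fin.ofNat 4 l) (l / 4) (p.1.1.b / 4 + 1) (p.1.1.b / 4 + 2))
      (fT := fun _ _ => []) PT.snd' (fun ρ => ?_) ?_ (PT.const _)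
    · have hl : PT fun p : (MrgIn × Op) × ℕ × ℕ => p.2.1 := PT.snd'.fst
      have hl' : PT fun p : (MrgIn × Op) × ℕ × ℕ => p.2.2 := PT.snd'.snd
      have hB : PT fun p : (MrgIn × Op) × ℕ × ℕ => p.1.1.1.b / 4 := hb4.comp PT.fst'.fst
      have h1 := PT.div hl (PT.const 4)
      have h2 := PT.div hl' (PT.const 4)
      have h3 := PT.add hB (PT.const 1)
      have h4 := PT.add hB (PT.const 2)
      refine pt_ite (pt_decEq hl hl') (PT.const _) (pt_caseCode
        (g := fun (q : Fin 4) (p : (MrgIn × Op) × ℕ × ℕ) => mrgE q (Fin.ofNat 4 p.2.2) ρ (p.2.1 / 4)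
          (p.2.2 / 4) (p.1.1.1.b / 4 + 1) (p.1.1.1.b / 4 + 2)) (pt_quarter hl) fun q =>
        pt_caseCode (g := fun (q' : Fin 4) (p : (MrgIn × Op) × ℕ × ℕ) => mrgE q q' ρ (p.2.1 / 4)
          (p.2.2 / 4) (p.1.1.1.b / 4 + 1) (p.1.1.1.b / 4 + 2)) (pt_quarter hl') fun q' => ?_)
      have h5 := PT.append (pt_prodW (diagW q ρ) h1 h3 h4) (pt_prodW (unitW q q') h3 h2 h4)
      exact PT.append h5 h5
    · have hl : PT fun p : (MrgIn × Op) × ℕ => p.2 := PT.snd'
      have hB : PT fun p : (MrgIn × Op) × ℕ => p.1.1.1.b / 4 := hb4.comp PT.fst'.fst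
      have h1 := PT.div hl (PT.const 4)
      have h3 := PT.add hB (PT.const 1)
      have h4 := PT.add hB (PT.const 2)
      refine pt_caseCode (g := fun (q : Fin 4) (p : (MrgIn × Op) × ℕ) => mrgN q (p.2 / 4)
        (p.1.1.1.b / 4 + 1) (p.1.1.1.b / 4 + 2)) (pt_quarter hl) fun q => ?_
      have h5 := PT.append (pt_prodW (unitW q 0) h1 h3 h4) (PT.cons (pt_opN h3) (PT.const []))
      exact PT.append h5 h5
  · have hx : PT fun p : (MrgIn × ℕ) × ℕ => p.1.1.1 := hs.comp PT.fst'.fst
    refine pt_idx (((PU.const 0).add (hb.mul hβ)).comp PT.fst')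
      (f := fun (p : MrgIn × ℕ) j => decide (j / p.1.1.β < p.1.1.b) && p.2.testBit (p.1.1.σ + j))
      (PT.and (pt_decLt (PT.div PT.snd' (pu_β hx).pt) (pu_b hx).pt)
        (pt_testBit PT.fst'.snd (PT.add (pu_σ hx).pt PT.snd'))) fun p j hj => ?_
    rcases pos_cases hj with ⟨i, -⟩ | ⟨L, J, rfl⟩
    · exact i.elim0
    · obtain ⟨⟨G, hG⟩, m⟩ := p
      have hβ : 0 < G.β := hG.1.one_le.trans hG.1.le
      have e : 0 + L * (4 * G.β) + J = (4 * L + J / G.β) * G.β + J % G.β := by
        have := Nat.div_add_mod' J G.β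
        change 0 + L * (4 * G.β) + J = _
        nlinarith
      have e' : (0 + L * (4 * G.β) + J) / G.β = 4 * L + J / G.β := by
        rw [e, add_comm, Nat.add_mul_div_right _ _ hβ, Nat.div_eq_of_lt (Nat.mod_lt _ hβ), zero_add]
      rw [bitA_blk]
      dsimp only
      rw [e', e, ← add_assoc]
      change decide (blk (unidx G.b G.β G.σ m).1 (4 * L + J / G.β) (Fin.modNat J) = 1) = _
      by_cases h : 4 * L.val + J.val / G.β < G.b
      · rw [blk_of_lt _ h, decide_eq_true h, Bool.true_and]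
        exact decide_b2 _
      · rw [blk_of_le _ (not_lt.mp h), decide_eq_false h]
        simp
  · have hx : PT fun p : MrgIn × ℕ => p.1.1 := hs.comp PT.fst'
    refine pt_idx ((pu_σ hx).add ((pu_b hx).mul (pu_β hx)))
      (f := fun (p : MrgIn × ℕ) j => p.2.testBit (j - p.1.1.σ))
      (pt_testBit PT.fst'.snd (PT.sub PT.snd' ((pu_σ hx).pt.comp PT.fst'))) fun p j hj => ?_
    obtain ⟨⟨G, hG⟩, m⟩ := p
    rcases pos_cases hj with ⟨i, -⟩ | ⟨l, i, rfl⟩
    · have h1 : i.val < G.σ := i.2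
      have := hG.2.1
      omega
    · have hl : l.val < G.b := l.2
      rw [bitA_blk]
      change decide (qt (Fin.ofNat 4 l) (blk (unidx (G.b / 4 + 4) (4 * G.β) 0 m).1 (l / 4)) i = 1) = _
      rw [blk_of_lt _ (show l.val / 4 < G.b / 4 + 4 by omega)]
      refine (decide_b2 _).trans ?_
      congr 1
      have := Nat.div_add_mod' l 4
      simp only [finProdFinEquiv_apply_val, Fin.val_ofNat]
      rw [add_assoc G.σ, Nat.add_sub_cancel_left]
      nlinarith
  · refine h.trans (le_of_eq ?_)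
    change (4 : ℝ) * 2 ^ 18 * v' = _
    push_cast
    ring

end Vale.Agent.P330.Amp
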