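import Vale.Agent.P330.Prog
import Vale.Agent.P330.Code

/-! Pure data movement: conditional moves, the counter, the exchange of fields (task Move).
Plan. Induction on the lists (from the end: `List.range_succ`, `runs_append`, `runsB_append`).
The fault set is transported along the intermediate maps, which are bijections (involutions:
the condition of a step does not see the bit that is flipped). `tick_spec`: bit `i` flips iff the
lower bits vanish; the last instruction (highest bit) is applied first to the reading cell. -/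

namespace Vale.Agent.P330.Amp

open Vale.Agent.Lib.H23 Vale.Agent.P333 Vale.Agent.P325 Finset Matrix
open scoped BigOperators

variable {σ κ u : ℕ} {orc : ℕ → Vec σ → Bool} {S : Vec σ → Prop} {X Y : Vec σ → Val}

theorem pullB_append {B : Type} (ac : Op → B → B) (z : Vec σ) (ms ms' : List Mv) (x : B) :
    pullB ac orc z (ms ++ ms') x = pullB ac orc z ms (pullB ac orc z ms' x) := List.foldr_append

theorem pullB_cons {B : Type} (ac : Op → B → B) (z : Vec σ) (m : Mv) (ms : List Mv) (x : B) :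
    pullB ac orc z (m :: ms) x =
      if m.2.ev orc z then ac m.1 (pullB ac orc z ms x) else pullB ac orc z ms x := rfl

theorem pullB_nil {B : Type} (ac : Op → B → B) (z : Vec σ) (x : B) :
    pullB ac orc z [] x = x := rfl

theorem pullB_reverse {B : Type} {ac : Op → B → B} (hac : ∀ o x, ac o (ac o x) = x) (z : Vec σ)
    (ms : List Mv) (x : B) : pullB ac orc z ms.reverse (pullB ac orc z ms x) = x := by
  induction ms generalizing x with
  | nil => rfl
  | cons m ms ih =>
    rw [List.reverse_cons, pullB_append, pullB_cons, pullB_nil, pullB_cons]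
    by_cases h : m.2.ev orc z = true
    · rw [if_pos h, if_pos h, hac, ih]
    · rw [if_neg h, if_neg h, ih]

theorem expect_pullB {B : Type} [Fintype B] {ac : Op → B → B} (hac : ∀ o x, ac o (ac o x) = x)
    (z : Vec σ) (ms : List Mv) (f : B → ℝ) : (𝔼 x, f (pullB ac orc z ms x)) = 𝔼 x, f x := by
  refine Fintype.expect_bijective _ ?_ _ _ fun _ => rfl
  exact Finite.injective_iff_bijective.mp
    (Function.LeftInverse.injective (pullB_reverse (orc := orc) hac z ms))

theorem mov_spec {B : Type} [Fintype B] {ac : Op → B → B} (hac : ∀ o x, ac o (ac o x) = x)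
    {orcB : B → ℕ → Vec σ → Bool} {S : B → Vec σ → Prop} {X Y : B → Vec σ → Val} {ms : List Mv}
    (ho : ∀ m ∈ ms, ∀ x z, m.2.ev (orcB x) z = m.2.ev orc z) (hr : RunsB κ ac orcB S (mv ms) X Y) :
    ∃ S' : B → Vec σ → Prop, (∀ z, (𝔼 x, ind (S' x z)) ≤ ms.length * 𝔼 x, ind (S x z)) ∧
      ∀ x z γ, ¬ S' x z → X (pullB ac orc z ms x) z = pv γ → Y x z = pv γ := by
  induction ms generalizing X with
  | nil =>
    refine ⟨fun _ _ => False, fun z => by simp [ind], fun x z γ _ h => ?_⟩
    have e : X = Y := hr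
    rw [← e]; exact h
  | cons m ms ih =>
    obtain ⟨Z, h1, h2⟩ := hr
    obtain ⟨S'', b1, b2⟩ := ih (fun m' hm => ho m' (List.mem_cons_of_mem _ hm)) h2
    refine ⟨fun x z => S'' x z ∨ S (pullB ac orc z ms x) z, fun z => ?_, fun x z γ hS hX => ?_⟩
    · have e := expect_pullB (orc := orc) hac z ms fun x => ind (S x z)
      calc _ ≤ 𝔼 x, (ind (S'' x z) + ind (S (pullB ac orc z ms x) z)) :=
            expect_le_expect fun x _ => ind_or_le _ _
        _ = (𝔼 x, ind (S'' x z)) + 𝔼 x, ind (S x z) := by rw [expect_add_distrib, e]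
        _ ≤ _ := by
            have := b1 z
            simp only [List.length_cons, Nat.cast_add, Nat.cast_one]
            linarith
    · rw [not_or] at hS
      refine b2 x z γ hS.1 ((h1 _ z hS.2).2 m.1 m.2 rfl γ ?_)
      rw [ho m List.mem_cons_self]
      exact hX

/-- a chain of copying instructions. -/
theorem runs_copy {P : Set ℕ} {z0 : Vec σ} (l : List (Ins × (Vec σ → Vec σ)))
    (h1 : ∀ a ∈ l, ∀ z, InR P z0 z → InR P z0 (a.2 z))
    (h2 : ∀ a ∈ l, Function.Injective a.2)
    (h3 : ∀ a ∈ l, ∀ (X Y : Vec σ → Val) z γ, a.1.sat κ orc X Y z → X (a.2 z) = pv γ → Y z = pv γ)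
    (hr : Runs κ orc S (l.map Prod.fst) X Y) :
    ∃ S' : Vec σ → Prop, av P (fun z => ind (S' z)) z0 ≤ l.length * av P (fun z => ind (S z)) z0 ∧
      ∀ z γ, ¬ S' z → X (l.foldr (fun a y => a.2 y) z) = pv γ → Y z = pv γ := by
  induction l generalizing X with
  | nil =>
    refine ⟨fun _ => False, by simp [ind, av_const], fun z γ _ h => ?_⟩
    have e : X = Y := hr
    rw [← e]; exact h
  | cons a l ih =>
    obtain ⟨Z, r1, r2⟩ := hr
    obtain ⟨S'', b1, b2⟩ := ih (fun a' h => h1 a' (List.mem_cons_of_mem _ h))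
      (fun a' h => h2 a' (List.mem_cons_of_mem _ h)) (fun a' h => h3 a' (List.mem_cons_of_mem _ h)) r2
    have k : ∀ l' : List (Ins × (Vec σ → Vec σ)), (∀ a' ∈ l', a' ∈ a :: l) →
        (∀ z, InR P z0 z → InR P z0 (l'.foldr (fun a y => a.2 y) z)) ∧
          Function.Injective fun z => l'.foldr (fun a y => a.2 y) z := by
      intro l' hl
      induction l' with
      | nil => exact ⟨fun _ h => h, fun _ _ h => h⟩
      | cons a' l' ih' =>
        obtain ⟨k1, k2⟩ := ih' fun x hx => hl x (List.mem_cons_of_mem _ hx)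
        exact ⟨fun z hz => h1 a' (hl a' List.mem_cons_self) _ (k1 z hz),
          fun z z' h => k2 (h2 a' (hl a' List.mem_cons_self) h)⟩
    obtain ⟨k1, k2⟩ := k l fun _ h => List.mem_cons_of_mem _ h
    refine ⟨fun z => S'' z ∨ S (l.foldr (fun a y => a.2 y) z), ?_, fun z γ hS hX => ?_⟩
    · have e := av_bij (f := fun z => ind (S z)) (fun z => l.foldr (fun a y => a.2 y) z) k1
        fun z z' _ _ h => k2 h
      calc _ ≤ av P (fun z => ind (S'' z) + ind (S (l.foldr (fun a y => a.2 y) z))) z0 :=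
            av_mono fun z _ => ind_or_le _ _
        _ = av P (fun z => ind (S'' z)) z0 + av P (fun z => ind (S z)) z0 := by rw [av_add, e]
        _ ≤ _ := by
            simp only [List.length_cons, Nat.cast_add, Nat.cast_one]
            linarith
    · rw [not_or] at hS
      exact b2 z γ hS.1 (h3 a List.mem_cons_self X Z _ γ (r1 _ hS.2) hX)

/-- the point with the counter decremented. -/
def tk (p τ : ℕ) (z : Vec σ) : Vec σ := put z p τ (ofN τ ((fld z p τ + 2 ^ τ - 1) % 2 ^ τ))

/-- flip the bit `p + i` if the lower bits vanish. -/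
def tf (p i : ℕ) (z : Vec σ) : Vec σ :=
  if fld z p i = 0 then put z (p + i) 1 (get z (p + i) 1 + ofN 1 1) else z

theorem fld_put_disj {z : Vec σ} {p w p' w' : ℕ} (h : p + w ≤ p' ∨ p' + w' ≤ p) (s : Vec w) :
    fld (put z p w s) p' w' = fld z p' w' := by
  unfold fld; rw [get_put_disj h]

theorem tf_tf {p i : ℕ} (h : p + i + 1 ≤ σ) (z : Vec σ) : tf p i (tf p i z) = z := by
  by_cases e : fld z p i = 0
  · have e1 : tf p i z = put z (p + i) 1 (get z (p + i) 1 + ofN 1 1) := if_pos e
    rw [e1, tf, if_pos (by rw [fld_put_disj (Or.inr le_rfl)]; exact e), get_put h, put_put,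
      add_assoc, vec_add_self, add_zero, put_get]
  · have e1 : tf p i z = z := if_neg e
    rw [e1, e1]

theorem tk_zero (p : ℕ) (z : Vec σ) : tk p 0 z = z := put_zero _

theorem tk_succ {p τ : ℕ} (z : Vec σ) : tk p (τ + 1) z = tk p τ (tf p τ z) := by
  have ha : fld z p τ < 2 ^ τ := fld_lt
  have hc : fld z (p + τ) 1 < 2 ^ 1 := fld_lt
  have hp : 0 < 2 ^ τ := Nat.two_pow_pos τ
  have hg : ofN 1 (fld z (p + τ) 1) = get z (p + τ) 1 := ofN_fld
  unfold tk
  rw [fld_add, pow_succ]
  by_cases e : fld z p τ = 0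
  · have e1 : tf p τ z = put z (p + τ) 1 (get z (p + τ) 1 + ofN 1 1) := if_pos e
    rw [e1, fld_put_disj (Or.inr le_rfl), e, put_comm (Or.inr le_rfl), ← hg, ← ofN_xor]
    have m1 : (0 + 2 ^ τ - 1) % 2 ^ τ = 2 ^ τ - 1 := by
      rw [zero_add]; exact Nat.mod_eq_of_lt (by omega)
    rw [m1, ← put_split _ _ (by omega)]
    congr 2
    generalize fld z (p + τ) 1 = c at hc
    generalize 2 ^ τ = N at hp
    have : c = 0 ∨ c = 1 := by omega
    rcases this with rfl | rfl
    · rw [Nat.mod_eq_of_lt (by omega)]; simp; omega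
    · rw [show 0 + N * 1 + N * 2 - 1 = (N - 1) + N * 2 by omega, Nat.add_mod_right,
        Nat.mod_eq_of_lt (by omega)]; simp
  · have e1 : tf p τ z = z := if_neg e
    rw [e1]
    have m1 : (fld z p τ + 2 ^ τ - 1) % 2 ^ τ = fld z p τ - 1 := by
      rw [show fld z p τ + 2 ^ τ - 1 = (fld z p τ - 1) + 2 ^ τ by omega, Nat.add_mod_right,
        Nat.mod_eq_of_lt (by omega)]
    have m2 : (fld z p τ + 2 ^ τ * fld z (p + τ) 1 + 2 ^ τ * 2 - 1) % (2 ^ τ * 2) =
        (fld z p τ - 1) + 2 ^ τ * fld z (p + τ) 1 := by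
      generalize fld z (p + τ) 1 = c at hc
      generalize fld z p τ = a at ha e
      generalize 2 ^ τ = N at hp ha
      have : c = 0 ∨ c = 1 := by omega
      rw [show a + N * c + N * 2 - 1 = (a - 1 + N * c) + N * 2 by omega, Nat.add_mod_right]
      rcases this with rfl | rfl <;> exact Nat.mod_eq_of_lt (by omega)
    rw [m1, m2, put_split _ _ (by omega), hg, put_comm (Or.inl le_rfl), put_get]

theorem expect_tk {p τ : ℕ} (h : p + τ ≤ σ) (f : Vec σ → ℝ) : (𝔼 z, f (tk p τ z)) = 𝔼 z, f z := by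
  induction τ generalizing f with
  | zero => simp only [tk_zero]
  | succ τ ih =>
    simp only [tk_succ]
    rw [← ih (by omega) f]
    exact Fintype.expect_bijective _ (Function.Involutive.bijective (tf_tf (p := p) (i := τ) h))
      _ _ fun _ => rfl

theorem tick_spec {p τ : ℕ} (hp : 2 ≤ p) (h : p + τ ≤ σ) (hr : Runs κ orc S (tick p τ) X Y) :
    ∃ S' : Vec σ → Prop, (𝔼 z, ind (S' z)) ≤ τ * (𝔼 z, ind (S z)) ∧
      ∀ z γ, ¬ S' z → X (tk p τ z) = pv γ → Y z = pv γ := by
  let l : List (Ins × (Vec σ → Vec σ)) :=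
    (List.range τ).map fun i => (.cell .flip (p + i) 1 0 0 fun _ => .eq p i 0, tf p i)
  have e : ∀ n z, ((List.range n).map fun i =>
      ((.cell .flip (p + i) 1 0 0 fun _ => .eq p i 0, tf p i) : Ins × (Vec σ → Vec σ))).foldr
        (fun a y => a.2 y) z = tk p n z := by
    intro n
    induction n with
    | zero => intro z; exact (tk_zero p z).symm
    | succ n ih =>
      intro z
      rw [List.range_succ, List.map_append, List.foldr_append, ih, tk_succ]
      rfl
  have key := runs_copy (κ := κ) (orc := orc) (S := S) (X := X) (Y := Y)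
    (P := Set.univ) (z0 := 0) l (fun _ _ _ _ j hj => (hj trivial).elim) ?_ ?_
    (by simpa only [l, tick, List.map_map, Function.comp_def] using hr)
  · obtain ⟨S', b1, b2⟩ := key
    refine ⟨S', ?_, fun z γ hS hX => b2 z γ hS (by rw [e]; exact hX)⟩
    rw [av_all (fun j _ => Set.mem_univ j), av_all (fun j _ => Set.mem_univ j)] at b1
    simpa [l] using b1
  · intro a ha
    obtain ⟨i, hi, rfl⟩ := List.mem_map.mp ha
    rw [List.mem_range] at hi
    exact Function.Involutive.injective (tf_tf (p := p) (i := i) (by omega))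
  · intro a ha X Y z γ hs hX
    obtain ⟨i, hi, rfl⟩ := List.mem_map.mp ha
    refine HF.pure hs fun r hr => ?_
    simp only [kf, Cond.ev, decide_eq_true_eq]
    by_cases c : fld z p i = 0
    · rw [if_pos c]
      refine hr _ γ ?_
      simp only [put_get, put_zero]
      simpa only [tf, if_pos c] using hX
    · rw [if_neg c]
      refine hr _ γ ?_
      simp only [put_get]
      simpa only [tf, if_neg c] using hX

/-- the dimension after the exchange of the fields `[a, a + n)` and `[a + n, a + 2 n)`. -/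
def swd (a n : ℕ) (e : Dim) : Dim :=
  if e.2.1 < a then e else if e.2.1 < a + n then (e.1, e.2.1 + n, e.2.2) else (e.1, e.2.1 - n, e.2.2)

/-- bit number `j`. -/
def bt (z : Vec σ) (j : ℕ) : ZMod 2 := if h : j < σ then z ⟨j, h⟩ else 0

/-- the exchange of positions. -/
def swi (a e n j : ℕ) : ℕ :=
  if e ≤ j ∧ j < e + n then a + (j - e) else if a ≤ j ∧ j < a + n then e + (j - a) else j

theorem bt_val (z : Vec σ) (j : Fin σ) : bt z j = z j := dif_pos j.2

theorem sw_apply (a e n : ℕ) (z : Vec σ) (j : Fin σ) : sw a e n z j = bt z (swi a e n j) := by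
  unfold sw swi put
  by_cases h1 : e ≤ j ∧ j < e + n
  · rw [dif_pos h1, if_pos h1]; rfl
  · rw [dif_neg h1, if_neg h1]
    by_cases h2 : a ≤ j ∧ j < a + n
    · rw [dif_pos h2, if_pos h2]; rfl
    · rw [dif_neg h2, if_neg h2, bt_val]

theorem bt_sw (a e n : ℕ) (z : Vec σ) {j : ℕ} (h : j < σ) :
    bt (sw a e n z) j = bt z (swi a e n j) := by
  rw [← sw_apply a e n z ⟨j, h⟩, bt, dif_pos h]

theorem sw_invol {a e n : ℕ} (h : a + n ≤ e) (h' : e + n ≤ σ) (z : Vec σ) :
    sw a e n (sw a e n z) = z := by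
  funext j
  have hj := j.2
  rw [sw_apply, bt_sw _ _ _ _ (by unfold swi; split_ifs <;> omega), ← bt_val z j]
  congr 1
  unfold swi; split_ifs <;> omega

theorem sw_succ {a e m : ℕ} (h : a + (m + 1) ≤ e) (h' : e + (m + 1) ≤ σ) (z : Vec σ) :
    sw a e (m + 1) z = sw a e m (sw (a + m) (e + m) 1 z) := by
  funext j
  have hj := j.2
  rw [sw_apply, sw_apply, bt_sw _ _ _ _ (by unfold swi; split_ifs <;> omega)]
  congr 1
  unfold swi; split_ifs <;> omega

theorem bt_put (z : Vec σ) (p w : ℕ) (s : Vec w) {j : ℕ} (h : j < σ) :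
    bt (put z p w s) j = if p ≤ j ∧ j < p + w then bt s (j - p) else bt z j := by
  rw [bt, dif_pos h, put]
  by_cases c : p ≤ j ∧ j < p + w
  · rw [dif_pos c, if_pos c, bt, dif_pos (by omega)]
  · rw [dif_neg c, if_neg c, bt, dif_pos h]

theorem sw_put {a n p p' w : ℕ} (h : a + n + n ≤ σ)
    (hp : (p + w ≤ a ∧ p' = p) ∨ (a ≤ p ∧ p + w ≤ a + n ∧ p' = p + n) ∨
      (a + n ≤ p ∧ p + w ≤ a + n + n ∧ p' = p - n)) (z : Vec σ) (s : Vec w) :
    sw a (a + n) n (put z p' w s) = put (sw a (a + n) n z) p w s := by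
  funext j
  have hj := j.2
  rw [sw_apply, bt_put _ _ _ _ (by unfold swi; split_ifs <;> omega), ← bt_val (put _ _ _ _) j,
    bt_put _ _ _ _ hj, bt_sw _ _ _ _ hj]
  by_cases c : p ≤ j ∧ j < p + w
  · rw [if_pos c, if_pos (by unfold swi; split_ifs <;> omega)]
    congr 1
    unfold swi; split_ifs <;> omega
  · rw [if_neg c, if_neg (by unfold swi; split_ifs <;> omega)]

theorem inR_sw {P : Set ℕ} {a e n : ℕ} {z0 z : Vec σ} (ha : ∀ j, a ≤ j → j < a + n → j ∈ P)
    (he : ∀ j, e ≤ j → j < e + n → j ∈ P) (h : InR P z0 z) : InR P z0 (sw a e n z) :=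
  (h.put ha _).put he _

theorem swaps_spec {a n : ℕ} {P : Set ℕ} {z0 : Vec σ} (h : a + n + n ≤ σ)
    (hP : ∀ j, a ≤ j → j < a + n + n → j ∈ P) (hr : Runs κ orc S (swaps a (a + n) n) X Y) :
    ∃ S' : Vec σ → Prop, av P (fun z => ind (S' z)) z0 ≤ n * av P (fun z => ind (S z)) z0 ∧
      ∀ z γ, ¬ S' z → X (sw a (a + n) n z) = pv γ → Y z = pv γ := by
  let l : List (Ins × (Vec σ → Vec σ)) :=
    (List.range n).map fun i => (.cell .swp (a + i) 1 (a + n + i) 1 nc, sw (a + i) (a + n + i) 1)
  have e : ∀ m ≤ n, ∀ z, ((List.range m).map fun i => ((.cell .swp (a + i) 1 (a + n + i) 1 nc,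
      sw (a + i) (a + n + i) 1) : Ins × (Vec σ → Vec σ))).foldr
        (fun a y => a.2 y) z = sw a (a + n) m z := by
    intro m
    induction m with
    | zero => intro _ z; simp [sw, put_zero]
    | succ m ih =>
      intro hm z
      rw [List.range_succ, List.map_append, List.foldr_append, ih (by omega),
        sw_succ (by omega) (by omega)]
      rfl
  have key := runs_copy (κ := κ) (orc := orc) (S := S) (X := X) (Y := Y)
    (P := P) (z0 := z0) l ?_ ?_ ?_
    (by simpa only [l, swaps, List.map_map, Function.comp_def] using hr)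
  · obtain ⟨S', b1, b2⟩ := key
    exact ⟨S', by simpa [l] using b1, fun z γ hS hX => b2 z γ hS (by rw [e n le_rfl]; exact hX)⟩
  · intro x hx z hz
    obtain ⟨i, hi, rfl⟩ := List.mem_map.mp hx
    rw [List.mem_range] at hi
    exact inR_sw (fun j h1 h2 => hP j (by omega) (by omega))
      (fun j h1 h2 => hP j (by omega) (by omega)) hz
  · intro x hx
    obtain ⟨i, hi, rfl⟩ := List.mem_map.mp hx
    rw [List.mem_range] at hi
    exact Function.Involutive.injective
      (sw_invol (a := a + i) (e := a + n + i) (n := 1) (by omega) (by omega))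
  · intro x hx X Y z γ hs hX
    obtain ⟨i, hi, rfl⟩ := List.mem_map.mp hx
    refine HF.pure hs fun r hr => ?_
    simp only [kf, ofN_toN]
    refine hr _ γ ?_
    simp only [put_get]
    exact hX

theorem swd_cases {a n : ℕ} (e : Dim) (h1 : 1 ≤ e.2.2)
    (hd : e.2.1 + e.2.2 ≤ a ∨ (a ≤ e.2.1 ∧ e.2.1 + e.2.2 ≤ a + n ∧ 1 ≤ e.2.2) ∨
      (a + n ≤ e.2.1 ∧ e.2.1 + e.2.2 ≤ a + n + n)) :
    ∃ p', swd a n e = (e.1, p', e.2.2) ∧ ((e.2.1 + e.2.2 ≤ a ∧ p' = e.2.1) ∨
      (a ≤ e.2.1 ∧ e.2.1 + e.2.2 ≤ a + n ∧ p' = e.2.1 + n) ∨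
      (a + n ≤ e.2.1 ∧ e.2.1 + e.2.2 ≤ a + n + n ∧ p' = e.2.1 - n)) := by
  unfold swd
  split_ifs with c1 c2
  · exact ⟨e.2.1, rfl, by omega⟩
  · exact ⟨_, rfl, by omega⟩
  · exact ⟨_, rfl, by omega⟩

theorem sw_sw {a n : ℕ} (h : a + n + n ≤ σ) (z : Vec σ) : sw a (a + n) n (sw a (a + n) n z) = z :=
  sw_invol le_rfl h z

theorem swap_valid {a n : ℕ} {ds : List Dim} {z0 : Vec σ} {F : Vec σ → ZMod 2} (ha : u + 2 ≤ a)
    (h : a + n + n ≤ σ) (h0 : Home u z0)
    (hd : ∀ e ∈ ds, e.2.1 + e.2.2 ≤ a ∨ (a ≤ e.2.1 ∧ e.2.1 + e.2.2 ≤ a + n ∧ 1 ≤ e.2.2) ∨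
      (a + n ≤ e.2.1 ∧ e.2.1 + e.2.2 ≤ a + n + n))
    (hl : Lay σ κ u ds) (hP : ∀ j, a ≤ j → j < a + n + n → j ∈ pos ds)
    (hr : Runs κ orc S (swaps a (a + n) n) X Y) (hF : PolyD 3 ds z0 F) :
    PolyD 3 (ds.map (swd a n)) z0 (fun z => F (sw a (a + n) n z)) ∧
      err (ds.map (swd a n)) Y (fun z => F (sw a (a + n) n z)) z0 ≤
        err ds X F z0 + n * av (pos ds) (fun z => ind (S z)) z0 := by
  have hc := fun e (he : e ∈ ds) => swd_cases e (hl.1 e he).2.2.1 (hd e he)
  have hpos : pos (ds.map (swd a n)) = pos ds := by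
    ext j
    constructor
    · rintro ⟨e', he', j1, j2⟩
      obtain ⟨e, he, rfl⟩ := List.mem_map.mp he'
      obtain ⟨p', e1, e2⟩ := hc e he
      rw [e1] at j1 j2
      dsimp only at j1 j2
      rcases e2 with e2 | e2 | e2
      · exact ⟨e, he, by omega, by omega⟩
      · exact hP j (by omega) (by omega)
      · exact hP j (by omega) (by omega)
    · intro hj
      have hj' : swi a (a + n) n j ∈ pos ds := by
        unfold swi
        split_ifs
        · exact hP _ (by omega) (by omega)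
        · exact hP _ (by omega) (by omega)
        · exact hj
      obtain ⟨e, he, j1, j2⟩ := hj'
      obtain ⟨p', e1, e2⟩ := hc e he
      refine ⟨swd a n e, List.mem_map_of_mem he, ?_⟩
      rw [e1]
      dsimp only
      unfold swi at j1 j2
      split_ifs at j1 j2 <;> omega
  have hin : ∀ z, InR (pos ds) z0 z → InR (pos ds) z0 (sw a (a + n) n z) := fun z hz =>
    inR_sw (fun j h1 h2 => hP j (by omega) (by omega)) (fun j h1 h2 => hP j (by omega) (by omega)) hz
  refine ⟨fun e' he' z hz => ?_, ?_⟩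
  · obtain ⟨e, he, rfl⟩ := List.mem_map.mp he'
    obtain ⟨p', e1, e2⟩ := hc e he
    rw [hpos] at hz
    rw [e1]
    have k := hF e he _ (hin z hz)
    have : line (fun z => F (sw a (a + n) n z)) z (e.1, p', e.2.2) =
        line F (sw a (a + n) n z) e := by
      funext s
      exact congrArg F (sw_put h e2 z s)
    rw [this]
    exact k
  · obtain ⟨S', b1, b2⟩ := swaps_spec (z0 := z0) h hP hr
    have e := av_bij (f := fun z => ind (X z ≠ pz (F z))) (sw a (a + n) n) hin
      fun z z' _ _ h' => Function.Involutive.injective (sw_sw h) h'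
    unfold err
    rw [hpos]
    calc _ ≤ av (pos ds) (fun z => ind (X (sw a (a + n) n z) ≠ pz (F (sw a (a + n) n z))) +
          ind (S' z)) z0 := by
          refine av_mono fun z _ => (ind_mono fun hz => ?_).trans (ind_or_le _ _)
          by_contra c
          rw [not_or, not_not] at c
          exact hz (b2 z _ c.2 c.1)
      _ ≤ _ := by rw [av_add, e]; linarith

end Vale.Agent.P330.Amp
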