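import Vale.Agent.P330.NodeDefs

/-! The trace of an assignment, invariances, the decoder (task Node0).
Plan. `trace_exists`: `bridge`, `runsB_append`, `RunsB.runs`, `tick_spec` (choose the fault sets for all
big addresses), `mov_spec`; the fault set of the trace is the union (`Runs.mono`); densities by
`expect_flt`, `expect_pullB`; `1 + τ + |move1| + |move2| ≤ length + 1 ≤ 2 ^ size`.
`p1_congr`, `p2_congr`: the conditions only read the listed bits (use `pull_move1` and, for `p2`,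
`pull_move12`-style formulas or directly the conditions). `op_eq`: `bridge_ideal`, `sweep_spec`
with the empty fault set, error zero means equality at every point of the region. -/

namespace Vale.Agent.P330.Amp

open Vale.Agent.Lib.H23 Vale.Agent.P325 Finset Matrix
open scoped BigOperators

variable {G : Inst 2} {L : Lo}

theorem n0_pos (L : Lo) : L.pV = L.u + 2 ∧ L.pG = L.pV + L.κ ∧ L.pP 0 + 2 * L.n = L.pA 0 ∧
    L.pG < L.pP 0 ∧ L.pA 0 ≤ L.pt ∧ L.σ = L.pt + L.τ := by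
  refine ⟨rfl, rfl, ?_, ?_, ?_, rfl⟩
  · simp only [Lo.pA, Lo.pP, Lo.n]; ring
  · simp only [Lo.pP, Lo.pR, Lo.pT, Lo.pK]; omega
  · simp only [Lo.pt, Lo.pE, Lo.pA]; omega

theorem n0_bridge {κ b β σ k0 : ℕ} {gens : Fin 7 → Mat β} {prog : List Ins}
    {orc : Big b β → ℕ → Vec σ → Bool} (hσ : 2 ≤ σ) (hok : ∀ i ∈ prog, i.ok κ σ)
    (x : ℕ → Addr b β σ → Val) : ∃ (S : Big b β → Vec σ → Prop) (X Y : Big b β → Vec σ → Val),
      (∀ y z, X y z = x (2 ^ prog.length.size - 1) (y, z)) ∧ RunsB κ (actB gens) orc S prog X Y ∧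
      (∀ y z γ, ¬ S y z → Y y z = pv γ → X y z = pv γ) ∧ (𝔼 y, 𝔼 z, ind (S y z)) ≤
        2 ^ prog.length.size * (progInst κ b β σ k0 gens prog orc).viol x := by
  obtain ⟨Y, h1, h2⟩ := bridge (k0 := k0) (gens := gens) (orc := orc) hσ hok x
  refine ⟨_, _, Y, fun _ _ => rfl, h1, h2, ?_⟩
  refine le_trans (le_of_eq ?_) ((progInst κ b β σ k0 gens prog orc).expect_flt x)
  exact (expect_product univ univ fun a : Big b β × Vec σ => ind (∃ t < 2 ^ prog.length.size,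
    ¬ (progInst κ b β σ k0 gens prog orc).sat x t a)).symm

theorem n0_or (p q : Prop) : ind (p ∨ q) ≤ ind p + ind q := by
  by_cases hp : p
  · rw [ind_of hp]; linarith [ind_le_one (p ∨ q), ind_nonneg q]
  · rw [ind_of_not hp, zero_add, ind_congr (or_iff_right hp)]

theorem n0_pull {σ : ℕ} {B : Type} (ac : Op → B → B) (orc : ℕ → Vec σ → Bool) {z z' : Vec σ}
    (ms : List Mv) (h : ∀ m ∈ ms, m.2.ev orc z' = m.2.ev orc z) (x : B) :
    pullB ac orc z' ms x = pullB ac orc z ms x := by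
  induction ms with
  | nil => rfl
  | cons m ms ih =>
    have h1 := ih fun m hm => h m (List.mem_cons_of_mem _ hm)
    simp only [pullB, List.foldr_cons] at h1 ⊢
    rw [h1, h m List.mem_cons_self]

theorem n0_fld {σ : ℕ} {P : Set ℕ} {z z' : Vec σ} (hz : InR Pᶜ z z') {p w : ℕ}
    (hp : ∀ j, p ≤ j → j < p + w → j ∈ P) : fld z' p w = fld z p w := by
  unfold fld
  rw [hz.get fun j h1 h2 hj => hj (hp j h1 h2)]

theorem n0_gam {σ b κ : ℕ} (hκ : 6 ≤ κ) (orc : ℕ → Vec σ → Bool) {P : Set ℕ} {z z' : Vec σ}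
    (hz : InR Pᶜ z z') {ks : List ℕ} (hk : pos (ks.map (vd κ)) ⊆ P) :
    ∀ m ∈ gam b ks, m.2.ev orc z' = m.2.ev orc z := by
  intro m hm
  simp only [gam, List.mem_flatMap, List.mem_map] at hm
  obtain ⟨p, hp, s, -, rfl⟩ := hm
  simp only [Cond.ev]
  rw [n0_fld hz (p := p) (w := 5) fun j h1 h2 => hk ⟨vd κ p, List.mem_map_of_mem hp, h1, by
    simp only [vd]; omega⟩]

theorem n0_piW {b : ℕ} {P : Set ℕ} {z z' : Vec L.σ} (hz : InR Pᶜ z z') (hG : L.pG ∈ P)
    (ht : Set.Ici L.pt ⊆ P) : ∀ m ∈ piW b, m.2.ev (orc0 G L) z' = m.2.ev (orc0 G L) z := by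
  intro m hm
  simp only [piW, List.mem_map] at hm
  obtain ⟨o, -, rfl⟩ := hm
  have h1 : fld z' L.pt L.τ = fld z L.pt L.τ := n0_fld hz fun j h1 _ => ht h1
  have h2 : L.gi z' = L.gi z := by
    rw [Lo.gi, Lo.gi, n0_fld hz (p := L.pG) (w := 1) fun j h1 h2 => by
      rwa [show j = L.pG by omega]]
  simp only [Cond.ev, orc0, h1, h2]

theorem n0_addL {σ b n : ℕ} (orc : ℕ → Vec σ → Bool) {P : Set ℕ} {z z' : Vec σ}
    (hz : InR Pᶜ z z') {q : ℕ → ℕ} (hq : ∀ s < n, q s ∈ P) :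
    ∀ m ∈ addL b q n, m.2.ev orc z' = m.2.ev orc z := by
  have hd : ∀ l h, ∀ m ∈ dW l h, m.2.ev orc z' = m.2.ev orc z := by
    intro l h m hm
    have : m.2 = .tt := by
      simp only [dW, List.mem_cons, List.not_mem_nil, or_false] at hm
      rcases hm with rfl | rfl | rfl | rfl | rfl | rfl <;> rfl
    rw [this, Cond.ev_tt, Cond.ev_tt]
  intro m hm
  obtain ⟨l, -, hm⟩ := List.mem_flatMap.1 hm
  rcases List.mem_append.1 hm with hm | hm
  · obtain ⟨s, hs, hm⟩ := List.mem_flatMap.1 hm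
    rcases List.mem_cons.1 hm with rfl | hm
    · simp only [Cond.ev]
      rw [n0_fld hz fun j h1 h2 => by
        rw [show j = q s by omega]; exact hq s (List.mem_range.1 hs)]
    · exact hd _ _ m (List.mem_reverse.1 hm)
  · obtain ⟨s, -, hm⟩ := List.mem_flatMap.1 hm
    exact hd _ _ m hm

theorem n0_q (hκ : 6 ≤ L.κ) (f : ℕ → ℕ) {s : ℕ} (hs : s < L.n) :
    f (s / L.κ) + s % L.κ ∈ pos (((List.range L.c).map f).map (vd L.κ)) := by
  refine ⟨vd L.κ (f (s / L.κ)), List.mem_map_of_mem (List.mem_map_of_mem (List.mem_range.2 ?_)),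
    Nat.le_add_right _ _, Nat.add_lt_add_left (Nat.mod_lt _ (by omega)) _⟩
  exact Nat.div_lt_of_lt_mul (by rwa [mul_comm])

theorem n0_move1 (h : Ass G L) {z z' : Vec L.σ}
    (hz : InR (L.AK ∪ {L.pG} ∪ Set.Ici L.pt)ᶜ z z') :
    ∀ m ∈ L.move1 G.b, m.2.ev (orc0 G L) z' = m.2.ev (orc0 G L) z := by
  intro m hm
  simp only [Lo.move1, List.mem_append] at hm
  rcases hm with (hm | hm) | hm
  · exact n0_gam h.hκ _ hz (fun j hj => .inl (.inl (.inr hj))) m hm
  · exact n0_piW hz (.inl (.inr rfl)) (fun j hj => .inr hj) m hm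
  · exact n0_addL _ hz (fun s hs => .inl (.inl (.inl (n0_q h.hκ L.pA hs)))) m hm

theorem n0_bit {σ : ℕ} {z z' : Vec σ} {p w : ℕ} (h : fld z p w = fld z' p w) {j : Fin σ}
    (h1 : p ≤ j) (h2 : j < p + w) : z j = z' j := by
  have h3 : get z p w = get z' p w := by rw [← ofN_fld, h, ofN_fld]
  have h4 := congrFun h3 ⟨j - p, by omega⟩
  have h5 : p + (j - p) = j := by omega
  simpa only [get, h5, j.2, dif_pos, Fin.eta] using h4

theorem trace_exists (h : Ass G L) (x : ℕ → (roundI G L).A → Val) :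
    ∃ T : Trace G L, (∀ y z, T.X0 y z = x (2 ^ (roundI G L).τ - 1) (y, z)) ∧
      (𝔼 y, 𝔼 z, ind (T.S y z)) ≤ 4 ^ (roundI G L).τ * (roundI G L).viol x := by
  have q := n0_pos L
  have hτ : (roundI G L).τ = (L.prog G.b).length.size := rfl
  obtain ⟨S0, X0, X9, hX0, hr', h90', ha'⟩ := n0_bridge (κ := L.κ) (b := G.b + 2) (β := G.β)
    (σ := L.σ) (k0 := G.k0) (gens := G.gens) (prog := L.prog G.b) (orc := orcR G L) (by omega)
    (L.prog_ok h.hκ h.hc G.b) x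
  have ha : (𝔼 y, 𝔼 z, ind (S0 y z)) ≤ 2 ^ (roundI G L).τ * (roundI G L).viol x := by
    rw [hτ]; exact ha'
  unfold Lo.prog at hr'
  obtain ⟨X8, hr', h89⟩ := runsB_append.1 hr'
  obtain ⟨X7, hr', h78⟩ := runsB_append.1 hr'
  obtain ⟨X6, hr', h67⟩ := runsB_append.1 hr'
  obtain ⟨X5, hr', h56⟩ := runsB_append.1 hr'
  obtain ⟨X4, hr', h45⟩ := runsB_append.1 hr'
  obtain ⟨X3, hr', h34⟩ := runsB_append.1 hr'
  obtain ⟨X2, hr', h23⟩ := runsB_append.1 hr'
  obtain ⟨X1, h01, h12⟩ := runsB_append.1 hr'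
  choose S1 d1 g1 using fun y => tick_spec (p := L.pt) (τ := L.τ) (by omega) (by omega) (h01.runs y)
  obtain ⟨S2, d2, g2⟩ := mov_spec (actB_actB G.gens) (move1_orc G L) h12
  obtain ⟨S4, d4, g4⟩ := mov_spec (actB_actB G.gens) (move2_orc G L) h45
  refine ⟨⟨fun y z => ((S0 y z ∨ S1 (p1 G L z y) z) ∨ S2 y z) ∨ S4 y z, X0, X2, X3, X4, X5, X6, X7,
    X8, X9, fun y z γ hn hx => g2 y z γ (fun c => hn (.inl (.inr c)))
      (g1 _ z γ (fun c => hn (.inl (.inl (.inr c)))) hx),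
    fun y => (h23.runs y).mono fun z c => .inl (.inl (.inl c)),
    fun y => (h34.runs y).mono fun z c => .inl (.inl (.inl c)),
    fun y z γ hn hx => g4 y z γ (fun c => hn (.inr c)) hx,
    fun y => (h56.runs y).mono fun z c => .inl (.inl (.inl c)),
    fun y => (h67.runs y).mono fun z c => .inl (.inl (.inl c)),
    fun y => (h78.runs y).mono fun z c => .inl (.inl (.inl c)),
    fun y => (h89.runs y).mono fun z c => .inl (.inl (.inl c)),
    fun y z γ hn hx => h90' y z γ (fun c => hn (.inl (.inl (.inl c)))) hx⟩,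
    fun y z => by rw [hτ]; exact hX0 y z, ?_⟩
  have e1 : (𝔼 y, 𝔼 z, ind (S1 (p1 G L z y) z)) ≤ L.τ * 𝔼 y, 𝔼 z, ind (S0 y z) := by
    rw [expect_comm]
    have : ∀ z, (𝔼 y, ind (S1 (p1 G L z y) z)) = 𝔼 y, ind (S1 y z) := fun z =>
      expect_pullB (actB_actB G.gens) z _ fun y => ind (S1 y z)
    simp only [this]
    rw [expect_comm, mul_expect]
    exact expect_le_expect fun y _ => d1 y
  have e2 : (𝔼 y, 𝔼 z, ind (S2 y z)) ≤ (L.move1 G.b).length * 𝔼 y, 𝔼 z, ind (S0 y z) := by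
    rw [expect_comm, expect_comm univ univ fun y z => ind (S0 y z), mul_expect]
    exact expect_le_expect fun z _ => d2 z
  have e4 : (𝔼 y, 𝔼 z, ind (S4 y z)) ≤ (L.move2 G.b).length * 𝔼 y, 𝔼 z, ind (S0 y z) := by
    rw [expect_comm, expect_comm univ univ fun y z => ind (S0 y z), mul_expect]
    exact expect_le_expect fun z _ => d4 z
  have e5 : (𝔼 y, 𝔼 z, ind (((S0 y z ∨ S1 (p1 G L z y) z) ∨ S2 y z) ∨ S4 y z)) ≤
      (𝔼 y, 𝔼 z, ind (S0 y z)) + (𝔼 y, 𝔼 z, ind (S1 (p1 G L z y) z)) +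
        (𝔼 y, 𝔼 z, ind (S2 y z)) + 𝔼 y, 𝔼 z, ind (S4 y z) := by
    simp only [← expect_add_distrib]
    refine expect_le_expect fun y _ => expect_le_expect fun z _ => ?_
    linarith [n0_or ((S0 y z ∨ S1 (p1 G L z y) z) ∨ S2 y z) (S4 y z),
      n0_or (S0 y z ∨ S1 (p1 G L z y) z) (S2 y z), n0_or (S0 y z) (S1 (p1 G L z y) z)]
  have e6 : 1 + L.τ + (L.move1 G.b).length + (L.move2 G.b).length ≤ 2 ^ (roundI G L).τ := by
    have h1 : (L.prog G.b).length < 2 ^ (roundI G L).τ := by rw [hτ]; exact Nat.lt_size_self _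
    simp only [Lo.prog, List.length_append, tick, mv, List.length_map, List.length_range] at h1
    omega
  have e7 : (1 + L.τ + (L.move1 G.b).length + (L.move2 G.b).length : ℝ) ≤
      2 ^ (roundI G L).τ := by exact_mod_cast e6
  have e8 : 0 ≤ 𝔼 y, 𝔼 z, ind (S0 y z) :=
    expect_nonneg fun _ _ => expect_nonneg fun _ _ => ind_nonneg _
  have e9 : (4 : ℝ) ^ (roundI G L).τ = 2 ^ (roundI G L).τ * 2 ^ (roundI G L).τ := by
    rw [← mul_pow]; norm_num
  refine e5.trans ?_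
  rw [e9, mul_assoc]
  refine le_trans ?_ (mul_le_mul_of_nonneg_left ha (by positivity))
  refine le_trans ?_ (mul_le_mul_of_nonneg_right e7 e8)
  linarith

theorem p1_congr (h : Ass G L) {z z' : Vec L.σ}
    (hz : InR (L.AK ∪ {L.pG} ∪ Set.Ici L.pt)ᶜ z z') (x : BB G) : p1 G L z' x = p1 G L z x := by
  exact n0_pull _ _ _ (n0_move1 h hz) x

theorem p1i_congr (h : Ass G L) {z z' : Vec L.σ}
    (hz : InR (L.AK ∪ {L.pG} ∪ Set.Ici L.pt)ᶜ z z') (x : BB G) : p1i G L z' x = p1i G L z x := by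
  exact n0_pull _ _ _ (fun m hm => n0_move1 h hz m (List.mem_reverse.1 hm)) x

theorem p2_congr (h : Ass G L) {z z' : Vec L.σ} (hz : InR
    (pos (L.Es.map (vd L.κ)) ∪ pos (L.Ks.map (vd L.κ)) ∪ {L.pG} ∪ Set.Ici L.pt)ᶜ z z') (x : BB G) :
    p2 G L z' x = p2 G L z x := by
  refine n0_pull _ _ _ (fun m hm => ?_) x
  simp only [Lo.move2, List.mem_append, List.mem_reverse] at hm
  have h1 := n0_gam (b := G.b) h.hκ (orc0 G L) hz (fun j hj => .inl (.inl (.inr hj))) m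
  have h2 := n0_piW (G := G) (b := G.b) hz (.inl (.inr rfl)) (fun j hj => .inr hj) m
  rcases hm with (((hm | hm) | hm) | hm) | hm
  · exact h2 hm
  · exact h1 hm
  · exact n0_addL _ hz (fun s hs => .inl (.inl (.inl (n0_q h.hκ L.pE hs)))) m hm
  · exact h1 hm
  · exact h2 hm

theorem p1i_p1 (z : Vec L.σ) (x : BB G) : p1i G L z (p1 G L z x) = x := by
  exact pullB_reverse (actB_actB G.gens) z _ x

theorem inR_std (h : Ass G L) {t p e : ℕ} (ht : t < 2 ^ L.τ) (hp : p < 2 ^ (2 * L.n))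
    {ρ : Vec L.σ} : InR (pos L.dStd) (L.hpt t p e) ρ ↔ Home L.u ρ ∧ L.tm ρ = t ∧ L.th ρ = p := by
  have q := n0_pos L
  have h1 := hpt_home L h.hκ h.hc (t := t) (p := p) (e := e)
  have h2 := hpt_t L h.hκ h.hc (e := e) ht hp
  have h3 := hpt_p L h.hκ h.hc (t := t) (e := e) hp
  constructor
  · intro hr
    refine ⟨hr.home (fun j hj => ?_) h1, ?_, ?_⟩
    · rw [L.pos_std h.hκ h.hc] at hj; omega
    · rw [← h2, Lo.tm, fld, fld, hr.get fun j _ _ hj => by rw [L.pos_std h.hκ h.hc] at hj; omega]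
    · rw [← h3, Lo.th, fld, fld, hr.get fun j _ _ hj => by rw [L.pos_std h.hκ h.hc] at hj; omega]
  · rintro ⟨h4, h5, h6⟩ j hj
    rw [L.pos_std h.hκ h.hc] at hj
    have := j.2
    by_cases c1 : j.val < L.u + 2
    · rw [h4 j c1, h1 j c1]
    by_cases c2 : L.pt ≤ j.val
    · exact n0_bit (h5.trans h2.symm) c2 (by omega)
    · exact n0_bit (h6.trans h3.symm) (by omega) (by omega)

theorem inR_time (h : Ass G L) {t : ℕ} (ht : t < 2 ^ L.τ) {ρ : Vec L.σ} :
    InR (Set.Iio L.pt) (L.hpt t 0 0) ρ ↔ L.tm ρ = t := by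
  have q := n0_pos L
  have h2 := hpt_t L h.hκ h.hc (p := 0) (e := 0) ht (by positivity)
  constructor
  · intro hr
    rw [← h2, Lo.tm, fld, fld, hr.get fun j h1 _ hj => absurd h1 (not_le.2 hj)]
  · intro h5 j hj
    have := j.2
    exact n0_bit (h5.trans h2.symm) (not_lt.1 hj) (by omega)

theorem tm_tk (h : Ass G L) (ρ : Vec L.σ) : L.tm (tk L.pt L.τ ρ) = L.pr (L.tm ρ) := by
  exact fld_put (n0_pos L).2.2.2.2.2.ge (Nat.mod_lt _ (by positivity))
theorem th_tk (h : Ass G L) (ρ : Vec L.σ) : L.th (tk L.pt L.τ ρ) = L.th ρ := by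
  have q := n0_pos L
  rw [Lo.th, Lo.th, fld, fld, tk, get_put_disj (.inr (by omega))]
theorem home_tk (h : Ass G L) {ρ : Vec L.σ} (h0 : Home L.u ρ) : Home L.u (tk L.pt L.τ ρ) := by
  have q := n0_pos L
  exact ((InR.refl (P := Set.Ici L.pt)).put (fun j h1 _ => h1) _).home
    (fun j (hj : L.pt ≤ j) => by omega) h0
theorem tk_inR (h : Ass G L) {P : Set ℕ} (hP : ∀ j ∈ P, j < L.pt) {z z' : Vec L.σ}
    (hz : InR P z z') : InR P (tk L.pt L.τ z) (tk L.pt L.τ z') := by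
  have h1 : fld z' L.pt L.τ = fld z L.pt L.τ := by
    rw [fld, fld, hz.get fun j h1 _ hj => absurd h1 (not_le.2 (hP j hj))]
  rw [tk, tk, h1]
  exact hz.put_put _
theorem av_tk (h : Ass G L) {P : Set ℕ} (hP : ∀ j ∈ P, j < L.pt) (f : Vec L.σ → ℝ) (z : Vec L.σ) :
    av P (fun y => f (tk L.pt L.τ y)) z = av P f (tk L.pt L.τ z) := by
  rw [tk, ← av_put fun j h1 _ hj => absurd h1 (not_le.2 (hP j hj))]
  refine av_congr fun y hy => ?_
  have h1 : fld y L.pt L.τ = fld z L.pt L.τ := by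
    rw [fld, fld, hy.get fun j h1 _ hj => absurd h1 (not_le.2 (hP j hj))]
  rw [tk, h1]
theorem hp_hpt (h : Ass G L) {t p e : ℕ} (hp : p < 2 ^ (2 * L.n)) : HP L.dStd (L.hpt t p e) := by
  obtain ⟨ρ, hρ⟩ : ∃ ρ : Vec L.σ, aN L.qE L.n ρ = e % 2 ^ L.n := by
    by_contra hc
    have h1 := av_aE L h.hκ h.hc (fun a => ind (a = e % 2 ^ L.n)) 0
    rw [av_congr (g := fun _ => 0) fun ρ _ => ind_of_not fun c => hc ⟨ρ, c⟩, av_const] at h1
    have h2 := (expect_eq_zero_iff_of_nonneg fun _ _ => ind_nonneg _).1 h1.symm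
      ⟨e % 2 ^ L.n, Nat.mod_lt _ (by positivity)⟩ (mem_univ _)
    rw [ind_of rfl] at h2
    exact one_ne_zero h2
  have h1 : L.hpt t p e = L.hpt t p (aN L.qE L.n ρ) := by
    rw [hρ, Lo.hpt, Lo.hpt]
    congr 2
    refine sum_congr rfl fun i hi => ?_
    obtain ⟨d, hd⟩ := Nat.exists_eq_add_of_lt (mem_range.1 hi)
    have h2 : 2 ^ L.n = L.k ^ i * (L.k * L.k ^ d) := by
      rw [Lo.n, mul_comm L.c, pow_mul, hd, ← Lo.k]; ring
    rw [h2, Nat.mod_mul_right_div_self, Nat.mod_mul_right_mod]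
  intro d hd hm
  have h3 : ∃ a ∈ L.Es, d = md L.κ a := by
    simp only [Lo.dStd, Lo.dRow, Lo.base, cp, List.mem_cons, List.mem_append, List.mem_map,
      List.mem_flatMap, List.not_mem_nil, or_false] at hd
    rcases hd with (rfl | ⟨a, -, rfl⟩) | ⟨a, -, rfl | rfl⟩ | (⟨a, ha, rfl⟩ | ⟨a, -, rfl⟩) | rfl
    all_goals first
      | exact ⟨a, ha, rfl⟩
      | exact absurd hm Bool.false_ne_true
  obtain ⟨a, ha, rfl⟩ := h3
  rw [h1]
  exact ⟨fld ρ a L.κ, fld_lt, hpt_E L h.hκ h.hc hp ρ ha⟩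

theorem expect_bt (h : Ass G L) (T : Trace G L) :
    (𝔼 t : Fin (2 ^ L.τ), 𝔼 x, T.bt x t) = 𝔼 y, 𝔼 z, ind (T.S y z) := by
  rw [expect_comm]
  refine expect_congr rfl fun x _ => ?_
  have h1 := expect_get (n0_pos L).2.2.2.2.2.ge fun s : Vec L.τ => T.bt x (toN s)
  rw [expect_vec (fun s : Vec L.τ => T.bt x (toN s))] at h1
  rw [← expect_av (P := Set.Iio L.pt)]
  refine Eq.trans (expect_congr rfl fun t _ => ?_) (h1.symm.trans (expect_congr rfl fun z _ => ?_))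
  · rw [toN_ofN, Nat.mod_eq_of_lt t.2]
  · exact (av_base ((inR_time h fld_lt).2 rfl)).symm

theorem op_eq (h : Ass G L) (T : Trace G L) {x : BB G} {w z : Vec L.σ} {F : Vec L.σ → ZMod 2}
    (h0 : Home L.u w) (hF : Valid (eV L.M) L.dStd (T.X0 x) w F) (hz : InR (pos L.dStd) w z)
    (hH : HP L.dStd z) : b2 (T.op x z) = F z := by
  have hr := (bridge_ideal (b := G.b + 2) (β := G.β) (k0 := G.k0) (gens := G.gens)
    (orc := fun _ _ _ => false) (L.dprog_ok h.hκ h.hc) fun a => T.X0 a.1 a.2).runs x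
  have hM := (L.par h.hκ h.hc).hM
  have he : err L.dStd (T.X0 x) F w < (1 / 32) ^ L.dStd.length :=
    calc _ ≤ (1 / 64 : ℝ) ^ L.M := hF.2
      _ < (1 / 32) ^ L.M := pow_lt_pow_left₀ (by norm_num) (by norm_num) (by omega)
      _ ≤ _ := pow_le_pow_of_le_one (by norm_num) (by norm_num) (L.length_std h.hκ h.hc)
  obtain ⟨F', h1, -, h2⟩ := sweep_spec (by have := h.hκ; omega) (L.lay_std h.hκ h.hc) h0 hF.1 he hr
  rw [av_congr (g := fun _ => 0) fun _ _ => ind_of_not not_false, av_const, mul_zero,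
    ← err_base hz] at h1
  have h3 := le_av_list (z := z) (f := fun z => ind ((decI G L).run L.dprog.length
    (fun a => T.X0 a.1 a.2) (x, z) ≠ pz (F' z))) (fun _ => ind_nonneg _) (bitsOf L.dStd)
    (pos L.dStd) fun j hj => mem_bitsOf.2 hj
  have h4 : (decI G L).run L.dprog.length (fun a => T.X0 a.1 a.2) (x, z) = pz (F' z) := by
    by_contra hc
    rw [ind_of hc] at h3
    have h5 := mul_le_mul_of_nonneg_left h1 (show (0 : ℝ) ≤ 2 ^ (bitsOf L.dStd).length by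
      positivity)
    rw [mul_zero] at h5
    exact absurd (h3.trans h5) (by norm_num)
  have h6 : T.op x z = decide (pz (F' z) = pv true) :=
    congrArg (fun v => decide (v = pv true)) h4
  rw [h6, h2 z hz hH, pz]
  simp only [pv_inj, decide_eq_true_eq]
  exact b2_decide _

theorem StdP.valid (h : Ass G L) {T : Trace G L} {x : BB G} {t p : ℕ} {F : Vec L.σ → ZMod 2}
    (hF : T.StdP x t p F) : Valid (eV L.M / 4) L.dStd (T.X0 x) (L.hpt t p 0) F := by
  refine ⟨hF.1, hF.2.1.trans ((mul_le_mul_of_nonneg_left hF.2.2.1 (by positivity)).trans ?_)⟩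
  have h1 : (2 : ℝ) ^ (4 * L.u) * (1 / 2) ^ (5 * L.u) = (1 / 2) ^ L.u := by
    rw [show 5 * L.u = 4 * L.u + L.u by ring, pow_add, ← mul_assoc, ← mul_pow]; norm_num
  have h2 : eV L.M / 4 = (1 / 2 : ℝ) ^ (6 * L.M + 2) := by
    rw [eV, pow_add, pow_mul]; norm_num; ring
  rw [h1, h2]
  exact pow_le_pow_of_le_one (by norm_num) (by norm_num) (by unfold Lo.u; omega)

/-- polynomial factors are below `2 ^ u`. -/
theorem poly_le (h : Ass G L) : (L.M * L.κ + 1) ^ 8 ≤ 2 ^ L.u ∧ L.c * L.k ≤ 2 ^ L.u := by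
  have h1 : L.M < 2 ^ L.M := Nat.lt_two_pow_self
  have h2 : L.κ < 2 ^ L.κ := Nat.lt_two_pow_self
  have h3 : L.k < 2 ^ L.k := Nat.lt_two_pow_self
  have h4 : 4 * L.κ ≤ L.k := by
    obtain ⟨d, hd⟩ := Nat.exists_eq_add_of_le h.hκ
    have : d < 2 ^ d := Nat.lt_two_pow_self
    rw [Lo.k, hd, pow_add]
    omega
  constructor
  · calc (L.M * L.κ + 1) ^ 8 ≤ (2 ^ L.M * 2 ^ L.κ) ^ 8 :=
          Nat.pow_le_pow_left (Nat.mul_lt_mul'' h1 h2) 8
      _ = 2 ^ ((L.M + L.κ) * 8) := by rw [← pow_add, ← pow_mul]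
      _ ≤ _ := Nat.pow_le_pow_right (by norm_num) (by unfold Lo.u; omega)
  · calc L.c * L.k ≤ 2 ^ L.M * 2 ^ L.k :=
          Nat.mul_le_mul (le_trans (by unfold Lo.M; omega) h1.le) h3.le
      _ = 2 ^ (L.M + L.k) := by rw [← pow_add]
      _ ≤ _ := Nat.pow_le_pow_right (by norm_num) (by unfold Lo.u; omega)

end Vale.Agent.P330.Amp
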