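import Vale.Agent.P330.Node0

/-! The way of an opinion from the source to the group (task NodeB).
Plan for `chain`: `x2 = p2 ρ x`, `z = spl As ρ`, `z' = spl Es z`. `RowOK` gives a message at
`rowPt rows ρ z'` (in the row region of `ρ`) with the value `F (tk ...) = F (hpt ...)`
(`PolyD.eq_of_copy`, `hpt_E`, `inR_std`) `= b2 so` (`op_eq`). Then `¬ RB`, `Msg_perm`, `¬ CB`, the move
(`h45`, `p2_congr` on the column region, errors add: `¬ MB`), `Msg_perm`, `¬ SB`.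
`fq_near`: `spl As` commutes with changes of the positions `W` (`av_congr`, `av_put`-style; e.g.
`av W (f ∘ spl As) ρ = av W f (spl As ρ)` by induction on the list), `Msg.unique`, and
`av W = av W ∘ av TP` with `p2_congr`. `sample_eq`: `pull_move12`, `av_av`, `av_K`, `av_aE`, `av_P`. -/

namespace Vale.Agent.P330.Amp

open Vale.Agent.Lib.H23 Vale.Agent.P325 Finset Matrix
open scoped BigOperators

variable {G : Inst 2} {L : Lo}

section aux

variable {σ κ : ℕ} {P : Set ℕ} {z0 z : Vec σ}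

theorem nb_fld (h : InR P z0 z) {p w : ℕ} (hp : ∀ j, p ≤ j → j < p + w → j ∉ P) :
    fld z p w = fld z0 p w := by
  unfold fld
  rw [h.get hp]

theorem nb_aN (h : InR P z0 z) {q : ℕ → ℕ} {n : ℕ} (hq : ∀ s < n, q s ∉ P) :
    aN q n z = aN q n z0 := by
  unfold aN
  refine congrArg Nat.ofBits (funext fun s => ?_)
  rw [nb_fld (p := q s) (w := 1) h fun j h1 h2 => (show q s = j by omega) ▸ hq s s.2]

theorem nb_spl_inR (es : List ℕ) : InR (pos (es.map (md κ))) z (spl κ es z) := by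
  have h : ∀ l : List ℕ, InR (pos (l.map (md κ))) z
      (l.foldr (fun p y => put y p (2 ^ κ) (ofN _ (2 ^ fld z p κ))) z) := fun l => by
    induction l with
    | nil => exact InR.refl
    | cons a l ih =>
      rw [List.map_cons, pos_cons]
      exact (ih.mono Set.subset_union_right).put (fun j h1 h2 => Or.inl (Set.mem_Ico.2 ⟨h1, h2⟩)) _
  exact h es

theorem nb_row_inR (l : List (ℕ × ℕ)) (ρ : Vec σ) :
    InR (pos (l.map fun a => md κ a.1)) z (rowPt κ l ρ z) := by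
  induction l with
  | nil => exact InR.refl
  | cons a l ih =>
    rw [List.map_cons, pos_cons]
    exact (ih.mono Set.subset_union_right).put (fun j h1 h2 => Or.inl (Set.mem_Ico.2 ⟨h1, h2⟩)) _

theorem nb_row (l : List (ℕ × ℕ)) (ρ : Vec σ) {j : Fin σ} (hj : j.val ∉ pos (cp κ l)) :
    rowPt κ l ρ z j = ρ j ∨ (j.val ∉ pos (l.map fun a => md κ a.1) ∧ rowPt κ l ρ z j = z j) := by
  induction l with
  | nil => exact Or.inr ⟨by rw [List.map_nil, pos_nil]; exact id, rfl⟩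
  | cons a l ih =>
    have h1 : j.val ∉ pos (cp κ l) := fun h =>
      hj (pos_mono (fun e he => by rw [cp, List.flatMap_cons]; exact List.mem_append_right _ he) h)
    have h2 : ¬ (a.1 + κ ≤ j ∧ j < a.1 + κ + (2 ^ κ - κ)) := fun h =>
      hj ⟨(false, a.1 + κ, 2 ^ κ - κ), by simp [cp], h⟩
    have h3 : κ < 2 ^ κ := Nat.lt_two_pow_self
    by_cases c : a.1 ≤ j ∧ j < a.1 + 2 ^ κ
    · refine Or.inl ((put_in _ c).trans ?_)
      have h4 : j - a.1 < κ := by omega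
      have h5 : a.1 + (j - a.1) < σ := by omega
      have h6 := congrFun (ofN_fld (z := ρ) (p := a.1) (w := κ)) ⟨j - a.1, h4⟩
      refine h6.trans ((dif_pos h5).trans (congrArg ρ (Fin.ext ?_)))
      dsimp only
      omega
    · have h4 : rowPt κ (a :: l) ρ z j = rowPt κ l ρ z j := put_out _ c
      rw [h4, List.map_cons, pos_cons]
      exact (ih h1).imp id fun h => ⟨fun h' => h'.elim c h.1, h.2⟩

theorem nb_copy {ds : List Dim} (h : InR (pos ds) z0 z)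
    (hg : ∀ e ∈ ds, e.1 = true → get z e.2.1 e.2.2 = get z0 e.2.1 e.2.2) :
    InR (pos (ds.filter fun e => !e.1)) z0 z := by
  intro j hj
  by_cases c : j.val ∈ pos ds
  · obtain ⟨e, he, h1⟩ := c
    by_cases c' : e.1 = true
    · rw [← put_get (z := z) (p := e.2.1) (w := e.2.2), put_in _ h1, hg e he c',
        ← put_in (z := z0) (get z0 e.2.1 e.2.2) h1, put_get]
    · exact absurd ⟨e, List.mem_filter.2 ⟨he, by simpa using c'⟩, h1⟩ hj
  · exact h j c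

theorem nb_av_spl {es : List ℕ} (hP : ∀ p ∈ es, ∀ j, p ≤ j → j < p + 2 ^ κ → j ∉ P)
    (f : Vec σ → ℝ) : av P (fun y => f (spl κ es y)) z = av P f (spl κ es z) := by
  refine expect_congr rfl fun y _ => congrArg f ?_
  have h3 : κ < 2 ^ κ := Nat.lt_two_pow_self
  unfold spl
  induction es with
  | nil => rfl
  | cons a l ih =>
    rw [List.foldr_cons, List.foldr_cons, ih fun p hp => hP p (List.mem_cons_of_mem _ hp),
      nb_fld (inR_mix y) fun j h1 h2 => hP a List.mem_cons_self j h1 (by omega)]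
    funext j
    by_cases c : a ≤ j ∧ j < a + 2 ^ κ
    · rw [put_in _ c, mix_out (hP a List.mem_cons_self j c.1 c.2), put_in _ c]
    · rw [put_out _ c]
      by_cases c' : j.val ∈ P
      · rw [mix_in c', mix_in c']
      · rw [mix_out c', mix_out c', put_out _ c]

theorem nb_step {p w i m : ℕ} (h : i < m) : p ≤ p + i * w ∧ p + i * w + w ≤ p + m * w :=
  ⟨Nat.le_add_right _ _, by nlinarith⟩

theorem nb_abs {f g b : Vec σ → ℝ} (h : ∀ y, InR P z y → |f y - g y| ≤ b y) :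
    |av P f z - av P g z| ≤ av P b z := by
  rw [← av_sub, abs_le]
  refine ⟨?_, av_mono fun y hy => (le_abs_self _).trans (h y hy)⟩
  have h1 := av_mono (f := fun y => (-1) * b y) (g := fun y => f y - g y)
    fun y hy => by linarith [neg_abs_le (f y - g y), h y hy]
  rw [av_mul] at h1
  linarith

end aux

theorem nb_ord (L : Lo) : L.pV = L.u + 2 ∧ L.pG = L.pV + L.κ ∧ L.pG + 1 ≤ L.pT 0 ∧
    L.pT 0 ≤ L.pR 0 ∧ L.pR 0 ≤ L.pP 0 ∧ L.pP 0 ≤ L.pA 0 ∧ L.pA 0 ≤ L.pE 0 ∧ L.pE 0 ≤ L.pt ∧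
    L.κ < 2 ^ L.κ := by
  refine ⟨rfl, rfl, ?_, ?_, ?_, ?_, ?_, ?_, Nat.lt_two_pow_self⟩ <;>
    simp only [Lo.pt, Lo.pE, Lo.pA, Lo.pP, Lo.pR, Lo.pT, Lo.pK] <;> omega

theorem nb_K {p : ℕ} (h : p ∈ L.Ks) : L.pG + 1 ≤ p ∧ p + L.κ ≤ L.pT 0 := by
  obtain ⟨i, hi, rfl⟩ := List.mem_map.1 h
  have h1 := nb_step (p := L.pG + 1) (w := L.κ) (List.mem_range.1 hi)
  simp only [Lo.pT, Lo.pK]
  omega

theorem nb_T {i : ℕ} (hi : i < L.c) : L.pT 0 ≤ L.pT i ∧ L.pT i + L.κ ≤ L.pR 0 := by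
  have h1 := nb_step (p := L.pK L.ck) (w := L.κ) hi
  simp only [Lo.pR, Lo.pT]
  omega

theorem nb_R {p : ℕ} (h : p ∈ L.Rs) : L.pR 0 ≤ p ∧ p + L.κ ≤ L.pP 0 := by
  obtain ⟨i, hi, rfl⟩ := List.mem_map.1 h
  have h1 := nb_step (p := L.pT L.c) (w := L.κ) (List.mem_range.1 hi)
  simp only [Lo.pP, Lo.pR]
  omega

theorem nb_P {p : ℕ} (h : p ∈ L.Ps) : L.pP 0 ≤ p ∧ p + L.κ ≤ L.pA 0 := by
  obtain ⟨i, hi, rfl⟩ := List.mem_map.1 h
  have h1 := nb_step (p := L.pR L.c) (w := L.κ) (List.mem_range.1 hi)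
  simp only [Lo.pA, Lo.pP]
  omega

theorem nb_A' {i : ℕ} (hi : i < L.c) : L.pA 0 ≤ L.pA i ∧ L.pA i + 2 ^ L.κ ≤ L.pE 0 := by
  have h1 := nb_step (p := L.pP (2 * L.c)) (w := 2 ^ L.κ) hi
  simp only [Lo.pE, Lo.pA, Lo.k]
  omega

theorem nb_E' {i : ℕ} (hi : i < L.c) : L.pE 0 ≤ L.pE i ∧ L.pE i + 2 ^ L.κ ≤ L.pt := by
  have h1 := nb_step (p := L.pA L.c) (w := 2 ^ L.κ) hi
  simp only [Lo.pt, Lo.pE, Lo.k]
  omega

theorem nb_A {p : ℕ} (h : p ∈ L.As) : L.pA 0 ≤ p ∧ p + 2 ^ L.κ ≤ L.pE 0 := by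
  obtain ⟨i, hi, rfl⟩ := List.mem_map.1 h
  exact nb_A' (List.mem_range.1 hi)

theorem nb_E {p : ℕ} (h : p ∈ L.Es) : L.pE 0 ≤ p ∧ p + 2 ^ L.κ ≤ L.pt := by
  obtain ⟨i, hi, rfl⟩ := List.mem_map.1 h
  exact nb_E' (List.mem_range.1 hi)

theorem nb_EE {p q : ℕ} (h : p ∈ L.Es) (h' : q ∈ L.Es) :
    p = q ∨ p + 2 ^ L.κ ≤ q ∨ q + 2 ^ L.κ ≤ p := by
  obtain ⟨i, -, rfl⟩ := List.mem_map.1 h
  obtain ⟨i', -, rfl⟩ := List.mem_map.1 h'
  rcases lt_trichotomy i i' with c | rfl | c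
  · exact Or.inr (Or.inl (nb_step c).2)
  · exact Or.inl rfl
  · exact Or.inr (Or.inr (nb_step c).2)

theorem nb_qA {s : ℕ} (hs : s < L.n) : L.pA 0 ≤ L.qA s ∧ L.qA s < L.pE 0 := by
  have h0 : 0 < L.κ := Nat.pos_of_mul_pos_left (Nat.zero_lt_of_lt hs)
  have h1 := nb_A' (L := L) (Nat.div_lt_of_lt_mul (by rwa [Nat.mul_comm]) : s / L.κ < L.c)
  have h2 := Nat.mod_lt s h0
  have h3 := nb_ord L
  unfold Lo.qA
  omega

theorem nb_qE {s : ℕ} (hs : s < L.n) : L.pE 0 ≤ L.qE s := by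
  have h1 := nb_E' (L := L) (Nat.div_lt_of_lt_mul (by rwa [Nat.mul_comm]) : s / L.κ < L.c)
  unfold Lo.qE
  omega

theorem nb_vd {κ j : ℕ} {l : List ℕ} : j ∈ pos (l.map (vd κ)) ↔ ∃ p ∈ l, p ≤ j ∧ j < p + κ :=
  ⟨fun ⟨_, he, h⟩ => by
    obtain ⟨p, hp, rfl⟩ := List.mem_map.1 he
    exact ⟨p, hp, h⟩, fun ⟨p, hp, h⟩ => ⟨_, List.mem_map_of_mem hp, h⟩⟩

theorem nb_pK {j : ℕ} (h : j ∈ pos (L.Ks.map (vd L.κ))) : L.pG + 1 ≤ j ∧ j < L.pT 0 := by
  obtain ⟨p, hp, h1⟩ := nb_vd.1 h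
  have h2 := nb_K hp
  omega

theorem nb_pE {j : ℕ} (h : j ∈ pos (L.Es.map (vd L.κ))) : L.pE 0 ≤ j ∧ j < L.pt := by
  obtain ⟨p, hp, h1⟩ := nb_vd.1 h
  have h2 := nb_E hp
  have h3 := nb_ord L
  omega

theorem nb_pP {j : ℕ} (h : j ∈ pos (L.Ps.map (vd L.κ))) : L.pP 0 ≤ j ∧ j < L.pA 0 := by
  obtain ⟨p, hp, h1⟩ := nb_vd.1 h
  have h2 := nb_P hp
  omega

theorem nb_W (hc : 1 ≤ L.c) {j : ℕ} (h : j ∈ L.W) :
    L.pG + 1 ≤ j ∧ j < L.pt ∧ ¬ (L.pA 0 ≤ j ∧ j < L.pE 0) := by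
  obtain ⟨p, hp, h1⟩ := nb_vd.1 h
  have h3 := nb_ord L
  simp only [Lo.qs, List.cons_append, List.mem_cons, List.mem_append] at hp
  rcases hp with rfl | (((hp | hp) | hp) | hp) | hp
  · have h2 := nb_T (L := L) hc
    omega
  · obtain ⟨i, hi, rfl⟩ := List.mem_map.1 hp
    have h2 := nb_T (L := L) (i := i) (by rw [List.mem_range'_1] at hi; omega)
    omega
  · have h2 := nb_E hp
    omega
  · have h2 := nb_K hp
    omega
  · have h2 := nb_R hp
    omega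
  · have h2 := nb_P hp
    omega

theorem nb_TP {j : ℕ} (h : j ∈ L.TP) : (L.pT 0 ≤ j ∧ j < L.pA 0) ∧ j ∈ L.W := by
  have h3 := nb_ord L
  rcases h with ⟨e, he, h1⟩ | h
  · simp only [Lo.rows, List.map_map, List.mem_map, List.mem_range, Function.comp] at he
    obtain ⟨i, hi, rfl⟩ := he
    have h2 := nb_T hi
    refine ⟨by dsimp only [vd] at h1; omega, nb_vd.2 ⟨L.pT i, ?_, h1⟩⟩
    rcases Nat.eq_zero_or_pos i with rfl | h4
    · exact List.mem_cons_self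
    · simp only [Lo.qs, List.cons_append, List.mem_cons, List.mem_append]
      exact Or.inr (Or.inl (Or.inl (Or.inl (Or.inl
        (List.mem_map_of_mem (List.mem_range'_1.2 (by omega)))))))
  · have h2 := nb_pP h
    obtain ⟨p, hp, h1⟩ := nb_vd.1 h
    exact ⟨by omega, nb_vd.2 ⟨p, List.mem_append_right _ hp, h1⟩⟩

theorem nb_col : pos (L.hi L.Es ++ L.d1) ⊆
    (pos (L.Es.map (vd L.κ)) ∪ pos (L.Ks.map (vd L.κ)) ∪ {L.pG} ∪ Set.Ici L.pt)ᶜ := by
  rintro j ⟨e, he, h1⟩ h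
  have h3 := nb_ord L
  have h4 : (∃ q ∈ L.Es, q ≤ j ∧ j < q + L.κ) ∨ (L.pG + 1 ≤ j ∧ j < L.pT 0) ∨ j = L.pG ∨
      L.pt ≤ j := by
    rcases h with ((h | h) | h) | h
    exacts [Or.inl (nb_vd.1 h), Or.inr (Or.inl (nb_pK h)), Or.inr (Or.inr (Or.inl h)),
      Or.inr (Or.inr (Or.inr h))]
  simp only [Lo.hi, Lo.d1, List.mem_append, List.mem_map, List.mem_singleton] at he
  rcases he with ⟨p, hp, rfl⟩ | (⟨p, hp, rfl⟩ | ⟨p, hp, rfl⟩) | rfl
  · have h2 := nb_E hp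
    dsimp only at h1
    rcases h4 with ⟨q, hq, h4⟩ | h4
    · have h5 := nb_EE hp hq
      omega
    · omega
  · have h2 := nb_A hp
    dsimp only [md] at h1
    rcases h4 with ⟨q, hq, h4⟩ | h4
    · have h5 := nb_E hq
      omega
    · omega
  · have h2 := nb_R hp
    dsimp only [vd] at h1
    rcases h4 with ⟨q, hq, h4⟩ | h4
    · have h5 := nb_E hq
      omega
    · omega
  · dsimp only [vd] at h1
    rcases h4 with ⟨q, hq, h4⟩ | h4
    · have h5 := nb_E hq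
      omega
    · omega

theorem nb_rows (L : Lo) : (L.rows.map fun a => md L.κ a.1) = L.As.map (md L.κ) := by
  simp only [Lo.rows, Lo.As, List.map_map]
  rfl

theorem nb_pA {j : ℕ} (h : j ∈ pos (L.As.map (md L.κ))) : L.pA 0 ≤ j ∧ j < L.pE 0 := by
  obtain ⟨_, he, h1⟩ := h
  obtain ⟨p, hp, rfl⟩ := List.mem_map.1 he
  have h2 := nb_A hp
  dsimp only [md] at h1
  omega

/-- the message of the row. -/
theorem nb_first (h : Ass G L) (T : Trace G L) {x : BB G} {ρ : Vec L.σ} (h0 : Home L.u ρ)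
    (h1 : T.RowOK x ρ) : Msg (eV L.M) L.dRow (T.X2 x)
      (rowPt L.κ L.rows ρ (spl L.κ L.Es (spl L.κ L.As ρ)))
      (b2 (T.op (p1 G L ρ x) (L.hpt (L.pr (L.tm ρ)) (L.th ρ) (aN L.qE L.n ρ)))) := by
  obtain ⟨F, hF, hF'⟩ := h1
  have ho := nb_ord L
  have hw : InR (pos L.dRow) ρ (rowPt L.κ L.rows ρ (spl L.κ L.Es (spl L.κ L.As ρ))) := by
    intro j hj
    rw [Lo.dRow, pos_append] at hj
    rcases nb_row (z := spl L.κ L.Es (spl L.κ L.As ρ)) L.rows ρ (fun a => hj (Or.inl a)) with c | c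
    · exact c
    · rw [c.2, nb_spl_inR L.Es j fun a => hj (Or.inr (pos_mono (fun e he => ?_) a)),
        nb_spl_inR L.As j (nb_rows L ▸ c.1)]
      exact List.mem_append_left _ (List.mem_append_left _ he)
  have hp : L.th ρ < 2 ^ (2 * L.n) := fld_lt
  have ht : L.pr (L.tm ρ) < 2 ^ L.τ := Nat.mod_lt _ (Nat.two_pow_pos _)
  have hs : InR (pos L.dStd) (tk L.pt L.τ ρ) (L.hpt (L.pr (L.tm ρ)) (L.th ρ) (aN L.qE L.n ρ)) :=
    ((inR_std h ht hp).2 ⟨home_tk h h0, tm_tk h ρ, th_tk h ρ⟩).symm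
  refine ⟨_, hF'.base hw, ?_⟩
  rw [op_eq h T (home_tk h h0) hF hs (hp_hpt h hp)]
  have hsub : pos L.dRow ⊆ pos L.dStd :=
    pos_mono fun e he => List.mem_append_right _ he
  refine hF.1.eq_of_copy (L.lay_std h.hκ h.hc) hs (nb_copy (hs.symm.trans (tk_inR h
    (fun j hj => ((L.pos_std h.hκ h.hc j).1 hj).2.1) (hw.mono hsub))) fun e he h1 => ?_)
  have he' : ∃ a ∈ L.Es, md L.κ a = e := by
    simp only [Lo.dStd, Lo.dRow, Lo.base, cp, List.cons_append, List.mem_cons, List.mem_append,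
      List.mem_map, List.mem_flatMap, List.not_mem_nil, or_false] at he
    rcases he with rfl | ⟨p, -, rfl⟩ | ⟨p, -, rfl | rfl⟩ | (he | ⟨p, -, rfl⟩) | rfl
    all_goals first | exact he | exact absurd h1 Bool.false_ne_true
  obtain ⟨a, ha, rfl⟩ := he'
  have h2 := nb_E ha
  dsimp only [md]
  rw [hpt_E L h.hκ h.hc hp ρ ha, tk, get_put_disj (Or.inr h2.2),
    (nb_row_inR L.rows ρ).get fun j h3 h4 h5 => by have := nb_pA (nb_rows L ▸ h5); omega,
    get_spl_Es L h.hκ h.hc _ ha,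
    nb_fld (nb_spl_inR L.As) fun j h3 h4 h5 => by have := nb_pA h5; omega]

theorem chain (h : Ass G L) (T : Trace G L) {x : BB G} {ρ : Vec L.σ} (h0 : Home L.u ρ)
    (h1 : T.RowOK (p2 G L ρ x) ρ) (h2 : ¬ T.RB (p2 G L ρ x) ρ) (h3 : ¬ T.CB (p2 G L ρ x) ρ)
    (h4 : ¬ T.MB x ρ) (h5 : ¬ T.SB x ρ) :
    Msg (eV L.M) (vd L.κ L.pV :: L.dW) (T.X6 x) (spl L.κ L.As ρ) (b2 (T.so x ρ)) := by
  have ho := nb_ord L
  have hz : InR (pos (L.As.map (md L.κ))) ρ (spl L.κ L.As ρ) := nb_spl_inR L.As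
  have hA : ∀ e ∈ L.As.map (md L.κ), ∃ n < e.2.2,
      get (spl L.κ L.As ρ) e.2.1 e.2.2 = ofN _ (2 ^ n) := fun e he => by
    obtain ⟨a, ha, rfl⟩ := List.mem_map.1 he
    exact ⟨_, fld_lt, get_spl_As L h.hκ h.hc ρ ha⟩
  have m3 := not_not.1 h2 (spl L.κ L.Es (spl L.κ L.As ρ))
    ((hz.mono (pos_mono fun e he => List.mem_append_left _ (nb_rows L ▸ he))).trans
      ((nb_spl_inR L.Es).mono (pos_mono fun e he =>
        List.mem_append_right _ (List.mem_append_left _ (List.mem_append_left _ he)))))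
    (fun e he h6 => by
      simp only [Lo.base, List.mem_append, List.mem_map, List.mem_singleton] at he
      rcases he with (⟨a, ha, rfl⟩ | ⟨a, -, rfl⟩) | rfl
      · exact ⟨_, fld_lt, get_spl_Es L h.hκ h.hc _ ha⟩
      · exact absurd h6 Bool.false_ne_true
      · exact absurd h6 Bool.false_ne_true)
    (fun a ha => by
      obtain ⟨i, hi, rfl⟩ := List.mem_map.1 ha
      have h6 := nb_A' (List.mem_range.1 hi)
      rw [(inR_spl_Es L h.hκ h.hc _).get fun j h7 h8 h9 => by have := h9.1; omega]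
      exact get_spl_As L h.hκ h.hc ρ (List.mem_map_of_mem hi))
    _ (nb_first h T h0 h1)
  rw [nb_rows, Msg_perm (ds' := L.Es.map (md L.κ) ++ L.d1) fun e => by
    simp only [Lo.base, Lo.d1, List.mem_append]; tauto] at m3
  have hz' : InR (pos (L.hi L.Es ++ L.d1)) ρ (spl L.κ L.As ρ) := hz.mono (pos_mono fun e he =>
    List.mem_append_right _ (List.mem_append_left _ (List.mem_append_left _ he)))
  obtain ⟨F, ⟨hF, he⟩, hy⟩ := not_not.1 h3 (spl L.κ L.As ρ) hz' (fun e he h6 => by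
    simp only [Lo.d1, List.mem_append, List.mem_singleton] at he
    rcases he with (he | he) | rfl
    · exact hA e he
    · obtain ⟨a, -, rfl⟩ := List.mem_map.1 he
      exact absurd h6 Bool.false_ne_true
    · exact absurd h6 Bool.false_ne_true) _ m3
  have m5 : Msg (eV L.M) (L.hi L.Es ++ L.d1) (T.X5 x) (spl L.κ L.As ρ) (b2 (T.so x ρ)) := by
    refine ⟨F, ⟨hF, ?_⟩, hy⟩
    have h6 : err (L.hi L.Es ++ L.d1) (T.X5 x) F (spl L.κ L.As ρ) ≤ av (pos (L.hi L.Es ++ L.d1))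
        (fun w => ind (T.X4 (p2 G L ρ x) w ≠ pz (F w)) + ind (T.S x w)) (spl L.κ L.As ρ) := by
      refine av_mono fun w hw => (ind_mono fun h7 => ?_).trans (ind_or_le _ _)
      by_contra h8
      rw [not_or, not_not] at h8
      refine h7 (T.h45 x w _ h8.2 ?_)
      rw [p2_congr h ((hz'.trans hw).mono nb_col)]
      exact h8.1
    rw [av_add, av_base (f := fun w => ind (T.S x w)) hz'] at h6
    have h7 := not_le.1 h4
    have h8 : err (L.hi L.Es ++ L.d1) (T.X4 (p2 G L ρ x)) F (spl L.κ L.As ρ) ≤ eV L.M / 2 := he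
    unfold err at h8
    linarith
  refine not_not.1 h5 _ (hz.mono (pos_mono fun e he =>
    List.mem_cons_of_mem _ (List.mem_append_left _ he))) (fun e he h6 => ?_) _
    ((Msg_perm fun e => ?_).1 m5)
  · simp only [Lo.dW, List.mem_append, List.mem_cons] at he
    rcases he with rfl | he | he
    · exact absurd h6 Bool.false_ne_true
    · exact hA e he
    · obtain ⟨a, -, rfl⟩ := List.mem_map.1 he
      exact absurd h6 Bool.false_ne_true
  · simp only [Lo.dW, Lo.d1, List.mem_append, List.mem_cons, List.not_mem_nil, or_false]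
    tauto

theorem fq_near (h : Ass G L) (T : Trace G L) (x : BB G) {ρ : Vec L.σ} (h0 : Home L.u ρ) :
    |T.fq x ρ - av L.W (fun ρ' => ind (T.so x ρ' = true)) ρ| ≤
      av L.W (fun ρ' => T.rowT (p2 G L ρ' x) ρ') ρ + T.colT x ρ := by
  have ho := nb_ord L
  have hW : L.W ∪ L.TP = L.W := Set.union_eq_self_of_subset_right fun j hj => (nb_TP hj).2
  have e1 : av L.W (fun ρ' => T.rowT (p2 G L ρ' x) ρ') ρ = av L.W
      (fun ρ' => ind (¬ T.RowOK (p2 G L ρ' x) ρ') + ind (T.RB (p2 G L ρ' x) ρ')) ρ := by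
    conv_rhs => rw [← hW, ← av_av]
    refine av_congr fun ρ' _ => av_congr fun w hw => ?_
    rw [p2_congr h (hw.mono fun j hj h1 => ?_)]
    have h2 := (nb_TP hj).1
    rcases h1 with ((h1 | h1) | h1) | h1
    · have := nb_pE h1
      omega
    · have := nb_pK h1
      omega
    · have : j = L.pG := h1
      omega
    · have : L.pt ≤ j := h1
      omega
  have e2 : T.fq x ρ = av L.W (fun ρ' => ind (Msg (eV L.M) (vd L.κ L.pV :: L.dW) (T.X6 x)
      (spl L.κ L.As ρ') 1)) ρ := (nb_av_spl (fun p hp j h1 h2 h3 => by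
    have h4 := nb_A hp
    have h5 := nb_W h.hc h3
    omega) fun y => ind (Msg (eV L.M) (vd L.κ L.pV :: L.dW) (T.X6 x) y 1)).symm
  rw [e1, e2, Trace.colT, ← av_add]
  refine nb_abs fun y hy => ?_
  have hy0 : Home L.u y := hy.home (fun j hj => by have := nb_W h.hc hj; omega) h0
  have n1 := ind_nonneg (¬ T.RowOK (p2 G L y x) y)
  have n2 := ind_nonneg (T.RB (p2 G L y x) y)
  have n3 := ind_nonneg (T.CB (p2 G L y x) y)
  have n4 := ind_nonneg (T.MB x y)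
  have n5 := ind_nonneg (T.SB x y)
  have hb : |ind (Msg (eV L.M) (vd L.κ L.pV :: L.dW) (T.X6 x) (spl L.κ L.As y) 1) -
      ind (T.so x y = true)| ≤ 1 := by
    rw [abs_le]
    constructor <;> linarith [ind_nonneg (T.so x y = true), ind_le_one (T.so x y = true),
      ind_nonneg (Msg (eV L.M) (vd L.κ L.pV :: L.dW) (T.X6 x) (spl L.κ L.As y) 1),
      ind_le_one (Msg (eV L.M) (vd L.κ L.pV :: L.dW) (T.X6 x) (spl L.κ L.As y) 1)]
  by_cases c1 : ¬ T.RowOK (p2 G L y x) y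
  · linarith [ind_of c1]
  by_cases c2 : T.RB (p2 G L y x) y
  · linarith [ind_of c2]
  by_cases c3 : T.CB (p2 G L y x) y
  · linarith [ind_of c3]
  by_cases c4 : T.MB x y
  · linarith [ind_of c4]
  by_cases c5 : T.SB x y
  · linarith [ind_of c5]
  have m := chain h T hy0 (not_not.1 c1) c2 c3 c4 c5
  have hd : (vd L.κ L.pV :: L.dW).length ≤ L.M := by
    simp only [Lo.dW, Lo.hi, Lo.As, Lo.Es, Lo.M, List.length_cons, List.length_append,
      List.length_map, List.length_range]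
    omega
  rw [ind_congr (q := T.so x y = true) ⟨fun a => ?_, fun a => ?_⟩, sub_self, abs_zero]
  · linarith
  · have h1 := Msg.unique ((L.lay_sans h.hκ h.hc).sublist (List.sublist_append_right _ _))
      (L.par h.hκ h.hc).hM hd m a
    rw [← decide_b2 (T.so x y), h1]
    rfl
  · rw [a] at m
    exact m

theorem sample_eq (h : Ass G L) (T : Trace G L) (y : Big G.b G.β) (jj : Big 2 G.β) (ρ : Vec L.σ) :
    av L.W (fun ρ' => ind (T.so (join y jj) ρ' = true)) ρ =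
      𝔼 K : Fin L.ck → Fin 32, T.hh (L.pr (L.tm ρ))
        (piZ G L ρ (y + Lv G.b (G.gens 1) L.n (aN L.qA L.n ρ) (jj 0)))
        (walk G.gens (List.ofFn fun i => (K i : ℕ)) jj) := by
  have ho := nb_ord L
  have hκ := h.hκ
  obtain ⟨Φ, hΦ⟩ : ∃ Φ : List ℕ → ℕ → ℕ → ℝ, Φ = fun w e p => ind (T.op (join
      (piZ G L ρ (y + Lv G.b (G.gens 1) L.n (aN L.qA L.n ρ) (jj 0)) +
        Lv G.b (G.gens 1) L.n e (walk G.gens w jj 0)) (walk G.gens w jj))
      (L.hpt (L.pr (L.tm ρ)) p e) = true) := ⟨_, rfl⟩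
  have e1 : av L.W (fun ρ' => ind (T.so (join y jj) ρ' = true)) ρ = av L.W (fun ρ' =>
      Φ (L.Ks.map fun p => fld ρ' p 5) (aN L.qE L.n ρ') (fld ρ' (L.pP 0) (2 * L.n))) ρ := by
    refine av_congr fun w hw => ?_
    have a1 : fld w L.pt L.τ = fld ρ L.pt L.τ :=
      nb_fld hw fun j h1 h2 h3 => by have := nb_W h.hc h3; omega
    have a2 : fld w L.pG 1 = fld ρ L.pG 1 :=
      nb_fld hw fun j h1 h2 h3 => by have := nb_W h.hc h3; omega
    have a3 : aN L.qA L.n w = aN L.qA L.n ρ :=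
      nb_aN hw fun s hs h3 => (nb_W h.hc h3).2.2 (nb_qA hs)
    have a4 : piZ G L w = piZ G L ρ := by
      unfold piZ Lo.gi
      rw [a1, a2]
    rw [hΦ, Trace.so, p1, p2, pull_move12 G L h.good h.hσ, a3, a4, Lo.tm, a1]
    rfl
  have hK : ∀ {Q : Set ℕ} {z w : Vec L.σ}, InR Q z w → (∀ j ∈ Q, L.pT 0 ≤ j) →
      (L.Ks.map fun p => fld w p 5) = L.Ks.map fun p => fld z p 5 := fun hw hQ =>
    List.map_congr_left fun p hp => nb_fld hw fun j h1 h2 h3 => by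
      have h4 := nb_K hp
      have h5 := hQ j h3
      omega
  have hU : L.W ∪ pos (L.Ks.map (vd L.κ)) ∪ pos (L.Es.map (vd L.κ)) ∪ pos (L.Ps.map (vd L.κ)) =
      L.W := by
    rw [Set.union_assoc, Set.union_assoc]
    refine Set.union_eq_self_of_subset_right (Set.union_subset ?_ (Set.union_subset ?_ ?_)) <;>
      refine pos_mono (List.map_subset _ fun p hp => ?_) <;>
      simp only [Lo.qs, List.cons_append, List.mem_cons, List.mem_append, hp, or_true, true_or]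
  rw [e1, ← hU, ← av_av, ← av_av, ← av_av]
  refine (av_congr fun z _ => ?_).trans (av_const _)
  refine (av_congr (g := fun w => 𝔼 e : Fin (2 ^ L.n), 𝔼 p : Fin (2 ^ (2 * L.n)),
    Φ (L.Ks.map fun p => fld w p 5) e p) fun w _ => ?_).trans ?_
  · refine (av_congr (g := fun v => 𝔼 p : Fin (2 ^ (2 * L.n)),
      Φ (L.Ks.map fun p => fld w p 5) (aN L.qE L.n v) p) fun v hv => ?_).trans
      (av_aE L h.hκ h.hc (fun e => 𝔼 p : Fin (2 ^ (2 * L.n)),
        Φ (L.Ks.map fun p => fld w p 5) e p) w)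
    refine (av_congr fun t ht => ?_).trans
      (av_P L h.hκ h.hc (Φ (L.Ks.map fun p => fld w p 5) (aN L.qE L.n v)) v)
    rw [hK ht fun j hj => by have := nb_pP hj; omega, hK hv fun j hj => by have := nb_pE hj; omega,
      nb_aN ht fun s hs hj => by have := nb_pP hj; have := nb_qE hs; omega]
  · rw [av_K L h.hκ h.hc (fun w => 𝔼 e : Fin (2 ^ L.n), 𝔼 p : Fin (2 ^ (2 * L.n)), Φ w e p) z, hΦ]
    rfl

end Vale.Agent.P330.Amp
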