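import Vale.Agent.P330.NodeA

/-! The charge of the rows (task NodeC).
Plan. Let `F x t p = Classical.epsilon (StdP x t p)`, `x' = p1 ρ x`, `t' = pr (tm ρ)`. `RowOK x ρ` holds
if `StdGood x' t' (th ρ)`, `err dRow (X0 x') F (tk ρ) ≤ eV / 2` and `av (pos dRow) S ρ ≤ eV / 2` (`h02`,
`p1_congr` on the row region, `av_tk`, `PolyD.sub`, `PolyD.comp_put`-style transport along `tk`).
With `f = ind (¬ RowOK x ·)` (invariant on row regions): `av Ps f ≤ δ + c1 + av Ps c0` (`std_good`,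
`av_P`), `mgs_spec` inside, so `rowT ≤ (c + 1) δ + g + hsum g'` with nonnegative charges, and
`(c + 1) δ ≤ 1/1000` by `Ass.big`. Means: `av AK (hsum g') = c * av AK g'` (`av_av`), exchange `𝔼 x`
and `av` (`av_expect`), `expect_pullB` for fixed `ρ`, Markov over `AK` with `av_err` (the positions
`AK` and `dRow` give `dStd` without the bit `pG`: factor 2, `av_slice`), `av_flt`, `flt_slice`. -/

namespace Vale.Agent.P330.Amp

open Vale.Agent.Lib.H23 Vale.Agent.P325 Finset Matrix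
open scoped BigOperators

section general

variable {σ : ℕ} {P Q : Set ℕ} {f : Vec σ → ℝ} {z z' : Vec σ}

lemma nc_av_self (hf : ∀ z z', InR Q z z' → f z' = f z) (z : Vec σ) : av Q f z = f z :=
  (av_congr fun _ hy => hf _ _ hy).trans (av_const _)

lemma nc_av_union (hf : ∀ z z', InR Q z z' → f z' = f z) (z : Vec σ) :
    av (P ∪ Q) f z = av P f z := by
  rw [← av_av]
  exact av_congr fun w _ => nc_av_self hf w

lemma nc_av_inv (hf : ∀ z z', InR Q z z' → f z' = f z) (h : InR (P ∪ Q) z z') :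
    av P f z' = av P f z := by
  rw [← nc_av_union hf z', ← nc_av_union hf z, av_base h]

lemma nc_av_comm : av P (av Q f) z = av Q (av P f) z := by
  rw [av_av, av_av, Set.union_comm]

lemma nc_fld {p w : ℕ} (h : InR P z z') (hp : ∀ j, p ≤ j → j < p + w → j ∉ P) :
    fld z' p w = fld z p w := by
  rw [fld, fld, h.get hp]

lemma nc_rowPt {κ : ℕ} {l : List (ℕ × ℕ)} {ρ ρ' : Vec σ}
    (h : ∀ a ∈ l, fld ρ' a.1 κ = fld ρ a.1 κ) (z : Vec σ) : rowPt κ l ρ' z = rowPt κ l ρ z := by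
  induction l with
  | nil => rfl
  | cons a l ih =>
    have := ih fun b hb => h b (List.mem_cons_of_mem _ hb)
    simp only [rowPt, List.foldr_cons] at this ⊢
    rw [this, h a List.mem_cons_self]

lemma nc_ind3 {p a b c : Prop} (h : ¬ a → ¬ b → ¬ c → p) : ind (¬ p) ≤ ind a + (ind b + ind c) := by
  have h1 := ind_nonneg a
  have h2 := ind_nonneg b
  have h3 := ind_nonneg c
  have h4 := ind_le_one (¬ p)
  by_cases ha : a
  · rw [ind_of ha]; linarith
  by_cases hb : b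
  · rw [ind_of hb]; linarith
  by_cases hc : c
  · rw [ind_of hc]; linarith
  rw [ind_of_not (not_not.2 (h ha hb hc))]
  linarith

lemma nc_eV (M : ℕ) : 1 / (eV M / 2) = 2 ^ (6 * M + 1) := by
  rw [eV, pow_succ, pow_mul, _root_.one_div_pow]
  norm_num
  ring

end general

variable {G : Inst 2} {L : Lo}

lemma nc_std (L : Lo) : pos L.dStd = ({L.pG} ∪ L.AK) ∪ pos L.dRow := by
  rw [Lo.dStd, pos_append, pos_cons, List.map_append, pos_append, Lo.AK]
  congr 2
  ext j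
  simp only [Set.mem_Ico, Set.mem_singleton_iff]
  omega

lemma nc_disj (h : Ass G L) {j : ℕ} (hj : j ∈ ({L.pG} ∪ L.AK : Set ℕ)) : j ∉ pos L.dRow := by
  refine Lay.disj (L.lay_std h.hκ h.hc) ?_
  rw [pos_cons, List.map_append, pos_append]
  rcases hj with hj | hj
  · refine Or.inl ?_
    simp only [Set.mem_singleton_iff] at hj
    simp only [Set.mem_Ico]
    omega
  · exact Or.inr hj

lemma nc_row_std (L : Lo) : pos L.dRow ⊆ pos L.dStd := by
  rw [nc_std]
  exact Set.subset_union_right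

lemma nc_AK_std (L : Lo) : L.AK ⊆ pos L.dStd := by
  rw [nc_std]
  exact fun _ hj => Or.inl (Or.inr hj)

lemma nc_order (L : Lo) : L.u + 2 = L.pV ∧ L.pV ≤ L.pP 0 ∧ L.pP 0 + 2 * L.n = L.pA 0 ∧
    L.pA 0 ≤ L.pt := by
  refine ⟨rfl, ?_, ?_, ?_⟩ <;>
    simp only [Lo.pt, Lo.pE, Lo.pA, Lo.pP, Lo.pR, Lo.pT, Lo.pK, Lo.pG, Lo.pV, Lo.n, mul_assoc] <;>
    omega

lemma nc_std_mem (h : Ass G L) {j : ℕ} (hj : j ∈ pos L.dStd) :
    L.u + 2 ≤ j ∧ j < L.pt ∧ ¬ (L.pP 0 ≤ j ∧ j < L.pP 0 + 2 * L.n) := by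
  have := (L.pos_std h.hκ h.hc j).1 hj
  have := nc_order L
  omega

lemma nc_P_mem (h : Ass G L) {j : ℕ} (hj : j ∈ pos (L.Ps.map (vd L.κ))) :
    L.u + 2 ≤ j ∧ j < L.pt ∧ j ∉ pos L.dStd := by
  have h1 := (L.pos_Ps h.hκ h.hc j).1 hj
  have := nc_order L
  refine ⟨by omega, by omega, fun h2 => ?_⟩
  have := nc_std_mem h h2
  omega

lemma nc_cover (h : Ass G L) {j : ℕ} (hj : j < L.pt) :
    j < L.u + 2 ∨ j ∈ pos L.dStd ∨ j ∈ pos (L.Ps.map (vd L.κ)) := by
  rw [L.pos_std h.hκ h.hc, L.pos_Ps h.hκ h.hc]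
  have := nc_order L
  omega

lemma nc_pG (L : Lo) : L.pG ∈ pos L.dStd := by
  rw [nc_std]
  exact Or.inl (Or.inl rfl)

lemma nc_row_p1 (h : Ass G L) :
    pos L.dRow ∪ pos (L.Ps.map (vd L.κ)) ⊆ (L.AK ∪ {L.pG} ∪ Set.Ici L.pt)ᶜ := by
  rintro j (hj | hj) ((h1 | h1) | h1)
  · exact nc_disj h (Or.inr h1) hj
  · exact nc_disj h (Or.inl h1) hj
  · exact absurd (nc_std_mem h (nc_row_std L hj)).2.1 (not_lt.2 h1)
  · exact (nc_P_mem h hj).2.2 (nc_AK_std L h1)
  · exact (nc_P_mem h hj).2.2 (by rw [Set.mem_singleton_iff.1 h1]; exact nc_pG L)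
  · exact absurd (nc_P_mem h hj).2.1 (not_lt.2 h1)

lemma nc_tm {P : Set ℕ} (hP : ∀ j ∈ P, j < L.pt) {z z' : Vec L.σ} (hz : InR P z z') :
    L.tm z' = L.tm z :=
  nc_fld hz fun j h1 _ hj => absurd (hP j hj) (not_lt.2 h1)

lemma nc_th (h : Ass G L) {z z' : Vec L.σ} (hz : InR (pos L.dStd) z z') : L.th z' = L.th z :=
  nc_fld hz fun _ h1 h2 hj => (nc_std_mem h hj).2.2 ⟨h1, h2⟩

lemma nc_pr (L : Lo) (t : ℕ) : L.pr t < 2 ^ L.τ := Nat.mod_lt _ (by positivity)

lemma nc_tk_std (h : Ass G L) {z : Vec L.σ} (h0 : Home L.u z) :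
    InR (pos L.dStd) (L.hpt (L.pr (L.tm z)) (L.th z) 0) (tk L.pt L.τ z) :=
  (inR_std h (nc_pr L _) fld_lt).2 ⟨home_tk h h0, tm_tk h z, th_tk h z⟩

lemma nc_flt (h : Ass G L) (T : Trace G L) (x : BB G) {P : Set ℕ} (hP : ∀ j ∈ P, j < L.pt)
    (hP' : L.AK ∪ pos L.dRow ∪ pos (L.Ps.map (vd L.κ)) ⊆ P) (z : Vec L.σ) :
    flt L.u (T.S x) P z ≤ 2 * T.bt x (L.tm z) := by
  have := av_slice (f := fun y => ind (T.S x y)) (P := P ∪ Set.Iio (L.u + 2)) (Q := Set.Iio L.pt)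
    (fun _ => ind_nonneg _) [L.pG] (fun j hj => by
      rcases nc_cover h hj with h1 | h1 | h1
      · exact Or.inl (Or.inr h1)
      · rw [nc_std] at h1
        rcases h1 with (h1 | h1) | h1
        · exact Or.inr (List.mem_singleton.2 h1)
        · exact Or.inl (Or.inl (hP' (Or.inl (Or.inl h1))))
        · exact Or.inl (Or.inl (hP' (Or.inl (Or.inr h1))))
      · exact Or.inl (Or.inl (hP' (Or.inr h1))))
    (by
      rintro j (hj | hj)
      · exact hP j hj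
      · have := nc_order L
        simp only [Set.mem_Iio] at hj ⊢
        omega)
    ((inR_time h (t := L.tm z) fld_lt).2 rfl)
  rw [List.length_singleton, pow_one] at this
  exact this

lemma nc_T_row (L : Lo) : pos (L.rows.map fun a => vd L.κ a.2) ⊆ pos L.dRow := by
  refine pos_mono fun e he => ?_
  obtain ⟨a, ha, rfl⟩ := List.mem_map.1 he
  exact List.mem_append_left _ (List.mem_flatMap.2 ⟨a, ha, List.mem_cons_self⟩)

lemma nc_lo_AK (L : Lo) (i : ℕ) : pos (lo L.κ (L.rows.take i)) ⊆ L.AK := by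
  refine fun j hj => Or.inl (pos_mono (fun e he => ?_) hj)
  obtain ⟨a, ha, rfl⟩ := List.mem_map.1 he
  obtain ⟨d, hd, rfl⟩ := List.mem_map.1 (List.mem_of_mem_take ha)
  exact List.mem_map.2 ⟨_, List.mem_map.2 ⟨d, hd, rfl⟩, rfl⟩

lemma nc_rowOK (h : Ass G L) (T : Trace G L) (x : BB G) {z z' : Vec L.σ}
    (hz : InR (pos L.dRow) z z') (hr : T.RowOK x z) : T.RowOK x z' := by
  obtain ⟨F, h1, h2⟩ := hr
  refine ⟨F, ?_, h2.base hz⟩
  rw [p1_congr h (hz.mono fun j hj => nc_row_p1 h (Or.inl hj))]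
  exact h1.base ((tk_inR h (fun j hj => (nc_std_mem h (nc_row_std L hj)).2.1) hz).mono
    (nc_row_std L))

lemma nc_RB (h : Ass G L) (T : Trace G L) (x : BB G) {z z' : Vec L.σ}
    (hz : InR (pos L.dRow ∩ pos ((L.rows.map fun a => md L.κ a.1) ++ L.base)) z z')
    (hr : T.RB x z) : T.RB x z' := by
  have e : ∀ a ∈ L.rows, fld z' a.1 L.κ = fld z a.1 L.κ := fun a ha =>
    nc_fld hz fun j h1 h2 hj => by
      obtain ⟨d, hd, rfl⟩ := List.mem_map.1 ha
      exact nc_disj h (Or.inr (Or.inl ⟨vd L.κ (L.pA d),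
        List.mem_map.2 ⟨_, List.mem_map.2 ⟨d, hd, rfl⟩, rfl⟩, h1, h2⟩)) hj.1
  refine fun H => hr fun w hw hH ha y hm => ?_
  refine H w ((hz.mono Set.inter_subset_right).symm.trans hw) hH
    (fun a ha' => by rw [e a ha']; exact ha a ha') y ?_
  rw [nc_rowPt e]
  exact hm

lemma nc_row_split (L : Lo) : pos L.dRow ⊆ pos (L.rows.map fun a => vd L.κ a.2) ∪
    (pos L.dRow ∩ pos ((L.rows.map fun a => md L.κ a.1) ++ L.base)) := by
  intro j hj
  obtain ⟨e, he, h1, h2⟩ := hj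
  rcases List.mem_append.1 he with he' | he'
  · obtain ⟨a, ha, he''⟩ := List.mem_flatMap.1 he'
    rcases List.mem_cons.1 he'' with rfl | he''
    · exact Or.inl ⟨_, List.mem_map.2 ⟨a, ha, rfl⟩, h1, h2⟩
    · rw [List.mem_singleton.1 he''] at h1 h2
      refine Or.inr ⟨⟨e, he, by rwa [List.mem_singleton.1 he''],
        by rwa [List.mem_singleton.1 he'']⟩,
        md L.κ a.1, List.mem_append_left _ (List.mem_map.2 ⟨a, ha, rfl⟩), ?_⟩
      have : L.κ < 2 ^ L.κ := Nat.lt_two_pow_self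
      simp only [md] at h1 h2 ⊢
      omega
  · exact Or.inr ⟨⟨e, he, h1, h2⟩, e, List.mem_append_right _ he', h1, h2⟩

theorem rowT_congr (h : Ass G L) (T : Trace G L) (x : BB G) {ρ ρ' : Vec L.σ}
    (hz : InR (pos L.dRow ∪ pos (L.Ps.map (vd L.κ))) ρ ρ') : T.rowT x ρ' = T.rowT x ρ := by
  refine nc_av_inv (Q := pos L.dRow ∩ pos ((L.rows.map fun a => md L.κ a.1) ++ L.base))
    (fun z z' hz => ?_) (hz.mono ?_)
  · have h1 := hz.mono Set.inter_subset_left
    rw [ind_congr (not_congr ⟨nc_rowOK h T x h1.symm, nc_rowOK h T x h1⟩),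
      ind_congr ⟨nc_RB h T x hz.symm, nc_RB h T x hz⟩]
  · rintro j (hj | hj)
    · rcases nc_row_split L hj with hj | hj
      · exact Or.inl (Or.inl hj)
      · exact Or.inr hj
    · exact Or.inl (Or.inr hj)

theorem rowT_le (T : Trace G L) (x : BB G) (ρ : Vec L.σ) : 0 ≤ T.rowT x ρ ∧ T.rowT x ρ ≤ 2 :=
  ⟨av_nonneg fun _ => add_nonneg (ind_nonneg _) (ind_nonneg _), av_le fun z _ => by
    have h1 := ind_le_one (¬ T.RowOK x z)
    have h2 := ind_le_one (T.RB x z)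
    linarith⟩

namespace Trace

variable (T : Trace G L)

/-- the chosen codeword of a standard bundle. -/
noncomputable def stdF (x : BB G) (t p : ℕ) : Vec L.σ → ZMod 2 := Classical.epsilon (T.StdP x t p)

/-- the row has many errors although the standard bundle is good. -/
def ncB (x : BB G) (z : Vec L.σ) : Prop :=
  T.StdGood x (L.pr (L.tm z)) (L.th z) ∧
    eV L.M / 2 ≤ err L.dRow (T.X0 x) (T.stdF x (L.pr (L.tm z)) (L.th z)) (tk L.pt L.τ z)

/-- the row has many faults. -/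
def ncC (x : BB G) (z : Vec L.σ) : Prop :=
  eV L.M / 2 ≤ av (pos L.dRow) (fun y => ind (T.S x y)) z

/-- the charge of one row. -/
noncomputable def ncPsi (x : BB G) (z : Vec L.σ) : ℝ :=
  2 ^ (8 * L.u) * T.bt (p1 G L z x) (L.pr (L.tm z)) +
    av (pos (L.Ps.map (vd L.κ))) (fun y => ind (T.ncB (p1 G L y x) y) + ind (T.ncC x y)) z

end Trace

lemma nc_bt (T : Trace G L) (x : BB G) (t : ℕ) : 0 ≤ T.bt x t := av_ind_nonneg _

lemma nc_psi (T : Trace G L) (x : BB G) (z : Vec L.σ) : 0 ≤ T.ncPsi x z :=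
  add_nonneg (mul_nonneg (by positivity) (nc_bt T _ _))
    (av_nonneg fun _ => add_nonneg (ind_nonneg _) (ind_nonneg _))

lemma nc_ok (h : Ass G L) (T : Trace G L) (x : BB G) {z : Vec L.σ} (h0 : Home L.u z)
    (hA : T.StdGood (p1 G L z x) (L.pr (L.tm z)) (L.th z)) (hB : ¬ T.ncB (p1 G L z x) z)
    (hC : ¬ T.ncC x z) : T.RowOK x z := by
  have hF : T.StdP _ _ _ (T.stdF (p1 G L z x) (L.pr (L.tm z)) (L.th z)) :=
    Classical.epsilon_spec hA
  have hB' := not_le.1 fun hb => hB ⟨hA, hb⟩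
  have hC' := not_le.1 hC
  generalize T.stdF (p1 G L z x) (L.pr (L.tm z)) (L.th z) = F at hF hB'
  have he := eV_pos L.M
  have hV := ((StdP.valid h hF).base (nc_tk_std h h0)).mono (ε' := eV L.M) (by linarith)
  have hlt : ∀ j ∈ pos L.dRow, j < L.pt := fun j hj => (nc_std_mem h (nc_row_std L hj)).2.1
  refine ⟨F, hV, ?_, ?_⟩
  · have h1 : PolyD 3 L.dRow (tk L.pt L.τ z) F :=
      hV.1.sub (fun e he => List.mem_append_right _ he) InR.refl
    refine (h1.comp_put fun e he => Or.inr ?_).congr fun y hy => ?_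
    · have h2 := ((L.lay_std h.hκ h.hc).1 e (List.mem_append_right _ he)).2.2.1
      have h3 := hlt (e.2.1 + e.2.2 - 1) ⟨e, he, by omega, by omega⟩
      omega
    · have h2 : fld y L.pt L.τ = fld z L.pt L.τ := nc_tm hlt hy
      rw [tk, h2]
  · have h1 : err L.dRow (T.X2 x) (fun y => F (tk L.pt L.τ y)) z ≤
        av (pos L.dRow) (fun y => ind (T.S x y) +
          ind (T.X0 (p1 G L z x) (tk L.pt L.τ y) ≠ pz (F (tk L.pt L.τ y)))) z := by
      refine av_mono fun y hy => ?_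
      have h2 := nc_ind3 (p := T.X2 x y = pz (F (tk L.pt L.τ y))) (a := False) (b := T.S x y)
        (c := T.X0 (p1 G L z x) (tk L.pt L.τ y) ≠ pz (F (tk L.pt L.τ y))) fun _ hs hx =>
          T.h02 x y _ hs (by
            rw [p1_congr h (hy.mono fun j hj => nc_row_p1 h (Or.inl hj))]
            exact not_not.1 hx)
      rwa [ind_of_not not_false, zero_add] at h2
    rw [av_add, av_tk h hlt fun y => ind (T.X0 (p1 G L z x) y ≠ pz (F y))] at h1
    change _ ≤ _ + err L.dRow (T.X0 (p1 G L z x)) F (tk L.pt L.τ z) at h1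
    linarith

lemma nc_phi (h : Ass G L) (T : Trace G L) (x : BB G) {z : Vec L.σ} (h0 : Home L.u z) :
    av (pos (L.Ps.map (vd L.κ))) (fun y => ind (¬ T.RowOK x y)) z ≤
      2 ^ (2 * L.u + 4) / 2 ^ L.n + T.ncPsi x z := by
  have h1 : av (pos (L.Ps.map (vd L.κ))) (fun y => ind (¬ T.RowOK x y)) z ≤
      av (pos (L.Ps.map (vd L.κ))) (fun y => ind (¬ T.StdGood (p1 G L z x) (L.pr (L.tm z))
        (fld y (L.pP 0) (2 * L.n))) + (ind (T.ncB (p1 G L y x) y) + ind (T.ncC x y))) z := by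
    refine av_mono fun y hy => nc_ind3 fun ha hb hc => ?_
    refine nc_ok h T x (hy.home (fun j hj => (nc_P_mem h hj).1) h0) ?_ hb hc
    rw [p1_congr h (hy.mono fun j hj => nc_row_p1 h (Or.inr hj)),
      nc_tm (fun j hj => (nc_P_mem h hj).2.1) hy]
    exact not_not.1 ha
  rw [av_add, av_P L h.hκ h.hc fun p => ind (¬ T.StdGood (p1 G L z x) (L.pr (L.tm z)) p)] at h1
  have h2 := std_good h T (p1 G L z x) (nc_pr L (L.tm z))
  rw [Trace.ncPsi]
  linarith

lemma nc_rows (L : Lo) : L.rows.length = L.c := by simp [Lo.rows]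

lemma nc_delta (h : Ass G L) : ((L.c : ℝ) + 1) * (2 ^ (2 * L.u + 4) / 2 ^ L.n) ≤ 1 / 1000 := by
  have h1 := san_lt L.c
  have h2 := h.big
  have h3 : 12 * L.c + 14 ≤ L.u := by
    have := h.hc
    simp only [Lo.u, Lo.M]
    omega
  have h4 := san_half (a := L.c + (2 * L.u + 4)) (b := L.n) (c := 10) (by omega)
  rw [pow_add, _root_.one_div_pow (a := (2 : ℝ)) L.n, mul_assoc, mul_one_div] at h4
  have h5 : ((L.c : ℝ) + 1) * (2 ^ (2 * L.u + 4) / 2 ^ L.n) ≤
      2 ^ L.c * (2 ^ (2 * L.u + 4) / 2 ^ L.n) := mul_le_mul_of_nonneg_right h1 (by positivity)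
  norm_num at h4
  linarith

/-- the charge inside the merge. -/
noncomputable def Trace.ncChi (T : Trace G L) (x : BB G) (z : Vec L.σ) : ℝ :=
  T.ncPsi x z + L.c * (2 ^ (4 * L.u + L.κ) *
    flt L.u (T.S x) (pos (L.Ps.map (vd L.κ)) ∪ pos L.dRow) z)

lemma nc_chi (T : Trace G L) (x : BB G) (z : Vec L.σ) : 0 ≤ T.ncChi x z :=
  add_nonneg (nc_psi T x z) (mul_nonneg (by positivity) (mul_nonneg (by positivity) (flt_nonneg _)))

lemma nc_point (h : Ass G L) (T : Trace G L) (x : BB G) {z : Vec L.σ} (h0 : Home L.u z) :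
    max 0 (T.rowT x z - 1 / 1000) ≤ T.ncPsi x z + hsum L.κ L.rows (T.ncChi x) z := by
  have hs : 0 ≤ hsum L.κ L.rows (T.ncChi x) z := sum_nonneg fun _ _ => av_nonneg (nc_chi T x)
  refine max_le (add_nonneg (nc_psi T x z) hs) ?_
  have h1 : av L.TP (fun y => ind (¬ T.RowOK x y)) z =
      av (pos (L.Ps.map (vd L.κ))) (fun y => ind (¬ T.RowOK x y)) z := by
    rw [Lo.TP, Set.union_comm]
    refine nc_av_union (fun y y' hy => ?_) z
    have h1 := hy.mono (nc_T_row L)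
    exact ind_congr (not_congr ⟨nc_rowOK h T x h1.symm, nc_rowOK h T x h1⟩)
  have h2 : av L.TP (fun y => ind (T.RB x y)) z ≤ av (pos (L.Ps.map (vd L.κ)))
      (hsum L.κ L.rows fun y => ind (¬ T.RowOK x y) +
        L.c * (2 ^ (4 * L.u + L.κ) * flt L.u (T.S x) (pos L.dRow) y)) z := by
    rw [Lo.TP, Set.union_comm, ← av_av]
    refine av_mono fun y hy => ?_
    refine (mgs_spec (L.par h.hκ h.hc) (L.lay_mg h.hκ h.hc) ?_
      (hy.home (fun j hj => (nc_P_mem h hj).1) h0) (T.h23 x)).trans ?_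
    · simp only [nc_rows, Lo.base, Lo.Es, Lo.Rs, Lo.M, List.length_append, List.length_map,
        List.length_range, List.length_singleton]
      omega
    · refine sum_le_sum fun i _ => av_mono fun w _ => ?_
      rw [nc_rows]
      refine add_le_add (ind_mono fun h1 h2 => h1 ?_) le_rfl
      obtain ⟨F, -, hF⟩ := h2
      exact ⟨_, hF⟩
  have h3 : av (pos (L.Ps.map (vd L.κ))) (hsum L.κ L.rows fun y => ind (¬ T.RowOK x y) +
        L.c * (2 ^ (4 * L.u + L.κ) * flt L.u (T.S x) (pos L.dRow) y)) z ≤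
      L.c * (2 ^ (2 * L.u + 4) / 2 ^ L.n) + hsum L.κ L.rows (T.ncChi x) z := by
    unfold hsum
    rw [av_sum, nc_rows, ← nsmul_eq_mul, ← card_range L.c, ← sum_const, card_range, ← sum_add_distrib]
    refine sum_le_sum fun i _ => ?_
    rw [nc_av_comm, ← av_const (P := pos (lo L.κ (L.rows.take (i + 1)))) (z0 := z)
      (2 ^ (2 * L.u + 4) / 2 ^ L.n), ← av_add]
    refine av_mono fun y hy => ?_
    have h4 := nc_phi h T x
      (hy.home (fun j hj => (nc_std_mem h (nc_AK_std L (nc_lo_AK L _ hj))).1) h0)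
    rw [av_add, av_mul, av_mul, av_flt, Trace.ncChi]
    linarith
  have h4 := nc_phi h T x h0
  have h5 := nc_delta h
  rw [Trace.rowT, av_add, h1]
  linarith

lemma nc_AK_lt (h : Ass G L) : ∀ j ∈ L.AK, j < L.pt := fun _ hj =>
  (nc_std_mem h (nc_AK_std L hj)).2.1

lemma nc_P_lt (h : Ass G L) : ∀ j ∈ pos (L.Ps.map (vd L.κ)), j < L.pt := fun _ hj =>
  (nc_P_mem h hj).2.1

lemma nc_row_lt (h : Ass G L) : ∀ j ∈ pos L.dRow, j < L.pt := fun _ hj =>
  (nc_std_mem h (nc_row_std L hj)).2.1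

lemma nc_pull (g : BB G → Vec L.σ → ℝ) (P : Set ℕ) (z : Vec L.σ) :
    (𝔼 x, av P (fun y => g (p1 G L y x) y) z) = 𝔼 x, av P (g x) z := by
  rw [← av_expect (fun x y => g (p1 G L y x) y), ← av_expect g]
  exact av_congr fun y _ => expect_pullB (actB_actB _) y _ fun x => g x y

lemma nc_meanC (h : Ass G L) (T : Trace G L) (x : BB G) (z : Vec L.σ) :
    av (L.AK ∪ pos (L.Ps.map (vd L.κ))) (fun y => ind (T.ncC x y)) z ≤
      2 ^ (6 * L.M + 1 + (L.u + 2) + 1) * T.bt x (L.tm z) := by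
  have he := eV_pos L.M
  have h1 := av_markov (P := L.AK ∪ pos (L.Ps.map (vd L.κ))) (z0 := z)
    (f := av (pos L.dRow) fun y => ind (T.S x y)) (fun _ => av_ind_nonneg _) (half_pos he)
  rw [av_av, div_eq_mul_one_div _ (eV L.M / 2), nc_eV] at h1
  have h2 := av_le_flt (u := L.u) (P := L.AK ∪ pos (L.Ps.map (vd L.κ)) ∪ pos L.dRow) (z := z) (T.S x)
  have h3 := nc_flt h T x (P := L.AK ∪ pos (L.Ps.map (vd L.κ)) ∪ pos L.dRow)
    (by rintro j ((hj | hj) | hj)
        exacts [nc_AK_lt h j hj, nc_P_lt h j hj, nc_row_lt h j hj])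
    (by rintro j ((hj | hj) | hj)
        exacts [Or.inl (Or.inl hj), Or.inr hj, Or.inl (Or.inr hj)]) z
  refine h1.trans ?_
  have h4 := mul_le_mul_of_nonneg_right (h2.trans (mul_le_mul_of_nonneg_left h3 (by positivity)))
    (show (0 : ℝ) ≤ 2 ^ (6 * L.M + 1) by positivity)
  refine h4.trans (le_of_eq ?_)
  rw [pow_succ _ (6 * L.M + 1 + (L.u + 2)), pow_add _ (6 * L.M + 1)]
  ring

lemma nc_lineB (h : Ass G L) (T : Trace G L) (x : BB G) {z : Vec L.σ} (h0 : Home L.u z) :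
    av L.AK (fun y => ind (T.ncB x y)) z ≤
      2 ^ (6 * L.M + 1 + 4 * L.u + 1) * flt L.u (T.S x) (pos L.dStd) (tk L.pt L.τ z) := by
  have he := eV_pos L.M
  have hf := flt_nonneg (u := L.u) (P := pos L.dStd) (z := tk L.pt L.τ z) (T.S x)
  by_cases hA : T.StdGood x (L.pr (L.tm z)) (L.th z)
  swap
  · refine (av_le fun y hy => le_of_eq (ind_of_not fun hb => hA ?_)).trans (by positivity)
    rw [← nc_tm (nc_AK_lt h) hy, ← nc_th h (hy.mono (nc_AK_std L))]
    exact hb.1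
  have hF : T.StdP _ _ _ (T.stdF x (L.pr (L.tm z)) (L.th z)) := Classical.epsilon_spec hA
  have h1 : av L.AK (fun y => ind (T.ncB x y)) z ≤ av L.AK (fun y => ind (eV L.M / 2 ≤
      err L.dRow (T.X0 x) (T.stdF x (L.pr (L.tm z)) (L.th z)) (tk L.pt L.τ y))) z := by
    refine av_mono fun y hy => ind_mono fun hb => ?_
    rw [← nc_tm (nc_AK_lt h) hy, ← nc_th h (hy.mono (nc_AK_std L))]
    exact hb.2
  generalize T.stdF x (L.pr (L.tm z)) (L.th z) = F at hF h1
  have h2 := av_markov (P := L.AK) (z0 := z)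
    (f := fun y => err L.dRow (T.X0 x) F (tk L.pt L.τ y)) (fun _ => err_nonneg) (half_pos he)
  rw [av_tk h (nc_AK_lt h) (err L.dRow (T.X0 x) F), div_eq_mul_one_div _ (eV L.M / 2), nc_eV] at h2
  have h3 : av L.AK (err L.dRow (T.X0 x) F) (tk L.pt L.τ z) ≤
      2 ^ 1 * err L.dStd (T.X0 x) F (L.hpt (L.pr (L.tm z)) (L.th z) 0) := by
    unfold err
    rw [av_av]
    refine av_slice (fun _ => ind_nonneg _) [L.pG] (fun j hj => ?_)
      (Set.union_subset (nc_AK_std L) (nc_row_std L)) (nc_tk_std h h0)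
    rw [nc_std] at hj
    rcases hj with (hj | hj) | hj
    exacts [Or.inr (List.mem_singleton.2 hj), Or.inl (Or.inl hj), Or.inl (Or.inr hj)]
  have h4 := hF.2.1
  rw [← flt_base (T.S x) (nc_tk_std h h0)] at h4
  have h5 := mul_le_mul_of_nonneg_right (h3.trans (mul_le_mul_of_nonneg_left h4 (by positivity)))
    (show (0 : ℝ) ≤ 2 ^ (6 * L.M + 1) by positivity)
  refine (h1.trans (h2.trans h5)).trans (le_of_eq ?_)
  rw [pow_succ _ (6 * L.M + 1 + 4 * L.u), pow_add _ (6 * L.M + 1)]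
  ring

lemma nc_meanB (h : Ass G L) (T : Trace G L) (x : BB G) {z : Vec L.σ} (h0 : Home L.u z) :
    av (L.AK ∪ pos (L.Ps.map (vd L.κ))) (fun y => ind (T.ncB x y)) z ≤
      2 ^ (6 * L.M + 1 + 4 * L.u + 1 + 1) * T.bt x (L.pr (L.tm z)) := by
  rw [Set.union_comm, ← av_av]
  refine (av_mono fun y hy => nc_lineB h T x (hy.home (fun j hj => (nc_P_mem h hj).1) h0)).trans ?_
  rw [av_mul, av_tk h (nc_P_lt h) (flt L.u (T.S x) (pos L.dStd)), av_flt,
    pow_succ _ (6 * L.M + 1 + 4 * L.u + 1), mul_assoc, ← tm_tk h]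
  refine mul_le_mul_of_nonneg_left (nc_flt h T x ?_ ?_ _) (by positivity)
  · rintro j (hj | hj)
    exacts [nc_P_lt h j hj, (nc_std_mem h hj).2.1]
  · rintro j ((hj | hj) | hj)
    exacts [Or.inr (nc_AK_std L hj), Or.inr (nc_row_std L hj), Or.inl hj]

lemma nc_meanPsi (h : Ass G L) (T : Trace G L) {z : Vec L.σ} (h0 : Home L.u z) :
    (𝔼 x, av L.AK (T.ncPsi x) z) ≤
      2 ^ (8 * L.u + 1) * ((𝔼 x, T.bt x (L.tm z)) + 𝔼 x, T.bt x (L.pr (L.tm z))) := by
  have e : ∀ x, av L.AK (T.ncPsi x) z =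
      av L.AK (fun y => 2 ^ (8 * L.u) * T.bt (p1 G L y x) (L.pr (L.tm y))) z +
      (av (L.AK ∪ pos (L.Ps.map (vd L.κ))) (fun y => ind (T.ncB (p1 G L y x) y)) z +
        av (L.AK ∪ pos (L.Ps.map (vd L.κ))) (fun y => ind (T.ncC x y)) z) := fun x => by
    rw [← av_add, ← av_av, ← av_add]
    rfl
  simp only [e, expect_add_distrib]
  rw [nc_pull fun x y => 2 ^ (8 * L.u) * T.bt x (L.pr (L.tm y)), nc_pull fun x y => ind (T.ncB x y)]
  have h1 : (𝔼 x, av L.AK (fun y => 2 ^ (8 * L.u) * T.bt x (L.pr (L.tm y))) z) =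
      2 ^ (8 * L.u) * 𝔼 x, T.bt x (L.pr (L.tm z)) := by
    rw [mul_expect]
    refine expect_congr rfl fun x _ => (av_congr fun y hy => ?_).trans (av_const _)
    rw [nc_tm (nc_AK_lt h) hy]
  have h2 := expect_le_expect (s := univ) fun x _ => nc_meanB h T x h0
  have h3 := expect_le_expect (s := univ) fun x _ => nc_meanC h T x z
  rw [← mul_expect] at h2 h3
  have b1 : 0 ≤ 𝔼 x, T.bt x (L.tm z) := expect_nonneg fun x _ => nc_bt T x _
  have b2 : 0 ≤ 𝔼 x, T.bt x (L.pr (L.tm z)) := expect_nonneg fun x _ => nc_bt T x _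
  have hu := (L.par h.hκ h.hc).hu
  have h4 := mul_le_mul_of_nonneg_right
    (san_pw (a := 6 * L.M + 1 + 4 * L.u + 1 + 1) (b := 8 * L.u) (by omega)) b2
  have h5 := mul_le_mul_of_nonneg_right
    (san_pw (a := 6 * L.M + 1 + (L.u + 2) + 1) (b := 8 * L.u + 1) (by omega)) b1
  rw [h1, mul_add, pow_succ (2 : ℝ) (8 * L.u)] at *
  linarith

theorem rowT_mean (h : Ass G L) (T : Trace G L) {ρ : Vec L.σ} (h0 : Home L.u ρ) :
    (𝔼 x, av L.AK (fun ρ' => max 0 (T.rowT x ρ' - 1 / 1000)) ρ) ≤ T.mu (L.tm ρ) := by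
  have h1 : ∀ x, av L.AK (fun ρ' => max 0 (T.rowT x ρ' - 1 / 1000)) ρ ≤
      (L.c + 1) * av L.AK (T.ncPsi x) ρ + L.c * (L.c * (2 ^ (4 * L.u + L.κ) *
        (2 * T.bt x (L.tm ρ)))) := fun x => by
    refine (av_mono fun y hy => nc_point h T x
      (hy.home (fun j hj => (nc_std_mem h (nc_AK_std L hj)).1) h0)).trans ?_
    have h2 : av L.AK (hsum L.κ L.rows (T.ncChi x)) ρ = L.c * av L.AK (T.ncChi x) ρ := by
      unfold hsum
      rw [av_sum, nc_rows, ← nsmul_eq_mul, ← card_range L.c, ← sum_const, card_range]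
      refine sum_congr rfl fun i _ => ?_
      rw [av_av, Set.union_eq_self_of_subset_right (nc_lo_AK L _)]
    have h3 : av L.AK (T.ncChi x) ρ ≤ av L.AK (T.ncPsi x) ρ + L.c * (2 ^ (4 * L.u + L.κ) *
        (2 * T.bt x (L.tm ρ))) := by
      unfold Trace.ncChi
      rw [av_add, av_mul, av_mul, av_flt]
      refine add_le_add le_rfl (mul_le_mul_of_nonneg_left
        (mul_le_mul_of_nonneg_left (nc_flt h T x ?_ ?_ _) (by positivity)) (by positivity))
      · rintro j (hj | hj | hj)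
        exacts [nc_AK_lt h j hj, nc_P_lt h j hj, nc_row_lt h j hj]
      · rintro j ((hj | hj) | hj)
        exacts [Or.inl hj, Or.inr (Or.inr hj), Or.inr (Or.inl hj)]
    have h4 := mul_le_mul_of_nonneg_left h3 (Nat.cast_nonneg L.c)
    rw [av_add, h2]
    linarith
  refine (expect_le_expect fun x _ => h1 x).trans ?_
  rw [expect_add_distrib, ← mul_expect, ← mul_expect, ← mul_expect, ← mul_expect, ← mul_expect,
    Trace.mu]
  have h2 := nc_meanPsi h T h0
  have b1 : 0 ≤ 𝔼 x, T.bt x (L.tm ρ) := expect_nonneg fun x _ => nc_bt T x _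
  have b2 : 0 ≤ 𝔼 x, T.bt x (L.pr (L.tm ρ)) := expect_nonneg fun x _ => nc_bt T x _
  generalize (𝔼 x, T.bt x (L.tm ρ)) = a at *
  generalize (𝔼 x, T.bt x (L.pr (L.tm ρ))) = b at *
  have hc := san_lt L.c
  have hc' : (L.c : ℝ) ≤ 2 ^ L.c := by linarith
  have hu : 12 * L.c + L.κ + 14 ≤ L.u := by
    have := h.hc
    have : L.κ < 2 ^ L.κ := Nat.lt_two_pow_self
    simp only [Lo.u, Lo.M, Lo.k]
    omega
  have h3 : ((L.c : ℝ) + 1) * (𝔼 x, av L.AK (T.ncPsi x) ρ) ≤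
      2 ^ (L.c + (8 * L.u + 1)) * (a + b) := by
    rw [pow_add, mul_assoc]
    exact mul_le_mul hc h2 (expect_nonneg fun x _ => av_nonneg (nc_psi T x)) (by positivity)
  have h4 : (L.c : ℝ) * (L.c * (2 ^ (4 * L.u + L.κ) * (2 * a))) ≤
      2 ^ (L.c + (L.c + (4 * L.u + L.κ + 1))) * a := by
    rw [pow_add _ L.c, pow_add _ L.c, pow_succ, mul_assoc, mul_assoc, mul_assoc]
    exact mul_le_mul hc' (mul_le_mul_of_nonneg_right hc' (by positivity)) (by positivity)
      (by positivity)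
  have h5 := mul_le_mul_of_nonneg_right
    (san_pw (a := L.c + (8 * L.u + 1)) (b := 9 * L.u) (by omega)) (add_nonneg b1 b2)
  have h6 := mul_le_mul (san_pw (a := L.c + (L.c + (4 * L.u + L.κ + 1))) (b := 9 * L.u) (by omega))
    (le_add_of_nonneg_right b2 : a ≤ a + b) b1 (by positivity)
  have h7 := mul_le_mul_of_nonneg_right
    (san_pw (a := 9 * L.u + 1) (b := 10 * L.u) (by omega)) (add_nonneg b1 b2)
  rw [pow_succ] at h7
  linarith

end Vale.Agent.P330.Amp
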