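import Vale.Agent.P330.Move

/-! The action of the words of moves (task Words).
Plan. Describe `actB` through `blk` (`blk (addBlk x l v) l' = ...`), two big addresses with the same
blocks `blk · l`, `l < b`, are equal. `dW l h` multiplies block `l` by `gens 1` and block `h` by `gens 2`
(six elementary steps, `gens 2 * gens 1 = 1` by `mul_eq_one_comm`); its reverse is the inverse.
`addMul`: induction on `n`: the first part applied to a state whose block `l'` is `g ^ n y` ends with
block `l'` equal to `y` and has added `∑ s < n, c s g ^ s y` to block `l`. `addL`: the innermost steps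
`l = b-1, ..., 1` give `x l + α x (l-1)`, then `l = 0, ..., b-1` give `x l + α ^ (l+1) j`. -/

namespace Vale.Agent.P330.Amp

open Vale.Agent.Lib.H23 Vale.Agent.P333 Vale.Agent.P325 Finset Matrix
open scoped BigOperators

variable {σ b β : ℕ} {orc : ℕ → Vec σ → Bool} {g : Fin 7 → Mat β}

theorem wd_ext {x y : Big b β} (h : ∀ l < b, blk x l = blk y l) : x = y :=
  funext fun i => by rw [← blk_coe x, ← blk_coe y, h i i.2]

theorem wd_blk_join (y : Big b β) (jj : Big 2 β) (l : ℕ) :
    blk (join y jj) l = if l < b then blk y l else blk jj (l - b) := by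
  by_cases c : l < b + 2
  · rw [blk_of_lt _ c]; rfl
  · rw [blk_of_ge _ (by omega), if_neg (by omega), blk_of_ge _ (by omega)]

theorem wd_blk_addBlk (x : Big b β) (l l' : ℕ) (v : Vec β) :
    blk (addBlk x l v) l' = if l' = l ∧ l' < b then blk x l' + v else blk x l' := by
  by_cases c : l' < b
  · rw [blk_of_lt _ c, blk_of_lt _ c]
    simp [addBlk, c]
  · rw [blk_of_ge _ (by omega), blk_of_ge _ (by omega), if_neg (by omega)]

theorem wd_blk_add (x y : Big b β) (l : ℕ) : blk (x + y) l = blk x l + blk y l := by
  by_cases c : l < b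
  · simp only [blk_of_lt _ c, Pi.add_apply]
  · simp only [blk_of_ge _ (not_lt.1 c), add_zero]

theorem wd_blk_zero (l : ℕ) : blk (0 : Big b β) l = 0 := by
  by_cases c : l < b
  · simp only [blk_of_lt _ c, Pi.zero_apply]
  · exact blk_of_ge _ (not_lt.1 c)

theorem join_fst_snd (x : Big (b + 2) β) : join (fstB x) (sndB x) = x := by
  refine wd_ext fun l hl => ?_
  rw [wd_blk_join]
  split_ifs with c
  · rw [blk_of_lt _ c]; rfl
  · rw [blk_of_lt _ (show l - b < 2 by omega)]
    exact congrArg (blk x) (by simp only []; omega)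
theorem fstB_join (y : Big b β) (jj : Big 2 β) : fstB (join y jj) = y :=
  funext fun l => by rw [fstB, wd_blk_join, if_pos l.2, blk_coe]
theorem sndB_join (y : Big b β) (jj : Big 2 β) : sndB (join y jj) = jj :=
  funext fun l => by rw [sndB, wd_blk_join, if_neg (by omega), Nat.add_sub_cancel_left, blk_coe]
theorem blk_join (y : Big b β) (jj : Big 2 β) : blk (join y jj) b = jj 0 := by
  rw [wd_blk_join, if_neg (lt_irrefl b), Nat.sub_self]; rfl

/-- big addresses as pairs. -/
def joinEquiv (b β : ℕ) : Big (b + 2) β ≃ Big b β × Big 2 β where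
  toFun x := (fstB x, sndB x)
  invFun p := join p.1 p.2
  left_inv := join_fst_snd
  right_inv p := Prod.ext (fstB_join p.1 p.2) (sndB_join p.1 p.2)

theorem expect_join (f : Big (b + 2) β → ℝ) :
    (𝔼 x, f x) = 𝔼 y : Big b β, 𝔼 jj : Big 2 β, f (join y jj) := by
  rw [← expect_product' univ univ fun (y : Big b β) (jj : Big 2 β) => f (join y jj),
    univ_product_univ]
  exact Fintype.expect_equiv (joinEquiv b β) _ _ fun x => congrArg f (join_fst_snd x).symm
theorem expect_big2 (f : Big 2 β → ℝ) : (𝔼 jj, f jj) = 𝔼 j, 𝔼 j', f ![j, j'] := by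
  rw [← expect_product' univ univ fun (j j' : Vec β) => f ![j, j'], univ_product_univ]
  refine Fintype.expect_equiv (finTwoArrowEquiv (Vec β)) _ _ fun x => congrArg f ?_
  funext i
  fin_cases i <;> rfl
theorem big_add_self (x : Big b β) : x + x = 0 := funext fun i => vec_add_self (x i)
theorem actB_add (o : Op) (x y : Big b β) :
    actB g o (x + y) = actB g o x + actB g o y + actB g o 0 := by
  cases o with
  | E l l' ρ =>
    by_cases h : l = l'
    · simp only [actB, if_pos h, add_zero]
    · simp only [actB, if_neg h, wd_blk_add, wd_blk_zero, mulVec_zero, addBlk_zero, add_zero,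
        mulVec_add]
      funext i
      simp only [addBlk, Pi.add_apply]
      split_ifs
      · abel
      · rfl
  | N l =>
    funext i
    simp only [actB, addBlk, Pi.add_apply, Pi.zero_apply]
    split_ifs
    · rw [zero_add, add_add_add_comm, vec_add_self, add_zero]
    · rw [add_zero]
  | Tr v => simp only [actB, add_zero]

theorem wd_pull_cons {B : Type} (ac : Op → B → B) (z : Vec σ) (m : Mv) (ms : List Mv) (x : B) :
    pullB ac orc z (m :: ms) x =
      if m.2.ev orc z then ac m.1 (pullB ac orc z ms x) else pullB ac orc z ms x := rfl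

theorem wd_pull_nil {B : Type} (ac : Op → B → B) (z : Vec σ) (x : B) :
    pullB ac orc z [] x = x := rfl

theorem wd_ev_tt (z : Vec σ) : Cond.tt.ev orc z = true := by
  simp [Cond.tt, Cond.ev, fld, toN]

/-- multiply block `l` by `A` and block `h` by `B`. -/
def scl (x : Big b β) (l h : ℕ) (A B : Mat β) : Big b β :=
  fun i => if i.val = l then A *ᵥ x i else if i.val = h then B *ᵥ x i else x i

theorem blk_scl (x : Big b β) (l h : ℕ) (A B : Mat β) (i : ℕ) : blk (scl x l h A B) i =
    if i = l then A *ᵥ blk x i else if i = h then B *ᵥ blk x i else blk x i := by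
  by_cases c : i < b
  · simp only [blk_of_lt _ c, scl]
  · simp only [blk_of_ge _ (not_lt.1 c), mulVec_zero, ite_self]

theorem scl_scl (x : Big b β) (l h : ℕ) (A B A' B' : Mat β) :
    scl (scl x l h A B) l h A' B' = scl x l h (A' * A) (B' * B) := by
  funext i
  simp only [scl]
  split_ifs <;> simp only [mulVec_mulVec]

theorem scl_one (x : Big b β) (l h : ℕ) : scl x l h 1 1 = x := by
  funext i
  simp only [scl, one_mulVec, ite_self]

theorem scl_addBlk (x : Big b β) {l l' h : ℕ} (h1 : l ≠ l') (h2 : l ≠ h) (A B : Mat β)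
    (v : Vec β) : addBlk (scl x l' h A B) l v = scl (addBlk x l v) l' h A B := by
  funext i
  simp only [scl, addBlk]
  split_ifs <;> first | rfl | omega

theorem wd_addBlk2 (x : Big b β) (l : ℕ) (v w : Vec β) :
    addBlk (addBlk x l v) l w = addBlk x l (w + v) := by
  funext i
  simp only [addBlk]
  split_ifs
  · rw [add_assoc, add_comm v]
  · rfl

theorem pull_dW (h0 : g 0 = 1) (h12 : g 1 * g 2 = 1) {l h : ℕ} (hl : l < b) (hh : h < b)
    (hne : l ≠ h) (z : Vec σ) (x : Big b β) :
    pullB (actB g) orc z (dW l h) x = scl x l h (g 1) (g 2) := by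
  have h21 : g 2 * g 1 = 1 := mul_eq_one_comm.1 h12
  have e2 : ∀ u v : Vec β, u + v + u = v := fun u v => by
    rw [add_right_comm, vec_add_self, zero_add]
  have e3 : ∀ u v : Vec β, u + (v + u) = v := fun u v => by rw [← add_assoc, e2]
  refine wd_ext fun i hi => ?_
  simp only [dW, wd_pull_cons, wd_pull_nil, wd_ev_tt, if_true, actB,
    wd_blk_addBlk, blk_scl, h0, one_mulVec, hl, hh, hne, hne.symm, and_true, if_false, hi]
  by_cases c : i = l
  · subst c
    simp only [if_true, hne, if_false, e2, e3, mulVec_add, mulVec_mulVec, h12, h21, one_mulVec]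
  · by_cases c' : i = h
    · subst c'
      simp only [if_true, c, if_false, e2, e3, mulVec_add, mulVec_mulVec, h12, h21, one_mulVec]
    · simp only [c, c', if_false]

theorem pull_dW_rev (h0 : g 0 = 1) (h12 : g 1 * g 2 = 1) {l h : ℕ} (hl : l < b) (hh : h < b)
    (hne : l ≠ h) (z : Vec σ) (x : Big b β) (n : ℕ) :
    pullB (actB g) orc z (dW l h).reverse (scl x l h (g 1 ^ (n + 1)) (g 2 ^ (n + 1))) =
      scl x l h (g 1 ^ n) (g 2 ^ n) := by
  rw [pow_succ', pow_succ', ← scl_scl, ← pull_dW (orc := orc) h0 h12 hl hh hne z,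
    pullB_reverse (actB_actB g)]

theorem pull_addMul (h0 : g 0 = 1) (h12 : g 1 * g 2 = 1) {l l' h : ℕ} (hl : l' < b) (hh : h < b)
    (hne : l' ≠ h) (h1 : l ≠ l') (h2 : l ≠ h) (q : ℕ → ℕ) (n : ℕ) (z : Vec σ) (x : Big b β) :
    pullB (actB g) orc z (addMul l l' h q n) x =
      addBlk x l (alpha (g 1) n (aN q n z) *ᵥ blk x l') := by
  have a1 : ∀ k, pullB (actB g) orc z ((List.range k).flatMap fun _ => dW l' h) x =
      scl x l' h (g 1 ^ k) (g 2 ^ k) := by
    intro k
    induction k with
    | zero => simp only [List.range_zero, List.flatMap_nil, wd_pull_nil, pow_zero, scl_one]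
    | succ k ih =>
      rw [List.range_succ_eq_map, List.flatMap_cons, List.flatMap_map, pullB_append, ih,
        pull_dW h0 h12 hl hh hne, scl_scl, pow_succ', pow_succ']
  have a2 : ∀ k (y : Big b β), pullB (actB g) orc z ((List.range k).flatMap fun s =>
      ((.E l l' 0, .eq (q s) 1 1) : Mv) :: (dW l' h).reverse) (scl y l' h (g 1 ^ k) (g 2 ^ k)) =
      addBlk y l ((∑ s ∈ range k, if fld z (q s) 1 = 1 then g 1 ^ s else 0) *ᵥ blk y l') := by
    intro k
    induction k with
    | zero =>
      intro y
      simp only [List.range_zero, List.flatMap_nil, wd_pull_nil, pow_zero, scl_one, sum_range_zero,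
        zero_mulVec, addBlk_zero]
    | succ k ih =>
      intro y
      rw [List.range_succ, List.flatMap_append, pullB_append, List.flatMap_singleton, wd_pull_cons,
        pull_dW_rev h0 h12 hl hh hne, sum_range_succ]
      by_cases c : fld z (q k) 1 = 1
      · simp only [Cond.ev, c, decide_true, if_true, actB, if_neg h1, h0, one_mulVec, blk_scl]
        rw [scl_addBlk _ h1 h2, ih, blk_addBlk_ne _ h1, wd_addBlk2, add_mulVec]
      · simp only [Cond.ev, c, decide_false, if_false, Bool.false_eq_true, add_zero]
        exact ih y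
  rw [addMul, pullB_append, a1, a2, alpha]
  congr 2
  refine sum_congr rfl fun s hs => ?_
  rw [aN, Nat.testBit_ofBits_lt _ _ (mem_range.1 hs)]
  simp only [decide_eq_true_eq]

theorem pull_addL (h0 : g 0 = 1) (h12 : g 1 * g 2 = 1) (q : ℕ → ℕ) (n : ℕ) (z : Vec σ)
    (y : Big b β) (jj : Big 2 β) : pullB (actB g) orc z (addL b q n) (join y jj) =
      join (y + Lv b (g 1) n (aN q n z) (jj 0)) jj := by
  have a1 : ∀ k < b, ∀ (x : Big (b + 2) β) (i : ℕ), blk (pullB (actB g) orc z
      ((List.range' 1 k).flatMap fun l => addMul l (if l = 0 then b else l - 1) (b + 1) q n) x) i =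
      if 1 ≤ i ∧ i ≤ k then blk x i + alpha (g 1) n (aN q n z) *ᵥ blk x (i - 1) else blk x i := by
    intro k
    induction k with
    | zero =>
      intro _ x i
      rw [if_neg (by omega)]
      rfl
    | succ k ih =>
      intro hk x i
      rw [List.range'_concat, List.flatMap_append, pullB_append, ih (by omega),
        List.flatMap_singleton, if_neg (show ¬ 1 + 1 * k = 0 by omega),
        pull_addMul h0 h12 (by omega) (by omega) (by omega) (by omega) (by omega),
        wd_blk_addBlk, wd_blk_addBlk]
      by_cases c : i = k + 1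
      · subst c
        rw [if_neg (by omega), if_pos (by omega), if_pos (by omega),
          show 1 + 1 * k - 1 = k + 1 - 1 by omega]
      · by_cases c' : 1 ≤ i ∧ i ≤ k
        · rw [if_pos c', if_neg (by omega), if_neg (by omega), if_pos (by omega)]
        · rw [if_neg c', if_neg (by omega), if_neg (by omega)]
  have a2 : ∀ k ≤ b, ∀ (x : Big (b + 2) β), (∀ i, blk x i = if 1 ≤ i ∧ i ≤ b - 1 then
      blk (join y jj) i + alpha (g 1) n (aN q n z) *ᵥ blk (join y jj) (i - 1)
        else blk (join y jj) i) → ∀ i : ℕ, blk (pullB (actB g) orc z (((List.range k).reverse).flatMap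
        fun l => addMul l (if l = 0 then b else l - 1) (b + 1) q n) x) i =
      if i < k then blk y i + (alpha (g 1) n (aN q n z) ^ (i + 1)) *ᵥ jj 0 else blk x i := by
    intro k
    induction k with
    | zero =>
      intro _ x _ i
      rfl
    | succ k ih =>
      intro hk x hx i
      rw [List.range_succ, List.reverse_append, List.reverse_singleton, List.singleton_append,
        List.flatMap_cons, pullB_append,
        pull_addMul h0 h12 (by split_ifs <;> omega) (by omega) (by split_ifs <;> omega)
          (by split_ifs <;> omega) (by omega), wd_blk_addBlk, ih (by omega) x hx,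
        ih (by omega) x hx]
      by_cases c : i = k
      · subst c
        rw [if_pos (by omega), if_neg (lt_irrefl _), if_pos (Nat.lt_succ_self _), hx i]
        by_cases c0 : i = 0
        · subst c0
          rw [if_neg (by omega), if_pos rfl, if_neg (by omega), hx b, if_neg (by omega), blk_join,
            wd_blk_join, if_pos (by omega), zero_add, pow_one]
        · rw [if_pos (by omega), if_neg c0, if_pos (by omega), wd_blk_join, wd_blk_join,
            if_pos (by omega), if_pos (by omega), mulVec_add, mulVec_mulVec, ← pow_succ',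
            show i - 1 + 1 = i by omega, add_assoc, ← add_assoc (_ *ᵥ _), vec_add_self, zero_add]
      · rw [if_neg (by omega)]
        by_cases c' : i < k
        · rw [if_pos c', if_pos (by omega)]
        · rw [if_neg c', if_neg (by omega)]
  refine wd_ext fun i hi => ?_
  rcases Nat.eq_zero_or_pos b with hb | hb
  · subst hb
    rw [Subsingleton.elim (y + _) y]
    rfl
  rw [addL, List.flatMap_append, pullB_append, a2 b le_rfl _ (a1 (b - 1) (by omega) _),
    wd_blk_join (y + _)]
  split_ifs with c
  · rw [wd_blk_add, blk_of_lt (Lv _ _ _ _ _) c]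
    rfl
  · rw [a1 (b - 1) (by omega), if_neg (by omega), wd_blk_join, if_neg c]

/-- a list of moves of which at most one is active. -/
theorem pull_one {B α : Type} [DecidableEq α] (ac : Op → B → B) (z : Vec σ) (f : α → Mv) (a0 : α)
    (l : List α) (hl : l.Nodup) (h : ∀ a, (f a).2.ev orc z = true ↔ a0 = a) (x : B) :
    pullB ac orc z (l.map f) x = if a0 ∈ l then ac (f a0).1 x else x := by
  induction l with
  | nil => rfl
  | cons a l ih =>
    rw [List.nodup_cons] at hl
    rw [List.map_cons, wd_pull_cons, ih hl.2]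
    by_cases c : a0 = a
    · subst c
      rw [if_pos ((h a0).2 rfl), if_neg hl.1, if_pos List.mem_cons_self]
    · rw [if_neg fun e => c ((h a).1 e)]
      simp only [List.mem_cons, c, false_or]

theorem addBlk_join_hi (y : Big b β) (jj : Big 2 β) (l : ℕ) (v : Vec β) :
    addBlk (join y jj) (b + l) v = join y (addBlk jj l v) := by
  refine wd_ext fun i hi => ?_
  simp only [wd_blk_addBlk, wd_blk_join]
  split_ifs <;> first | rfl | omega

theorem addBlk_join_lo (y : Big b β) (jj : Big 2 β) {l : ℕ} (h : l < b) (v : Vec β) :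
    addBlk (join y jj) l v = join (addBlk y l v) jj := by
  refine wd_ext fun i hi => ?_
  simp only [wd_blk_addBlk, wd_blk_join]
  split_ifs <;> first | rfl | omega

theorem blk_join_hi (y : Big b β) (jj : Big 2 β) (l : ℕ) : blk (join y jj) (b + l) = blk jj l := by
  rw [wd_blk_join, if_neg (by omega), Nat.add_sub_cancel_left]

theorem actB_stepOp (s : ℕ) (y : Big b β) (jj : Big 2 β) :
    actB g (stepOp b s) (join y jj) = join y (actB g (stepOp 0 s) jj) := by
  have a0 := addBlk_join_hi y jj 0
  have a1 := blk_join_hi y jj 0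
  rw [add_zero] at a0 a1
  unfold stepOp
  split_ifs
  · simp only [actB, if_neg (Nat.lt_succ_self _).ne, a0, blk_join_hi, zero_add]
  · simp only [actB, if_neg (Nat.lt_succ_self _).ne', a1, addBlk_join_hi, zero_add]
  · exact a0 _
  · exact addBlk_join_hi y jj 1 _
  · rfl

theorem pull_gam (ks : List ℕ) (z : Vec σ) (y : Big b β) (jj : Big 2 β) :
    pullB (actB g) orc z (gam b ks) (join y jj) =
      join y (walk g (ks.map fun p => fld z p 5) jj) := by
  induction ks with
  | nil => rfl
  | cons p ks ih =>
    rw [gam, List.flatMap_cons, pullB_append, ← gam, ih, pull_one (actB g) z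
      (fun s => (stepOp b s, .eq p 5 s)) (fld z p 5) _ List.nodup_range fun s => by simp [Cond.ev]]
    change _ = join y (actB g (stepOp 0 (fld z p 5)) (walk g (ks.map fun p => fld z p 5) jj))
    split_ifs with c
    · exact actB_stepOp _ _ _
    · rw [List.mem_range] at c
      rw [stepOp, dif_neg (by omega), dif_neg (by omega), if_neg (by omega), if_neg (by omega)]
      rfl

theorem ocode_inj : Function.Injective ocode := by
  intro o o' h
  have h' := natL_injective h
  clear h
  cases o <;> cases o' <;> simp only [Op.data, List.cons.injEq] at h' <;>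
    first | omega | (obtain ⟨-, rfl, h2, h3, -⟩ := h'; first | rfl | rw [h2, Fin.ext h3])

theorem nodup_allOps (b : ℕ) : (allOps b).Nodup := by
  unfold allOps
  refine List.nodup_append.2 ⟨List.nodup_flatMap.2 ⟨fun l _ => List.nodup_flatMap.2
    ⟨fun l' _ => (List.nodup_finRange 7).map fun ρ ρ' h => by simpa using h, ?_⟩, ?_⟩,
    List.nodup_range.map fun l l' h => by simpa using h, ?_⟩
  · refine List.nodup_range.imp fun {a a'} h => ?_
    simp only [Function.onFun, List.disjoint_left, List.mem_map]
    rintro _ ⟨ρ, -, rfl⟩ ⟨ρ', -, e⟩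
    simp only [Op.E.injEq] at e
    exact h e.2.1.symm
  · refine List.nodup_range.imp fun {a a'} h => ?_
    simp only [Function.onFun, List.disjoint_left, List.mem_map, List.mem_flatMap]
    rintro _ ⟨l, -, ρ, -, rfl⟩ ⟨l', -, ρ', -, e⟩
    simp only [Op.E.injEq] at e
    exact h e.1.symm
  · simp only [List.mem_map, List.mem_flatMap]
    rintro _ ⟨l, -, l', -, ρ, -, rfl⟩ _ ⟨l'', -, rfl⟩ e
    cases e

theorem wd_actB_nrm (o : Op) (y : Big b β) : actB g (nrm b 0 o) y = actB g o y :=
  congrArg Prod.fst (act_nrm (σ := 0) g o (y, 0))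

theorem pull_piW (z : Vec σ) (o : Op) (ho : ∀ o', orc (ocode o' + 5) z = true ↔ nrm b 0 o = o')
    (y : Big b β) (jj : Big 2 β) :
    pullB (actB g) orc z (piW b) (join y jj) = join (actB g o y) jj := by
  classical
  rw [piW, pull_one (actB g) z (fun o => (o, .orc (ocode o + 5))) (nrm b 0 o) _ (nodup_allOps b) ho,
    ← wd_actB_nrm o y]
  cases o with
  | E l l' ρ =>
    by_cases c : l < b ∧ l' < b
    · rw [show nrm b 0 (.E l l' ρ) = .E l l' ρ from if_pos c, if_pos (by simp [allOps, c.1, c.2])]
      simp only [actB]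
      split_ifs
      · rfl
      · rw [addBlk_join_lo _ _ c.1, wd_blk_join, if_pos c.2]
    · rw [show nrm b 0 (.E l l' ρ) = .Tr 0 from if_neg c]
      exact ite_self _
  | N l =>
    by_cases c : l < b
    · rw [show nrm b 0 (.N l) = .N l from if_pos c, if_pos (by simp [allOps, c])]
      exact addBlk_join_lo _ _ c _
    · rw [show nrm b 0 (.N l) = .Tr 0 from if_neg c]
      exact ite_self _
  | Tr v => exact ite_self _

/-- conditions that only see the small bits and the high oracle bits. -/
def Cond.hi : Cond → Prop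
  | .eq _ _ _ => True
  | .orc n => 4 ≤ n

theorem hi_gam (ks : List ℕ) : ∀ m ∈ gam b ks, m.2.hi := by
  simp only [gam, List.mem_flatMap, List.mem_map]
  rintro _ ⟨p, -, s, -, rfl⟩
  trivial

theorem hi_piW : ∀ m ∈ piW b, m.2.hi := by
  simp only [piW, List.mem_map]
  rintro _ ⟨o, -, rfl⟩
  exact Nat.le_add_left_of_le (by norm_num)

theorem hi_dW (l h : ℕ) : ∀ m ∈ dW l h, m.2.hi := by
  simp [dW, Cond.tt, Cond.hi]

theorem hi_addL (q : ℕ → ℕ) (n : ℕ) : ∀ m ∈ addL b q n, m.2.hi := by
  simp only [addL, addMul, List.mem_flatMap, List.mem_append, List.mem_cons, List.mem_reverse]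
  rintro m ⟨l, -, ⟨s, -, rfl | h⟩ | ⟨s, -, h⟩⟩
  · trivial
  · exact hi_dW _ _ m h
  · exact hi_dW _ _ m h

theorem wd_length_flatMap {α γ : Type} (l : List α) (f : α → List γ) (k : ℕ)
    (h : ∀ a, (f a).length = k) : (l.flatMap f).length = l.length * k := by
  induction l with
  | nil => simp
  | cons a l ih => rw [List.flatMap_cons, List.length_append, ih, h, List.length_cons]; ring

theorem length_gam (ks : List ℕ) : (gam b ks).length = ks.length * 16 :=
  wd_length_flatMap _ _ _ fun _ => by simp

theorem length_piW : (piW b).length = b * (b * 7) + b := by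
  rw [piW, List.length_map, allOps, List.length_append, List.length_map, List.length_range,
    wd_length_flatMap _ _ (b * 7) fun l => ?_, List.length_range]
  rw [wd_length_flatMap _ _ 7 fun _ => by simp, List.length_range]

theorem length_addL (q : ℕ → ℕ) (n : ℕ) : (addL b q n).length ≤ 2 * b * (n * 13) := by
  rw [addL, wd_length_flatMap _ _ (n * 13) fun l => ?_]
  · refine Nat.mul_le_mul_right _ ?_
    simp only [List.length_append, List.length_reverse, List.length_range, List.length_range']
    omega
  · rw [addMul, List.length_append, wd_length_flatMap _ _ 7 fun _ => by simp [dW],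
      wd_length_flatMap _ _ 6 fun _ => by simp [dW], List.length_range]
    ring

section round

variable (G : Inst 2) (L : Lo)

/-- the old wiring map selected by the small bits. -/
def piZ (z : Vec L.σ) : Big G.b G.β → Big G.b G.β := actB G.gens (G.op (fld z L.pt L.τ) (L.gi z))

/-- the walk selected by the small bits. -/
def gaZ (z : Vec L.σ) : Big 2 G.β → Big 2 G.β := walk G.gens (L.Ks.map fun p => fld z p 5)

theorem pull_piZ (hσ : G.σ = 0) (z : Vec L.σ) (y : Big G.b G.β) (jj : Big 2 G.β) :
    pullB (actB G.gens) (orc0 G L) z (piW G.b) (join y jj) = join (piZ G L z y) jj := by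
  refine pull_piW z _ (fun o' => ?_) y jj
  rw [orc0, if_neg (by omega), decide_eq_true_eq, add_left_inj, ocode_inj.eq_iff, Inst.nop, hσ]

theorem pull_move1 (hG : G.Good) (hσ : G.σ = 0) (z : Vec L.σ) (y : Big G.b G.β) (jj : Big 2 G.β) :
    pullB (actB G.gens) (orc0 G L) z (L.move1 G.b) (join y jj) =
      join (piZ G L z (y + Lv G.b (G.gens 1) L.n (aN L.qA L.n z) (jj 0))) (gaZ G L z jj) := by
  rw [Lo.move1, pullB_append, pullB_append, pull_addL hG.g0 hG.g12, pull_piZ G L hσ, pull_gam]
  rfl

theorem pull_move12 (hG : G.Good) (hσ : G.σ = 0) (z : Vec L.σ) (y : Big G.b G.β) (jj : Big 2 G.β) :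
    pullB (actB G.gens) (orc0 G L) z (L.move1 G.b)
      (pullB (actB G.gens) (orc0 G L) z (L.move2 G.b) (join y jj)) =
      join (piZ G L z (y + Lv G.b (G.gens 1) L.n (aN L.qA L.n z) (jj 0)) +
        Lv G.b (G.gens 1) L.n (aN L.qE L.n z) (gaZ G L z jj 0)) (gaZ G L z jj) := by
  have a1 : ∀ y' : Big G.b G.β, pullB (actB G.gens) (orc0 G L) z (gam G.b L.Ks).reverse
      (join y' (gaZ G L z jj)) = join y' jj := fun y' => by
    rw [gaZ, ← pull_gam (orc := orc0 G L), pullB_reverse (actB_actB G.gens)]
  rw [Lo.move2, pullB_append, pullB_append, pullB_append, pullB_append, pull_piZ G L hσ, pull_gam,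
    pull_addL hG.g0 hG.g12, ← gaZ, a1, pull_piZ G L hσ, pull_move1 G L hG hσ]
  congr 1
  unfold piZ
  rw [actB_add, actB_actB, actB_add _ y]
  abel

theorem hi_orc {c : Cond} (h : c.hi) (x : Big (G.b + 2) G.β) (z : Vec L.σ) :
    c.ev (orcR G L x) z = c.ev (orc0 G L) z := by
  cases c with
  | eq p w v => rfl
  | orc n => exact dif_neg (not_lt.2 h)

theorem move1_orc : ∀ m ∈ L.move1 G.b, ∀ x z, m.2.ev (orcR G L x) z = m.2.ev (orc0 G L) z := by
  intro m hm
  refine hi_orc G L ?_
  simp only [Lo.move1, List.mem_append] at hm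
  rcases hm with (h | h) | h
  exacts [hi_gam _ m h, hi_piW m h, hi_addL _ _ m h]

theorem move2_orc : ∀ m ∈ L.move2 G.b, ∀ x z, m.2.ev (orcR G L x) z = m.2.ev (orc0 G L) z := by
  intro m hm
  refine hi_orc G L ?_
  simp only [Lo.move2, List.mem_append, List.mem_reverse] at hm
  rcases hm with (((h | h) | h) | h) | h
  exacts [hi_piW m h, hi_gam _ m h, hi_addL _ _ m h, hi_gam _ m h, hi_piW m h]

theorem length_move1 : (L.move1 G.b).length ≤ 50 * (G.b + L.n + L.ck + 1) ^ 2 := by
  have h := length_addL (b := G.b) L.qA L.n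
  simp only [Lo.move1, List.length_append, length_gam, length_piW, Lo.Ks, List.length_map,
    List.length_range]
  nlinarith [Nat.zero_le (G.b * L.ck), Nat.zero_le (L.n * L.ck), Nat.zero_le (G.b * L.n),
    Nat.zero_le (G.b * G.b), Nat.zero_le (L.n * L.n), Nat.zero_le (L.ck * L.ck)]

theorem length_move2 : (L.move2 G.b).length ≤ 100 * (G.b + L.n + L.ck + 1) ^ 2 := by
  have h := length_addL (b := G.b) L.qE L.n
  simp only [Lo.move2, List.length_append, length_gam, length_piW, Lo.Ks, List.length_map,
    List.length_range, List.length_reverse]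
  nlinarith [Nat.zero_le (G.b * L.ck), Nat.zero_le (L.n * L.ck), Nat.zero_le (G.b * L.n),
    Nat.zero_le (G.b * G.b), Nat.zero_le (L.n * L.n), Nat.zero_le (L.ck * L.ck)]

end round

end Vale.Agent.P330.Amp
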