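import Vale.Agent.P330.InstPT

/-! Instances of fan-in two as pure circuits (task Out).
Plan. A constant number `K` of nodes of the pure circuit for every node `(t, a)` of the instance,
numbered `(t * nA + idx a) * K + i`; `i = 0` carries the value. For each input one `Up` (low window)
or `Down` (high window) node on the node `(prev t, actN (nop t i) m)`; negations by `Nor x x`;
constant false `Nor (Up c) (Nor (Down c) (Down c))`; the label `f` as the disjunction of the nine
candidate terms (partial assignments of the two inputs; a term that is no implicant of `f` is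
replaced by the constant false), which is hazard free; `Up` copies pure values. See `Dnf.lean` for
the same gadgets. (The proof below uses the smaller hazard free form
`(¬ a ∧ f0 b) ∨ (a ∧ f1 b) ∨ (f0 b ∧ f1 b)` with 16 gates.) A violated node of the instance has a violated gate among its `K` gates.
The table of the `K` gates as a function of the label is a finite function (`pt_ofFin`). -/

namespace Vale.Agent.P330.Amp

open Vale.Agent.Lib.H23 Vale.Agent.P333 Vale.Agent.P325 Finset Matrix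
open scoped BigOperators

namespace Out

/-- the value described by a number -/
def clip (v : ℕ) : Val := Fin.ofNat 4 (min v 3)

/-- `r` is the pure value `β` -/
def Pu (r : ℕ) (β : Bool) : Prop := if β then 3 ≤ r else r = 0

/-- the local node that carries the negation of the unary function with values `a`, `b` -/
def sel (a b : Bool) : ℕ := bif a then (bif b then 8 else 2) else (bif b then 4 else 9)

/-- the selector for the first input equal to `a` -/
def selF (a : Bool) (f : (Fin 2 → Bool) → Bool) : ℕ := sel (f ![a, false]) (f ![a, true])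

/-- the gates of a node -/
def gates (w0 w1 : Bool) (s0 s1 p0 p1 c : ℕ) : List (ℕ × ℕ × ℕ) :=
  [(0, c + 15, c + 15), (bif w0 then 2 else 1, p0, p0), (bif w1 then 2 else 1, p1, p1),
    (0, c + 1, c + 1), (0, c + 2, c + 2), (1, c, c), (2, c, c), (0, c + 6, c + 6),
    (0, c + 5, c + 7), (0, c + 8, c + 8), (0, c + 1, c + s0), (0, c + 3, c + s1),
    (0, c + s0, c + s1), (0, c + 10, c + 11), (0, c + 13, c + 13), (0, c + 14, c + 12)]

theorem sel_lt (a b : Bool) : sel a b < 16 := by cases a <;> cases b <;> decide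

theorem clip_pu {r : ℕ} {β : Bool} (h : Pu r β) : clip r = pv β := by
  cases β
  · rw [show r = 0 from h]
    rfl
  · rw [clip, min_eq_right (show 3 ≤ r from h)]
    rfl

theorem read {w γ : Bool} {v r : ℕ} (h : ok (bif w then 2 else 1) v v r)
    (h' : rd w (clip v) = some γ) : Pu r γ := by
  obtain ⟨k, hk, e⟩ : ∃ k, k ≤ 3 ∧ min v 3 = k := ⟨_, min_le_right _ _, rfl⟩
  rw [clip, e] at h'
  cases w
  · obtain ⟨h1, h2⟩ := h
    interval_cases k <;> cases γ <;> first
      | exact absurd h' (by decide)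
      | exact h1 (by omega)
      | exact h2 (by omega)
  · obtain ⟨h1, h2⟩ := h
    interval_cases k <;> cases γ <;> first
      | exact absurd h' (by decide)
      | exact h1 (by omega)
      | exact h2 (by omega)

theorem sel_pu {y : ℕ → ℕ} {ρ : Option Bool} {g : Bool → Bool} {β : Bool}
    (h2 : ∀ γ, ρ = some γ → Pu (y 2) γ) (h4 : ok 0 (y 2) (y 2) (y 4)) (h8 : y 8 = 0)
    (h9 : 3 ≤ y 9) (hg : ∀ b, (∀ γ, ρ = some γ → b = γ) → g b = β) :
    Pu (y (sel (g false) (g true))) (!β) := by
  obtain ⟨a1, a2⟩ := h4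
  rcases ρ with _ | _ | _
  · rw [hg false (by simp), hg true (by simp)]
    cases β
    exacts [h9, h8]
  · have h3 : y 2 = 0 := h2 false rfl
    rw [hg false (by simp)]
    cases β <;> cases g true
    exacts [h9, a1 ⟨h3, h3⟩, h3, h8]
  · have h3 : 3 ≤ y 2 := h2 true rfl
    rw [hg true (by simp)]
    cases β <;> cases g false
    exacts [h9, h3, a2 (Or.inl h3), h8]

theorem gates_ok {x : ℕ → ℕ} {w : Fin 2 → Bool} {p : Fin 2 → ℕ} {f : (Fin 2 → Bool) → Bool}
    {c : ℕ} (H : ∀ i < 16, ∀ k a b, (gates (w 0) (w 1) (selF false f) (selF true f) (p 0) (p 1)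
      c).getD i (0, 0, 0) = (k, a, b) → ok k (x a) (x b) (x (c + i))) :
    HF (fun i => rd (w i) (clip (x (p i)))) f (clip (x c)) := by
  intro β hβ
  have h5 := (H 5 (by norm_num) _ _ _ rfl).1
  have h6 := (H 6 (by norm_num) _ _ _ rfl).2
  have h7 := (H 7 (by norm_num) _ _ _ rfl).1
  have h8' := (H 8 (by norm_num) _ _ _ rfl).2
  have h8 : x (c + 8) = 0 := by omega
  have h9 : 3 ≤ x (c + 9) := (H 9 (by norm_num) _ _ _ rfl).1 ⟨h8, h8⟩
  have hs : ∀ a, (∀ γ, rd (w 0) (clip (x (p 0))) = some γ → a = γ) →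
      Pu (x (c + selF a f)) (!β) := fun a ha =>
    sel_pu (y := fun i => x (c + i)) (g := fun b => f ![a, b])
      (fun γ => read (H 2 (by norm_num) _ _ _ rfl)) (H 4 (by norm_num) _ _ _ rfl) h8 h9
      fun b hb => hβ _ (Fin.forall_fin_two.2 ⟨ha, hb⟩)
  have h1 := fun γ => read (γ := γ) (H 1 (by norm_num) _ _ _ rfl)
  obtain ⟨a0, b0⟩ := H 0 (by norm_num) _ _ _ rfl
  obtain ⟨a3, b3⟩ := H 3 (by norm_num) _ _ _ rfl
  obtain ⟨a10, b10⟩ := H 10 (by norm_num) _ _ _ rfl
  obtain ⟨a11, b11⟩ := H 11 (by norm_num) _ _ _ rfl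
  obtain ⟨a12, b12⟩ := H 12 (by norm_num) _ _ _ rfl
  obtain ⟨a13, b13⟩ := H 13 (by norm_num) _ _ _ rfl
  obtain ⟨a14, b14⟩ := H 14 (by norm_num) _ _ _ rfl
  obtain ⟨a15, b15⟩ := H 15 (by norm_num) _ _ _ rfl
  rw [add_zero] at a0 b0
  refine clip_pu ?_
  rcases e : rd (w 0) (clip (x (p 0))) with _ | _ | _
  · have s0 := hs false (by simp [e])
    have s1 := hs true (by simp [e])
    cases β <;> simp only [Pu, Bool.not_true, Bool.not_false, if_true, Bool.false_eq_true,
      if_false] at s0 s1 ⊢ <;> omega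
  · have s0 := hs false (by simp [e])
    have s1 : x (c + 1) = 0 := h1 false e
    cases β <;> simp only [Pu, Bool.not_true, Bool.not_false, if_true, Bool.false_eq_true,
      if_false] at s0 ⊢ <;> omega
  · have s0 := hs true (by simp [e])
    have s1 : 3 ≤ x (c + 1) := h1 true e
    cases β <;> simp only [Pu, Bool.not_true, Bool.not_false, if_true, Bool.false_eq_true,
      if_false] at s0 ⊢ <;> omega

theorem gates_lt {w0 w1 : Bool} {s0 s1 p0 p1 c L : ℕ} (h0 : s0 < 16) (h1 : s1 < 16) (h2 : p0 < L)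
    (h3 : p1 < L) (h4 : c + 16 ≤ L) (i : ℕ) :
    ((gates w0 w1 s0 s1 p0 p1 c).getD i (0, 0, 0)).2.1 < L ∧
      ((gates w0 w1 s0 s1 p0 p1 c).getD i (0, 0, 0)).2.2 < L := by
  have h : ∀ g ∈ gates w0 w1 s0 s1 p0 p1 c, g.2.1 < L ∧ g.2.2 < L := by
    simp only [gates, List.forall_mem_cons, List.not_mem_nil, false_imp_iff, implies_true,
      and_true]
    omega
  by_cases hi : i < (gates w0 w1 s0 s1 p0 p1 c).length
  · rw [List.getD_eq_getElem _ _ hi]
    exact h _ (List.getElem_mem hi)
  · rw [List.getD_eq_default _ _ (not_lt.1 hi)]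
    exact ⟨Nat.zero_lt_of_lt h2, Nat.zero_lt_of_lt h2⟩

theorem countP_le (P Q : ℕ → Bool) (K N : ℕ) (h : ∀ n < N, P n → ∃ i < K, Q (n * K + i)) :
    (List.range N).countP P ≤ (List.range (N * K)).countP Q := by
  induction N with
  | zero => simp
  | succ N ih =>
    rw [List.range_succ, Nat.succ_mul, List.range_add, List.countP_append, List.countP_append]
    refine Nat.add_le_add (ih fun n hn => h n (by omega)) ?_
    cases e : P N
    · simp [e]
    · obtain ⟨i, hi, hQ⟩ := h N N.lt_succ_self e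
      refine List.countP_le_length.trans (List.countP_pos_iff.2 ⟨N * K + i, ?_, hQ⟩)
      exact List.mem_map.2 ⟨i, List.mem_range.2 hi, rfl⟩

variable (G : Inst 2)

/-- the time of the node number `n` -/
def tm (n : ℕ) : ℕ := n / G.nA % 2 ^ G.τ

/-- the gate that carries the value of the input `i` of the node number `n` -/
def inp (n : ℕ) (i : Fin 2) : ℕ :=
  (G.prev (tm G n) * G.nA + G.actN (G.nop (tm G n) i) (n % G.nA)) * 16

/-- the gates of the node number `n` -/
def nodeG (n : ℕ) : List (ℕ × ℕ × ℕ) :=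
  gates (G.win (tm G n) 0) (G.win (tm G n) 1)
    (selF false (G.lab (tm G n) (unidx _ _ _ (n % G.nA))))
    (selF true (G.lab (tm G n) (unidx _ _ _ (n % G.nA)))) (inp G n 0) (inp G n 1) (n * 16)

/-- the pure circuit -/
def circ : PC :=
  (List.range (2 ^ G.τ * G.nA * 16)).map fun z => (nodeG G (z / 16)).getD (z % 16) (0, 0, 0)

/-- the decoder -/
def dec (x : List ℕ) : Asg :=
  (List.range (2 ^ G.τ * G.nA)).map fun n => min (x.getD (n * 16) 0) 3

theorem tm_lt (n : ℕ) : tm G n < 2 ^ G.τ := Nat.mod_lt _ (Nat.two_pow_pos _)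

theorem node_lt {t m : ℕ} (ht : t < 2 ^ G.τ) (hm : m < G.nA) : t * G.nA + m < 2 ^ G.τ * G.nA := by
  have := Nat.mul_le_mul_right G.nA (Nat.succ_le_of_lt ht)
  rw [Nat.succ_mul] at this
  omega

theorem circ_length : (circ G).length = 2 ^ G.τ * G.nA * 16 := by simp [circ]

theorem circ_wf : (circ G).WF := by
  have h0 : 0 < 2 ^ G.τ * G.nA := Nat.mul_pos (Nat.two_pow_pos _) G.nA_pos
  refine ⟨List.ne_nil_of_length_pos (by rw [circ_length]; omega), fun g hg => ?_⟩
  obtain ⟨z, hz, rfl⟩ := List.mem_map.1 hg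
  rw [List.mem_range] at hz
  have h1 : ∀ i, inp G (z / 16) i < (circ G).length := fun i => by
    rw [circ_length, inp]
    exact Nat.mul_lt_mul_of_pos_right (node_lt G (G.prev_lt _) (G.idx_lt_nA _)) (by norm_num)
  exact gates_lt (sel_lt _ _) (sel_lt _ _) (h1 0) (h1 1) (by rw [circ_length]; omega) _

theorem val_dec (x : List ℕ) {t : ℕ} (ht : t < 2 ^ G.τ) (a : G.A) :
    G.val (dec G x) t a = clip (x.getD ((t * G.nA + idx a) * 16) 0) := by
  rw [Inst.val, dec, List.getD_eq_getElem _ _ (by simpa using node_lt G ht (G.idx_lt_nA a)),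
    List.getElem_map, List.getElem_range, clip]

theorem sat_dec (x : List ℕ) {n : ℕ} (hn : n < 2 ^ G.τ * G.nA)
    (h : ∀ i < 16, (circ G).OkAt x (n * 16 + i)) :
    G.sat (G.val (dec G x)) (n / G.nA) (unidx _ _ _ (n % G.nA)) := by
  have h1 : n / G.nA < 2 ^ G.τ := (Nat.div_lt_iff_lt_mul G.nA_pos).2 hn
  have h2 : tm G n = n / G.nA := Nat.mod_eq_of_lt h1
  have h3 := gates_ok (x := fun z => x.getD z 0) (w := G.win (tm G n)) (p := inp G n)
    (f := G.lab (tm G n) (unidx _ _ _ (n % G.nA))) (c := n * 16) fun i hi k a b hg => by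
      have h4 := h i hi
      rw [PC.OkAt, circ, List.getD_eq_getElem _ _ (by simp; omega), List.getElem_map,
        List.getElem_range, show (n * 16 + i) / 16 = n by omega,
        show (n * 16 + i) % 16 = i by omega, nodeG, hg] at h4
      exact h4
  rw [Inst.sat, val_dec G x h1, idx_unidx (m := n % G.nA) (Nat.mod_lt _ G.nA_pos),
    Nat.div_add_mod']
  simp only [val_dec G x (G.prev_lt _)]
  simp only [inp, h2, Inst.actN, Inst.nop, act_nrm] at h3
  exact h3

theorem pt_gates {X : Type} [Enc X] {w0 w1 : X → Bool} {s0 s1 p0 p1 c : X → ℕ} (h1 : PT w0)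
    (h2 : PT w1) (h3 : PT s0) (h4 : PT s1) (h5 : PT p0) (h6 : PT p1) (h7 : PT c) :
    PT fun x => gates (w0 x) (w1 x) (s0 x) (s1 x) (p0 x) (p1 x) (c x) := by
  unfold gates
  fun_prop

theorem pt_nodeG {X : Type} [Enc X] {G : X → Inst 2} {n : X → ℕ} (hG : PT G) (hn : PT n) :
    PT fun x => nodeG (G x) (n x) := by
  have hA := (pu_nA hG).pt
  have hT := (pu_T hG).pt
  have ht : PT fun x => tm (G x) (n x) := pt_mod (PT.div hn hA) hT
  have hm : PT fun x => n x % (G x).nA := pt_mod hn hA
  have hw := pt_win hG ht fun x => tm_lt (G x) (n x)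
  have hl := pt_lab hG ht hm (fun x => tm_lt (G x) (n x)) fun x => Nat.mod_lt _ (G x).nA_pos
  have hp : PT fun x => (G x).prev (tm (G x) (n x)) :=
    pt_mod (PT.sub (PT.add ht hT) (PT.const 1)) hT
  have hi : ∀ i, PT fun x => inp (G x) (n x) i := fun i =>
    PT.mul (PT.add (PT.mul hp hA)
      (pt_actN hG (pt_nop hG ht (fun x => tm_lt (G x) (n x)) i) hm)) (PT.const 16)
  exact pt_gates (hw 0) (hw 1) (pt_ofFin (selF false) hl) (pt_ofFin (selF true) hl) (hi 0) (hi 1)
    (hn.mul (PT.const 16))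

theorem pt_circ : PT circ := by
  have h : PT fun p : Inst 2 × ℕ => (nodeG p.1 (p.2 / 16)).getD (p.2 % 16) (0, 0, 0) :=
    PT.getD (pt_nodeG PT.fst' (PT.snd'.div (PT.const 16))) (pt_mod PT.snd' (PT.const 16))
      (PT.const _)
  exact PT.map (f := fun G z => (nodeG G (z / 16)).getD (z % 16) (0, 0, 0)) h
    (((pu_T PT.id).mul (pu_nA PT.id)).mul (PU.const 16))

theorem pt_dec : PT fun p : Inst 2 × List ℕ => dec p.1 p.2 := by
  refine PT.map (f := fun (p : Inst 2 × List ℕ) n => min (p.2.getD (n * 16) 0) 3) ?_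
    ((pu_T PT.fst').mul (pu_nA PT.fst'))
  exact pt_min (PT.getD PT.fst'.snd (PT.snd'.mul (PT.const 16)) (PT.const 0)) (PT.const 3)

end Out

open Out in
theorem out : OutStmt := by
  refine ⟨16, circ, fun p => dec p.1 p.2, pt_circ, pt_dec, fun G => ⟨circ_wf G, fun x => ?_⟩⟩
  have h0 : (0 : ℝ) < (2 ^ G.τ * G.nA : ℕ) :=
    Nat.cast_pos.2 (Nat.mul_pos (Nat.two_pow_pos _) G.nA_pos)
  have h1 : G.cnt (dec G x) ≤ (circ G).bad x := by
    classical
    rw [PC.bad, circ_length]
    refine countP_le _ _ _ _ fun n hn h => ?_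
    by_contra c
    push Not at c
    exact of_decide_eq_true h (sat_dec G x hn fun i hi => by simpa using c i hi)
  rw [Inst.violA_eq, circ_length, Nat.cast_mul _ 16, ← mul_assoc, div_mul_cancel₀ _ h0.ne',
    mul_comm]
  exact mul_le_mul_of_nonneg_left (Nat.cast_le.2 h1) (Nat.cast_nonneg _)

end Vale.Agent.P330.Amp
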