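import Vale.Agent.P330.San

/-! The protected binary operation on words (task PL1). -/

namespace Vale.Agent.P330.Amp

open Vale.Agent.Lib.H23 Vale.Agent.P325 Finset
open scoped BigOperators

variable {σ κ u M v : ℕ} {ds : List Dim} {orc : ℕ → Vec σ → Bool} {S : Vec σ → Prop}
  {X Y : Vec σ → Val} {z0 : Vec σ}

/-- coefficients of the binary operation at `z`. -/
def pl1Coef (orc : ℕ → Vec σ → Bool) (g : Bool) (j : ℕ) (c : Fin 4 → Cond) (z : Vec σ) :
    Fin 4 → ZMod 2 :=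
  if g then fun i => b2 ((c i).ev orc z)
  else if xor (decide (fld z j 1 = 1)) ((c 0).ev orc z) then ![0, 0, 0, 1] else ![0, 1, 1, 1]

/-- the source cell number `a` in the version `r`. -/
def pl1Src (j v κ a : ℕ) (r : Vec κ) (z : Vec σ) : Vec σ := put (put z j 1 (ofN 1 a)) v κ r

theorem pl1_and (x y : ZMod 2) :
    (decide (x = 1) && decide (y = 1)) = decide (anf ![0, 0, 0, 1] x y = 1) := by
  revert x y; decide

theorem pl1_or (x y : ZMod 2) :
    (decide (x = 1) || decide (y = 1)) = decide (anf ![0, 1, 1, 1] x y = 1) := by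
  revert x y; decide

theorem pl1_cell {g : Bool} {j : ℕ} {c : Fin 4 → Cond} {Z : Vec σ → Val} {z : Vec σ}
    (hz : Home u z) (hs : (Ins.cell (.bin g) j 1 v κ c).sat κ orc Z Y z) {x y : ZMod 2}
    (hx : Z (pl1Src j v κ 0 (ofN κ (toN (get z j 1))) z) = pz x)
    (hy : Z (pl1Src j v κ 1 (ofN κ (toN (get z j 1))) z) = pz y) :
    Y z = pz (anf (pl1Coef orc g j c z) x y) := by
  refine HF.pure (v := fun i : Vec 2 × Vec 1 × Vec κ =>
    Z (put (put (put z 0 2 i.1) j 1 i.2.1) v κ i.2.2)) hs fun r hr => ?_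
  have h0 : r (0, ofN 1 0, ofN κ (toN (get z j 1))) = decide (x = 1) := by
    apply hr
    show Z (put (put (put z 0 2 0) j 1 _) v κ _) = _
    rw [hz.put_reg]; exact hx
  have h1 : r (0, ofN 1 1, ofN κ (toN (get z j 1))) = decide (y = 1) := by
    apply hr
    show Z (put (put (put z 0 2 0) j 1 _) v κ _) = _
    rw [hz.put_reg]; exact hy
  unfold kf pl1Coef
  simp only [h0, h1, b2_decide]
  cases g
  · simp only [Bool.false_eq_true, if_false]
    by_cases h : xor (decide (fld z j 1 = 1)) ((c 0).ev orc z) = true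
    · rw [if_pos h, if_pos (by exact h)]; exact pl1_and x y
    · rw [if_neg h, if_neg (by exact h)]; exact pl1_or x y
  · simp only [if_true]

theorem pl1_lay {j : ℕ} (hl : Lay σ κ u ((false, j, 1) :: vd κ v :: ds)) :
    j + 1 ≤ σ ∧ v + κ ≤ σ ∧ (j + 1 ≤ v ∨ v + κ ≤ j) ∧
      (∀ e ∈ ds, j + 1 ≤ e.2.1 ∨ e.2.1 + e.2.2 ≤ j) ∧
      (∀ e ∈ ds, v + κ ≤ e.2.1 ∨ e.2.1 + e.2.2 ≤ v) := by
  obtain ⟨h1, h2⟩ := hl
  rw [List.pairwise_cons, List.pairwise_cons] at h2
  refine ⟨(h1 _ List.mem_cons_self).2.1,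
    (h1 (vd κ v) (List.mem_cons_of_mem _ List.mem_cons_self)).2.1,
    h2.1 (vd κ v) List.mem_cons_self, fun e he => h2.1 e (List.mem_cons_of_mem _ he),
    fun e he => h2.2.1 e he⟩

theorem pl1_notin {p w : ℕ} {es : List Dim} (h : ∀ e ∈ es, p + w ≤ e.2.1 ∨ e.2.1 + e.2.2 ≤ p) :
    ∀ i, p ≤ i → i < p + w → i ∉ pos es := by
  rintro i h1 h2 ⟨e, he, h3, h4⟩
  rcases h e he with h5 | h5 <;> omega

theorem pl1_disj {j : ℕ} (hl : Lay σ κ u ((false, j, 1) :: vd κ v :: ds)) :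
    ∀ e ∈ vd κ v :: ds, j + 1 ≤ e.2.1 ∨ e.2.1 + e.2.2 ≤ j := by
  intro e he
  rcases List.mem_cons.1 he with rfl | he
  · exact (pl1_lay hl).2.2.1
  · exact (pl1_lay hl).2.2.2.1 e he

theorem pl1_lay1 {j : ℕ} (hl : Lay σ κ u ((false, j, 1) :: vd κ v :: ds)) :
    Lay σ κ u (vd κ v :: ds) := hl.sublist (List.sublist_cons_self _ _)

theorem pl1_sub {j : ℕ} : pos (vd κ v :: ds) ⊆ pos ((false, j, 1) :: vd κ v :: ds) :=
  pos_mono fun _ he => List.mem_cons_of_mem _ he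

theorem pl1_head (e : Dim) (es : List Dim) :
    ∀ i, e.2.1 ≤ i → i < e.2.1 + e.2.2 → i ∈ pos (e :: es) :=
  fun _ h1 h2 => Exists.intro e ⟨List.mem_cons_self, h1, h2⟩

theorem pl1_inR {j : ℕ} (s : Vec 1) :
    InR (pos ((false, j, 1) :: vd κ v :: ds)) z0 (put z0 j 1 s) :=
  InR.refl.put (pl1_head (false, j, 1) _) s

theorem pl1_home {j : ℕ} (hl : Lay σ κ u ((false, j, 1) :: vd κ v :: ds)) (h0 : Home u z0)
    (s : Vec 1) : Home u (put z0 j 1 s) := hl.home h0 (pl1_inR s)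

theorem pl1_flt {j : ℕ} (s : Vec 1) : flt u S (pos (vd κ v :: ds)) (put z0 j 1 s) ≤
    2 * flt u S (pos ((false, j, 1) :: vd κ v :: ds)) z0 := by
  have := flt_slice (u := u) (P := pos (vd κ v :: ds)) (Q := pos ((false, j, 1) :: vd κ v :: ds))
    (z0 := z0) (z := put z0 j 1 s) S [j] (fun i hi => ?_) pl1_sub (pl1_inR s)
  · simpa using this
  · rw [pos_cons] at hi
    rcases hi with hi | hi
    · right
      simp only [Set.mem_Ico] at hi
      simp only [List.mem_singleton]; omega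
    · exact Or.inl hi

theorem pl1_get {j : ℕ} (hl : Lay σ κ u ((false, j, 1) :: vd κ v :: ds)) {s : Vec 1} {z : Vec σ}
    (hz : InR (pos (vd κ v :: ds)) (put z0 j 1 s) z) : get z j 1 = s := by
  rw [hz.get (pl1_notin (pl1_disj hl)), get_put (pl1_lay hl).1]

theorem pl1_slice_inR {j : ℕ} {z : Vec σ}
    (hz : InR (pos ((false, j, 1) :: vd κ v :: ds)) z0 z) :
    InR (pos (vd κ v :: ds)) (put z0 j 1 (get z j 1)) z := by
  intro i hi
  unfold put
  split_ifs with h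
  · unfold get
    have : j + (i.val - j) = i.val := by omega
    simp only [this, i.2, dif_pos]
  · apply hz
    rw [pos_cons]
    rintro (h' | h')
    · exact h h'
    · exact hi h'

/-- the error in one version as an average over the bundle. -/
theorem pl1_vers (hv : v + κ ≤ σ) (hd : ∀ e ∈ ds, v + κ ≤ e.2.1 ∨ e.2.1 + e.2.2 ≤ v)
    (f : Vec σ → ℝ) (r : Vec κ) (w : Vec σ) :
    av (pos (vd κ v :: ds)) (fun z => f (put z v κ r)) w = av (pos ds) f (put w v κ r) := by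
  rw [pos_cons, ← av_av]
  show av (Set.Ico v (v + κ)) _ w = _
  rw [av_Ico hv]
  have : ∀ t : Vec κ, av (pos ds) (fun z => f (put z v κ r)) (put w v κ t) =
      av (pos ds) f (put w v κ r) := fun t => by rw [av_put (pl1_notin hd), put_put]
  simp only [this]
  exact Finset.expect_const Finset.univ_nonempty _

theorem pl1_vers_le (hv : v + κ ≤ σ) (hd : ∀ e ∈ ds, v + κ ≤ e.2.1 ∨ e.2.1 + e.2.2 ≤ v)
    (Z : Vec σ → Val) (H : Vec σ → ZMod 2) (r : Vec κ) (w : Vec σ) :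
    err ds Z H (put w v κ r) ≤ 2 ^ κ * err (vd κ v :: ds) Z H w := by
  unfold err
  rw [← pl1_vers hv hd (fun z => ind (Z z ≠ pz (H z))) r w]
  exact av_put_le (f := fun z => ind (Z z ≠ pz (H z))) (fun _ => ind_nonneg _)
    (pl1_head (vd κ v) ds) r

/-- the error of an output slice. -/
theorem pl1_slice {g : Bool} {j : ℕ} {c : Fin 4 → Cond} {Z : Vec σ → Val}
    (hl : Lay σ κ u ((false, j, 1) :: vd κ v :: ds)) (h0 : Home u z0)
    (hs : ∀ z, ¬ S z → (Ins.cell (.bin g) j 1 v κ c).sat κ orc Z Y z) (s : Vec 1)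
    (H0 H1 : Vec σ → ZMod 2) :
    err (vd κ v :: ds) Y (fun z => anf (pl1Coef orc g j c z)
        (H0 (pl1Src j v κ 0 (ofN κ (toN s)) z)) (H1 (pl1Src j v κ 1 (ofN κ (toN s)) z)))
        (put z0 j 1 s) ≤
      2 ^ (u + 3) * flt u S (pos ((false, j, 1) :: vd κ v :: ds)) z0 +
        err ds Z H0 (pl1Src j v κ 0 (ofN κ (toN s)) z0) +
        err ds Z H1 (pl1Src j v κ 1 (ofN κ (toN s)) z0) := by
  obtain ⟨hj, hv, hjv, hjd, hvd⟩ := pl1_lay hl
  have key : ∀ (a : ℕ) (H : Vec σ → ZMod 2), av (pos (vd κ v :: ds))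
      (fun z => ind (Z (pl1Src j v κ a (ofN κ (toN s)) z) ≠
        pz (H (pl1Src j v κ a (ofN κ (toN s)) z)))) (put z0 j 1 s) =
      err ds Z H (pl1Src j v κ a (ofN κ (toN s)) z0) := by
    intro a H
    have h1 := av_put (P := pos (vd κ v :: ds)) (z0 := put z0 j 1 s)
      (f := fun y => ind (Z (put y v κ (ofN κ (toN s))) ≠ pz (H (put y v κ (ofN κ (toN s))))))
      (pl1_notin (pl1_disj hl)) (ofN 1 a)
    rw [put_put] at h1
    have h2 := pl1_vers hv hvd (fun y => ind (Z y ≠ pz (H y))) (ofN κ (toN s)) (put z0 j 1 (ofN 1 a))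
    exact h1.trans h2
  have hS : av (pos (vd κ v :: ds)) (fun z => ind (S z)) (put z0 j 1 s) ≤
      2 ^ (u + 3) * flt u S (pos ((false, j, 1) :: vd κ v :: ds)) z0 := by
    refine (av_le_flt (u := u) S).trans ?_
    have := pl1_flt (u := u) (κ := κ) (v := v) (ds := ds) (S := S) (z0 := z0) (j := j) s
    calc (2 : ℝ) ^ (u + 2) * flt u S (pos (vd κ v :: ds)) (put z0 j 1 s)
        ≤ 2 ^ (u + 2) * (2 * flt u S (pos ((false, j, 1) :: vd κ v :: ds)) z0) := by gcongr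
      _ = _ := by ring
  rw [← key 0 H0, ← key 1 H1]
  refine le_trans ?_ (add_le_add (add_le_add hS le_rfl) le_rfl)
  rw [← av_add, ← av_add]
  refine av_mono fun z hz => ?_
  have hg := pl1_get hl hz
  have hh : Home u z := (pl1_lay1 hl).home (pl1_home hl h0 s) hz
  have n1 := ind_nonneg (S z)
  have n2 := ind_nonneg (Z (pl1Src j v κ 0 (ofN κ (toN s)) z) ≠
    pz (H0 (pl1Src j v κ 0 (ofN κ (toN s)) z)))
  have n3 := ind_nonneg (Z (pl1Src j v κ 1 (ofN κ (toN s)) z) ≠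
    pz (H1 (pl1Src j v κ 1 (ofN κ (toN s)) z)))
  by_cases c1 : S z
  · refine (ind_le_one _).trans ?_
    rw [ind_of c1]; linarith
  by_cases c2 : Z (pl1Src j v κ 0 (ofN κ (toN s)) z) ≠ pz (H0 (pl1Src j v κ 0 (ofN κ (toN s)) z))
  · refine (ind_le_one _).trans ?_
    rw [ind_of c2]; linarith
  by_cases c3 : Z (pl1Src j v κ 1 (ofN κ (toN s)) z) ≠ pz (H1 (pl1Src j v κ 1 (ofN κ (toN s)) z))
  · refine (ind_le_one _).trans ?_
    rw [ind_of c3]; linarith
  have := pl1_cell hh (hs z c1) (x := H0 (pl1Src j v κ 0 (ofN κ (toN s)) z))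
    (y := H1 (pl1Src j v κ 1 (ofN κ (toN s)) z)) (by rw [hg]; exact not_not.1 c2)
    (by rw [hg]; exact not_not.1 c3)
  rw [ind_of_not (not_not.2 this)]
  linarith

theorem pl1_expect (f : Vec 1 → ℝ) : (𝔼 s, f s) = (f (ofN 1 0) + f (ofN 1 1)) / 2 := by
  rw [expect_vec]
  show (𝔼 a : Fin 2, f (ofN 1 a)) = _
  rw [Finset.expect_eq_sum_div_card, Fin.sum_univ_two]
  simp

theorem pl1_valid {g : Bool} {j : ℕ} {c : Fin 4 → Cond} (hp : Par κ u M)
    (hl : Lay σ κ u ((false, j, 1) :: vd κ v :: ds)) (hd : ds.length + 1 ≤ M) (h0 : Home u z0)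
    (hr : Runs κ orc S (plBin κ u v ds g j c) X Y)
    (hβ : flt u S (pos ((false, j, 1) :: vd κ v :: ds)) z0 ≤ (1 / 2) ^ (4 * u + 1))
    {F : Vec σ → ZMod 2} (hF : ∀ s, Valid (eV M) (vd κ v :: ds) X (put z0 j 1 s) F) :
    ∃ F', (∀ s, PolyL (vd κ v :: ds) (put z0 j 1 s) F') ∧
      (∀ z, InR (pos ((false, j, 1) :: vd κ v :: ds)) z0 z → HP ds z → F' z = F z) ∧
      err ((false, j, 1) :: vd κ v :: ds) Y (fun z => anf (pl1Coef orc g j c z)
        (F' (put z j 1 (ofN _ 0))) (F' (put z j 1 (ofN _ 1)))) z0 ≤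
        2 ^ (3 * u + κ + 3) * flt u S (pos ((false, j, 1) :: vd κ v :: ds)) z0 := by
  obtain ⟨hj, hv, hjv, hjd, hvd⟩ := pl1_lay hl
  obtain ⟨Z, hZ, hY⟩ := runs_append.1 hr
  rw [runs_single] at hY
  have hβ' : ∀ s, flt u S (pos (vd κ v :: ds)) (put z0 j 1 s) ≤ (1 / 2) ^ (4 * u) := fun s =>
    (pl1_flt s).trans (by rw [pow_succ] at hβ; linarith)
  choose G hG1 hG2 hG3 using fun s =>
    san_valid hp (pl1_lay1 hl) hd (pl1_home hl h0 s) hZ (hβ' s) (hF s)
  have hL : ∀ s, PolyL (vd κ v :: ds) (put z0 j 1 s) fun z => G (get z j 1) z := fun s =>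
    (hG1 s).congr fun z hz => by rw [pl1_get hl hz]
  have hb := flt_nonneg (u := u) (P := pos ((false, j, 1) :: vd κ v :: ds)) (z := z0) S
  have hE : ∀ s, err (vd κ v :: ds) Z (fun z => G (get z j 1) z) (put z0 j 1 s) ≤
      2 ^ (3 * u + 1) * flt u S (pos ((false, j, 1) :: vd κ v :: ds)) z0 := by
    intro s
    have e : err (vd κ v :: ds) Z (fun z => G (get z j 1) z) (put z0 j 1 s) =
        err (vd κ v :: ds) Z (G s) (put z0 j 1 s) :=
      av_congr fun z hz => by beta_reduce; rw [pl1_get hl hz]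
    rw [e]
    refine (hG3 s).trans ?_
    have := pl1_flt (u := u) (κ := κ) (v := v) (ds := ds) (S := S) (z0 := z0) (j := j) s
    calc (2 : ℝ) ^ (3 * u) * flt u S (pos (vd κ v :: ds)) (put z0 j 1 s)
        ≤ 2 ^ (3 * u) * (2 * flt u S (pos ((false, j, 1) :: vd κ v :: ds)) z0) := by gcongr
      _ = _ := by ring
  refine ⟨fun z => G (get z j 1) z, hL, fun z hz hH => hG2 _ z (pl1_slice_inR hz) hH, ?_⟩
  generalize (fun z => G (get z j 1) z) = F' at hL hE
  rw [← av_err (Q := Set.Ico j (j + 1)) (ds' := vd κ v :: ds) (pos_cons (e := (false, j, 1))).symm,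
    av_Ico hj]
  refine Finset.expect_le Finset.univ_nonempty fun s _ => ?_
  have hc : ∀ (a : ℕ) (z : Vec σ), InR (pos (vd κ v :: ds)) (put z0 j 1 s) z →
      F' (put z j 1 (ofN 1 a)) = F' (pl1Src j v κ a (ofN κ (toN s)) z) := by
    intro a z hz
    have h1 : InR (pos (vd κ v :: ds)) (put z0 j 1 (ofN 1 a)) (put z j 1 (ofN 1 a)) := by
      have := hz.put_put (p := j) (w := 1) (ofN 1 a)
      rwa [put_put] at this
    have h2 : Deg 0 (line F' (put z j 1 (ofN 1 a)) (vd κ v)) := hL _ _ List.mem_cons_self _ h1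
    have h3 := h2 (get (put z j 1 (ofN 1 a)) v κ) (ofN κ (toN s))
    have h4 : put (put z j 1 (ofN 1 a)) v κ (get (put z j 1 (ofN 1 a)) v κ) = put z j 1 (ofN 1 a) :=
      put_get
    exact (congrArg F' h4).symm.trans h3
  have e : err (vd κ v :: ds) Y (fun z => anf (pl1Coef orc g j c z)
        (F' (put z j 1 (ofN _ 0))) (F' (put z j 1 (ofN _ 1)))) (put z0 j 1 s) =
      err (vd κ v :: ds) Y (fun z => anf (pl1Coef orc g j c z)
        (F' (pl1Src j v κ 0 (ofN κ (toN s)) z)) (F' (pl1Src j v κ 1 (ofN κ (toN s)) z)))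
        (put z0 j 1 s) :=
    av_congr fun z hz => by beta_reduce; rw [hc 0 z hz, hc 1 z hz]
  rw [e]
  refine (pl1_slice hl h0 hY s F' F').trans ?_
  have hV : ∀ a : ℕ, err ds Z F' (pl1Src j v κ a (ofN κ (toN s)) z0) ≤
      2 ^ (3 * u + κ + 1) * flt u S (pos ((false, j, 1) :: vd κ v :: ds)) z0 := by
    intro a
    refine (pl1_vers_le hv hvd Z F' _ _).trans ?_
    have := hE (ofN 1 a)
    calc (2 : ℝ) ^ κ * err (vd κ v :: ds) Z F' (put z0 j 1 (ofN 1 a))
        ≤ 2 ^ κ * (2 ^ (3 * u + 1) * flt u S (pos ((false, j, 1) :: vd κ v :: ds)) z0) := by gcongr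
      _ = _ := by ring
  have h1 := hV 0
  have h2 := hV 1
  have h3 : (2 : ℝ) ^ (u + 3) ≤ 2 ^ (3 * u + κ + 2) :=
    pow_le_pow_right₀ (by norm_num) (by have := hp.hκ; omega)
  have h4 := mul_le_mul_of_nonneg_right h3 hb
  have h5 : (2 : ℝ) ^ (3 * u + κ + 3) = 4 * 2 ^ (3 * u + κ + 1) := by ring
  have h6 : (2 : ℝ) ^ (3 * u + κ + 2) = 2 * 2 ^ (3 * u + κ + 1) := by ring
  rw [h6] at h4
  rw [h5]
  linarith

/-- one version of a source bundle as a codeword on an output slice. -/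
theorem pl1_poly {j : ℕ} (hl : Lay σ κ u ((false, j, 1) :: vd κ v :: ds)) (s : Vec 1) (a : ℕ)
    (r : Vec κ) {H : Vec σ → ZMod 2} (h : PolyL ds (pl1Src j v κ a r z0) H) :
    PolyD 1 (vd κ v :: ds) (put z0 j 1 s) fun z => H (pl1Src j v κ a r z) := by
  obtain ⟨hj, hv, hjv, hjd, hvd⟩ := pl1_lay hl
  intro e he z hz
  rcases List.mem_cons.1 he with rfl | he
  · intro t t'
    have : ∀ t : Vec κ, pl1Src j v κ a r (put z v κ t) = pl1Src j v κ a r z := fun t => by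
      unfold pl1Src
      rw [← put_comm hjv, put_put]
    exact congrArg H ((this t).trans (this t').symm)
  · have h1 : InR (pos ds) (pl1Src j v κ a r z0) (pl1Src j v κ a r z) := by
      intro i hi
      unfold pl1Src put
      split_ifs with c1 c2
      · rfl
      · rfl
      · have := hz i (by
          rw [pos_cons]
          rintro (h' | h')
          · exact c1 h'
          · exact hi h')
        rw [this]
        unfold put
        rw [dif_neg c2]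
    have h2 := h.polyD e he _ h1
    have h3 : line (fun z => H (pl1Src j v κ a r z)) z e = line H (pl1Src j v κ a r z) e := by
      funext t
      unfold line pl1Src
      beta_reduce
      rw [← put_comm (hjd e he), ← put_comm (hvd e he)]
    rw [h3]
    exact h2

theorem pl1_small (hp : Par κ u M) :
    (2 : ℝ) ^ (u + 3) * (1 / 2) ^ (4 * u + 1) ≤ eV M / 2 := by
  have hu := hp.hu
  have e : eV M = (1 / 2 : ℝ) ^ (6 * M) := by
    unfold eV; rw [pow_mul]; norm_num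
  obtain ⟨k, hk⟩ : ∃ k, 4 * u + 1 = (u + 3) + (6 * M + 1 + k) := ⟨3 * u - 6 * M - 3, by omega⟩
  rw [e, hk, pow_add (1 / 2 : ℝ) (u + 3), ← mul_assoc, ← mul_pow]
  have : (1 / 2 : ℝ) ^ (6 * M + 1 + k) ≤ (1 / 2) ^ (6 * M + 1) :=
    pow_le_pow_of_le_one (by norm_num) (by norm_num) (by omega)
  rw [pow_succ (1 / 2 : ℝ) (6 * M)] at this
  norm_num at this ⊢
  linarith

theorem pl1_ok {g : Bool} {j : ℕ} {c : Fin 4 → Cond} (hp : Par κ u M)
    (hl : Lay σ κ u ((false, j, 1) :: vd κ v :: ds)) (hd : ds.length + 1 ≤ M) (h0 : Home u z0)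
    (hr : Runs κ orc S (plBin κ u v ds g j c) X Y)
    (hβ : flt u S (pos ((false, j, 1) :: vd κ v :: ds)) z0 ≤ (1 / 2) ^ (4 * u + 1))
    (hc : ∀ i s, PolyD 1 (vd κ v :: ds) (put z0 j 1 s) fun z => pl1Coef orc g j c z i) :
    (𝔼 s, ind (¬ OK (eV M) (vd κ v :: ds) Y (put z0 j 1 s))) ≤
      𝔼 s, ind (¬ OK (eV M) (vd κ v :: ds) X (put z0 j 1 s)) := by
  obtain ⟨Z, hZ, hY⟩ := runs_append.1 hr
  rw [runs_single] at hY
  have hβ' : ∀ s, flt u S (pos (vd κ v :: ds)) (put z0 j 1 s) ≤ (1 / 2) ^ (4 * u) := fun s =>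
    (pl1_flt s).trans (by rw [pow_succ] at hβ; linarith)
  choose r0 G hG _ using fun s => san_vers hp (pl1_lay1 hl) hd (pl1_home hl h0 s) hZ (hβ' s)
  have good : ∀ s : Vec 1,
      (ofN κ (toN s) ≠ r0 (ofN 1 0) ∨ OK (eV M) (vd κ v :: ds) X (put z0 j 1 (ofN 1 0))) →
      (ofN κ (toN s) ≠ r0 (ofN 1 1) ∨ OK (eV M) (vd κ v :: ds) X (put z0 j 1 (ofN 1 1))) →
      OK (eV M) (vd κ v :: ds) Y (put z0 j 1 s) := by
    intro s c0 c1
    obtain ⟨p0, e0⟩ := hG _ _ c0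
    obtain ⟨p1, e1⟩ := hG _ _ c1
    refine ⟨fun z => anf (pl1Coef orc g j c z)
      (G (ofN 1 0) (pl1Src j v κ 0 (ofN κ (toN s)) z))
      (G (ofN 1 1) (pl1Src j v κ 1 (ofN κ (toN s)) z)),
      PolyD.anf (fun i => hc i s) (pl1_poly hl s 0 _ p0) (pl1_poly hl s 1 _ p1), ?_⟩
    refine (pl1_slice hl h0 hY s _ _).trans ?_
    have h1 : (2 : ℝ) ^ (u + 3) * flt u S (pos ((false, j, 1) :: vd κ v :: ds)) z0 ≤ eV M / 2 :=
      le_trans (by gcongr) (pl1_small hp)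
    have h2 : eV M / (4 * 2 ^ κ) ≤ eV M / 4 := by
      have := eV_pos M
      have h3 : (1 : ℝ) ≤ 2 ^ κ := one_le_pow₀ (by norm_num)
      gcongr
      linarith
    have e0' : err ds Z (G (ofN 1 0)) (pl1Src j v κ 0 (ofN κ (toN s)) z0) ≤ _ := e0
    have e1' : err ds Z (G (ofN 1 1)) (pl1Src j v κ 1 (ofN κ (toN s)) z0) ≤ _ := e1
    linarith
  have hne : ofN κ (toN (ofN 1 0)) ≠ ofN κ (toN (ofN 1 1)) := by
    intro h
    have h1 := congrFun h ⟨0, by have := hp.hκ; omega⟩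
    rw [toN_ofN, toN_ofN] at h1
    revert h1
    simp [ofN, b2]
  rw [pl1_expect, pl1_expect]
  have g0 := good (ofN 1 0)
  have g1 := good (ofN 1 1)
  generalize OK (eV M) (vd κ v :: ds) X (put z0 j 1 (ofN 1 0)) = p0 at g0 g1 ⊢
  generalize OK (eV M) (vd κ v :: ds) X (put z0 j 1 (ofN 1 1)) = p1 at g0 g1 ⊢
  generalize OK (eV M) (vd κ v :: ds) Y (put z0 j 1 (ofN 1 0)) = q0 at g0 g1 ⊢
  generalize OK (eV M) (vd κ v :: ds) Y (put z0 j 1 (ofN 1 1)) = q1 at g0 g1 ⊢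
  have l0 := ind_le_one (¬ q0)
  have l1 := ind_le_one (¬ q1)
  have one : ∀ w : Vec κ, (ofN κ (toN (ofN 1 0)) ≠ w → q0) → (ofN κ (toN (ofN 1 1)) ≠ w → q1) →
      ind (¬ q0) + ind (¬ q1) ≤ 1 := by
    intro w a0 a1
    by_cases h : ofN κ (toN (ofN 1 0)) = w
    · rw [ind_of_not (not_not.2 (a1 fun h' => hne (h.trans h'.symm)))]; linarith
    · rw [ind_of_not (not_not.2 (a0 h))]; linarith
  by_cases c0 : p0 <;> by_cases c1 : p1
  · rw [ind_of_not (not_not.2 (g0 (Or.inr c0) (Or.inr c1))),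
      ind_of_not (not_not.2 (g1 (Or.inr c0) (Or.inr c1))), ind_of_not (not_not.2 c0),
      ind_of_not (not_not.2 c1)]
  · have := one _ (fun h => g0 (Or.inr c0) (Or.inl h)) (fun h => g1 (Or.inr c0) (Or.inl h))
    rw [ind_of_not (not_not.2 c0), ind_of c1]; linarith
  · have := one _ (fun h => g0 (Or.inl h) (Or.inr c1)) (fun h => g1 (Or.inl h) (Or.inr c1))
    rw [ind_of_not (not_not.2 c1), ind_of c0]; linarith
  · rw [ind_of c0, ind_of c1]; linarith

end Vale.Agent.P330.Amp
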