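import Vale.Agent.P330.San

/-! Protected broadcast and merge (task PL2). -/

namespace Vale.Agent.P330.Amp

open Vale.Agent.Lib.H23 Vale.Agent.P325 Finset
open scoped BigOperators

variable {σ κ u M v : ℕ} {ds : List Dim} {orc : ℕ → Vec σ → Bool} {S : Vec σ → Prop}
  {X Y Z : Vec σ → Val} {z0 z : Vec σ}

theorem pl2_disj {e : Dim} (h : Lay σ κ u (e :: ds)) :
    ∀ e' ∈ ds, e.2.1 + e.2.2 ≤ e'.2.1 ∨ e'.2.1 + e'.2.2 ≤ e.2.1 := (List.pairwise_cons.1 h.2).1

theorem pl2_tail {e : Dim} (h : Lay σ κ u (e :: ds)) : Lay σ κ u ds :=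
  h.sublist (List.sublist_cons_self _ _)

theorem pl2_not {e : Dim} (h : Lay σ κ u (e :: ds)) (j : ℕ) (h1 : e.2.1 ≤ j)
    (h2 : j < e.2.1 + e.2.2) : j ∉ pos ds := by
  rintro ⟨e', he, h3, h4⟩
  have := pl2_disj h e' he
  omega

theorem pl2_mem {e : Dim} (h : e ∈ ds) (j : ℕ) (h1 : e.2.1 ≤ j) (h2 : j < e.2.1 + e.2.2) :
    j ∈ pos ds := ⟨e, h, h1, h2⟩

theorem pl2_vd {q : ℕ} (s : Vec κ) : InR (pos (vd κ q :: ds)) z (put z q κ s) :=
  InR.refl.put (pl2_mem (e := vd κ q) List.mem_cons_self) s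

theorem pl2_pos {q : ℕ} : pos (vd κ q :: ds) = Set.Ico q (q + κ) ∪ pos ds := pos_cons

theorem pl2_slice {p w : ℕ} {P : Set ℕ} (h : InR (Set.Ico p (p + w) ∪ P) z0 z) (s : Vec w) :
    InR P (put z0 p w s) (put z p w s) := by
  intro j hj
  simp only [put]
  split_ifs with h1
  · rfl
  · exact h j fun h2 => h2.elim h1 hj

theorem pl2_av {p w : ℕ} {P : Set ℕ} (h : p + w ≤ σ) (hp : ∀ j, p ≤ j → j < p + w → j ∉ P)
    (f : Vec σ → ℝ) (s : Vec w) :
    av (Set.Ico p (p + w) ∪ P) (fun z => f (put z p w s)) z0 = av P f (put z0 p w s) := by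
  rw [← av_av, av_Ico h]
  simp only [av_put hp, put_put]
  exact Fintype.expect_const _

theorem pl2_flt {p w : ℕ} {P Q : Set ℕ} (hQ : Q = Set.Ico p (p + w) ∪ P) (h : InR Q z0 z) :
    flt u S P z ≤ 2 ^ w * flt u S Q z0 := by
  subst hQ
  simpa only [List.length_range'] using flt_slice S (List.range' p w)
    (fun j hj => hj.symm.imp id fun h => List.mem_range'_1.2 h) Set.subset_union_right h

theorem pl2_copy {d p w : ℕ} {F : Vec σ → ZMod 2} (h : PolyD d ds z0 F)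
    (he : ((false, p, w) : Dim) ∈ ds) (hz : InR (pos ds) z0 z) {z' : Vec σ}
    (hz' : InR (Set.Ico p (p + w)) z z') : F z' = F z := by
  have h1 : put z p w (get z' p w) = z' := by
    funext j
    by_cases hj : p ≤ j ∧ j.val < p + w
    · exact (congrFun (put_get (z := z') (p := p) (w := w)) j).symm ▸ by simp only [put, dif_pos hj]
    · exact (dif_neg hj).trans (hz' j hj).symm
  have h2 : F (put z p w (get z' p w)) = F (put z p w (get z p w)) := h _ he z hz _ _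
  rwa [h1, put_get] at h2

theorem pl2_half {x : ℝ} (h : x ≤ (1 / 2) ^ (4 * u + κ)) : 2 ^ κ * x ≤ (1 / 2) ^ (4 * u) := by
  refine (mul_le_mul_of_nonneg_left h (by positivity)).trans_eq ?_
  rw [pow_add, mul_left_comm, ← mul_pow]
  norm_num

theorem pl2_small (hp : Par κ u M) {x : ℝ} (h : x ≤ (1 / 2) ^ (4 * u)) :
    2 ^ (u + 2) * x ≤ eV M / 4 := by
  have h1 := hp.hu
  have h2 : (1 / 2 : ℝ) ^ (4 * u) ≤ (1 / 2) ^ (u + 2 + (6 * M + 2)) :=
    pow_le_pow_of_le_one (by norm_num) (by norm_num) (by omega)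
  refine (mul_le_mul_of_nonneg_left (h.trans h2) (by positivity)).trans_eq ?_
  rw [pow_add _ (u + 2), ← mul_assoc, ← mul_pow, pow_add _ (6 * M), pow_mul, eV]
  norm_num
  ring

theorem pl2_err {ι : Type} [Fintype ι] {G : Vec σ → ZMod 2} {φ : ι → Vec σ → Vec σ}
    {F : ι → Vec σ → ZMod 2} (h : ∀ z, InR (pos ds) z0 z → ¬ S z →
      (∀ i, Z (φ i z) = pz (F i (φ i z))) → Y z = pz (G z)) :
    err ds Y G z0 ≤ 2 ^ (u + 2) * flt u S (pos ds) z0 +
      ∑ i, av (pos ds) (fun z => ind (Z (φ i z) ≠ pz (F i (φ i z)))) z0 := by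
  refine le_trans ?_ (add_le_add_left (av_le_flt S) _)
  rw [← av_sum, ← av_add]
  refine av_mono fun z hz => ?_
  have h1 : 0 ≤ ∑ i, ind (Z (φ i z) ≠ pz (F i (φ i z))) := sum_nonneg fun _ _ => ind_nonneg _
  by_cases hS : S z
  · rw [ind_of hS]
    exact (ind_le_one _).trans (le_add_of_nonneg_right h1)
  by_cases hi : ∀ i, Z (φ i z) = pz (F i (φ i z))
  · rw [ind_of_not (not_not.2 (h z hz hS hi))]
    exact add_nonneg (ind_nonneg _) h1
  · obtain ⟨i, hi⟩ := not_forall.1 hi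
    exact (ind_le_one _).trans ((ind_of hi).ge.trans ((single_le_sum
      (f := fun i => ind (Z (φ i z) ≠ pz (F i (φ i z)))) (fun _ _ => ind_nonneg _)
      (mem_univ i)).trans (le_add_of_nonneg_left (ind_nonneg _))))

theorem pl2_card (κ : ℕ) : (Fintype.card (Vec κ) : ℝ) = 2 ^ κ := by simp

/-! ### broadcast -/

section bc

variable {m c0 : Bool} {q : ℕ} {c : Cond}

theorem bc_cell (h : (Ins.cell (.bc m) q κ v κ fun _ => c).sat κ orc Z Y z) (hz : Home u z)
    (hc : c.ev orc z = c0) {y : ZMod 2}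
    (hZ : Z (put (put z q κ (ofN _ (s0 κ m c0))) v κ (get z q κ)) = pz y) : Y z = pz y := by
  refine HF.pure h fun r hr => hr _ _ ?_
  simp only [hz.put_reg, hc, ofN_toN]
  exact hZ

theorem bc_slice (hp : Par κ u M) (hl : Lay σ κ u (vd κ q :: vd κ v :: ds)) (h0 : Home u z0)
    (hr : ∀ z, ¬ S z → (Ins.cell (.bc m) q κ v κ fun _ => c).sat κ orc Z Y z)
    (hβ : flt u S (pos (vd κ q :: vd κ v :: ds)) z0 ≤ (1 / 2) ^ (4 * u + κ))
    (hc : ∀ z, InR (pos (vd κ q :: vd κ v :: ds)) z0 z → c.ev orc z = c0)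
    (hz : InR (pos (vd κ q :: vd κ v :: ds)) z0 z) {F : Vec σ → ZMod 2}
    (h1 : PolyL ds (put (put z0 q κ (ofN _ (s0 κ m c0))) v κ (get z q κ)) F)
    (h2 : err ds Z F (put (put z0 q κ (ofN _ (s0 κ m c0))) v κ (get z q κ)) ≤ eV M / (4 * 2 ^ κ)) :
    PolyL (vd κ v :: ds) z (fun y => F (put (put y q κ (ofN _ (s0 κ m c0))) v κ (get z q κ))) ∧
      err (vd κ v :: ds) Y (fun y => F (put (put y q κ (ofN _ (s0 κ m c0))) v κ (get z q κ))) z ≤
        eV M / 2 := by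
  have hqv : q + κ ≤ v ∨ v + κ ≤ q := pl2_disj hl _ List.mem_cons_self
  have hq : ∀ e ∈ ds, q + κ ≤ e.2.1 ∨ e.2.1 + e.2.2 ≤ q :=
    fun e he => pl2_disj hl e (List.mem_cons_of_mem _ he)
  have hv : ∀ e ∈ ds, v + κ ≤ e.2.1 ∨ e.2.1 + e.2.2 ≤ v := pl2_disj (pl2_tail hl)
  have hsub : pos (vd κ v :: ds) ⊆ pos (vd κ q :: vd κ v :: ds) :=
    pos_mono fun _ => List.mem_cons_of_mem _
  have hin : ∀ y, InR (pos (vd κ v :: ds)) z y → InR (pos ds)
      (put (put z0 q κ (ofN _ (s0 κ m c0))) v κ (get z q κ))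
      (put (put y q κ (ofN _ (s0 κ m c0))) v κ (get z q κ)) := fun y hy => by
    have := hz.trans (hy.mono hsub)
    rw [pl2_pos, pl2_pos] at this
    exact pl2_slice (pl2_slice this _) _
  constructor
  · intro e he y hy
    rcases List.mem_cons.1 he with rfl | he
    · intro (s : Vec κ) (s' : Vec κ)
      change F (put (put (put y v κ s) q κ _) v κ _) = F (put (put (put y v κ s') q κ _) v κ _)
      rw [put_comm hqv.symm, put_put, put_comm hqv.symm s', put_put]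
    · have := h1 e he _ (hin y hy)
      unfold line at this ⊢
      simpa only [put_comm (hq e he), put_comm (hv e he)] using this
  · refine (pl2_err (u := u) (S := S) (Z := Z) (ι := Unit) (F := fun _ => F)
      (φ := fun _ y => put (put y q κ (ofN _ (s0 κ m c0))) v κ (get z q κ))
      fun y hy hS h => ?_).trans ?_
    · have hy' := hz.trans (hy.mono hsub)
      refine bc_cell (hr y hS) (hl.home h0 hy') (hc y hy') ?_
      rw [show get y q κ = get z q κ from hy.get (pl2_not hl)]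
      exact h ()
    · have e1 := pl2_small hp ((pl2_flt pos_cons hz).trans (pl2_half hβ))
      have e2 : av (pos (vd κ v :: ds)) (fun y => ind
          (Z (put (put y q κ (ofN _ (s0 κ m c0))) v κ (get z q κ)) ≠
            pz (F (put (put y q κ (ofN _ (s0 κ m c0))) v κ (get z q κ))))) z =
          err ds Z F (put (put z q κ (ofN _ (s0 κ m c0))) v κ (get z q κ)) := by
        simp only [put_comm hqv]
        rw [pos_cons]
        refine (pl2_av ((pl2_tail hl).1 _ List.mem_cons_self).2.1 (pl2_not (pl2_tail hl))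
          (fun y => ind (Z (put y q κ (ofN _ (s0 κ m c0))) ≠
            pz (F (put y q κ (ofN _ (s0 κ m c0)))))) _).trans ?_
        exact av_put (f := fun y => ind (Z y ≠ pz (F y)))
          (fun j h h' hj => pl2_not hl j h h' (pos_mono (fun _ => List.mem_cons_of_mem _) hj)) _
      rw [Fintype.sum_unique, e2, err_base (hin z InR.refl)]
      have e3 : eV M / (4 * 2 ^ κ) ≤ eV M / 4 := div_le_div_of_nonneg_left (eV_pos M).le
        (by norm_num) (le_mul_of_one_le_right (by norm_num) (one_le_pow₀ (by norm_num)))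
      linarith

theorem bc_san (hp : Par κ u M) (hl : Lay σ κ u (vd κ q :: vd κ v :: ds)) (hd : ds.length + 1 ≤ M)
    (h0 : Home u z0) (hr : Runs κ orc S (san κ u v ds) X Z)
    (hβ : flt u S (pos (vd κ q :: vd κ v :: ds)) z0 ≤ (1 / 2) ^ (4 * u + κ)) (s : Vec κ) :
    ∃ (r0 : Vec κ) (F' : Vec σ → ZMod 2),
      (∀ r, (r ≠ r0 ∨ OK (eV M) (vd κ v :: ds) X (put z0 q κ s)) →
        PolyL ds (put (put z0 q κ s) v κ r) F' ∧
        err ds Z F' (put (put z0 q κ s) v κ r) ≤ eV M / (4 * 2 ^ κ)) ∧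
      ∀ z y, InR (pos (vd κ v :: ds)) (put z0 q κ s) z → HP ds z →
        Msg (eV M) (vd κ v :: ds) X z y → F' z = y := by
  have h1 : InR (pos (vd κ q :: vd κ v :: ds)) z0 (put z0 q κ s) := pl2_vd s
  exact san_vers hp (pl2_tail hl) hd (hl.home h0 h1) hr ((pl2_flt pos_cons h1).trans (pl2_half hβ))

theorem plBc_valid' (hp : Par κ u M)
    (hl : Lay σ κ u (vd κ q :: vd κ v :: ds)) (hd : ds.length + 1 ≤ M) (h0 : Home u z0)
    (hr : Runs κ orc S (plBc κ u v ds m q c) X Y)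
    (hβ : flt u S (pos (vd κ q :: vd κ v :: ds)) z0 ≤ (1 / 2) ^ (4 * u + κ))
    (hc : ∀ z, InR (pos (vd κ q :: vd κ v :: ds)) z0 z → c.ev orc z = c0) {z : Vec σ} {y : ZMod 2}
    (hz : InR (pos (vd κ q :: vd κ v :: ds)) z0 z) (hH : HP ds z)
    (h : Msg (eV M) (vd κ v :: ds) X (put z q κ (ofN _ (s0 κ m c0))) y) :
    Msg (eV M) (vd κ v :: ds) Y z y := by
  obtain ⟨Z, r1, r2⟩ := runs_append.1 hr
  obtain ⟨r0, F, h1, h2⟩ := bc_san hp hl hd h0 r1 hβ (ofN _ (s0 κ m c0))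
  have h3 : InR (pos (vd κ v :: ds)) (put z0 q κ (ofN _ (s0 κ m c0)))
      (put z q κ (ofN _ (s0 κ m c0))) := pl2_slice (by rwa [pl2_pos] at hz) _
  obtain ⟨h4, h5⟩ := h1 (get z q κ) (Or.inr ((OK_base h3).1 h.ok))
  obtain ⟨h6, h7⟩ := bc_slice hp hl h0 (runs_single.1 r2) hβ hc hz h4 h5
  refine ⟨_, ⟨h6.polyD.mono (by norm_num), h7.trans (half_le_self (eV_pos M).le)⟩, ?_⟩
  obtain ⟨G, hG, rfl⟩ := h
  have h8 : InR (Set.Ico v (v + κ)) (put z q κ (ofN _ (s0 κ m c0)))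
      (put (put z q κ (ofN _ (s0 κ m c0))) v κ (get z q κ)) := InR.refl.put (fun _ h h' => Set.mem_Ico.2 ⟨h, h'⟩) _
  have h9 := h8.mono (Q := pos (vd κ v :: ds)) fun j hj => pl2_mem List.mem_cons_self j hj.1 hj.2
  exact h2 _ _ (h3.trans h9) ((hH.put (fun e he _ => pl2_disj hl e (List.mem_cons_of_mem _ he)) _).put
    (fun e he _ => pl2_disj (pl2_tail hl) e he) _)
    ⟨G, hG.base h9, pl2_copy hG.1 List.mem_cons_self InR.refl h8⟩

theorem plBc_ok' (hp : Par κ u M)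
    (hl : Lay σ κ u (vd κ q :: vd κ v :: ds)) (hd : ds.length + 1 ≤ M) (h0 : Home u z0)
    (hr : Runs κ orc S (plBc κ u v ds m q c) X Y)
    (hβ : flt u S (pos (vd κ q :: vd κ v :: ds)) z0 ≤ (1 / 2) ^ (4 * u + κ))
    (hc : ∀ z, InR (pos (vd κ q :: vd κ v :: ds)) z0 z → c.ev orc z = c0) :
    (𝔼 r, ind (¬ OKL (eV M / 2) (vd κ v :: ds) Y (put z0 q κ r))) ≤
      ind (¬ OK (eV M) (vd κ v :: ds) X (put z0 q κ (ofN _ (s0 κ m c0)))) / 2 ^ κ := by
  obtain ⟨Z, r1, r2⟩ := runs_append.1 hr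
  obtain ⟨r0, F, h1, -⟩ := bc_san hp hl hd h0 r1 hβ (ofN _ (s0 κ m c0))
  rw [Fintype.expect_eq_sum_div_card, pl2_card]
  refine div_le_div_of_nonneg_right ?_ (by positivity)
  have h2 : ∀ r, (r ≠ r0 ∨ OK (eV M) (vd κ v :: ds) X (put z0 q κ (ofN _ (s0 κ m c0)))) →
      OKL (eV M / 2) (vd κ v :: ds) Y (put z0 q κ r) := fun r hr => by
    have e : get (put z0 q κ r) q κ = r := get_put (hl.1 _ List.mem_cons_self).2.1 r
    exact ⟨_, bc_slice hp hl h0 (runs_single.1 r2) hβ hc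
      (pl2_vd r) (e.symm ▸ (h1 r hr).1) (e.symm ▸ (h1 r hr).2)⟩
  rw [sum_eq_single r0 (fun r _ h => ind_of_not (not_not.2 (h2 r (Or.inl h)))) (by simp)]
  exact ind_mono (mt fun h => h2 r0 (Or.inr h))

end bc

/-! ### merge -/

section mg

variable {a : ℕ}

theorem mg_put {w W h : ℕ} (hw : w ≤ W) (hh : h < 2 ^ w) :
    put z a W (ofN W (h + 2 ^ w * (toN (get z a W) / 2 ^ w))) = put z a w (ofN w h) := by
  funext j
  simp only [put, ofN, add_comm h, Nat.testBit_two_pow_mul_add _ hh, Nat.testBit_div_two_pow]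
  by_cases h1 : a ≤ j ∧ j.val < a + w
  · rw [dif_pos h1, dif_pos ⟨h1.1, by omega⟩, if_pos (by omega)]
  · rw [dif_neg h1]
    split_ifs with h2 h3
    · omega
    · rw [show j.val - a - w + w = ((⟨j - a, by omega⟩ : Fin W) : ℕ) by simp only; omega,
        testBit_toN, b2_decide, get, dif_pos (by simp only; omega)]
      congr 1
      exact Fin.ext (by simp only; omega)
    · rfl

theorem mg_cell (h : (Ins.cell .mg a (2 ^ κ) 0 0 nc).sat κ orc Z Y z) (hz : Home u z)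
    {y : Fin (2 ^ κ) → ZMod 2} (hZ : ∀ i : Fin (2 ^ κ), Z (put z a κ (ofN _ i)) = pz (y i)) :
    Y z = pz (∑ i, get z a (2 ^ κ) i * y i) := by
  refine HF.pure h fun r hr => ?_
  have : ∀ i : Fin (2 ^ κ), r (0, ofN _ (i + 2 ^ κ * (toN (get z a (2 ^ κ)) / 2 ^ κ)), get z 0 0) =
      decide (y i = 1) := fun i => hr _ _ (by
    simp only [hz.put_reg, put_zero, mg_put Nat.lt_two_pow_self.le i.2]
    exact hZ i)
  simp only [kf, this, b2_decide]

theorem mg_pos : pos (md κ a :: ds) =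
    Set.Ico a (a + κ) ∪ pos (((false, a + κ, 2 ^ κ - κ) : Dim) :: ds) := by
  have := Nat.lt_two_pow_self (n := κ)
  rw [pos_cons, pos_cons, ← Set.union_assoc, Set.Ico_union_Ico_eq_Ico (by omega) (by simp)]
  congr 2
  simp only [md]
  omega

theorem mg_lay (hl : Lay σ κ u (vd κ v :: md κ a :: ds)) :
    Lay σ κ u (vd κ v :: (false, a + κ, 2 ^ κ - κ) :: ds) := by
  have := Nat.lt_two_pow_self (n := κ)
  obtain ⟨h1, h2⟩ := hl
  simp only [List.forall_mem_cons, List.pairwise_cons, md, vd] at h1 h2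
  refine ⟨?_, ?_⟩ <;> simp only [List.forall_mem_cons, List.pairwise_cons, vd]
  · exact ⟨h1.1, by omega, h1.2.2⟩
  · exact ⟨⟨by omega, h2.1.2⟩, fun e he => by have := h2.2.1 e he; omega, h2.2.2⟩

theorem mg_slice (hp : Par κ u M) (hl : Lay σ κ u (md κ a :: ds)) (h0 : Home u z0)
    (hr : ∀ z, ¬ S z → (Ins.cell .mg a (2 ^ κ) 0 0 nc).sat κ orc Z Y z)
    (hβ : flt u S (pos (md κ a :: ds)) z0 ≤ (1 / 2) ^ (4 * u)) {F : Vec κ → Vec σ → ZMod 2}
    (h1 : ∀ h, PolyL ((false, a + κ, 2 ^ κ - κ) :: ds) (put z0 a κ h) (F h))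
    (h2 : ∀ h, err ((false, a + κ, 2 ^ κ - κ) :: ds) Z (F h) (put z0 a κ h) ≤ eV M / (4 * 2 ^ κ)) :
    Valid (eV M) (md κ a :: ds) Y z0 fun z =>
      ∑ i : Fin (2 ^ κ), get z a (2 ^ κ) i * F (ofN _ i) (put z a κ (ofN _ i)) := by
  have hκ := Nat.lt_two_pow_self (n := κ)
  have ha : a + 2 ^ κ ≤ σ := (hl.1 _ List.mem_cons_self).2.1
  have hds : ∀ e ∈ ds, a + 2 ^ κ ≤ e.2.1 ∨ e.2.1 + e.2.2 ≤ a := pl2_disj hl
  constructor
  · intro e he y hy
    have hin := fun h => pl2_slice (mg_pos ▸ hy) h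
    rcases List.mem_cons.1 he with rfl | he
    · have e1 : ∀ (s : Vec (2 ^ κ)) h, F h (put (put y a (2 ^ κ) s) a κ h) = F h (put y a κ h) :=
        fun s h => pl2_copy (h1 h).polyD List.mem_cons_self (hin h) fun j hj => by
          simp only [put]
          split_ifs with h3 h4
          · rfl
          · exact absurd (Set.mem_Ico.2 (by omega)) hj
          · rfl
      change Deg 3 fun s : Vec (2 ^ κ) => ∑ i : Fin (2 ^ κ), get (put y a (2 ^ κ) s) a (2 ^ κ) i *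
        F (ofN _ i) (put (put y a (2 ^ κ) s) a κ (ofN _ i))
      simp only [get_put ha, e1]
      exact Deg.sum _ fun i _ => (isLin_coord i).deg.mul (Deg.const (d := 2) _)
    · have e1 : a + κ ≤ e.2.1 ∨ e.2.1 + e.2.2 ≤ a := by have := hds e he; omega
      unfold line
      simp only [get_put_disj (hds e he).symm, ← put_comm e1]
      exact Deg.sum _ fun i _ => Deg.smul
        ((h1 _).polyD.mono (by norm_num) e (List.mem_cons_of_mem _ he) _ (hin _)) _
  · refine (pl2_err (u := u) (S := S) (Z := Z) (ι := Fin (2 ^ κ)) (F := fun i => F (ofN _ i))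
      (φ := fun i y => put y a κ (ofN _ i))
      fun y hy hS h => mg_cell (hr y hS) (hl.home h0 hy) h).trans ?_
    have e1 := pl2_small hp hβ
    have e2 : ∀ h : Vec κ, av (pos (md κ a :: ds))
        (fun y => ind (Z (put y a κ h) ≠ pz (F h (put y a κ h)))) z0 ≤ eV M / (4 * 2 ^ κ) :=
      fun h => by
        rw [mg_pos]
        refine (pl2_av (by omega) (fun j h3 h4 => ?_) (fun y => ind (Z y ≠ pz (F h y))) h).trans_le
          (h2 h)
        rintro ⟨e, he, h5, h6⟩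
        rcases List.mem_cons.1 he with rfl | he
        · simp only at h5
          omega
        · have := hds e he
          omega
    have e3 := sum_le_card_nsmul univ _ _ fun (i : Fin (2 ^ κ)) _ => e2 (ofN _ i)
    rw [card_univ, Fintype.card_fin, nsmul_eq_mul, Nat.cast_pow, Nat.cast_two,
      show (2 : ℝ) ^ κ * (eV M / (4 * 2 ^ κ)) = eV M / 4 by field_simp] at e3
    have := eV_pos M
    linarith

theorem mg_count {α : Type} [Fintype α] [DecidableEq α] {p q : α → Prop} (r0 : α → α)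
    (h : ∀ r, p r → ∃ x, q x ∧ r = r0 x) : (𝔼 r, ind (p r)) ≤ 𝔼 x, ind (q x) := by
  have h1 : ∀ r, ind (p r) ≤ ∑ x, if r = r0 x then ind (q x) else 0 := fun r => by
    have h2 : ∀ x, 0 ≤ if r = r0 x then ind (q x) else 0 := fun x => by
      split_ifs
      exacts [ind_nonneg _, le_rfl]
    by_cases hr : p r
    · obtain ⟨x, h3, h4⟩ := h r hr
      refine le_trans ?_ (single_le_sum (fun x _ => h2 x) (mem_univ x))
      rw [if_pos h4, ind_of h3, ind_of hr]
    · rw [ind_of_not hr]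
      exact sum_nonneg fun x _ => h2 x
  rw [Fintype.expect_eq_sum_div_card, Fintype.expect_eq_sum_div_card]
  refine div_le_div_of_nonneg_right ((sum_le_sum fun r _ => h1 r).trans_eq ?_) (Nat.cast_nonneg _)
  rw [sum_comm]
  simp

theorem plMg_spec' (hp : Par κ u M) (hl : Lay σ κ u (vd κ v :: md κ a :: ds))
    (hd : ds.length + 2 ≤ M) (h0 : Home u z0) (hr : Runs κ orc S (plMg κ u v a ds) X Y)
    (hβ : flt u S (pos (vd κ v :: md κ a :: ds)) z0 ≤ (1 / 2) ^ (4 * u + κ)) :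
    (𝔼 r, ind (¬ (OK (eV M) (md κ a :: ds) Y (put z0 v κ r) ∧
      ∀ z, InR (pos (md κ a :: ds)) (put z0 v κ r) z → HP ds z → ∀ h < 2 ^ κ,
      get z a (2 ^ κ) = ofN _ (2 ^ h) → ∀ y,
      Msg (eV M) (vd κ v :: (false, a + κ, 2 ^ κ - κ) :: ds) X (put z a (2 ^ κ) (ofN _ h)) y →
        Msg (eV M) (md κ a :: ds) Y z y))) ≤
      𝔼 h, ind (¬ OK (eV M) (vd κ v :: (false, a + κ, 2 ^ κ - κ) :: ds) X (put z0 a κ h)) := by
  obtain ⟨Z, r1, r2⟩ := runs_append.1 hr
  have hκ := Nat.lt_two_pow_self (n := κ)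
  have hva : v + κ ≤ a ∨ a + 2 ^ κ ≤ v := pl2_disj hl _ List.mem_cons_self
  have hva' : v + κ ≤ a ∨ a + κ ≤ v := by omega
  have hpos : pos (vd κ v :: md κ a :: ds) =
      Set.Ico a (a + κ) ∪ pos (vd κ v :: (false, a + κ, 2 ^ κ - κ) :: ds) := by
    rw [pos_cons, mg_pos, pos_cons (e := vd κ v), Set.union_left_comm]
  have h1 : ∀ h, InR (pos (vd κ v :: md κ a :: ds)) z0 (put z0 a κ h) := fun h =>
    InR.refl.put (fun j h h' => hpos ▸ Or.inl ⟨h, h'⟩) h
  choose r0 F h2 h3 using fun h => san_vers hp (mg_lay hl) hd (hl.home h0 (h1 h)) r1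
    ((pl2_flt hpos (h1 h)).trans (pl2_half hβ))
  refine mg_count r0 fun r hr => ?_
  by_contra hn
  push Not at hn
  have h4 := fun h => h2 h r (or_iff_not_imp_right.2 (hn h))
  simp only [← put_comm hva'] at h4
  have h5 : InR (pos (vd κ v :: md κ a :: ds)) z0 (put z0 v κ r) := pl2_vd r
  have h6 := mg_slice hp (pl2_tail hl) (hl.home h0 h5) (runs_single.1 r2)
    ((pl2_flt pos_cons h5).trans (pl2_half hβ)) (fun h => (h4 h).1) fun h => (h4 h).2
  refine hr ⟨⟨_, h6⟩, fun z hz hH h hh hg y hy => ⟨_, h6.base hz, ?_⟩⟩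
  have h7 := pl2_slice (mg_pos ▸ hz) (ofN κ h)
  have h8 : InR (Set.Ico (a + κ) (a + κ + (2 ^ κ - κ))) (put z a κ (ofN _ h))
      (put z a (2 ^ κ) (ofN _ h)) := fun j hj => by
    simp only [put]
    split_ifs with h9 h10 h10
    · rfl
    · exact absurd (Set.mem_Ico.2 (by omega)) hj
    · omega
    · rfl
  rw [hg, sum_eq_single ⟨h, hh⟩ (fun i _ hi => ?_) (by simp)]
  · rw [ofN, Nat.testBit_two_pow_self, b2, if_pos rfl, one_mul,
      ← pl2_copy (h4 _).1.polyD List.mem_cons_self h7 h8]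
    refine h3 _ _ _ ?_ (fun e he => ?_) hy
    · refine InR.trans ?_ ((h7.trans (h8.mono fun j hj =>
        pl2_mem List.mem_cons_self j hj.1 hj.2)).mono (pos_mono fun _ => List.mem_cons_of_mem _))
      rw [put_comm hva']
      exact pl2_vd r
    · rcases List.mem_cons.1 he with rfl | he
      · simp
      · exact hH.put (fun e he _ => pl2_disj (pl2_tail hl) e he) _ e he
  · rw [ofN, Nat.testBit_two_pow_of_ne fun e => hi (Fin.ext e.symm), b2, if_neg (by simp), zero_mul]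

end mg

end Vale.Agent.P330.Amp
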