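import Vale.Agent.P330.San
import Vale.Agent.P330.PL1
import Vale.Agent.P330.PL2

/-! Protected operations on words (task PL): binary operation, broadcast, merge.
Plan. `runs_append`, `runs_single`; apply `san_valid` / `san_vers` to each source bundle (fault density
by `flt_slice`); a fault free output cell whose source cells hold pure values holds the pure value
of the operation (`HF.pure`); the map from output cells to source cells is uniform
(`av_bij`, `av_Ico`, `av_av`, `av_put`). Glue codewords of disjoint regions by cases on `get`. -/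

namespace Vale.Agent.P330.Amp

open Vale.Agent.Lib.H23 Vale.Agent.P325 Finset
open scoped BigOperators

variable {σ κ u M v : ℕ} {ds : List Dim} {orc : ℕ → Vec σ → Bool} {S : Vec σ → Prop}
  {X Y : Vec σ → Val} {z0 : Vec σ}

/-- coefficients of the binary operation at `z`. -/
def coef (orc : ℕ → Vec σ → Bool) (g : Bool) (j : ℕ) (c : Fin 4 → Cond) (z : Vec σ) :
    Fin 4 → ZMod 2 :=
  if g then fun i => b2 ((c i).ev orc z)
  else if xor (decide (fld z j 1 = 1)) ((c 0).ev orc z) then ![0, 0, 0, 1] else ![0, 1, 1, 1]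

theorem plBin_valid {g : Bool} {j : ℕ} {c : Fin 4 → Cond} (hp : Par κ u M)
    (hl : Lay σ κ u ((false, j, 1) :: vd κ v :: ds)) (hd : ds.length + 1 ≤ M) (h0 : Home u z0)
    (hr : Runs κ orc S (plBin κ u v ds g j c) X Y)
    (hβ : flt u S (pos ((false, j, 1) :: vd κ v :: ds)) z0 ≤ (1 / 2) ^ (4 * u + 1))
    {F : Vec σ → ZMod 2} (hF : ∀ s, Valid (eV M) (vd κ v :: ds) X (put z0 j 1 s) F) :
    ∃ F', (∀ s, PolyL (vd κ v :: ds) (put z0 j 1 s) F') ∧
      (∀ z, InR (pos ((false, j, 1) :: vd κ v :: ds)) z0 z → HP ds z → F' z = F z) ∧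
      err ((false, j, 1) :: vd κ v :: ds) Y (fun z => anf (coef orc g j c z)
        (F' (put z j 1 (ofN _ 0))) (F' (put z j 1 (ofN _ 1)))) z0 ≤
        2 ^ (3 * u + κ + 3) * flt u S (pos ((false, j, 1) :: vd κ v :: ds)) z0 :=
  pl1_valid hp hl hd h0 hr hβ hF

theorem plBin_ok {g : Bool} {j : ℕ} {c : Fin 4 → Cond} (hp : Par κ u M)
    (hl : Lay σ κ u ((false, j, 1) :: vd κ v :: ds)) (hd : ds.length + 1 ≤ M) (h0 : Home u z0)
    (hr : Runs κ orc S (plBin κ u v ds g j c) X Y)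
    (hβ : flt u S (pos ((false, j, 1) :: vd κ v :: ds)) z0 ≤ (1 / 2) ^ (4 * u + 1))
    (hc : ∀ i s, PolyD 1 (vd κ v :: ds) (put z0 j 1 s) fun z => coef orc g j c z i) :
    (𝔼 s, ind (¬ OK (eV M) (vd κ v :: ds) Y (put z0 j 1 s))) ≤
      𝔼 s, ind (¬ OK (eV M) (vd κ v :: ds) X (put z0 j 1 s)) :=
  pl1_ok hp hl hd h0 hr hβ hc

theorem plBc_valid {m c0 : Bool} {q : ℕ} {c : Cond} (hp : Par κ u M)
    (hl : Lay σ κ u (vd κ q :: vd κ v :: ds)) (hd : ds.length + 1 ≤ M) (h0 : Home u z0)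
    (hr : Runs κ orc S (plBc κ u v ds m q c) X Y)
    (hβ : flt u S (pos (vd κ q :: vd κ v :: ds)) z0 ≤ (1 / 2) ^ (4 * u + κ))
    (hc : ∀ z, InR (pos (vd κ q :: vd κ v :: ds)) z0 z → c.ev orc z = c0) {z : Vec σ} {y : ZMod 2}
    (hz : InR (pos (vd κ q :: vd κ v :: ds)) z0 z) (hH : HP ds z)
    (h : Msg (eV M) (vd κ v :: ds) X (put z q κ (ofN _ (s0 κ m c0))) y) :
    Msg (eV M) (vd κ v :: ds) Y z y := plBc_valid' hp hl hd h0 hr hβ hc hz hH h

theorem plBc_ok {m c0 : Bool} {q : ℕ} {c : Cond} (hp : Par κ u M)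
    (hl : Lay σ κ u (vd κ q :: vd κ v :: ds)) (hd : ds.length + 1 ≤ M) (h0 : Home u z0)
    (hr : Runs κ orc S (plBc κ u v ds m q c) X Y)
    (hβ : flt u S (pos (vd κ q :: vd κ v :: ds)) z0 ≤ (1 / 2) ^ (4 * u + κ))
    (hc : ∀ z, InR (pos (vd κ q :: vd κ v :: ds)) z0 z → c.ev orc z = c0) :
    (𝔼 r, ind (¬ OKL (eV M / 2) (vd κ v :: ds) Y (put z0 q κ r))) ≤
      ind (¬ OK (eV M) (vd κ v :: ds) X (put z0 q κ (ofN _ (s0 κ m c0)))) / 2 ^ κ :=
  plBc_ok' hp hl hd h0 hr hβ hc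

/-- the merged bundle is valid and carries the messages of the valid rows. -/
def MgGood (κ M v a : ℕ) (ds : List Dim) (X Y : Vec σ → Val) (z1 : Vec σ) : Prop :=
  OK (eV M) (md κ a :: ds) Y z1 ∧ ∀ z, InR (pos (md κ a :: ds)) z1 z → HP ds z → ∀ h < 2 ^ κ,
    get z a (2 ^ κ) = ofN _ (2 ^ h) → ∀ y,
      Msg (eV M) (vd κ v :: (false, a + κ, 2 ^ κ - κ) :: ds) X (put z a (2 ^ κ) (ofN _ h)) y →
        Msg (eV M) (md κ a :: ds) Y z y

theorem plMg_spec {a : ℕ} (hp : Par κ u M) (hl : Lay σ κ u (vd κ v :: md κ a :: ds))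
    (hd : ds.length + 2 ≤ M) (h0 : Home u z0) (hr : Runs κ orc S (plMg κ u v a ds) X Y)
    (hβ : flt u S (pos (vd κ v :: md κ a :: ds)) z0 ≤ (1 / 2) ^ (4 * u + κ)) :
    (𝔼 r, ind (¬ MgGood κ M v a ds X Y (put z0 v κ r))) ≤
      𝔼 h, ind (¬ OK (eV M) (vd κ v :: (false, a + κ, 2 ^ κ - κ) :: ds) X (put z0 a κ h)) :=
  plMg_spec' hp hl hd h0 hr hβ

end Vale.Agent.P330.Amp
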