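import Vale.Agent.P330.Small

/-! Programs as instances, the layout and the program of a round, the decoder. -/

namespace Vale.Agent.P330.Amp

open Vale.Agent.Lib.H23 Vale.Agent.P325 Finset Matrix
open scoped BigOperators

/-! ### programs as instances -/

def Cond.data : Cond → ℕ × ℕ × ℕ × ℕ
  | .eq p w v => (0, p, w, v)
  | .orc n => (1, n, 0, 0)

instance encCond : Enc Cond := ⟨fun c => Enc.enc c.data⟩

noncomputable def Ins.data : Ins → ℕ × Code Kind × (ℕ × ℕ × ℕ × ℕ) × (Fin 4 → Cond) × Op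
  | .cell kd p1 w1 p2 w2 c => (0, ⟨kd⟩, (p1, w1, p2, w2), c, .Tr 0)
  | .pur j => (1, ⟨.idle⟩, (j, 0, 0, 0), nc, .Tr 0)
  | .mov o c => (2, ⟨.idle⟩, (0, 0, 0, 0), fun _ => c, o)

noncomputable instance encIns : Enc Ins := ⟨fun i => Enc.enc i.data⟩

/-- the fan-in. -/
abbrev WW (κ : ℕ) : ℕ := 2 ^ (2 ^ κ + 2)

def Ins.ok (κ σ : ℕ) : Ins → Prop
  | .cell _ p1 w1 p2 w2 _ => 2 ≤ σ ∧ (w1 = 0 ∨ 2 ≤ p1) ∧ (w2 = 0 ∨ 2 ≤ p2) ∧ p1 + w1 ≤ σ ∧
      p2 + w2 ≤ σ ∧ (p1 + w1 ≤ p2 ∨ p2 + w2 ≤ p1) ∧ w1 + w2 ≤ 2 ^ κ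
  | .pur j => j < σ
  | .mov _ _ => True

def Ins.op (i : ℕ) : Ins → Op
  | .cell _ p1 w1 p2 w2 _ =>
      .Tr (i % 4 ^^^ (i / 4 % 2 ^ w1) * 2 ^ p1 ^^^ (i / 4 / 2 ^ w1 % 2 ^ w2) * 2 ^ p2)
  | .pur j => if i = 1 then .Tr (2 ^ j) else .Tr 0
  | .mov (.Tr _) _ => .Tr 0
  | .mov o _ => if i = 1 then o else .Tr 0

def Ins.win (i : ℕ) : Ins → Bool
  | .pur _ => decide (i = 1)
  | _ => false

noncomputable def Ins.lab {σ : ℕ} (κ : ℕ) (orc : ℕ → Vec σ → Bool) (z : Vec σ)
    (r : Fin (WW κ) → Bool) : Ins → Bool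
  | .cell kd p1 w1 p2 w2 c =>
      kf κ kd (get z 0 2) (get z p1 w1) (get z p2 w2) (fun n => (c n).ev orc z) fun i =>
        r (Fin.ofNat _ (toN (i.1 + get z 0 2) +
          4 * (toN (i.2.1 + get z p1 w1) + 2 ^ w1 * toN (i.2.2 + get z p2 w2))))
  | .pur j => if fld z j 1 = 1 then r (Fin.ofNat _ 1) else r (Fin.ofNat _ 0)
  | .mov _ c => if c.ev orc z then r (Fin.ofNat _ 1) else r (Fin.ofNat _ 0)

def idleI : Ins := .cell .idle 0 0 0 0 nc

/-- the instance that runs a program cyclically. -/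
noncomputable def progInst (κ b β σ k0 : ℕ) (gens : Fin 7 → Mat β) (prog : List Ins)
    (orc : Big b β → ℕ → Vec σ → Bool) : Inst (WW κ) where
  b := b
  β := β
  σ := σ
  τ := prog.length.size
  k0 := k0
  gens := gens
  op t i := (prog.getD t idleI).op i
  win t i := (prog.getD t idleI).win i
  lab t a r := (prog.getD t idleI).lab κ (orc a.1) a.2 r

/-- fault free evaluation of a layer. -/
def Inst.step {W : ℕ} (H : Inst W) (X : H.A → Val) (t : ℕ) : H.A → Val :=
  fun a => pv (H.lab t a fun i => (rd (H.win t i) (X (act H.gens (H.op t i) a))).getD false)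

def Inst.run {W : ℕ} (H : Inst W) (n : ℕ) (X : H.A → Val) : H.A → Val :=
  (List.range n).foldl H.step X

/-! ### words of moves -/

abbrev Mv : Type := Op × Cond

def mv (ms : List Mv) : List Ins := ms.map fun m => .mov m.1 m.2

def pullB {σ : ℕ} {B : Type} (ac : Op → B → B) (orc : ℕ → Vec σ → Bool) (z : Vec σ)
    (ms : List Mv) (x : B) : B :=
  ms.foldr (fun m y => if m.2.ev orc z then ac m.1 y else y) x

/-- multiply block `l` by the first generator and block `h` by its inverse. -/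
def dW (l h : ℕ) : List Mv :=
  [(.E l h 1, .tt), (.E h l 2, .tt), (.E l h 1, .tt), (.E l h 0, .tt), (.E h l 0, .tt),
    (.E l h 0, .tt)]

/-- add `alpha` times block `l'` to block `l`; the bits of `alpha` are at the positions `q s`. -/
def addMul (l l' h : ℕ) (q : ℕ → ℕ) (n : ℕ) : List Mv :=
  ((List.range n).flatMap fun s => (.E l l' 0, .eq (q s) 1 1) :: (dW l' h).reverse) ++
    (List.range n).flatMap fun _ => dW l' h

/-- add the direction `Lv` to the first `b` blocks. -/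
def addL (b : ℕ) (q : ℕ → ℕ) (n : ℕ) : List Mv :=
  ((List.range b).reverse ++ List.range' 1 (b - 1)).flatMap fun l =>
    addMul l (if l = 0 then b else l - 1) (b + 1) q n

/-- the number with the bits at the positions `q s`. -/
def aN {σ : ℕ} (q : ℕ → ℕ) (n : ℕ) (z : Vec σ) : ℕ :=
  Nat.ofBits fun s : Fin n => decide (fld z (q s) 1 = 1)

def gam (b : ℕ) (ks : List ℕ) : List Mv :=
  ks.flatMap fun p => (List.range 16).map fun s => (stepOp b s, .eq p 5 s)

def ocode (o : Op) : ℕ := natL [o.data.1, o.data.2.1, o.data.2.2.1, o.data.2.2.2]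

def allOps (b : ℕ) : List Op :=
  ((List.range b).flatMap fun l => (List.range b).flatMap fun l' =>
    (List.finRange 7).map (.E l l')) ++ (List.range b).map .N

def piW (b : ℕ) : List Mv := (allOps b).map fun o => (o, .orc (ocode o + 5))

def join {b β : ℕ} (y : Big b β) (jj : Big 2 β) : Big (b + 2) β :=
  fun l => if l.val < b then blk y l else blk jj (l - b)

def fstB {b β : ℕ} (x : Big (b + 2) β) : Big b β := fun l => blk x l

def sndB {b β : ℕ} (x : Big (b + 2) β) : Big 2 β := fun l => blk x (b + l)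

/-! ### layout -/

structure Lo where
  κ : ℕ
  c : ℕ
  ck : ℕ
  τ : ℕ

namespace Lo

variable (L : Lo)

def k : ℕ := 2 ^ L.κ
def M : ℕ := 6 * L.c + L.ck + 2
def u : ℕ := 12 * L.M + 2 * L.k + 8
def pV : ℕ := L.u + 2
def pG : ℕ := L.pV + L.κ
def pK (i : ℕ) : ℕ := L.pG + 1 + i * L.κ
def pT (i : ℕ) : ℕ := L.pK L.ck + i * L.κ
def pR (i : ℕ) : ℕ := L.pT L.c + i * L.κ
def pP (i : ℕ) : ℕ := L.pR L.c + i * L.κ
def pA (i : ℕ) : ℕ := L.pP (2 * L.c) + i * L.k
def pE (i : ℕ) : ℕ := L.pA L.c + i * L.k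
def pt : ℕ := L.pE L.c
def σ : ℕ := L.pt + L.τ
/-- number of bits of an entry number. -/
def n : ℕ := L.c * L.κ
def qA (s : ℕ) : ℕ := L.pA (s / L.κ) + s % L.κ
def qE (s : ℕ) : ℕ := L.pE (s / L.κ) + s % L.κ

def Ks : List ℕ := (List.range L.ck).map L.pK
def Rs : List ℕ := (List.range L.c).map L.pR
def Ps : List ℕ := (List.range (2 * L.c)).map L.pP
def As : List ℕ := (List.range L.c).map L.pA
def Es : List ℕ := (List.range L.c).map L.pE
def rows : List (ℕ × ℕ) := (List.range L.c).map fun i => (L.pA i, L.pT i)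
def hi (l : List ℕ) : List Dim := l.map fun p => (false, p + L.κ, 2 ^ L.κ - L.κ)
/-- version dimensions of a group other than `pT 0`. -/
def qs : List ℕ := (List.range' 1 (L.c - 1)).map L.pT ++ L.Es ++ L.Ks ++ L.Rs

def base : List Dim := L.Es.map (md L.κ) ++ L.Rs.map (vd L.κ) ++ [vd L.κ L.pV]
/-- row bundles. -/
def dRow : List Dim := cp L.κ L.rows ++ L.base
/-- standard bundles. -/
def dStd : List Dim := (false, L.pG, 1) :: (L.As ++ L.Ks).map (vd L.κ) ++ L.dRow
def d1 : List Dim := L.As.map (md L.κ) ++ L.Rs.map (vd L.κ) ++ [vd L.κ L.pV]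
def dW : List Dim := L.As.map (md L.κ) ++ L.hi L.Es
def dG : List Dim := (L.pT 0 :: L.qs).map (vd L.κ) ++ L.dW

def move1 (b : ℕ) : List Mv := gam b L.Ks ++ piW b ++ addL b L.qA L.n
def move2 (b : ℕ) : List Mv :=
  piW b ++ (gam b L.Ks).reverse ++ addL b L.qE L.n ++ gam b L.Ks ++ piW b

/-- the program of a round. -/
def prog (b : ℕ) : List Ins :=
  tick L.pt L.τ ++ mv (L.move1 b) ++ mgs L.κ L.u L.base L.rows ++ split L.κ L.Es L.d1 ++
    mv (L.move2 b) ++ sans L.κ L.u (vd L.κ L.pV :: L.dW) L.Rs ++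
    group L.κ L.u L.pV L.dW L.qs (L.pT 0) L.Ps (.orc 4) ++
    plBin L.κ L.u L.pV L.dG true L.pG (fun i => .orc i) ++ swaps (L.pA 0) (L.pE 0) (L.c * L.k)

/-- the program of the decoder. -/
def dprog : List Ins := sweep (fun _ => 1) L.dStd

/-- the input number. -/
def gi (z : Vec L.σ) : Fin 2 := if fld z L.pG 1 = 1 then 1 else 0

/-- the message point of the standard bundle for time `t`, thresholds `p`, entry `e`. -/
def hpt (t p e : ℕ) : Vec L.σ :=
  ofN _ (2 ^ L.pt * t + 2 ^ L.pP 0 * p + ∑ i ∈ range L.c, 2 ^ (L.pE i + e / L.k ^ i % L.k))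

end Lo

/-- algebraic normal form of a binary label. -/
def anfc (f : (Fin 2 → Bool) → Bool) : Fin 4 → ZMod 2 :=
  ![b2 (f ![false, false]), b2 (f ![false, false]) + b2 (f ![true, false]),
    b2 (f ![false, false]) + b2 (f ![false, true]),
    b2 (f ![false, false]) + b2 (f ![true, false]) + b2 (f ![false, true]) + b2 (f ![true, true])]

section round

variable (G : Inst 2) (L : Lo)

/-- multilinear extension of the coefficients of the labels of a unit. -/
def cfx (x : Big (G.b + 2) G.β) (i : Fin 4) (z : Vec L.σ) : ZMod 2 :=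
  ∑ a ∈ range (2 ^ L.n), (∏ d ∈ range L.c, (fld z (L.pA d + a / L.k ^ d % L.k) 1 : ZMod 2)) *
    anfc (G.lab (fld z L.pt L.τ) (fstB x + Lv G.b (G.gens 1) L.n a (blk x G.b), 0)) i

/-- the oracle bits that do not depend on the blocks. -/
def orc0 (m : ℕ) (z : Vec L.σ) : Bool :=
  if m = 4 then G.win (fld z L.pt L.τ) (L.gi z)
  else decide (ocode (G.nop (fld z L.pt L.τ) (L.gi z)) + 5 = m)

def orcR (x : Big (G.b + 2) G.β) (m : ℕ) (z : Vec L.σ) : Bool :=
  if h : m < 4 then decide (cfx G L x ⟨m, h⟩ z = 1) else orc0 G L m z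

/-- the new instance. -/
noncomputable def roundI : Inst (WW L.κ) :=
  progInst L.κ (G.b + 2) G.β L.σ G.k0 G.gens (L.prog G.b) (orcR G L)

/-- the instance used by the decoder. -/
noncomputable def decI : Inst (WW L.κ) :=
  progInst L.κ (G.b + 2) G.β L.σ G.k0 G.gens L.dprog fun _ _ _ => false

/-- opinions. -/
noncomputable def opin (X : Addr (G.b + 2) G.β L.σ → Val) (a : Addr (G.b + 2) G.β L.σ) : Bool :=
  decide ((decI G L).run L.dprog.length X a = pv true)

/-- fraction of the replicas of the node `(t, y)` with the opinion true. -/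
noncomputable def fr (X : Addr (G.b + 2) G.β L.σ → Val) (t : ℕ) (y : Big G.b G.β) : ℝ :=
  𝔼 jj : Big 2 G.β, 𝔼 e : Fin (2 ^ L.n), 𝔼 p : Fin (2 ^ (2 * L.n)),
    ind (opin G L X (join (y + Lv G.b (G.gens 1) L.n e (jj 0)) jj, L.hpt t p e) = true)

open Classical in
noncomputable def cls (f : ℝ) : Val :=
  if f ≤ 3 / 10 then 0 else if f < 1 / 2 then 1 else if f < 7 / 10 then 2 else 3

/-- the decoded assignment. -/
noncomputable def decA (x : ℕ → (roundI G L).A → Val) (t : ℕ) (a : G.A) : Val :=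
  cls (fr G L (x (2 ^ (roundI G L).τ - 1)) t a.1)

end round

end Vale.Agent.P330.Amp
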