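import Vale.Agent.P330.Prog
import Vale.Agent.P330.Bitonic

/-! The layout is a layout, the programs are well formed and short (task ProgOk).
Plan. `lay_all`: all dimensions in increasing order of position form a chain; every list used is a
permutation of a sublist (or check `Pairwise` directly from the formulas: `List.pairwise_append`,
`List.pairwise_map`, `List.pairwise_lt_range`, `nlinarith`). `ok` lemmas for each composite program
from `Lay` (`stages_mem`, `mem_bitsOf`). Lengths: `san` has at most `2 M + u + 4 + (M k + u) ^ 2`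
instructions. -/

namespace Vale.Agent.P330.Amp

open Vale.Agent.Lib.H23 Vale.Agent.P333 Vale.Agent.P325 Finset Matrix
open scoped BigOperators

/-- the dimensions tile the interval from `lo` to `hi`. -/
structure PoFull (κ lo hi : ℕ) (ds : List Dim) : Prop where
  le : lo ≤ hi
  mem : ∀ e ∈ ds, lo ≤ e.2.1 ∧ e.2.1 + e.2.2 ≤ hi ∧ 1 ≤ e.2.2 ∧ e.2.2 ≤ 2 ^ κ
  pw : ds.Pairwise fun e e' => e.2.1 + e.2.2 ≤ e'.2.1 ∨ e'.2.1 + e'.2.2 ≤ e.2.1
  cov : ∀ j, j ∈ pos ds ↔ lo ≤ j ∧ j < hi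

theorem po_append (a b : List Dim) (j : ℕ) : j ∈ pos (a ++ b) ↔ j ∈ pos a ∨ j ∈ pos b := by
  simp only [pos, Set.mem_ofPred_eq, List.mem_append, or_and_right, exists_or]

theorem po_perm {a b : List Dim} (h : a.Perm b) (j : ℕ) : j ∈ pos a ↔ j ∈ pos b := by
  simp only [pos, Set.mem_ofPred_eq, h.mem_iff]

theorem po_symm {e e' : Dim} (h : e.2.1 + e.2.2 ≤ e'.2.1 ∨ e'.2.1 + e'.2.2 ≤ e.2.1) :
    e'.2.1 + e'.2.2 ≤ e.2.1 ∨ e.2.1 + e.2.2 ≤ e'.2.1 := h.symm

theorem po_sub {σ κ u : ℕ} {a b : List Dim} (h : Lay σ κ u b) (hs : a.Subperm b) : Lay σ κ u a := by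
  obtain ⟨l, h1, h2⟩ := hs
  exact ⟨fun e he => h.1 e (h2.subset (h1.mem_iff.2 he)), (h.2.sublist h2).perm h1 po_symm⟩

namespace PoFull

variable {κ lo m hi : ℕ} {a b : List Dim}

theorem one (f : Bool) (p : ℕ) {w q : ℕ} (h1 : 1 ≤ w) (h2 : w ≤ 2 ^ κ) (hq : q = p + w) :
    PoFull κ p q [(f, p, w)] :=
  ⟨by omega, by simp [h1, h2, hq], List.pairwise_singleton _ _, by simp [pos, hq]⟩

theorem app (h : PoFull κ lo m a) (h' : PoFull κ m hi b) : PoFull κ lo hi (a ++ b) := by
  have h1 := h.le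
  have h2 := h'.le
  refine ⟨by omega, fun e he => ?_, List.pairwise_append.2 ⟨h.pw, h'.pw, fun e he e' he' => ?_⟩,
    fun j => ?_⟩
  · rcases List.mem_append.1 he with he | he
    · have := h.mem e he
      omega
    · have := h'.mem e he
      omega
  · exact Or.inl ((h.mem e he).2.1.trans (h'.mem e' he').1)
  · rw [po_append, h.cov, h'.cov]
    omega

theorem perm (h : PoFull κ lo hi a) (hp : a.Perm b) : PoFull κ lo hi b :=
  ⟨h.le, fun e he => h.mem e (hp.mem_iff.2 he), h.pw.perm hp po_symm,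
    fun j => (po_perm hp j).symm.trans (h.cov j)⟩

theorem flat (p : ℕ → ℕ) (f : ℕ → List Dim) (h : ∀ i, PoFull κ (p i) (p (i + 1)) (f i)) (n : ℕ) :
    PoFull κ (p 0) (p n) ((List.range n).flatMap f) := by
  induction n with
  | zero => exact ⟨le_rfl, by simp, by simp, by simp [pos]⟩
  | succ n ih =>
    rw [List.range_succ, List.flatMap_append, List.flatMap_singleton]
    exact ih.app (h n)

theorem ap (f : Bool) (p : ℕ → ℕ) {w : ℕ} (h1 : 1 ≤ w) (h2 : w ≤ 2 ^ κ)
    (hp : ∀ i, p (i + 1) = p i + w) (n : ℕ) :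
    PoFull κ (p 0) (p n) (((List.range n).map p).map fun q => (f, q, w)) := by
  rw [List.map_map, List.map_eq_flatMap]
  exact flat p _ (fun i => one f _ h1 h2 (hp i)) n

end PoFull

theorem po_pair {α β : Type} (l : List α) (f g : α → β) :
    (l.flatMap fun i => [f i, g i]).Perm (l.map f ++ l.map g) := by
  induction l with
  | nil => exact List.Perm.refl _
  | cons x l ih => exact ((ih.cons _).trans List.perm_middle.symm).cons _

theorem po_pow {κ : ℕ} (h : 6 ≤ κ) : 2 * κ + 2 ≤ 2 ^ κ := by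
  induction κ, h using Nat.le_induction with
  | base => norm_num
  | succ n _ ih => omega

theorem po_split {κ : ℕ} (h : 6 ≤ κ) (p : ℕ → ℕ) (hp : ∀ i, p (i + 1) = p i + 2 ^ κ) (n : ℕ) :
    PoFull κ (p 0) (p n) (((List.range n).map p).map (vd κ) ++
      ((List.range n).map p).map fun q => (false, q + κ, 2 ^ κ - κ)) := by
  have h1 := po_pow h
  rw [List.map_map, List.map_map]
  exact (PoFull.flat p _ (fun i => (PoFull.one false (p i) (w := κ) (by omega) (by omega) rfl).app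
    (PoFull.one false _ (w := 2 ^ κ - κ) (by omega) (by omega) (by rw [hp]; omega))) n).perm
    (po_pair _ _ _)

/-- a well formed program of length at most `n`. -/
def PoFine (κ σ n : ℕ) (p : List Ins) : Prop := (∀ i ∈ p, i.ok κ σ) ∧ p.length ≤ n

/-- bound for the protected operations. -/
def poS (κ u D : ℕ) : ℕ := 2 * D + 7 + u + ((D + 1) * 2 ^ κ + u) ^ 2

/-- dimensions in range. -/
def PoGd (κ σ u D : ℕ) (ds : List Dim) : Prop :=
  (∀ e ∈ ds, u + 2 ≤ e.2.1 ∧ e.2.1 + e.2.2 ≤ σ ∧ 1 ≤ e.2.2 ∧ e.2.2 ≤ 2 ^ κ) ∧ ds.length ≤ D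

theorem po_stage {bs : List ℕ} {s : ℕ × Cond} (hs : s ∈ stages bs) : s.1 ∈ bs := by
  simp only [stages, List.mem_flatMap, List.mem_map, List.mem_reverse, List.mem_range] at hs
  obtain ⟨i, hi, j, hj, rfl⟩ := hs
  show bs.getD j 0 ∈ bs
  rw [List.getD_eq_getElem _ _ (by omega)]
  exact List.getElem_mem _

theorem po_bits {ds : List Dim} {j : ℕ} (h : j ∈ bitsOf ds) :
    ∃ e ∈ ds, e.2.1 ≤ j ∧ j < e.2.1 + e.2.2 := by
  simpa only [bitsOf, List.mem_flatMap, List.mem_range'_1] using h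

theorem po_lenflat {α β : Type} {l : List α} {f : α → List β} {n : ℕ}
    (h : ∀ x ∈ l, (f x).length ≤ n) : (l.flatMap f).length ≤ l.length * n := by
  induction l with
  | nil => simp
  | cons x l ih =>
    have h1 := h x List.mem_cons_self
    have h2 := ih fun y hy => h y (List.mem_cons_of_mem _ hy)
    rw [List.flatMap_cons, List.length_append, List.length_cons, Nat.succ_mul]
    omega

theorem po_lenbits {ds : List Dim} {n : ℕ} (h : ∀ e ∈ ds, e.2.2 ≤ n) :
    (bitsOf ds).length ≤ ds.length * n :=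
  po_lenflat fun e he => by rw [List.length_range']; exact h e he

theorem po_cell {κ σ p1 w1 p2 w2 : ℕ} {kd : Kind} {c : Fin 4 → Cond}
    (h : 2 ≤ σ ∧ (w1 = 0 ∨ 2 ≤ p1) ∧ (w2 = 0 ∨ 2 ≤ p2) ∧ p1 + w1 ≤ σ ∧ p2 + w2 ≤ σ ∧
      (p1 + w1 ≤ p2 ∨ p2 + w2 ≤ p1) ∧ w1 + w2 ≤ 2 ^ κ) : (Ins.cell kd p1 w1 p2 w2 c).ok κ σ := h

namespace PoFine

variable {κ σ u M D n m v : ℕ} {p q : List Ins} {ds : List Dim}

theorem app (h : PoFine κ σ n p) (h' : PoFine κ σ m q) : PoFine κ σ (n + m) (p ++ q) :=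
  ⟨fun i hi => (List.mem_append.1 hi).elim (h.1 i) (h'.1 i),
    by rw [List.length_append]; exact Nat.add_le_add h.2 h'.2⟩

theorem mono (h : PoFine κ σ n p) (h' : n ≤ m) : PoFine κ σ m p := ⟨h.1, h.2.trans h'⟩

theorem flat {α : Type} {l : List α} {f : α → List Ins} (h : ∀ x ∈ l, PoFine κ σ n (f x)) :
    PoFine κ σ (l.length * n) (l.flatMap f) :=
  ⟨fun i hi => by
    obtain ⟨x, hx, hi⟩ := List.mem_flatMap.1 hi
    exact (h x hx).1 i hi, po_lenflat fun x hx => (h x hx).2⟩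

theorem map {α : Type} {l : List α} {f : α → Ins} (h : ∀ x ∈ l, (f x).ok κ σ) :
    PoFine κ σ l.length (l.map f) :=
  ⟨List.forall_mem_map.2 h, (List.length_map _).le⟩

theorem one {i : Ins} (h : i.ok κ σ) : PoFine κ σ 1 [i] := ⟨List.forall_mem_singleton.2 h, le_rfl⟩

theorem dims (h : PoGd κ σ u D ds) (kd : Dim → Kind) :
    PoFine κ σ D (ds.map fun e => .cell (kd e) e.2.1 e.2.2 0 0 nc) :=
  (map fun e he => by
    have := h.1 e he
    exact po_cell (by omega)).mono h.2

theorem san (hp : Par κ u M) (h : PoGd κ σ u (D + 1) (vd κ v :: ds)) {i : Ins} (hi : i.ok κ σ) :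
    PoFine κ σ (poS κ u D) (san κ u v ds ++ [i]) := by
  have h1 := po_pow hp.hκ
  have h2 := hp.hu
  have h3 : u + 2 ≤ v ∧ v + κ ≤ σ ∧ 1 ≤ κ ∧ κ ≤ 2 ^ κ := h.1 _ List.mem_cons_self
  have h4 : (stages (bitsOf ((false, v, κ) :: ds) ++ List.range' 2 u)).length ≤
      ((D + 1) * 2 ^ κ + u) ^ 2 := by
    refine (length_stages _).trans (Nat.pow_le_pow_left ?_ 2)
    rw [List.length_append, List.length_range']
    exact Nat.add_le_add_right ((po_lenbits fun e he => (h.1 e he).2.2.2).trans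
      (Nat.mul_le_mul_right _ h.2)) _
  refine (((((((dims h _).app (q := [.pur 0, .pur 1, .cell .vote 0 0 0 0 nc]) (m := 3)
    ⟨?_, le_rfl⟩).app (dims h fun e => .test e.1)).app (map fun j hj => ?_)).app
    ((map fun s hs => ?_).mono h4)).app (one ?_)).app (one hi)).mono ?_
  · exact List.forall_mem_cons.2 ⟨show 0 < σ by omega, List.forall_mem_cons.2
      ⟨show 1 < σ by omega, List.forall_mem_singleton.2 (po_cell (by omega))⟩⟩
  · have := List.mem_range.1 hj
    exact show j + 2 < σ by omega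
  · rcases List.mem_append.1 (po_stage hs) with hb | hb
    · obtain ⟨e, he, hb⟩ := po_bits hb
      have := h.1 e he
      exact po_cell (by omega)
    · have := List.mem_range'_1.1 hb
      exact po_cell (by omega)
  · exact po_cell (by omega)
  · rw [List.length_range, poS]
    omega

theorem sb (hp : Par κ u M) (h : PoGd κ σ u (D + 1) (vd κ v :: ds)) {qs : List ℕ} {q : ℕ}
    (hq : ∀ x ∈ qs ++ [q], v + κ ≤ x ∧ x + κ ≤ σ) (hl : qs.length + 1 ≤ D) (f : Bool) (c : Cond) :
    PoFine κ σ (((D * κ) ^ 2 + 1) * poS κ u D) (sb κ u v ds qs q f c) := by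
  have h1 := po_pow hp.hκ
  have h3 : u + 2 ≤ v ∧ v + κ ≤ σ ∧ 1 ≤ κ ∧ κ ≤ 2 ^ κ := h.1 _ List.mem_cons_self
  refine ((flat (n := poS κ u D) fun s hs => san hp h ?_).app (san hp h ?_)).mono ?_
  · obtain ⟨e, he, hb⟩ := po_bits (po_stage hs)
    obtain ⟨x, hx, rfl⟩ := List.mem_map.1 he
    have := hq x hx
    simp only [vd] at hb
    exact po_cell (by omega)
  · have := hq q (by simp)
    exact po_cell (by omega)
  · rw [Nat.succ_mul]
    refine Nat.add_le_add_right (Nat.mul_le_mul_right _ ((length_stages _).trans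
      (Nat.pow_le_pow_left ((po_lenbits (n := κ) ?_).trans (Nat.mul_le_mul_right _ ?_)) 2))) _
    · exact List.forall_mem_map.2 fun _ _ => le_rfl
    · simpa using hl

theorem cascade (hp : Par κ u M) (h : PoGd κ σ u (D + 1) (vd κ v :: ds)) {qs : List ℕ} {q : ℕ}
    (c : Cond) : ∀ (ps : List ℕ) (f : Bool), (∀ x ∈ q :: qs ++ ps, v + κ ≤ x ∧ x + κ ≤ σ) →
      qs.length + ps.length + 1 ≤ D → PoFine κ σ (ps.length * (((D * κ) ^ 2 + 1) * poS κ u D))
        (cascade κ u v ds qs q c f ps)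
  | [], _, _, _ => ⟨by simp [Amp.cascade], by simp [Amp.cascade]⟩
  | p :: ps, f, hq, hl => by
    rw [List.length_cons] at hl
    refine ((sb hp h (fun x hx => hq x ?_) (by simpa using hl) f c).app
      (cascade hp h c ps false (fun x hx => hq x ?_) (by omega))).mono ?_
    · simp only [List.mem_append, List.mem_cons, List.not_mem_nil] at hx ⊢
      tauto
    · simp only [List.mem_append, List.mem_cons] at hx ⊢
      tauto
    · rw [List.length_cons, Nat.succ_mul ps.length, Nat.add_comm]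

theorem group (hp : Par κ u M) (h : PoGd κ σ u (D + 1) (vd κ v :: ds)) {qs ps : List ℕ} {q : ℕ}
    (c : Cond) (hq : ∀ x ∈ q :: qs ++ ps, v + κ ≤ x ∧ x + κ ≤ σ)
    (hl : qs.length + ps.length + 1 ≤ D) :
    PoFine κ σ (D * (((D * κ) ^ 2 + 1) * poS κ u D)) (group κ u v ds qs q ps c) := by
  refine ((cascade hp h c ps true hq hl).app (flat fun x hx => sb hp h (qs := []) (q := x)
    (List.forall_mem_singleton.2 (hq x (List.mem_append_left _ hx)))
    (le_trans (by simp) hl) false c)).mono ?_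
  rw [← Nat.add_mul, List.length_cons]
  exact Nat.mul_le_mul_right _ (by omega)

theorem mgs (hp : Par κ u M) : ∀ (l : List (ℕ × ℕ)) (ds : List Dim) (n : ℕ), PoGd κ σ u n ds →
    (∀ a ∈ l, u + 2 ≤ a.1 ∧ a.1 + 2 ^ κ ≤ σ ∧ u + 2 ≤ a.2 ∧ a.2 + κ ≤ σ) → 2 * l.length + n ≤ D →
    PoFine κ σ (l.length * poS κ u D) (mgs κ u ds l)
  | [], _, _, _, _, _ => ⟨by simp [Amp.mgs], by simp [Amp.mgs]⟩
  | a :: l, ds, n, h, ha, hl => by
    have h1 := po_pow hp.hκ
    have h2 := hp.hκ
    have h3 := ha a List.mem_cons_self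
    have h4 := h.2
    have h5 : (cp κ l).length ≤ l.length * 2 := po_lenflat fun _ _ => le_rfl
    have h6 : ∀ b ∈ a :: l, ∀ e ∈ [vd κ b.2, (false, b.1 + κ, 2 ^ κ - κ)],
        u + 2 ≤ e.2.1 ∧ e.2.1 + e.2.2 ≤ σ ∧ 1 ≤ e.2.2 ∧ e.2.2 ≤ 2 ^ κ := fun b h => by
      have := ha b h
      simp only [List.forall_mem_cons, vd, List.not_mem_nil, false_imp_iff, implies_true, and_true]
      omega
    rw [List.length_cons] at hl
    refine ((san hp (ds := (false, a.1 + κ, 2 ^ κ - κ) :: (cp κ l ++ ds)) (D := D)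
      ⟨fun e he => ?_, ?_⟩ ?_).app (mgs hp l (md κ a.1 :: ds) (n + 1)
      ⟨List.forall_mem_cons.2 ⟨?_, h.1⟩, Nat.succ_le_succ h.2⟩
      (fun b hb => ha b (List.mem_cons_of_mem _ hb)) (by omega))).mono ?_
    · rcases List.mem_append.1 (show e ∈ cp κ (a :: l) ++ ds from he) with he | he
      · obtain ⟨b, hb, he⟩ := List.mem_flatMap.1 he
        exact h6 b hb e he
      · exact h.1 e he
    · simp only [List.length_cons, List.length_append]
      omega
    · exact po_cell (by omega)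
    · simp only [md]
      omega
    · rw [List.length_cons, Nat.succ_mul, Nat.add_comm]

theorem sans (hp : Par κ u M) : ∀ vs : List ℕ, PoGd κ σ u (D + 1) (vs.map (vd κ) ++ ds) →
    PoFine κ σ (vs.length * poS κ u D) (sans κ u ds vs)
  | [], _ => ⟨by simp [Amp.sans], by simp [Amp.sans]⟩
  | v :: vs, h => by
    have h1 := san hp (i := .mov (.Tr 0) .tt) h trivial
    refine (PoFine.app ⟨fun i hi => h1.1 i (List.mem_append_left _ hi),
      le_trans (by simp) h1.2⟩ (sans hp vs ⟨fun e he => h.1 e (List.mem_cons_of_mem _ he),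
        (Nat.le_succ _).trans h.2⟩)).mono ?_
    rw [List.length_cons, Nat.succ_mul, Nat.add_comm]

theorem mv (ms : List Mv) : PoFine κ σ ms.length (mv ms) := map fun _ _ => trivial

end PoFine

theorem po_addL (b : ℕ) (q : ℕ → ℕ) (n : ℕ) : (addL b q n).length ≤ (b + b) * (n * 13) := by
  refine (po_lenflat (n := n * 13) fun l _ => ?_).trans (Nat.mul_le_mul_right _ ?_)
  · have h1 := po_lenflat (l := List.range n) (n := 7) (f := fun s => ((Op.E l
      (if l = 0 then b else l - 1) 0, Cond.eq (q s) 1 1) :: (dW (if l = 0 then b else l - 1)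
        (b + 1)).reverse : List Mv)) fun _ _ => le_rfl
    have h2 := po_lenflat (l := List.range n) (n := 6)
      (f := fun _ => dW (if l = 0 then b else l - 1) (b + 1)) fun _ _ => le_rfl
    rw [List.length_range] at h1 h2
    rw [addMul, List.length_append]
    omega
  · simp only [List.length_append, List.length_reverse, List.length_range, List.length_range']
    omega

theorem po_gam (b : ℕ) (ks : List ℕ) : (gam b ks).length ≤ ks.length * 16 :=
  po_lenflat fun _ _ => by simp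

theorem po_piW (b : ℕ) : (piW b).length ≤ b * (b * 7) + b := by
  rw [piW, List.length_map, allOps, List.length_append, List.length_map, List.length_range]
  refine Nat.add_le_add_right ((po_lenflat (n := b * 7) fun l _ =>
    (po_lenflat (n := 7) fun _ _ => by simp).trans ?_).trans ?_) _ <;> rw [List.length_range]

namespace Lo

variable (L : Lo) (hκ : 6 ≤ L.κ) (hc : 1 ≤ L.c)

/-- the dimensions below the thresholds, apart from the gate bit. -/
def poB : List Dim :=
  L.Ks.map (vd L.κ) ++ ((List.range L.c).map L.pT).map (vd L.κ) ++ L.Rs.map (vd L.κ)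

theorem po_cp (g : ℕ → Dim) : (L.rows.flatMap fun a => [vd L.κ a.2, g a.1]).Perm
    (((List.range L.c).map L.pT).map (vd L.κ) ++ L.As.map g) := by
  refine (po_pair _ _ _).trans (List.Perm.of_eq ?_)
  simp only [rows, As, List.map_map]
  rfl

theorem po_std : L.dStd.Perm ([vd L.κ L.pV] ++ [(false, L.pG, 1)] ++ L.poB ++
    (L.As.map (vd L.κ) ++ L.hi L.As) ++ L.Es.map (md L.κ)) :=
  List.perm_iff_count.2 fun a => by
    have := (L.po_cp fun p => (false, p + L.κ, 2 ^ L.κ - L.κ)).count_eq a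
    simp only [dStd, dRow, base, poB, cp, hi, List.map_append, List.count_append, List.count_cons,
      List.count_nil] at this ⊢
    omega

include hc in
theorem po_T : (L.pT 0 :: L.qs).map (vd L.κ) = ((List.range L.c).map L.pT).map (vd L.κ) ++
    L.Es.map (vd L.κ) ++ L.Ks.map (vd L.κ) ++ L.Rs.map (vd L.κ) := by
  obtain ⟨n, hn⟩ := Nat.exists_eq_add_of_le' hc
  rw [qs, hn, List.range_eq_range', List.range'_succ]
  simp only [List.map_append, List.map_cons, List.cons_append, Nat.add_sub_cancel]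

include hc in
theorem po_gate : ((false, L.pG, 1) :: vd L.κ L.pV :: L.dG).Perm ([vd L.κ L.pV] ++
    [(false, L.pG, 1)] ++ L.poB ++ L.As.map (md L.κ) ++ (L.Es.map (vd L.κ) ++ L.hi L.Es)) :=
  List.perm_iff_count.2 fun a => by
    simp only [dG, L.po_T hc, dW, poB, List.count_append, List.count_cons, List.count_nil]
    omega

include hc in
theorem po_group : ((L.pT 0 :: L.qs ++ L.Ps).map (vd L.κ) ++ vd L.κ L.pV :: L.dW).Perm
    ([vd L.κ L.pV] ++ L.poB ++ L.Ps.map (vd L.κ) ++ L.As.map (md L.κ) ++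
      (L.Es.map (vd L.κ) ++ L.hi L.Es)) :=
  List.perm_iff_count.2 fun a => by
    simp only [List.map_append, L.po_T hc, dW, poB, List.count_append, List.count_cons,
      List.count_nil]
    omega

include hκ

theorem po_V : PoFull L.κ L.pV L.pG [vd L.κ L.pV] :=
  PoFull.one _ _ (by omega) Nat.lt_two_pow_self.le rfl

omit hκ in
theorem po_G : PoFull L.κ L.pG (L.pK 0) [(false, L.pG, 1)] :=
  PoFull.one _ _ le_rfl Nat.one_le_two_pow (by simp [pK])

theorem po_v (p : ℕ → ℕ) (q : ℕ) (hp : ∀ i, p i = q + i * L.κ) (n : ℕ) :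
    PoFull L.κ q (p n) (((List.range n).map p).map (vd L.κ)) := by
  have h := PoFull.ap (κ := L.κ) false p (w := L.κ) (by omega) Nat.lt_two_pow_self.le
    (fun i => by rw [hp, hp, Nat.succ_mul, Nat.add_assoc]) n
  rwa [hp 0, Nat.zero_mul, Nat.add_zero] at h

theorem po_B : PoFull L.κ (L.pK 0) (L.pP 0) L.poB := by
  have h := ((L.po_v hκ L.pK _ (fun _ => rfl) L.ck).app (L.po_v hκ L.pT _ (fun _ => rfl) L.c)).app
    (L.po_v hκ L.pR _ (fun _ => rfl) L.c)
  simpa only [pK, pP, poB, Ks, Rs, Nat.zero_mul, Nat.add_zero] using h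

theorem po_P : PoFull L.κ (L.pP 0) (L.pA 0) (L.Ps.map (vd L.κ)) := by
  have h := L.po_v hκ L.pP _ (fun _ => rfl) (2 * L.c)
  simpa only [pA, pP, Ps, Nat.zero_mul, Nat.add_zero] using h

omit hκ in
theorem po_sA (i : ℕ) : L.pA (i + 1) = L.pA i + 2 ^ L.κ := by
  rw [pA, pA, Nat.succ_mul i, Nat.add_assoc, k]

omit hκ in
theorem po_sE (i : ℕ) : L.pE (i + 1) = L.pE i + 2 ^ L.κ := by
  rw [pE, pE, Nat.succ_mul, Nat.add_assoc, k]

omit hκ in
theorem po_E0 : L.pE 0 = L.pA L.c := by simp [pE]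

omit hκ in
theorem po_Am : PoFull L.κ (L.pA 0) (L.pE 0) (L.As.map (md L.κ)) :=
  L.po_E0 ▸ PoFull.ap true L.pA Nat.one_le_two_pow le_rfl L.po_sA L.c

theorem po_As : PoFull L.κ (L.pA 0) (L.pE 0) (L.As.map (vd L.κ) ++ L.hi L.As) :=
  L.po_E0 ▸ po_split hκ L.pA L.po_sA L.c

omit hκ in
theorem po_Em : PoFull L.κ (L.pE 0) L.pt (L.Es.map (md L.κ)) :=
  PoFull.ap true L.pE Nat.one_le_two_pow le_rfl L.po_sE L.c

theorem po_Es : PoFull L.κ (L.pE 0) L.pt (L.Es.map (vd L.κ) ++ L.hi L.Es) :=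
  po_split hκ L.pE L.po_sE L.c

theorem po_lay {A E ds : List Dim} (hA : PoFull L.κ (L.pA 0) (L.pE 0) A)
    (hE : PoFull L.κ (L.pE 0) L.pt E) (h : ∀ a, ds.count a ≤ ([vd L.κ L.pV] ++ [(false, L.pG, 1)] ++
      L.poB ++ L.Ps.map (vd L.κ) ++ A ++ E).count a) : Lay L.σ L.κ L.u ds := by
  have h1 := (((((L.po_V hκ).app L.po_G).app (L.po_B hκ)).app (L.po_P hκ)).app hA).app hE
  refine po_sub ⟨fun e he => ?_, h1.pw⟩ (List.subperm_ext_iff.2 fun a _ => h a)
  have := h1.mem e he
  simp only [pV, σ] at this ⊢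
  omega

include hc

theorem par : Par L.κ L.u L.M := ⟨hκ, by unfold M; omega, le_rfl⟩
theorem lay_std : Lay L.σ L.κ L.u L.dStd :=
  L.po_lay hκ (L.po_As hκ) L.po_Em fun a => by
    simp only [L.po_std.count_eq, List.count_append]
    omega
theorem lay_mg : Lay L.σ L.κ L.u
    ((L.rows.flatMap fun a => [vd L.κ a.2, md L.κ a.1]) ++ L.base) :=
  L.po_lay hκ L.po_Am L.po_Em fun a => by
    simp only [(L.po_cp (md L.κ)).count_eq, base, poB, List.count_append]
    omega
theorem lay_split : Lay L.σ L.κ L.u (L.Es.map (md L.κ) ++ L.d1) :=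
  L.po_lay hκ L.po_Am L.po_Em fun a => by
    simp only [d1, poB, List.count_append]
    omega
theorem lay_col : Lay L.σ L.κ L.u (L.hi L.Es ++ L.d1) :=
  L.po_lay hκ L.po_Am (L.po_Es hκ) fun a => by
    simp only [d1, poB, List.count_append]
    omega
theorem lay_sans : Lay L.σ L.κ L.u (L.Rs.map (vd L.κ) ++ vd L.κ L.pV :: L.dW) :=
  L.po_lay hκ L.po_Am (L.po_Es hκ) fun a => by
    simp only [dW, poB, List.count_append, List.count_cons, List.count_nil]
    omega
theorem lay_group : Lay L.σ L.κ L.u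
    ((L.pT 0 :: L.qs ++ L.Ps).map (vd L.κ) ++ vd L.κ L.pV :: L.dW) :=
  L.po_lay hκ L.po_Am (L.po_Es hκ) fun a => by
    simp only [(L.po_group hc).count_eq, List.count_append]
    omega
theorem lay_gate : Lay L.σ L.κ L.u ((false, L.pG, 1) :: vd L.κ L.pV :: L.dG) :=
  L.po_lay hκ L.po_Am (L.po_Es hκ) fun a => by
    simp only [(L.po_gate hc).count_eq, List.count_append]
    omega
/-- the exchange turns the output bundle into the standard bundle. -/
theorem mem_std (e : Dim) : e ∈ L.dStd ↔ ∃ e' ∈ ((false, L.pG, 1) :: vd L.κ L.pV :: L.dG),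
    e = if e'.2.1 < L.pA 0 then e' else if e'.2.1 < L.pA 0 + L.c * L.k then
      (e'.1, e'.2.1 + L.c * L.k, e'.2.2) else (e'.1, e'.2.1 - L.c * L.k, e'.2.2) := by
  obtain ⟨f, hf⟩ : ∃ f : Dim → Dim, ∀ e', f e' = if e'.2.1 < L.pA 0 then e' else
      if e'.2.1 < L.pA 0 + L.c * L.k then (e'.1, e'.2.1 + L.c * L.k, e'.2.2)
      else (e'.1, e'.2.1 - L.c * L.k, e'.2.2) := ⟨_, fun _ => rfl⟩
  have h0 : ∀ i, L.pE i = L.pA i + L.c * L.k := fun i => by
    simp only [pE, pA]
    omega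
  have hA : ∀ i, L.pA 0 ≤ L.pA i := fun i => by
    simp only [pA]
    omega
  have h1 : ([vd L.κ L.pV] ++ [(false, L.pG, 1)] ++ L.poB).map f =
      [vd L.κ L.pV] ++ [(false, L.pG, 1)] ++ L.poB := by
    refine (List.map_congr_left fun e he => ?_).trans (List.map_id _)
    have := (((L.po_V hκ).app L.po_G).app (L.po_B hκ)).mem e he
    have := (L.po_P hκ).le
    rw [hf, if_pos (by omega), id]
  have h2 : (L.As.map (md L.κ)).map f = L.Es.map (md L.κ) := by
    simp only [As, Es, List.map_map]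
    refine List.map_congr_left fun i hi => ?_
    have := L.po_Am.mem (md L.κ (L.pA i)) (List.mem_map_of_mem (List.mem_map_of_mem hi))
    have := h0 0
    simp only [Function.comp, md, hf, h0] at *
    rw [if_neg (by omega), if_pos (by omega)]
  have h3 : ∀ d w : ℕ, (L.Es.map fun p => ((false, p + d, w) : Dim)).map f =
      L.As.map fun p => (false, p + d, w) := fun d w => by
    simp only [As, Es, List.map_map]
    refine List.map_congr_left fun i _ => ?_
    have := hA i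
    simp only [Function.comp, hf, h0]
    rw [if_neg (by omega), if_neg (by omega), Nat.add_right_comm, Nat.add_sub_cancel]
  have h4 : (L.Es.map (vd L.κ)).map f = L.As.map (vd L.κ) := h3 0 L.κ
  have h5 : (L.hi L.Es).map f = L.hi L.As := h3 _ _
  have h6 := ((L.po_gate hc).map f).mem_iff (a := e)
  rw [List.map_append, List.map_append, List.map_append (l₂ := L.hi L.Es), h1, h2, h4, h5,
    List.mem_map] at h6
  simp only [← hf, eq_comm (a := e)]
  rw [h6, L.po_std.mem_iff]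
  simp only [List.mem_append]
  tauto
theorem pos_std (j : ℕ) : j ∈ pos L.dStd ↔ L.pV ≤ j ∧ j < L.pt ∧ ¬ (L.pP 0 ≤ j ∧ j < L.pA 0) := by
  have h1 := ((L.po_V hκ).app L.po_G).app (L.po_B hκ)
  have h2 := (L.po_As hκ).app L.po_Em
  have := h1.le
  have := h2.le
  have := (L.po_P hκ).le
  rw [po_perm L.po_std, List.append_assoc _ _ (L.Es.map _), po_append, h1.cov, h2.cov]
  omega
theorem pos_gate (j : ℕ) : j ∈ pos ((false, L.pG, 1) :: vd L.κ L.pV :: L.dG) ↔
    L.pV ≤ j ∧ j < L.pt ∧ ¬ (L.pP 0 ≤ j ∧ j < L.pA 0) := by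
  have h1 := ((L.po_V hκ).app L.po_G).app (L.po_B hκ)
  have h2 := L.po_Am.app (L.po_Es hκ)
  have := h1.le
  have := h2.le
  have := (L.po_P hκ).le
  rw [po_perm (L.po_gate hc), List.append_assoc _ (L.As.map _), po_append, h1.cov, h2.cov]
  omega
theorem pos_Ps (j : ℕ) : j ∈ pos (L.Ps.map (vd L.κ)) ↔ L.pP 0 ≤ j ∧ j < L.pA 0 :=
  (L.po_P hκ).cov j
theorem pos_group (j : ℕ) : j ∈ pos ((L.pT 0 :: L.qs ++ L.Ps).map (vd L.κ) ++ vd L.κ L.pV :: L.dW) ↔
    L.pV ≤ j ∧ j < L.pt ∧ j ≠ L.pG := by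
  have h1 := L.po_V hκ
  have h2 := (((L.po_B hκ).app (L.po_P hκ)).app L.po_Am).app (L.po_Es hκ)
  have := h1.le
  have := h2.le
  have : L.pK 0 = L.pG + 1 := by simp [pK]
  rw [po_perm (L.po_group hc), List.append_assoc [_], List.append_assoc [_], List.append_assoc [_],
    po_append, h1.cov, h2.cov]
  omega
theorem length_std : L.dStd.length ≤ L.M := by
  rw [L.po_std.length_eq]
  simp only [poB, hi, As, Es, Ks, Rs, M, List.length_append, List.length_map, List.length_range,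
    List.length_singleton]
  omega

theorem po_fine (b : ℕ) : PoFine L.κ L.σ (L.τ + (L.ck * 16 + (b * (b * 7) + b) +
    (b + b) * (L.n * 13)) * 2 + L.c * poS L.κ L.u L.M + L.M +
    (L.ck * 16 + (b * (b * 7) + b) + (b + b) * (L.n * 13)) * 2 + L.c * poS L.κ L.u L.M +
    L.M * (((L.M * L.κ) ^ 2 + 1) * poS L.κ L.u L.M) + poS L.κ L.u L.M + L.c * L.k) (L.prog b) := by
  have hp := L.par hκ hc
  have h1 := po_pow hκ
  have h2 := (L.po_V hκ).le
  have h3 := L.po_G.le
  have h4 := ((L.po_B hκ).app (L.po_P hκ)).le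
  have h5 := L.po_Am.le
  have h6 := L.po_Em.le
  have h7 : L.pV = L.u + 2 ∧ L.σ = L.pt + L.τ ∧ L.pE 0 = L.pA 0 + L.c * L.k ∧
      L.pt = L.pE 0 + L.c * L.k ∧ L.pK 0 = L.pG + 1 ∧ L.pG = L.pV + L.κ := by
    simp [pV, σ, pE, pA, pt, pK, pG]
  have g1 := po_gam b L.Ks
  have g2 := po_piW b
  have g3 := po_addL b L.qA L.n
  have g4 := po_addL b L.qE L.n
  have hq : L.qs.length + 1 = 3 * L.c + L.ck := by
    simp only [qs, Es, Ks, Rs, List.length_append, List.length_map, List.length_range,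
      List.length_range']
    omega
  have hW : L.dW.length = 2 * L.c := by
    simp only [dW, hi, As, Es, List.length_append, List.length_map, List.length_range]
    omega
  have hr : L.rows.length = L.c := by simp [rows]
  have hR : L.Rs.length = L.c := by simp [Rs]
  have hM : L.M = 6 * L.c + L.ck + 2 := rfl
  rw [Ks, List.length_map, List.length_range, ← Ks] at g1
  refine (((((((((PoFine.map fun i hi => ?_).mono (List.length_range).le).app
    ((PoFine.mv _).mono ?_)).app ((PoFine.mgs hp L.rows L.base (2 * L.c + 1)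
      ⟨fun e he => (L.lay_mg hκ hc).1 e (List.mem_append_right _ he), ?_⟩ (fun a ha => ?_)
      ?_).mono (Nat.mul_le_mul_right _ hr.le))).app (PoFine.dims ⟨(L.lay_split hκ hc).1, ?_⟩ _)).app
    ((PoFine.mv _).mono ?_)).app ((PoFine.sans hp L.Rs ⟨(L.lay_sans hκ hc).1, ?_⟩).mono
      (Nat.mul_le_mul_right _ hR.le))).app
    (PoFine.group hp ⟨fun e he => (L.lay_group hκ hc).1 e (List.mem_append_right _ he), ?_⟩ _
      (fun x hx => ?_) ?_)).app (PoFine.san hp ⟨fun e he => (L.lay_gate hκ hc).1 e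
      (List.mem_cons_of_mem _ he), ?_⟩ ?_)).app
    ((PoFine.map fun i hi => ?_).mono (List.length_range).le)
  · have := List.mem_range.1 hi
    exact po_cell (by omega)
  · simp only [move1, List.length_append]
    omega
  · simp only [base, Es, Rs, List.length_append, List.length_map, List.length_range,
      List.length_singleton]
    omega
  · have e1 := (L.lay_mg hκ hc).1 (vd L.κ a.2)
      (List.mem_append_left _ (List.mem_flatMap.2 ⟨a, ha, by simp⟩))
    have e2 := (L.lay_mg hκ hc).1 (md L.κ a.1)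
      (List.mem_append_left _ (List.mem_flatMap.2 ⟨a, ha, by simp⟩))
    exact ⟨e2.1, e2.2.1, e1.1, e1.2.1⟩
  · omega
  · simp only [d1, As, Es, Rs, List.length_append, List.length_map, List.length_range,
      List.length_singleton]
    omega
  · simp only [move2, List.length_append, List.length_reverse]
    omega
  · simp only [List.length_append, List.length_map, List.length_cons]
    omega
  · simp only [List.length_cons]
    omega
  · have e1 := (L.pos_group hκ hc x).1 ⟨vd L.κ x, List.mem_append_left _ (List.mem_map_of_mem hx),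
      le_rfl, Nat.lt_add_of_pos_right (by omega : 0 < L.κ)⟩
    have e2 := (L.lay_group hκ hc).1 _ (List.mem_append_left _ (List.mem_map_of_mem hx))
    have e3 := (List.pairwise_append.1 (L.lay_group hκ hc).2).2.2 _ (List.mem_map_of_mem hx) _
      List.mem_cons_self
    simp only [vd] at e2 e3
    omega
  · rw [Ps, List.length_map, List.length_range]
    omega
  · simp only [dG, List.length_append, List.length_map, List.length_cons]
    omega
  · exact po_cell (by omega)
  · have := List.mem_range.1 hi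
    exact po_cell (by omega)

theorem prog_ok (b : ℕ) : ∀ i ∈ L.prog b, i.ok L.κ L.σ := (L.po_fine hκ hc b).1
theorem dprog_ok : ∀ i ∈ L.dprog, i.ok L.κ L.σ :=
  (PoFine.dims ⟨(L.lay_std hκ hc).1, le_rfl⟩ fun e => .dec (if e.1 then 1 else 0)).1

end Lo

/-- polynomially bounded functions. -/
def PoPB (f : ℕ → ℕ → ℕ → ℕ) : Prop := ∃ C : ℕ, ∀ c τ b : ℕ, 1 ≤ c → f c τ b ≤ C * (b + τ + c) ^ C

theorem po_up {C C' N : ℕ} (h : C ≤ C') (hN : 1 ≤ N) : N ^ C ≤ N ^ C' := Nat.pow_le_pow_right hN h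

theorem PoPB.const (a : ℕ) : PoPB fun _ _ _ => a :=
  ⟨a, fun _ _ _ hc => Nat.le_mul_of_pos_right _ (Nat.pow_pos (by omega))⟩

theorem PoPB.c : PoPB fun c _ _ => c := ⟨1, fun _ _ _ _ => by simp only [pow_one]; omega⟩

theorem PoPB.t : PoPB fun _ τ _ => τ := ⟨1, fun _ _ _ _ => by simp only [pow_one]; omega⟩

theorem PoPB.b : PoPB fun _ _ b => b := ⟨1, fun _ _ _ _ => by simp only [pow_one]; omega⟩

theorem PoPB.add {f g : ℕ → ℕ → ℕ → ℕ} (hf : PoPB f) (hg : PoPB g) :
    PoPB fun c τ b => f c τ b + g c τ b := by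
  obtain ⟨C, hf⟩ := hf
  obtain ⟨C', hg⟩ := hg
  refine ⟨C + C', fun c τ b hc => ?_⟩
  rw [Nat.add_mul]
  exact Nat.add_le_add ((hf c τ b hc).trans (Nat.mul_le_mul_left _ (po_up (by omega) (by omega))))
    ((hg c τ b hc).trans (Nat.mul_le_mul_left _ (po_up (by omega) (by omega))))

theorem PoPB.mul {f g : ℕ → ℕ → ℕ → ℕ} (hf : PoPB f) (hg : PoPB g) :
    PoPB fun c τ b => f c τ b * g c τ b := by
  obtain ⟨C, hf⟩ := hf
  obtain ⟨C', hg⟩ := hg
  refine ⟨C * C' + C + C', fun c τ b hc => (Nat.mul_le_mul (hf c τ b hc) (hg c τ b hc)).trans ?_⟩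
  rw [Nat.mul_mul_mul_comm, ← Nat.pow_add]
  exact Nat.mul_le_mul (by omega) (po_up (by omega) (by omega))

theorem length_prog (κ ck : ℕ) : ∃ C : ℕ, ∀ c τ b : ℕ, 6 ≤ κ → 1 ≤ c →
    ((Lo.mk κ c ck τ).prog b).length + 1 ≤ C * (b + τ + c) ^ C := by
  have h : PoPB fun c τ b => (fun L : Lo => L.τ + (L.ck * 16 + (b * (b * 7) + b) +
      (b + b) * (L.n * 13)) * 2 + L.c * poS L.κ L.u L.M + L.M +
      (L.ck * 16 + (b * (b * 7) + b) + (b + b) * (L.n * 13)) * 2 + L.c * poS L.κ L.u L.M +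
      L.M * (((L.M * L.κ) ^ 2 + 1) * poS L.κ L.u L.M) + poS L.κ L.u L.M + L.c * L.k)
      (Lo.mk κ c ck τ) + 1 := by
    simp only [poS, Lo.u, Lo.M, Lo.n, Lo.k, pow_two]
    repeat' first
      | exact PoPB.const _
      | exact PoPB.c
      | exact PoPB.t
      | exact PoPB.b
      | apply PoPB.add
      | apply PoPB.mul
  obtain ⟨C, h⟩ := h
  exact ⟨C, fun c τ b hκ hc =>
    (Nat.succ_le_succ ((Lo.mk κ c ck τ).po_fine hκ hc b).2).trans (h c τ b hc)⟩

theorem sigma_le (κ ck : ℕ) : ∃ C : ℕ, ∀ c τ : ℕ, 1 ≤ c → (Lo.mk κ c ck τ).σ ≤ τ + C * c := by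
  refine ⟨72 + 4 * κ + 2 * 2 ^ κ + (12 * ck + 2 * 2 ^ κ + 35 + κ + ck * κ), fun c τ hc => ?_⟩
  have := Nat.le_mul_of_pos_right (12 * ck + 2 * 2 ^ κ + 35 + κ + ck * κ) hc
  simp only [Lo.σ, Lo.pt, Lo.pE, Lo.pA, Lo.pP, Lo.pR, Lo.pT, Lo.pK, Lo.pG, Lo.pV, Lo.u, Lo.M, Lo.k]
  linarith

end Vale.Agent.P330.Amp
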