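import Vale.Agent.P330.Prog
import Vale.Agent.P330.InstPT

/-! The programs are computed in polynomial time (task ProgPT).
Plan. Constructors of `Cond`, `Ins` by `PT.of_enc`; one lemma for each program scheme (`sweep` with a map
`m e` given by a test, `bitsOf`, `stages`, `san`, `plBin`, `plBc`, `plMg`, `wsort`, `sb`, `tick`, `swaps`,
`dW`, `addMul`, `addL`, `gam`, `piW`) with `PT.map`, `pt_flatMap`, `PU.range`; widths must be bounded
in unary (`List.range' p w = (range w).map (p + ·)`). The recursive programs `cascade`, `mgs`, `sans`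
are rewritten as `flatMap` over `range l.length` with `take`/`drop`. -/

namespace Vale.Agent.P330.Amp

open Vale.Agent.Lib.H23 Vale.Agent.P333 Vale.Agent.P325 Finset Matrix
open scoped BigOperators

variable {X : Type} [Enc X]

/-! ### constructors -/

theorem pp_eq {p w v : X → ℕ} (hp : PT p) (hw : PT w) (hv : PT v) :
    PT fun x => Cond.eq (p x) (w x) (v x) :=
  ((PT.const 0).pair (hp.pair (hw.pair hv))).of_enc fun _ => rfl

theorem pp_orc {n : X → ℕ} (hn : PT n) : PT fun x => Cond.orc (n x) :=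
  ((PT.const 1).pair (hn.pair ((PT.const 0).pair (PT.const 0)))).of_enc fun _ => rfl

theorem pp_cell {kd : X → Kind} {p1 w1 p2 w2 : X → ℕ} {c : X → Fin 4 → Cond}
    (hk : PT fun x => (⟨kd x⟩ : Code Kind)) (hp1 : PT p1) (hw1 : PT w1) (hp2 : PT p2)
    (hw2 : PT w2) (hc : PT c) : PT fun x => Ins.cell (kd x) (p1 x) (w1 x) (p2 x) (w2 x) (c x) :=
  ((PT.const 0).pair (hk.pair ((hp1.pair (hw1.pair (hp2.pair hw2))).pair
    (hc.pair (PT.const (Op.Tr 0)))))).of_enc fun _ => rfl

theorem pp_pur {j : X → ℕ} (hj : PT j) : PT fun x => Ins.pur (j x) :=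
  ((PT.const 1).pair ((PT.const (⟨.idle⟩ : Code Kind)).pair
    ((hj.pair (PT.const ((0, 0, 0) : ℕ × ℕ × ℕ))).pair
    ((PT.const nc).pair (PT.const (Op.Tr 0)))))).of_enc fun _ => rfl

theorem pp_cst {c : X → Cond} (hc : PT c) : PT fun x => (fun _ => c x : Fin 4 → Cond) :=
  pt_pi fun _ => hc

theorem pp_mov {o : X → Op} {c : X → Cond} (ho : PT o) (hc : PT c) :
    PT fun x => Ins.mov (o x) (c x) :=
  ((PT.const 2).pair ((PT.const (⟨.idle⟩ : Code Kind)).pair
    ((PT.const ((0, 0, 0, 0) : ℕ × ℕ × ℕ × ℕ)).pair ((pp_cst hc).pair ho)))).of_enc fun _ => rfl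

theorem pp_range' {p n : X → ℕ} (hp : PT p) (hn : PU n) : PT fun x => List.range' (p x) (n x) :=
  (PT.map (f := fun x i => p x + i) ((hp.comp PT.fst').add PT.snd') hn.range).congr fun _ =>
    List.range'_eq_map_range

theorem pp_single {Y : Type} [Enc Y] {a : X → Y} (ha : PT a) : PT fun x => [a x] :=
  ha.cons (PT.const [])

/-! ### dimensions -/

/-- lists of dimensions of bounded width. -/
def PD (κ : ℕ) (ds : X → List Dim) : Prop := PT ds ∧ ∀ x, ∀ e ∈ ds x, e.2.2 ≤ 2 ^ κ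

section dims

variable {κ : ℕ} {ds ds' : X → List Dim}

theorem PD.append (h : PD κ ds) (h' : PD κ ds') : PD κ fun x => ds x ++ ds' x :=
  ⟨h.1.append h'.1, fun x e he => (List.mem_append.1 he).elim (h.2 x e) (h'.2 x e)⟩

theorem PD.cons {p : X → ℕ} (hp : PT p) (m : Bool) {w : ℕ} (hw : w ≤ 2 ^ κ) (h : PD κ ds) :
    PD κ fun x => (m, p x, w) :: ds x :=
  ⟨((PT.const m).pair (hp.pair (PT.const w))).cons h.1, fun x e he => by
    rcases List.mem_cons.1 he with rfl | he
    · exact hw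
    · exact h.2 x e he⟩

theorem PD.nil : PD κ fun _ : X => [] := ⟨PT.const [], fun _ _ he => by simp at he⟩

theorem PD.comp {Y : Type} [Enc Y] (h : PD κ ds) {g : Y → X} (hg : PT g) :
    PD κ fun y => ds (g y) := ⟨h.1.comp hg, fun y => h.2 (g y)⟩

theorem PD.map {l : X → List ℕ} (hl : PT l) (m : Bool) (a : ℕ) {w : ℕ} (hw : w ≤ 2 ^ κ) :
    PD κ fun x => (l x).map fun p => (m, p + a, w) :=
  ⟨PT.map (f := fun _ p => ((m, p + a, w) : Dim))
    ((PT.const m).pair ((PT.snd'.add (PT.const a)).pair (PT.const w))) hl, fun x e he => by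
    obtain ⟨p, -, rfl⟩ := List.mem_map.1 he
    exact hw⟩

theorem PD.vd {l : X → List ℕ} (hl : PT l) : PD κ fun x => (l x).map (vd κ) :=
  PD.map hl false 0 Nat.lt_two_pow_self.le

theorem PD.md {l : X → List ℕ} (hl : PT l) : PD κ fun x => (l x).map (md κ) :=
  PD.map hl true 0 le_rfl

theorem PD.cv {v : X → ℕ} (hv : PT v) (h : PD κ ds) : PD κ fun x => (false, v x, κ) :: ds x :=
  h.cons hv false Nat.lt_two_pow_self.le

theorem PD.cp {l : X → List (ℕ × ℕ)} (hl : PT l) : PD κ fun x => cp κ (l x) :=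
  ⟨pt_flatMap (f := fun _ (a : ℕ × ℕ) => [Amp.vd κ a.2, ((false, a.1 + κ, 2 ^ κ - κ) : Dim)])
    (((PD.nil.cons (PT.snd'.fst.add (PT.const κ)) false (Nat.sub_le _ _)).cv PT.snd'.snd).1) hl,
    fun x e he => by
    obtain ⟨a, -, he⟩ := List.mem_flatMap.1 he
    simp only [List.mem_cons, List.not_mem_nil, or_false] at he
    rcases he with rfl | rfl
    · exact Nat.lt_two_pow_self.le
    · exact Nat.sub_le _ _⟩

theorem PD.bits (h : PD κ ds) : PT fun x => bitsOf (ds x) := by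
  refine (pt_flatMap (f := fun _ (e : Dim) => List.range' e.2.1 (min e.2.2 (2 ^ κ)))
    (pp_range' PT.snd'.snd.fst ((PU.const (2 ^ κ)).of_le (pt_min PT.snd'.snd.snd (PT.const _))
      fun _ => min_le_right _ _)) h.1).congr fun x => ?_
  exact List.flatMap_congr fun e he => by rw [min_eq_left (h.2 x e he)]

end dims

/-! ### program schemes -/

section mac

variable {κ : ℕ} {ds : X → List Dim} {u v : X → ℕ}

theorem pp_sweep {m : X → Dim → Fin 3} (hm : PT fun p : X × Dim => (⟨m p.1 p.2⟩ : Code (Fin 3)))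
    (hd : PT ds) : PT fun x => sweep (m x) (ds x) :=
  PT.map (f := fun x (e : Dim) => Ins.cell (.dec (if e.1 then m x e else 0)) e.2.1 e.2.2 0 0 nc)
    (pp_cell (pt_mk2 (fun (b : Bool) (k : Fin 3) => Kind.dec (if b then k else 0))
      (pt_codeBool PT.snd'.fst) hm) PT.snd'.snd.fst PT.snd'.snd.snd (PT.const 0) (PT.const 0)
      (PT.const nc)) hd

theorem pp_stages {bs : X → List ℕ} (hb : PT bs) : PT fun x => stages (bs x) := by
  have h1 : PT fun p : (X × ℕ) × ℕ => bs p.1.1 := hb.comp PT.fst'.fst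
  have h2 : PT fun p : (X × ℕ) × ℕ => p.1.2 + 1 := PT.fst'.snd.add (PT.const 1)
  refine (pt_flatMap (f := fun x i => ((List.range (bs x).length).take (i + 1)).reverse.map fun j =>
      ((bs x).getD j 0, if i + 1 < (bs x).length then Cond.eq ((bs x).getD (i + 1) 0) 1 1
        else Cond.ff))
    (PT.map (f := fun (p : X × ℕ) j => ((bs p.1).getD j 0, if p.2 + 1 < (bs p.1).length then
        Cond.eq ((bs p.1).getD (p.2 + 1) 0) 1 1 else Cond.ff))
      ((h1.getD PT.snd' (PT.const 0)).pair (pt_ite (pt_decLt h2 h1.length)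
        (pp_eq (h1.getD h2 (PT.const 0)) (PT.const 1) (PT.const 1)) (PT.const _)))
      (pt_take (PT.snd'.add (PT.const 1)) (pt_rangeLen (hb.comp PT.fst'))).reverse)
    (pt_rangeLen hb)).congr fun x => ?_
  refine List.flatMap_congr fun i hi => ?_
  rw [List.take_range, min_eq_left (Nat.succ_le_of_lt (List.mem_range.1 hi))]

theorem pp_san (hu : PU u) (hv : PT v) (hd : PD κ ds) : PT fun x => san κ (u x) (v x) (ds x) := by
  have h1 := hd.cv hv
  refine ((((((pp_sweep (m := fun _ _ => 1) (PT.const _) h1.1).append (PT.const _)).append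
    (PT.map (f := fun _ (e : Dim) => Ins.cell (.test e.1) e.2.1 e.2.2 0 0 nc) ?_ h1.1)).append
    (PT.map (f := fun _ j => Ins.pur (j + 2)) ?_ hu.range)).append
    (PT.map (f := fun _ (s : ℕ × Cond) => Ins.cell .cmpB s.1 1 0 0 fun _ => s.2) ?_
      (pp_stages (h1.bits.append (pp_range' (PT.const 2) hu))))).append (pp_single ?_))
  · exact pp_cell (pt_mk Kind.test (pt_codeBool PT.snd'.fst)) PT.snd'.snd.fst PT.snd'.snd.snd
      (PT.const 0) (PT.const 0) (PT.const nc)
  · exact pp_pur (PT.snd'.add (PT.const 2))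
  · exact pp_cell (PT.const _) PT.snd'.fst (PT.const 1) (PT.const 0) (PT.const 0)
      (pp_cst PT.snd'.snd)
  · exact pp_cell (PT.const _) (PT.const 2) (PT.const _) hv (PT.const _) (PT.const nc)

theorem pp_plBin (hu : PU u) (hv : PT v) (hd : PD κ ds) (g : Bool) {j : X → ℕ} (hj : PT j)
    {c : X → Fin 4 → Cond} (hc : PT c) : PT fun x => plBin κ (u x) (v x) (ds x) g (j x) (c x) :=
  (pp_san hu hv hd).append (pp_single (pp_cell (PT.const _) hj (PT.const 1) hv (PT.const _) hc))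

theorem pp_plBc (hu : PU u) (hv : PT v) (hd : PD κ ds) {m : X → Bool} (hm : PT m) {q : X → ℕ}
    (hq : PT q) {c : X → Cond} (hc : PT c) :
    PT fun x => plBc κ (u x) (v x) (ds x) (m x) (q x) (c x) :=
  (pp_san hu hv hd).append (pp_single (pp_cell (pt_mk Kind.bc (pt_codeBool hm)) hq (PT.const _) hv
    (PT.const _) (pp_cst hc)))

theorem pp_plMg (hu : PU u) (hv : PT v) {a : X → ℕ} (ha : PT a) (hd : PD κ ds) :
    PT fun x => plMg κ (u x) (v x) (a x) (ds x) :=
  (pp_san hu hv (hd.cons (ha.add (PT.const κ)) false (Nat.sub_le _ _))).append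
    (pp_single (pp_cell (PT.const _) ha (PT.const _) (PT.const 0) (PT.const 0) (PT.const nc)))

theorem pp_wsort (hu : PU u) (hv : PT v) (hd : PD κ ds) {bs : X → List ℕ} (hb : PT bs) :
    PT fun x => wsort κ (u x) (v x) (ds x) (bs x) :=
  pt_flatMap (f := fun x (s : ℕ × Cond) => plBin κ (u x) (v x) (ds x) false s.1 fun _ => s.2)
    (pp_plBin (hu.comp PT.fst') (hv.comp PT.fst') (hd.comp PT.fst') false PT.snd'.fst
      (pp_cst PT.snd'.snd)) (pp_stages hb)

theorem pp_sb (hu : PU u) (hv : PT v) (hd : PD κ ds) {qs : X → List ℕ} (hqs : PT qs) {q : X → ℕ}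
    (hq : PT q) {m : X → Bool} (hm : PT m) {c : X → Cond} (hc : PT c) :
    PT fun x => sb κ (u x) (v x) (ds x) (qs x) (q x) (m x) (c x) :=
  (pp_wsort hu hv hd (PD.vd (hqs.append (pp_single hq))).bits).append (pp_plBc hu hv hd hm hq hc)

end mac

/-! ### recursive programs -/

/-- one block for every entry, given the entries before and after it. -/
def spl3 {α β : Type} (d : α) (l : List α) (F : List α → α → List α → List β) : List β :=
  (List.range l.length).flatMap fun i => F (l.take i) (l.getD i d) (l.drop (i + 1))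

theorem spl3_cons {α β : Type} (d a : α) (l : List α) (F : List α → α → List α → List β) :
    spl3 d (a :: l) F = F [] a l ++ spl3 d l fun s => F (a :: s) := by
  simp [spl3, List.range_succ_eq_map, List.flatMap_map]

theorem pp_spl3 {α β : Type} [Enc α] [Enc β] (d : α) {l : X → List α} (hl : PT l)
    {F : X → List α → α → List α → List β}
    (hF : PT fun p : X × List α × α × List α => F p.1 p.2.1 p.2.2.1 p.2.2.2) :
    PT fun x => spl3 d (l x) (F x) := by
  have h : PT fun p : X × ℕ => l p.1 := hl.comp PT.fst'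
  exact pt_flatMap (f := fun x i => F x ((l x).take i) ((l x).getD i d) ((l x).drop (i + 1)))
    (hF.comp (PT.fst'.pair ((pt_take PT.snd' h).pair ((h.getD PT.snd' (PT.const d)).pair
      (PT.drop (PT.snd'.add (PT.const 1)) h))))) (pt_rangeLen hl)

theorem cascade_eq (κ u v : ℕ) (ds : List Dim) (qs : List ℕ) (q : ℕ) (c : Cond) (ps : List ℕ) :
    ∀ m, cascade κ u v ds qs q c m ps =
      spl3 0 ps fun s p r => sb κ u v ds (qs ++ r ++ [p]) q (m && s.isEmpty) c := by
  induction ps with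
  | nil => intro m; rfl
  | cons p ps ih => intro m; rw [spl3_cons, cascade, ih]; simp

theorem mgs_eq (κ u : ℕ) (l : List (ℕ × ℕ)) : ∀ ds, mgs κ u ds l = spl3 (0, 0) l fun s a r =>
    plMg κ u a.2 a.1 (cp κ r ++ ((s.map Prod.fst).reverse.map (md κ) ++ ds)) := by
  induction l with
  | nil => intro ds; rfl
  | cons a l ih => intro ds; rw [spl3_cons, mgs, ih]; simp

theorem sans_eq (κ u : ℕ) (ds : List Dim) (l : List ℕ) :
    sans κ u ds l = spl3 0 l fun _ v r => san κ u v (r.map (vd κ) ++ ds) := by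
  induction l with
  | nil => rfl
  | cons a l ih => rw [spl3_cons, sans, ih]

section rec

variable {κ : ℕ} {ds : X → List Dim} {u v : X → ℕ}

theorem pp_group (hu : PU u) (hv : PT v) (hd : PD κ ds) {qs ps : X → List ℕ} (hqs : PT qs)
    {q : X → ℕ} (hq : PT q) (hps : PT ps) (c : Cond) :
    PT fun x => group κ (u x) (v x) (ds x) (qs x) (q x) (ps x) c := by
  refine PT.append ((pp_spl3 0 hps (F := fun x s p r =>
    sb κ (u x) (v x) (ds x) (qs x ++ r ++ [p]) (q x) (true && s.isEmpty) c) ?_).congr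
      fun x => cascade_eq _ _ _ _ _ _ _ _ _)
    (pt_flatMap (f := fun x q' => sb κ (u x) (v x) (ds x) [] q' false c) ?_ (hq.cons hqs))
  · exact pp_sb (hu.comp PT.fst') (hv.comp PT.fst') (hd.comp PT.fst')
      (((hqs.comp PT.fst').append PT.snd'.snd.snd).append (pp_single PT.snd'.snd.fst))
      (hq.comp PT.fst') ((PT.const true).and PT.snd'.fst.isEmpty) (PT.const c)
  · exact pp_sb (hu.comp PT.fst') (hv.comp PT.fst') (hd.comp PT.fst') (PT.const []) PT.snd'
      (PT.const false) (PT.const c)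

theorem pp_mgs (hu : PU u) (hd : PD κ ds) {l : X → List (ℕ × ℕ)} (hl : PT l) :
    PT fun x => mgs κ (u x) (ds x) (l x) := by
  refine (pp_spl3 (0, 0) hl (F := fun x s a r => plMg κ (u x) a.2 a.1
    (cp κ r ++ ((s.map Prod.fst).reverse.map (md κ) ++ ds x))) ?_).congr fun x => mgs_eq _ _ _ _
  exact pp_plMg (hu.comp PT.fst') PT.snd'.snd.fst.snd PT.snd'.snd.fst.fst
    ((PD.cp PT.snd'.snd.snd).append ((PD.md (PT.map (f := fun _ (a : ℕ × ℕ) => a.1) PT.snd'.fst
      PT.snd'.fst).reverse).append (hd.comp PT.fst')))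

theorem pp_sans (hu : PU u) (hd : PD κ ds) {l : X → List ℕ} (hl : PT l) :
    PT fun x => sans κ (u x) (ds x) (l x) := by
  refine (pp_spl3 0 hl (F := fun x _ v r => san κ (u x) v (r.map (vd κ) ++ ds x)) ?_).congr
    fun x => sans_eq _ _ _ _
  exact pp_san (hu.comp PT.fst') PT.snd'.snd.fst
    ((PD.vd PT.snd'.snd.snd).append (hd.comp PT.fst'))

theorem pp_split (hd : PD κ ds) {es : X → List ℕ} (he : PT es) :
    PT fun x => split κ (es x) (ds x) := by
  refine pp_sweep (m := fun x e => if e.2.1 ∈ es x then 2 else 1) ?_ ((PD.md he).append hd).1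
  refine (pt_mk (fun b : Bool => if b then (2 : Fin 3) else 1) (pt_codeBool
    (PT.any (f := fun (p : X × Dim) a => decide (p.2.2.1 = a)) (pt_decEq PT.fst'.snd.snd.fst PT.snd')
      (he.comp PT.fst')))).congr fun p => ?_
  by_cases h : p.2.2.1 ∈ es p.1 <;> simp [h]

theorem pp_tick {p : X → ℕ} (hp : PT p) (hu : PU u) : PT fun x => tick (p x) (u x) :=
  PT.map (f := fun x i => Ins.cell .flip (p x + i) 1 0 0 fun _ => .eq (p x) i 0)
    (pp_cell (PT.const _) ((hp.comp PT.fst').add PT.snd') (PT.const 1) (PT.const 0) (PT.const 0)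
      (pp_cst (pp_eq (hp.comp PT.fst') PT.snd' (PT.const 0)))) hu.range

theorem pp_swaps {a e : X → ℕ} (ha : PT a) (he : PT e) (hu : PU u) :
    PT fun x => swaps (a x) (e x) (u x) :=
  PT.map (f := fun x i => Ins.cell .swp (a x + i) 1 (e x + i) 1 nc)
    (pp_cell (PT.const _) ((ha.comp PT.fst').add PT.snd') (PT.const 1)
      ((he.comp PT.fst').add PT.snd') (PT.const 1) (PT.const nc)) hu.range

end rec

/-! ### words of moves -/

theorem pp_mv {ms : X → List Mv} (h : PT ms) : PT fun x => mv (ms x) :=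
  PT.map (f := fun _ (m : Mv) => Ins.mov m.1 m.2) (pp_mov PT.snd'.fst PT.snd'.snd) h

theorem pp_dW {l h : X → ℕ} (hl : PT l) (hh : PT h) : PT fun x => dW (l x) (h x) :=
  ((pt_opE hl hh 1).pair (PT.const _)).cons (((pt_opE hh hl 2).pair (PT.const _)).cons
    (((pt_opE hl hh 1).pair (PT.const _)).cons (((pt_opE hl hh 0).pair (PT.const _)).cons
      (((pt_opE hh hl 0).pair (PT.const _)).cons (pp_single ((pt_opE hl hh 0).pair (PT.const _)))))))

theorem pp_addMul {l l' h n : X → ℕ} {q : X → ℕ → ℕ} (hl : PT l) (hl' : PT l') (hh : PT h)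
    (hq : PT fun p : X × ℕ => q p.1 p.2) (hn : PU n) :
    PT fun x => addMul (l x) (l' x) (h x) (q x) (n x) := by
  have h1 : PT fun p : X × ℕ => dW (l' p.1) (h p.1) := (pp_dW hl' hh).comp PT.fst'
  exact (pt_flatMap (f := fun x s => ((.E (l x) (l' x) 0, .eq (q x s) 1 1) : Mv) ::
    (dW (l' x) (h x)).reverse) ((((pt_opE hl hl' 0).comp PT.fst').pair
      (pp_eq hq (PT.const 1) (PT.const 1))).cons h1.reverse) hn.range).append
    (pt_flatMap (f := fun x _ => dW (l' x) (h x)) h1 hn.range)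

theorem pp_addL {b n : X → ℕ} {q : X → ℕ → ℕ} (hb : PU b) (hq : PT fun p : X × ℕ => q p.1 p.2)
    (hn : PU n) : PT fun x => addL (b x) (q x) (n x) := by
  have h1 : PT fun p : X × ℕ => b p.1 := hb.pt.comp PT.fst'
  exact pt_flatMap (f := fun x l => addMul l (if l = 0 then b x else l - 1) (b x + 1) (q x) (n x))
    (pp_addMul (q := fun p : X × ℕ => q p.1) PT.snd'
      (pt_ite (pt_decEq PT.snd' (PT.const 0)) h1 (PT.snd'.sub (PT.const 1))) (h1.add (PT.const 1))
      (hq.comp (PT.fst'.fst.pair PT.snd')) (hn.comp PT.fst'))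
    (hb.range.reverse.append (pp_range' (PT.const 1)
      (hb.of_le (hb.pt.sub (PT.const 1)) fun _ => Nat.sub_le _ _)))

theorem pp_stepOp {l : X → ℕ} (hl : PT l) (i : ℕ) : PT fun x => stepOp (l x) i := by
  have h1 := hl.add (PT.const 1)
  unfold stepOp
  split_ifs
  · exact pt_opE hl h1 _
  · exact pt_opE h1 hl _
  · exact pt_opN hl
  · exact pt_opN h1
  · exact PT.const _

theorem pp_gam {b : X → ℕ} {ks : X → List ℕ} (hb : PT b) (hk : PT ks) :
    PT fun x => gam (b x) (ks x) :=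
  pt_flatMap (f := fun x p => (List.range 16).map fun s => ((stepOp (b x) s, .eq p 5 s) : Mv))
    (pt_mapConst _ fun s => (pp_stepOp (hb.comp PT.fst') s).pair
      (pp_eq PT.snd' (PT.const 5) (PT.const s))) hk

theorem pp_ocode {o : X → Op} (ho : PT o) : PT fun x => ocode (o x) := by
  have h := pt_data ho
  exact (pt_pair h.fst ((pt_pair h.snd.fst ((pt_pair h.snd.snd.fst ((pt_pair h.snd.snd.snd
    (PT.const 0)).add (PT.const 1))).add (PT.const 1))).add (PT.const 1))).add (PT.const 1)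

theorem pp_piW {b : X → ℕ} (hb : PU b) : PT fun x => piW (b x) := by
  refine PT.map (f := fun _ o => ((o, .orc (ocode o + 5)) : Mv))
    (PT.snd'.pair (pp_orc ((pp_ocode PT.snd').add (PT.const 5)))) (PT.append ?_ ?_)
  · exact pt_flatMap (f := fun x l => (List.range (b x)).flatMap fun l' =>
      (List.finRange 7).map (Op.E l l')) (pt_flatMap (f := fun (p : X × ℕ) l' =>
        (List.finRange 7).map (Op.E p.2 l')) (pt_mapConst _ fun ρ => pt_opE PT.fst'.snd PT.snd' ρ)
        (hb.comp PT.fst').range) hb.range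
  · exact PT.map (f := fun _ l => Op.N l) (pt_opN PT.snd') hb.range

/-! ### the layout -/

variable (κ ck : ℕ) {c τ b : X → ℕ} (hc : PU c) (hτ : PU τ)

section lay

include hc

theorem pu_u : PU fun x => (Lo.mk κ (c x) ck (τ x)).u :=
  (((PU.const 12).mul ((((PU.const 6).mul hc).add (PU.const ck)).add (PU.const 2))).add
    (PU.const (2 * 2 ^ κ))).add (PU.const 8)

theorem pu_pV : PU fun x => (Lo.mk κ (c x) ck (τ x)).pV := (pu_u κ ck hc).add (PU.const 2)

theorem pu_pG : PU fun x => (Lo.mk κ (c x) ck (τ x)).pG := (pu_pV κ ck hc).add (PU.const κ)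

theorem pu_pT0 : PU fun x => (Lo.mk κ (c x) ck (τ x)).pK ck :=
  ((pu_pG κ ck hc).add (PU.const 1)).add (PU.const (ck * κ))

theorem pu_pR0 : PU fun x => (Lo.mk κ (c x) ck (τ x)).pT (c x) :=
  (pu_pT0 κ ck hc).add (hc.mul (PU.const κ))

theorem pu_pP0 : PU fun x => (Lo.mk κ (c x) ck (τ x)).pR (c x) :=
  (pu_pR0 κ ck hc).add (hc.mul (PU.const κ))

theorem pu_pA0 : PU fun x => (Lo.mk κ (c x) ck (τ x)).pP (2 * c x) :=
  (pu_pP0 κ ck hc).add (((PU.const 2).mul hc).mul (PU.const κ))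

theorem pu_pE0 : PU fun x => (Lo.mk κ (c x) ck (τ x)).pA (c x) :=
  (pu_pA0 κ ck hc).add (hc.mul (PU.const (2 ^ κ)))

theorem pu_pt : PU fun x => (Lo.mk κ (c x) ck (τ x)).pt :=
  (pu_pE0 κ ck hc).add (hc.mul (PU.const (2 ^ κ)))

omit hc in
theorem pp_lin {a : X → ℕ} (ha : PU a) (w : ℕ) : PT fun p : X × ℕ => a p.1 + p.2 * w :=
  (ha.pt.comp PT.fst').add (PT.snd'.mul (PT.const w))

theorem pp_Ks : PT fun x => (Lo.mk κ (c x) ck (τ x)).Ks :=
  PT.map (pp_lin ((pu_pG κ ck hc).add (PU.const 1)) κ) (PT.const (List.range ck))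

theorem pp_Rs : PT fun x => (Lo.mk κ (c x) ck (τ x)).Rs := PT.map (pp_lin (pu_pR0 κ ck hc) κ) hc

theorem pp_Ps : PT fun x => (Lo.mk κ (c x) ck (τ x)).Ps :=
  PT.map (pp_lin (pu_pP0 κ ck hc) κ) ((PU.const 2).mul hc)

theorem pp_As : PT fun x => (Lo.mk κ (c x) ck (τ x)).As :=
  PT.map (pp_lin (pu_pA0 κ ck hc) (2 ^ κ)) hc

theorem pp_Es : PT fun x => (Lo.mk κ (c x) ck (τ x)).Es :=
  PT.map (pp_lin (pu_pE0 κ ck hc) (2 ^ κ)) hc

theorem pp_rows : PT fun x => (Lo.mk κ (c x) ck (τ x)).rows :=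
  PT.map ((pp_lin (pu_pA0 κ ck hc) (2 ^ κ)).pair (pp_lin (pu_pT0 κ ck hc) κ)) hc

theorem pp_qs : PT fun x => (Lo.mk κ (c x) ck (τ x)).qs :=
  (((PT.map (pp_lin (pu_pT0 κ ck hc) κ) (pp_range' (PT.const 1)
    (hc.of_le (hc.pt.sub (PT.const 1)) fun _ => Nat.sub_le _ _))).append (pp_Es κ ck hc)).append
    (pp_Ks κ ck hc)).append (pp_Rs κ ck hc)

theorem pd_base : PD κ fun x => (Lo.mk κ (c x) ck (τ x)).base :=
  ((PD.md (pp_Es κ ck hc)).append (PD.vd (pp_Rs κ ck hc))).append (PD.nil.cv (pu_pV κ ck hc).pt)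

theorem pd_dW : PD κ fun x => (Lo.mk κ (c x) ck (τ x)).dW :=
  (PD.md (pp_As κ ck hc)).append (PD.map (pp_Es κ ck hc) false κ (Nat.sub_le _ _))

omit hc in
theorem pp_q {a : X → ℕ} (ha : PU a) :
    PT fun p : X × ℕ => a p.1 + p.2 / κ * 2 ^ κ + p.2 % κ :=
  ((ha.pt.comp PT.fst').add ((PT.snd'.div (PT.const κ)).mul (PT.const _))).add
    (pt_mod PT.snd' (PT.const κ))

end lay

include hc hτ

theorem pu_sigma : PU fun x => (Lo.mk κ (c x) ck (τ x)).σ := (pu_pt κ ck hc).add hτ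

theorem pt_prog (hb : PU b) : PT fun x => (Lo.mk κ (c x) ck (τ x)).prog (b x) := by
  have hu := pu_u κ ck (τ := τ) hc
  have hV := (pu_pV κ ck (τ := τ) hc).pt
  have hT : PT fun x => (Lo.mk κ (c x) ck (τ x)).pT 0 :=
    (pu_pT0 κ ck hc).pt.add (PT.const (0 * κ))
  have hg := pp_gam hb.pt (pp_Ks κ ck (τ := τ) hc)
  have hp := pp_piW hb
  have hn : PU fun x => c x * κ := hc.mul (PU.const κ)
  have hW := pd_dW κ ck (τ := τ) hc
  have hR := pp_Rs κ ck (τ := τ) hc
  have hq := pp_qs κ ck (τ := τ) hc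
  refine PT.append (PT.append (PT.append (PT.append (PT.append (PT.append (PT.append (PT.append
    (pp_tick (pu_pt κ ck hc).pt hτ) (pp_mv ?_)) ?_) ?_) (pp_mv ?_)) ?_) ?_) ?_) ?_
  · exact (hg.append hp).append (pp_addL hb (pp_q κ (pu_pA0 κ ck hc)) hn)
  · exact pp_mgs hu (pd_base κ ck hc) (pp_rows κ ck hc)
  · exact pp_split (((PD.md (pp_As κ ck hc)).append (PD.vd hR)).append (PD.nil.cv hV))
      (pp_Es κ ck hc)
  · exact (((hp.append hg.reverse).append (pp_addL hb (pp_q κ (pu_pE0 κ ck hc)) hn)).append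
      hg).append hp
  · exact pp_sans hu (hW.cv hV) hR
  · exact pp_group hu hV hW hq hT (pp_Ps κ ck hc) _
  · exact pp_plBin hu hV ((PD.vd (hT.cons hq)).append hW) true (pu_pG κ ck hc).pt (PT.const _)
  · exact pp_swaps ((pu_pA0 κ ck hc).pt.add (PT.const (0 * 2 ^ κ)))
      ((pu_pE0 κ ck hc).pt.add (PT.const (0 * 2 ^ κ))) (hc.mul (PU.const (2 ^ κ)))

theorem pt_dprog : PT fun x => (Lo.mk κ (c x) ck (τ x)).dprog :=
  have _ := hτ
  pp_sweep (m := fun _ _ => 1) (PT.const _) (((PD.vd ((pp_As κ ck hc).append (pp_Ks κ ck hc))).append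
    ((PD.cp (pp_rows κ ck hc)).append (pd_base κ ck hc))).cons (pu_pG κ ck hc).pt false
      Nat.one_le_two_pow).1

omit hτ in
theorem pt_addL (hb : PU b) : PT fun x => addL (b x) id (c x) :=
  pp_addL (q := fun _ => id) hb PT.snd' hc

end Vale.Agent.P330.Amp
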