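import Vale.Agent.P330.Stmt
import Vale.Agent.P325.PTF

/-! Pure circuits (four valued semantics) and the two route independent ends of the proof:
exact hardness (`HardStmt`) and the passage to generalized circuits (`FinalStmt`). -/

namespace Vale.Agent.P330

open Vale.Agent.Lib.H23 Enc Turing

/-- numbers of a Boolean gate -/
def BGate.nums : BGate → List ℕ
  | .and a b => [0, a, b]
  | .or a b => [1, a, b]
  | .not a => [2, a]

instance : Enc BGate := ⟨fun g => enc g.nums⟩
instance : Enc BCircuit := ⟨fun C => enc (C.gates, C.outs)⟩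
instance : Enc EOL := ⟨fun I => enc (I.S, I.P)⟩
instance : Enc ℚ := ⟨fun q => enc (q.num, q.den)⟩
instance : Enc GGate := ⟨fun g => enc g.data⟩
instance : Enc GCircuit := ⟨fun G => enc (G.nodes, G.gates)⟩

/-- A pure circuit: entry number `z` is `(kind, a, b)` and is the gate with output node `z`;
kind `0` is `Nor a b`, kind `1` is `Up a`, every other kind is `Down a`. -/
abbrev PC : Type := List (ℕ × ℕ × ℕ)

/-- Values: `0` pure false, `1` low garbage, `2` high garbage, `3` (or more) pure true.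
`ok k p q r`: a gate of kind `k` with input values `p`, `q` may output `r`. -/
def ok (k p q r : ℕ) : Prop :=
  if k = 0 then (p = 0 ∧ q = 0 → 3 ≤ r) ∧ (3 ≤ p ∨ 3 ≤ q → r = 0)
  else if k = 1 then (2 ≤ p → 3 ≤ r) ∧ (p = 0 → r = 0)
  else (3 ≤ p → 3 ≤ r) ∧ (p ≤ 1 → r = 0)

instance (k p q r : ℕ) : Decidable (ok k p q r) := by unfold ok; infer_instance

/-- nonempty, and all inputs are nodes -/
def PC.WF (C : PC) : Prop := C ≠ [] ∧ ∀ g ∈ C, g.2.1 < C.length ∧ g.2.2 < C.length

/-- the gate with output node `z` is satisfied by `x` -/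
def PC.OkAt (C : PC) (x : List ℕ) (z : ℕ) : Prop :=
  ok (C.getD z (0, 0, 0)).1 (x.getD (C.getD z (0, 0, 0)).2.1 0)
    (x.getD (C.getD z (0, 0, 0)).2.2 0) (x.getD z 0)

instance (C : PC) (x : List ℕ) (z : ℕ) : Decidable (C.OkAt x z) := by
  unfold PC.OkAt; infer_instance

/-- the number of violated gates -/
def PC.bad (C : PC) (x : List ℕ) : ℕ := (List.range C.length).countP fun z => decide (¬ C.OkAt x z)

/-- exact hardness of pure circuits -/
def HardStmt : Prop :=
  ∃ (R : EOL → PC) (D : EOL × List ℕ → List Bool), PT R ∧ PT D ∧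
    ∀ I : EOL, (R I).WF ∧ (I.Valid → ∀ x, (∀ z < (R I).length, (R I).OkAt x z) → I.Sol (D (I, x)))

/-- gap amplification for pure circuits -/
def AmpStmt : Prop :=
  ∃ (d : ℕ) (R : PC → PC) (D : PC × List ℕ → List ℕ), 0 < d ∧ PT R ∧ PT D ∧
    ∀ C : PC, C.WF → (R C).WF ∧
      ∀ x, d * (R C).bad x ≤ (R C).length → ∀ z < C.length, C.OkAt (D (C, x)) z

/-- the final statement -/
def Result : Prop :=
  ∃ (ε δ : ℚ) (p q : Polynomial ℕ) (R : EOL → GCircuit) (D : EOL × List ℚ → List Bool)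
    (MR : TM2ComputableInPolyTime codeEOL codeGC R)
    (MD : TM2ComputableInPolyTime (bPair codeEOL (bList bRat)) (bList bBool) D),
    0 < ε ∧ ε < 1 ∧ 0 < δ ∧ δ < 1 ∧ (∀ j, Finite (MR.tm.Γ j)) ∧ (∀ j, Finite (MD.tm.Γ j)) ∧
    ∀ I : EOL, I.Valid → (R I).Valid ∧ (codeGC (R I)).length ≤ q.eval (codeEOL I).length ∧
      (∃ x, (R I).Acceptable ε δ p x) ∧ ∀ x, (R I).Acceptable ε δ p x → I.Sol (D (I, x))

/-- every generalized circuit has an exact `ε`-solution on the grid with denominator `m` -/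
def ExistStmt : Prop :=
  ∀ (G : GCircuit) (m : ℕ), G.Valid → 16 ≤ m → ∃ y : ℕ → ℕ, (∀ v, y v ≤ m) ∧
    ∀ g ∈ G.gates, g.Sat (4 / m) fun v => (y v : ℚ) / m

/-- from pure circuits to generalized circuits -/
def FinalStmt : Prop := HardStmt → AmpStmt → Result

end Vale.Agent.P330
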