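import Vale.Agent.P330.BridgePT
import Vale.Agent.P330.ProgPT
import Vale.Agent.P330.ProgOk
import Vale.Agent.P330.Words

/-! The round and its decoder run in polynomial time (task RoundPT).
Plan. `2 ^ c ≤ 2 ^ β ≤ nA`, `sigma_le` give the unary bounds (`PU.of_le`, `PU.pow`). First `decI`
(trivial oracle, `pt_progInst`); it serves as the auxiliary instance for `pt_pull`:
`join (y + Lv b g n e j) jj = pullB _ _ (ofN n e) (addL b id n) (join y jj)` (`pull_addL`), and the number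
of the address `(fstB x, 0)` of the old instance is `idx (x, z) / 2 ^ σ' % 2 ^ (b β)`. `cfx` is the
parity of a `countP` over `range (2 ^ n)`; `orc0` by `pt_nop`, `pt_win`. Decoder: the table of the
last layer is a `drop`/`getD` of the list; `pt_run`; `fr` is a count divided by the number of
triples (`expect_addr`, `expect_vec`), `cls` compares natural numbers; `pt_mkAsg`. -/

namespace Vale.Agent.P330.Amp

open Vale.Agent.Lib.H23 Vale.Agent.P333 Vale.Agent.P325 Finset Matrix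
open scoped BigOperators

variable {X : Type} [Enc X]

/-! ### generic tools -/

theorem rp_dig {a q w : X → ℕ} (ha : PT a) (hq : PT q) (hw : PU w) :
    PT fun x => a x / 2 ^ q x % 2 ^ w x := by
  refine (pt_ofBits (f := fun x i => (a x).testBit (i + q x)) hw
    (pt_testBit (ha.comp PT.fst') (PT.snd'.add (hq.comp PT.fst')))).congr fun x => ?_
  rw [← Nat.ofBits_testBit]
  simp only [Nat.testBit_div_two_pow]

theorem rp_sum {n : X → ℕ} {f : X × ℕ → ℕ} (hn : PU n) (hf : PT f) :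
    PT fun x => ∑ i ∈ range (n x), f (x, i) :=
  (pt_sum (PT.map (f := fun x i => f (x, i)) hf hn.range)).congr fun _ => Multiset.sum_coe _

theorem rp_countP {n : X → ℕ} {f : X × ℕ → Bool} (hn : PU n) (hf : PT f) :
    PT fun x => (List.range (n x)).countP fun i => f (x, i) :=
  pt_countP (f := fun x i => f (x, i)) hf hn.range

theorem rp_ocode {o : X → Op} (ho : PT o) : PT fun x => ocode (o x) := by
  have hd := pt_data ho
  exact (pt_natL ([0, 1, 2, 3] : List (Fin 4))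
    (g := fun i x => ![(o x).data.1, (o x).data.2.1, (o x).data.2.2.1, (o x).data.2.2.2] i)
    fun i => pt_apply (pt_vec4 hd.fst hd.snd.fst hd.snd.snd.fst hd.snd.snd.snd) i).congr
      fun _ => rfl

theorem rp_aN {n a : ℕ} (h : a < 2 ^ n) : aN id n (ofN n a) = a := by
  conv_rhs => rw [← Nat.mod_eq_of_lt h, ← Nat.ofBits_testBit]
  refine congrArg Nat.ofBits (funext fun s => ?_)
  rw [fld_eq, toN_ofN, Nat.mod_eq_of_lt h, Nat.testBit_eq_decide_div_mod_eq]
  rfl

theorem rp_fst {b β σ σ0 : ℕ} (h : σ0 = 0) (a : Addr (b + 2) β σ) :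
    unidx b β σ0 (idx a / 2 ^ σ % 2 ^ (b * β)) = (fstB a.1, 0) := by
  subst h
  refine Prod.ext (funext fun l => funext fun i => ?_) (Subsingleton.elim _ _)
  have h1 : l * β + i < b * β := by
    have := Nat.mul_le_mul_right β (Nat.succ_le_of_lt l.2)
    have := i.2
    rw [Nat.succ_mul] at *
    omega
  conv_rhs => rw [← unidx_idx a]
  change b2 (Nat.testBit _ (0 + l * β + i)) = blk (unidx (b + 2) β σ (idx a)).1 l i
  rw [blk_of_lt _ (by omega), Nat.testBit_mod_two_pow, Nat.testBit_div_two_pow,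
    decide_eq_true (by omega), Bool.true_and]
  exact congrArg (fun j => b2 ((idx a).testBit j)) (by dsimp only; omega)

theorem rp_join {b β σ σ0 r my mj : ℕ} (h : σ0 = 0) (hr : r < 2 ^ σ) (hy : my < 2 ^ (b * β)) :
    unidx (b + 2) β σ (2 ^ σ * (2 ^ (b * β) * mj + my) + r) =
      (join (unidx b β σ0 my).1 (unidx 2 β 0 mj).1, ofN σ r) := by
  subst h
  refine Prod.ext (funext fun l => funext fun i => ?_) (funext fun i => ?_)
  · change b2 (Nat.testBit _ (σ + l * β + i)) = join _ _ l i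
    rw [Nat.testBit_two_pow_mul_add _ hr, if_neg (by omega), Nat.testBit_two_pow_mul_add _ hy, join]
    have hi := i.2
    by_cases hl : l.val < b
    · have := Nat.mul_le_mul_right β (Nat.succ_le_of_lt hl)
      rw [Nat.succ_mul] at this
      rw [if_pos (by omega), if_pos hl, blk_of_lt _ hl]
      exact congrArg (fun j => b2 (my.testBit j)) (by dsimp only; omega)
    · have h1 := Nat.mul_le_mul_right β (not_lt.1 hl)
      have h2 := l.2
      have h3 := Nat.sub_mul l.val b β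
      rw [if_neg (by omega), if_neg hl, blk_of_lt _ (show l.val - b < 2 by omega)]
      exact congrArg (fun j => b2 (mj.testBit j)) (by dsimp only; omega)
  · change b2 (Nat.testBit _ i) = b2 (r.testBit i)
    rw [Nat.testBit_two_pow_mul_add _ hr, if_pos i.2]

theorem rp_prod (f : ℕ → ℕ) (hf : ∀ d, f d < 2 ^ 1) (n : ℕ) :
    ∏ d ∈ range n, (f d : ZMod 2) = b2 ((List.range n).all fun d => decide (f d = 1)) := by
  induction n with
  | zero => rfl
  | succ n ih =>
    rw [prod_range_succ, ih, List.range_succ, List.all_append, List.all_cons, List.all_nil,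
      Bool.and_true]
    generalize ((List.range n).all fun d => decide (f d = 1)) = u
    have h := hf n
    generalize f n = v at h
    obtain rfl | rfl : v = 0 ∨ v = 1 := by omega
    · cases u <;> decide
    · cases u <;> decide

theorem rp_and (u : Bool) (y : ZMod 2) : b2 u * y = b2 (u && decide (y = 1)) := by
  revert u y
  decide

theorem rp_cls (a N : ℕ) (hN : 0 < N) : (cls (a / N) : ℕ) =
    if 10 * a ≤ 3 * N then 0 else if 2 * a < N then 1 else if 10 * a < 7 * N then 2 else 3 := by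
  have h0 : (0 : ℝ) < N := by exact_mod_cast hN
  have e1 : (a : ℝ) / N ≤ 3 / 10 ↔ 10 * a ≤ 3 * N := by
    rw [div_le_div_iff₀ h0 (by norm_num), mul_comm]
    exact_mod_cast Iff.rfl
  have e2 : (a : ℝ) / N < 1 / 2 ↔ 2 * a < N := by
    rw [div_lt_div_iff₀ h0 (by norm_num), mul_comm, one_mul]
    exact_mod_cast Iff.rfl
  have e3 : (a : ℝ) / N < 7 / 10 ↔ 10 * a < 7 * N := by
    rw [div_lt_div_iff₀ h0 (by norm_num), mul_comm]
    exact_mod_cast Iff.rfl
  simp only [cls, e1, e2, e3]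
  split_ifs <;> rfl

theorem rp_fin (n : ℕ) (f : ℕ → ℝ) : (𝔼 i : Fin n, f i) = (∑ i ∈ range n, f i) / n :=
  (avg_range' n f).symm.trans (avg_range n f)

theorem rp_big (β : ℕ) (f : Big 2 β → ℝ) :
    (𝔼 jj, f jj) = 𝔼 m : Fin (2 ^ (0 + 2 * β)), f (unidx 2 β 0 m).1 :=
  (Fintype.expect_equiv (Equiv.prodUnique (Big 2 β) (Vec 0)) (fun a => f a.1) f
    fun _ => rfl).symm.trans (expect_addr fun a : Addr 2 β 0 => f a.1)

theorem rp_count (J E P : ℕ) (o : ℕ → ℕ → ℕ → Bool) :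
    (𝔼 j : Fin J, 𝔼 e : Fin E, 𝔼 p : Fin P, ind (o j e p = true)) =
      ((∑ j ∈ range J, ∑ e ∈ range E, ∑ p ∈ range P, bif o j e p then 1 else 0 : ℕ) : ℝ) /
        (J * E * P : ℕ) := by
  have h0 : ∀ u : Bool, ind (u = true) = ((bif u then 1 else 0 : ℕ) : ℝ) := fun u => by
    cases u <;> simp [ind]
  rw [rp_fin J fun j => 𝔼 e : Fin E, 𝔼 p : Fin P, ind (o j e p = true),
    sum_congr rfl fun j _ => (rp_fin E fun e => 𝔼 p : Fin P, ind (o j e p = true)).trans
      (congrArg (· / (E : ℝ)) (sum_congr rfl fun e _ => rp_fin P fun p => ind (o j e p = true)))]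
  simp only [← sum_div, h0, Nat.cast_sum, Nat.cast_mul]
  rw [div_div, div_div]
  congr 1
  ring

/-- the standing assumptions. -/
structure RP (κ : ℕ) (G : X → Inst 2) (c : X → ℕ) : Prop where
  hκ : 6 ≤ κ
  hG : PT G
  hc : PT c
  hg : ∀ x, (G x).Good
  hσ : ∀ x, (G x).σ = 0
  hb : ∀ x, 1 ≤ (G x).b
  h1 : ∀ x, 1 ≤ c x
  h2 : ∀ x, c x ≤ (G x).β

/-- the layout. -/
abbrev loX (κ ck : ℕ) (G : X → Inst 2) (c : X → ℕ) (x : X) : Lo := ⟨κ, c x, ck, (G x).τ⟩

namespace RP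

variable {κ : ℕ} (ck : ℕ) {G : X → Inst 2} {c : X → ℕ} (R : RP κ G c)
include R

theorem comp {Y : Type} [Enc Y] {j : Y → X} (hj : PT j) :
    RP κ (fun y => G (j y)) fun y => c (j y) :=
  ⟨R.hκ, R.hG.comp hj, R.hc.comp hj, fun _ => R.hg _, fun _ => R.hσ _, fun _ => R.hb _,
    fun _ => R.h1 _, fun _ => R.h2 _⟩

theorem nA (x : X) : (G x).nA = 2 ^ ((G x).b * (G x).β) := by
  rw [Inst.nA, R.hσ, Nat.zero_add]

theorem puc : PU c := PU.of_le (pu_β R.hG) R.hc R.h2

theorem pu2β : PU fun x => 2 ^ (G x).β :=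
  PU.of_le (pu_nA R.hG) (pt_two_pow (pu_β R.hG)) fun x => by
    rw [R.nA]
    exact Nat.pow_le_pow_right two_pos (Nat.le_mul_of_pos_left _ (R.hb x))

theorem pu2c : PU fun x => 2 ^ c x :=
  PU.of_le R.pu2β (pt_two_pow R.puc) fun x => Nat.pow_le_pow_right two_pos (R.h2 x)

theorem puσ : PU fun x => (loX κ ck G c x).σ := pu_sigma κ ck R.puc (pu_τ R.hG)

theorem pun : PU fun x => (loX κ ck G c x).n := R.puc.mul (PU.const κ)

theorem pu2n : PU fun x => 2 ^ (loX κ ck G c x).n :=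
  PU.of_le (R.pu2c.pow κ) (pt_two_pow (R.pun ck)) fun _ => (pow_mul _ _ _).le

theorem puA : PU fun x => 2 ^ ((loX κ ck G c x).σ + ((G x).b + 2) * (G x).β) := by
  obtain ⟨C, hC⟩ := sigma_le κ ck
  refine PU.of_le (((pu_T R.hG).mul (R.pu2c.pow C)).mul ((pu_nA R.hG).mul (R.pu2β.pow 2)))
    (pt_two_pow ((R.puσ ck).add (((pu_b R.hG).add (PU.const 2)).mul (pu_β R.hG)))) fun x => ?_
  rw [R.nA, ← pow_mul, ← pow_mul, ← pow_add, ← pow_add, ← pow_add]
  have := hC (c x) (G x).τ (R.h1 x)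
  refine Nat.pow_le_pow_right two_pos ?_
  rw [Nat.add_mul, mul_comm (c x), mul_comm _ 2]
  exact Nat.add_le_add_right this _

theorem inst {prog : X → List Ins}
    {orc : (x : X) → Big ((G x).b + 2) (G x).β → ℕ → Vec (loX κ ck G c x).σ → Bool}
    (hp : PT prog) (hok : ∀ x, ∀ i ∈ prog x, i.ok κ (loX κ ck G c x).σ)
    (ho : PT fun p : X × ℕ × ℕ => orc p.1 (unidx _ _ (loX κ ck G c p.1).σ p.2.2).1 p.2.1
      (unidx ((G p.1).b + 2) (G p.1).β _ p.2.2).2) :
    PT fun x => progInst κ ((G x).b + 2) (G x).β (loX κ ck G c x).σ (G x).k0 (G x).gens (prog x)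
      (orc x) :=
  pt_progInst κ ((pu_b R.hG).add (PU.const 2)) (pu_β R.hG) (R.puσ ck) (pt_k0 R.hG)
    ((pt_gtab R.hG).congr fun _ => rfl) (R.puA ck) hp (fun x => by
      simp only [Lo.σ, Lo.pt, Lo.pE, Lo.pA, Lo.pP, Lo.pR, Lo.pT, Lo.pK, Lo.pG, Lo.pV]
      omega) hok (ho.comp (pt_val PT.id))

theorem dec : PT (β := Inst (WW κ)) fun x => decI (G x) (loX κ ck G c x) :=
  R.inst ck (orc := fun _ _ _ _ => false) (pt_dprog κ ck R.puc (pu_τ R.hG))
    (fun x => Lo.dprog_ok (loX κ ck G c x) R.hκ (R.h1 x)) (PT.const false)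

theorem pull {e m : X → ℕ} (he : PT e) (hm : PT m) :
    PT fun x => idx ((pullB (actB (G x).gens) (fun _ _ => false) (ofN (loX κ ck G c x).n (e x))
      (addL (G x).b id (loX κ ck G c x).n)
      (unidx ((G x).b + 2) (G x).β (loX κ ck G c x).σ (m x)).1,
        (unidx ((G x).b + 2) (G x).β (loX κ ck G c x).σ (m x)).2) :
          Addr ((G x).b + 2) (G x).β (loX κ ck G c x).σ) :=
  pt_pull (R.dec ck) (R.pun ck) he hm (pt_addL (R.pun ck) (pu_b R.hG))

theorem pull_eq (x : X) {e : ℕ} (he : e < 2 ^ (loX κ ck G c x).n) (y : Big (G x).b (G x).β)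
    (jj : Big 2 (G x).β) :
    pullB (actB (G x).gens) (fun _ _ => false) (ofN (loX κ ck G c x).n e)
      (addL (G x).b id (loX κ ck G c x).n) (join y jj) =
      join (y + Lv (G x).b ((G x).gens 1) (loX κ ck G c x).n e (jj 0)) jj := by
  rw [pull_addL (R.hg x).g0 (R.hg x).g12, rp_aN he]

theorem ppt : PT fun x => (loX κ ck G c x).pt := by
  have := R.hc
  simp only [Lo.pt, Lo.pE, Lo.pA, Lo.pP, Lo.pR, Lo.pT, Lo.pK, Lo.pG, Lo.pV, Lo.u, Lo.M, Lo.k]
  fun_prop

theorem ppG : PT fun x => (loX κ ck G c x).pG := by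
  have := R.hc
  simp only [Lo.pG, Lo.pV, Lo.u, Lo.M, Lo.k]
  fun_prop

theorem ppA {d : X → ℕ} (hd : PT d) : PT fun x => (loX κ ck G c x).pA (d x) := by
  have := R.hc
  simp only [Lo.pA, Lo.pP, Lo.pR, Lo.pT, Lo.pK, Lo.pG, Lo.pV, Lo.u, Lo.M, Lo.k]
  fun_prop

theorem ppP : PT fun x => (loX κ ck G c x).pP 0 := by
  have := R.hc
  simp only [Lo.pP, Lo.pR, Lo.pT, Lo.pK, Lo.pG, Lo.pV, Lo.u, Lo.M, Lo.k]
  fun_prop

omit R in
theorem dig {a d : X → ℕ} (ha : PT a) (hd : PT d) :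
    PT fun x => a x / (loX κ ck G c x).k ^ d x % (loX κ ck G c x).k :=
  (rp_dig ha ((PT.const κ).mul hd) (PU.const κ)).congr fun x => by
    rw [pow_mul]
    rfl

theorem small {m : X → ℕ} (hm : PT m) :
    PT fun x => toN (unidx ((G x).b + 2) (G x).β (loX κ ck G c x).σ (m x)).2 :=
  (pt_mod hm (pt_two_pow (R.puσ ck))).congr fun _ => toN_unidx_small _

theorem orc0 {z : (x : X) → Vec (loX κ ck G c x).σ} (hz : PT fun x => toN (z x)) {n : X → ℕ}
    (hn : PT n) : PT fun x => orc0 (G x) (loX κ ck G c x) (n x) (z x) := by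
  have ht := pt_fld hz (R.ppt ck) (pu_τ R.hG).pt
  have hi := pt_decEq (pt_fld hz (R.ppG ck) (PT.const 1)) (PT.const 1)
  have hw := pt_ite hi (pt_win R.hG ht (fun _ => fld_lt) 1) (pt_win R.hG ht (fun _ => fld_lt) 0)
  have ho := pt_ite hi (pt_nop R.hG ht (fun _ => fld_lt) 1) (pt_nop R.hG ht (fun _ => fld_lt) 0)
  refine (pt_ite (pt_decEq hn (PT.const 4)) hw
    (pt_decEq ((rp_ocode ho).add (PT.const 5)) hn)).congr fun x => ?_
  rw [Amp.orc0, Lo.gi, apply_ite ((G x).win _), apply_ite ((G x).nop _)]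

theorem lab {a m : X → ℕ} (ha : PT a) (hm : PT m) (i : Fin 4) :
    PT fun x => decide (anfc ((G x).lab (fld
      (unidx ((G x).b + 2) (G x).β (loX κ ck G c x).σ (m x)).2 (loX κ ck G c x).pt (G x).τ)
      (fstB (pullB (actB (G x).gens) (fun _ _ => false) (ofN (loX κ ck G c x).n (a x))
      (addL (G x).b id (loX κ ck G c x).n)
      (unidx ((G x).b + 2) (G x).β (loX κ ck G c x).σ (m x)).1), 0)) i = 1) := by
  have ht := pt_fld (R.small ck hm) (R.ppt ck) (pu_τ R.hG).pt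
  have hl := pt_lab R.hG ht (rp_dig (R.pull ck ha hm) (R.puσ ck).pt ((pu_b R.hG).mul (pu_β R.hG)))
    (fun _ => fld_lt) fun x => by
      rw [R.nA]
      exact Nat.mod_lt _ (by positivity)
  refine (pt_ofFin (fun f => decide (anfc f i = 1)) hl).congr fun x => ?_
  dsimp only
  rw [rp_fst (R.hσ x)]

theorem cfx {m : X → ℕ} (hm : PT m) (i : Fin 4) :
    PT fun x => decide (cfx (G x) (loX κ ck G c x)
      (unidx ((G x).b + 2) (G x).β (loX κ ck G c x).σ (m x)).1 i
      (unidx ((G x).b + 2) (G x).β (loX κ ck G c x).σ (m x)).2 = 1) := by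
  have R1 := R.comp (PT.fst' (β := ℕ))
  have R2 := R1.comp (PT.fst' (β := ℕ))
  have h1 := pt_decEq (pt_fld (R2.small ck (hm.comp PT.fst'.fst))
    ((R2.ppA ck PT.snd').add (dig ck (G := fun y : (X × ℕ) × ℕ => G y.1.1)
      (c := fun y => c y.1.1) (κ := κ) PT.fst'.snd PT.snd')) (PT.const 1)) (PT.const 1)
  have h2 := PT.all (f := fun (p : X × ℕ) (d : ℕ) => decide (fld
    (unidx ((G p.1).b + 2) (G p.1).β (loX κ ck G c p.1).σ (m p.1)).2 ((loX κ ck G c p.1).pA d +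
      p.2 / (loX κ ck G c p.1).k ^ d % (loX κ ck G c p.1).k) 1 = 1)) h1 R1.puc.range
  have h3 := h2.and (R1.lab ck PT.snd' (hm.comp PT.fst') i)
  refine (rp_countP (R.pu2n ck) h3).bodd.congr fun x => ip_dec ?_
  rw [← ip_parity, Amp.cfx]
  refine sum_congr rfl fun a ha => ?_
  rw [rp_prod _ fun _ => fld_lt, rp_and]
  generalize (unidx ((G x).b + 2) (G x).β (loX κ ck G c x).σ (m x)).1 = y
  conv_rhs => rw [← join_fst_snd y, R.pull_eq ck x (mem_range.1 ha), fstB_join]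
  rfl

theorem round : PT (β := Inst (WW κ)) fun x => roundI (G x) (loX κ ck G c x) := by
  refine R.inst ck (orc := fun x => orcR (G x) (loX κ ck G c x))
    (pt_prog κ ck R.puc (pu_τ R.hG) (pu_b R.hG))
    (fun x => Lo.prog_ok (loX κ ck G c x) R.hκ (R.h1 x) _) ?_
  have R1 := R.comp (PT.fst' (β := ℕ × ℕ))
  have hn : PT fun p : X × ℕ × ℕ => p.2.1 := PT.snd'.fst
  have hm : PT fun p : X × ℕ × ℕ => p.2.2 := PT.snd'.snd
  have h1 := pt_cases (k := fun p : X × ℕ × ℕ => Fin.ofNat 4 p.2.1)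
    (fun a => (pt_decEq (pt_mod hn (PT.const 4)) (PT.const (a : ℕ))).congr fun x =>
      decide_eq_decide.2 Fin.ext_iff) fun i => R1.cfx ck hm i
  refine (pt_ite (pt_decLt hn (PT.const 4)) h1 (R1.orc0 ck (R1.small ck hm) hn)).congr fun p => ?_
  rw [orcR]
  split_ifs with h
  · rw [show Fin.ofNat 4 p.2.1 = ⟨p.2.1, h⟩ from Fin.ext (Nat.mod_eq_of_lt h)]
  · rfl

theorem hpt {t p e : X → ℕ} (ht : PT t) (hp : PT p) (he : PT e) :
    PT fun x => toN ((loX κ ck G c x).hpt (t x) (p x) (e x)) := by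
  have R1 := R.comp (PT.fst' (β := ℕ))
  have u1 : PU fun x => (loX κ ck G c x).pt :=
    PU.of_le (R.puσ ck) (R.ppt ck) fun _ => Nat.le_add_right _ _
  have u2 : PU fun x => (loX κ ck G c x).pP 0 := PU.of_le u1 (R.ppP ck) fun x => by
    simp only [Lo.pt, Lo.pE, Lo.pA, Lo.pP]
    omega
  have u3 : PU fun x => (loX κ ck G c x).pA (c x) :=
    PU.of_le u1 (R.ppA ck R.hc) fun _ => Nat.le_add_right _ _
  have u4 : PU fun q : X × ℕ => q.2 % c q.1 :=
    PU.of_le R1.puc (pt_mod PT.snd' R1.hc) fun q => (Nat.mod_lt _ (R.h1 _)).le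
  have u5 : PU fun q : X × ℕ => e q.1 / (loX κ ck G c q.1).k ^ q.2 % (loX κ ck G c q.1).k :=
    PU.of_le (PU.const (2 ^ κ)) (dig ck (G := fun y : X × ℕ => G y.1)
      (c := fun y => c y.1) (κ := κ) (he.comp PT.fst') PT.snd')
      fun q => (Nat.mod_lt _ (Nat.two_pow_pos κ)).le
  have h1 := rp_sum R.puc (pt_two_pow
    (((u3.comp PT.fst').add (u4.mul (PU.const (2 ^ κ)))).add u5))
  refine (pt_mod ((((pt_two_pow u1).mul ht).add ((pt_two_pow u2).mul hp)).add h1)
    (pt_two_pow (R.puσ ck))).congr fun x => ?_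
  rw [Lo.hpt, toN_ofN]
  refine congrArg (fun y => (_ + y) % _) (sum_congr rfl fun i hi => ?_)
  rw [Nat.mod_eq_of_lt (mem_range.1 hi)]
  rfl

/-- the address of a replica. -/
theorem addr {t p e my mj : X → ℕ} (ht : PT t) (hp : PT p) (he : PT e) (hy : PT my) (hj : PT mj)
    (h : ∀ x, my x < (G x).nA) :
    PT fun x => idx ((pullB (actB (G x).gens) (fun _ _ => false) (ofN (loX κ ck G c x).n (e x))
      (addL (G x).b id (loX κ ck G c x).n)
      (join (unidx (G x).b (G x).β (G x).σ (my x)).1 (unidx 2 (G x).β 0 (mj x)).1),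
        (loX κ ck G c x).hpt (t x) (p x) (e x)) : Addr ((G x).b + 2) (G x).β (loX κ ck G c x).σ) := by
  refine (R.pull ck he (((pt_two_pow (R.puσ ck)).mul (((pt_two_pow ((pu_b R.hG).mul
    (pu_β R.hG))).mul hj).add hy)).add (R.hpt ck ht hp he))).congr fun x => ?_
  rw [rp_join (R.hσ x) (toN_lt _) (R.nA x ▸ h x), ofN_toN]

omit R [Enc X] in
theorem opin_eq (G : Inst 2) (L : Lo) (s : List ℕ) (a : Addr (G.b + 2) G.β L.σ) :
    opin G L (fun a => Fin.ofNat 4 (s.getD (idx a) 0)) a =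
      decide (((List.range (decI G L).nA).map fun m => ((decI G L).run L.dprog.length
        (fun a => Fin.ofNat 4 (s.getD (idx a) 0)) (unidx _ _ _ m) : ℕ)).getD (idx a) 0 = 3) := by
  have h : idx a < (decI G L).nA := idx_lt a
  rw [List.getD_eq_getElem _ _ (by simpa using h), List.getElem_map, List.getElem_range]
  refine decide_eq_decide.2 (Fin.ext_iff.trans ?_)
  rw [show unidx (decI G L).b (decI G L).β (decI G L).σ (idx a) = a from unidx_idx a]
  rfl

theorem cls {s : X → List ℕ} {t my : X → ℕ} (hs : PT s) (ht : PT t) (hy : PT my)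
    (h : ∀ x, my x < (G x).nA) :
    PT fun x => (cls (fr (G x) (loX κ ck G c x) (fun a => Fin.ofNat 4 ((s x).getD (idx a) 0)) (t x)
      (unidx (G x).b (G x).β (G x).σ (my x)).1) : ℕ) := by
  have hT := pt_run (R.dec ck) (pt_dprog κ ck R.puc (pu_τ R.hG)).length
    (fun x => (Nat.lt_size_self _).le) hs
  have j : PT fun q : ((X × ℕ) × ℕ) × ℕ => q.1.1.1 := PT.fst'.fst.fst
  have h1 := pt_decEq (PT.getD (hT.comp j) ((R.comp j).addr ck (ht.comp j) PT.snd' PT.fst'.snd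
    (hy.comp j) PT.fst'.fst.snd fun _ => h _) (PT.const 0)) (PT.const 3)
  have uP : PU fun x => 2 ^ (2 * (loX κ ck G c x).n) :=
    PU.of_le ((R.pu2n ck).pow 2) (pt_two_pow ((PU.const 2).mul (R.pun ck))) fun x => by
      rw [mul_comm, pow_mul]
  have uJ : PU fun x => 2 ^ (0 + 2 * (G x).β) :=
    PU.of_le (R.pu2β.pow 2) (pt_two_pow ((PU.const 0).add ((PU.const 2).mul (pu_β R.hG))))
      fun x => by rw [Nat.zero_add, mul_comm, pow_mul]
  have h2 := rp_sum (uP.comp PT.fst'.fst) (PT.cond h1 (PT.const 1) (PT.const 0))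
  have h3 := rp_sum ((R.pu2n ck).comp PT.fst') h2
  have h4 := rp_sum uJ h3
  have hN := (uJ.pt.mul (R.pu2n ck).pt).mul uP.pt
  refine (pt_ite (pt_decLe ((PT.const 10).mul h4) ((PT.const 3).mul hN)) (PT.const 0)
    (pt_ite (pt_decLt ((PT.const 2).mul h4) hN) (PT.const 1)
      (pt_ite (pt_decLt ((PT.const 10).mul h4) ((PT.const 7).mul hN)) (PT.const 2)
        (PT.const 3)))).congr fun x => ?_
  refine Eq.trans (congrArg (fun y => (Amp.cls y : ℕ)) ?_) (rp_cls _ _ (by positivity))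
  rw [fr, rp_big]
  refine (rp_count _ _ _ fun j e p => opin (G x) (loX κ ck G c x)
    (fun a => Fin.ofNat 4 ((s x).getD (idx a) 0))
    (join ((unidx (G x).b (G x).β (G x).σ (my x)).1 + Lv (G x).b ((G x).gens 1) (loX κ ck G c x).n e
      ((unidx 2 (G x).β 0 j).1 0)) (unidx 2 (G x).β 0 j).1, (loX κ ck G c x).hpt (t x) p e)).trans ?_
  refine congrArg (fun y : ℕ => (y : ℝ) / _) (sum_congr rfl fun j _ => sum_congr rfl fun e he =>
    sum_congr rfl fun p _ => ?_)
  dsimp only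
  rw [R.pull_eq ck x (mem_range.1 he), ← opin_eq]

end RP

variable (κ ck : ℕ) (hκ : 6 ≤ κ) {G : X → Inst 2} {c : X → ℕ} (hG : PT G) (hc : PT c)
  (hg : ∀ x, (G x).Good) (hσ : ∀ x, (G x).σ = 0) (hb : ∀ x, 1 ≤ (G x).b) (h1 : ∀ x, 1 ≤ c x)
  (h2 : ∀ x, c x ≤ (G x).β)
include hκ hG hc hg hσ hb h1 h2

theorem pt_roundI : PT (β := Inst (WW κ)) fun x => roundI (G x) ⟨κ, c x, ck, (G x).τ⟩ :=
  RP.round ck ⟨hκ, hG, hc, hg, hσ, hb, h1, h2⟩

theorem pt_decA : PT fun p : X × Asg => (G p.1).mkAsg (decA (G p.1) ⟨κ, c p.1, ck, (G p.1).τ⟩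
    ((roundI (G p.1) ⟨κ, c p.1, ck, (G p.1).τ⟩).val p.2)) := by
  have R : RP κ G c := ⟨hκ, hG, hc, hg, hσ, hb, h1, h2⟩
  refine pt_mkAsg (hG.comp PT.fst') ?_
  have j : PT fun q : {p : (X × Asg) × ℕ × ℕ // p.2.1 < 2 ^ (G p.1.1).τ ∧ p.2.2 < (G p.1.1).nA} =>
      q.1 := pt_val PT.id
  have R1 := R.comp j.fst.fst
  have hR := R1.round ck
  refine (R1.cls ck (PT.drop (((pu_T hR).pt.sub (PT.const 1)).mul (pu_nA hR).pt) j.fst.snd)
    j.snd.fst j.snd.snd fun q => q.2.2).congr fun q => ?_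
  refine congrArg (fun y => (cls (fr _ _ y _ _) : ℕ)) (funext fun a => ?_)
  rw [List.getD_eq_getElem?_getD, List.getElem?_drop, ← List.getD_eq_getElem?_getD]
  rfl

end Vale.Agent.P330.Amp
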