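import Vale.Agent.P330.NodeF
import Vale.Agent.P330.RoundPT

/-! Soundness of a round and the parameters (task Round).
Plan. `round_sound`: `trace_exists`; `decA G L x = T.dec`; for every `t`, `mu t ≤ 2 ^ (10 u) * 2 * 2 ^ τ θ`
(`expect_bt`, one term of an average of nonnegative numbers) `≤ 1/2000`; `node_sat` and `UnitStmt`
five times (`s = 1/1000`, `m = n`; `alpha g n a = alpha g k0 a` for `a < 2 ^ n`; `actB` is an
involution); average over `t` (`pr` permutes the times). `round`: take `ck` from `ExpStmt`,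
`κ = 100000` (keep it a variable: `obtain ⟨κ, hκ⟩ : ∃ κ, 100000 ≤ κ`, never evaluate powers),
`C0 = 12 * (ck + 2) + 2 * 2 ^ κ + 8`, `L = ⟨κ, C0 * c, ck, τ⟩`, so `u ≤ 73 C0 c`, `n = κ C0 c`,
`A = 800 * C0`; `length_prog`, `sigma_le`, `2 ^ size m ≤ 2 m + 1`; `C` large. -/

namespace Vale.Agent.P330.Amp

open Vale.Agent.Lib.H23 Vale.Agent.P325 Finset Matrix
open scoped BigOperators

variable {G : Inst 2} {L : Lo}

namespace RS

theorem alpha_eq {β : ℕ} (g : Mat β) {n k a : ℕ} (h : n ≤ k) (ha : a < 2 ^ n) :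
    alpha g n a = alpha g k a := by
  refine sum_subset (range_subset_range.2 h) fun s _ hs => ?_
  rw [mem_range, not_lt] at hs
  rw [Nat.testBit_lt_two_pow (ha.trans_le (Nat.pow_le_pow_right two_pos hs))]
  rfl

theorem expect_fst {α γ : Type} [Fintype α] [Fintype γ] [Nonempty γ] (f : α → ℝ)
    (g : α × γ → ℝ) (h : ∀ a, g a ≤ f a.1) : (𝔼 a, g a) ≤ 𝔼 a, f a := by
  rw [← univ_product_univ, expect_product]
  exact expect_le_expect fun a _ => expect_le univ_nonempty fun c _ => h (a, c)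

theorem expect_pr (L : Lo) (f : ℕ → ℝ) :
    (𝔼 t : Fin (2 ^ L.τ), f (L.pr t)) = 𝔼 t : Fin (2 ^ L.τ), f t := by
  have h0 := Nat.two_pow_pos L.τ
  have h1 : ∀ t < 2 ^ L.τ, (L.pr t + 1) % 2 ^ L.τ = t := fun t ht => by
    rw [Lo.pr, Nat.mod_add_mod, show t + 2 ^ L.τ - 1 + 1 = t + 2 ^ L.τ by omega,
      Nat.add_mod_right, Nat.mod_eq_of_lt ht]
  refine Fintype.expect_bijective (fun t : Fin (2 ^ L.τ) => (⟨L.pr t, Nat.mod_lt _ h0⟩ : Fin _))
    (Finite.injective_iff_bijective.1 fun t t' e => Fin.ext ?_) _ _ fun _ => rfl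
  have h2 : L.pr t = L.pr t' := congrArg Fin.val e
  rw [← h1 t t.2, h2, h1 t' t'.2]

theorem unit_bd (h : Ass G L) (hU : UnitStmt) {φ : Big G.b G.β → Vec G.β → ℝ} {μ : ℝ}
    (h1 : ∀ w j, 0 ≤ φ w j ∧ φ w j ≤ 1) (h2 : (𝔼 w, 𝔼 j, φ w j) ≤ μ) (h3 : μ ≤ 1 / 2000) :
    (𝔼 y, ind (¬ lk G L φ y < 1 / 1000)) ≤ 4 * 10 ^ 6 * (G.b / 2 ^ L.n) * μ := by
  have h4 := hU G.b G.β L.n (G.gens 1) (fun a ha hb => by
    rw [alpha_eq _ h.hn hb]
    exact h.good.unit a ha (hb.trans_le (Nat.pow_le_pow_right two_pos h.hn))) φ h1 (1 / 1000)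
    (by norm_num) (by linarith)
  simp only [not_lt]
  refine h4.trans ?_
  have h5 : (0 : ℝ) ≤ G.b / 2 ^ L.n := by positivity
  calc _ = 4 * 10 ^ 6 * (G.b / 2 ^ L.n) * (𝔼 w, 𝔼 j, φ w j) := by ring
    _ ≤ _ := by gcongr

theorem time_bd (h : Ass G L) (hE : ExpAt L.ck) (hU : UnitStmt) (T : Trace G L) {t : ℕ}
    (ht : t < 2 ^ L.τ) (hμ : T.mu t ≤ 1 / 2000) :
    (𝔼 a : G.A, ind (¬ G.sat T.dec t a)) ≤ 2 * 10 ^ 7 * (G.b / 2 ^ L.n) * T.mu t := by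
  have hO := unit_bd h hU (phO_bd T t) (phO_mean h T ht) hμ
  have hC := fun g => unit_bd h hU (phC_bd T t g) (phC_mean h T ht g) hμ
  have hR : ∀ g, (𝔼 y, ind (¬ lk G L (T.phR t g) (actB G.gens (G.op t g) y) < 1 / 1000)) ≤
      4 * 10 ^ 6 * (G.b / 2 ^ L.n) * T.mu t := fun g =>
    le_of_eq_of_le (Fintype.expect_bijective _
      (Function.Involutive.bijective (actB_actB G.gens (G.op t g))) _ _ fun _ => rfl)
      (unit_bd h hU (phR_bd T t g) (phR_mean h T ht g) hμ)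
  refine (expect_fst (fun y => ind (¬ lk G L (T.phO t) y < 1 / 1000) +
    (ind (¬ lk G L (T.phC t 0) y < 1 / 1000) + ind (¬ lk G L (T.phC t 1) y < 1 / 1000)) +
    (ind (¬ lk G L (T.phR t 0) (actB G.gens (G.op t 0) y) < 1 / 1000) +
      ind (¬ lk G L (T.phR t 1) (actB G.gens (G.op t 1) y) < 1 / 1000))) _ fun a => ?_).trans ?_
  · refine le_trans (ind_mono fun hs => ?_) ((ind_or_le _ _).trans (add_le_add
      ((ind_or_le _ _).trans (add_le_add le_rfl (ind_or_le _ _))) (ind_or_le _ _)))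
    by_contra hc
    simp only [not_or, not_not] at hc
    exact hs (node_sat h hE T ht a hc.1.1 (Fin.forall_fin_two.2 hc.1.2)
      (Fin.forall_fin_two.2 hc.2))
  · simp only [expect_add_distrib]
    linarith [hC 0, hC 1, hR 0, hR 1]

theorem two_pow_size (n : ℕ) : 2 ^ n.size ≤ 2 * (n + 1) := by
  rcases h : n.size with _ | k
  · omega
  · have : 2 ^ k ≤ n := Nat.lt_size.1 (by omega)
    rw [pow_succ]; omega

end RS

open RS

theorem round_sound (h : Ass G L) (hE : ExpAt L.ck) (hU : UnitStmt)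
    (x : ℕ → (roundI G L).A → Val)
    (hv : 4000 * 2 ^ (10 * L.u) * 2 ^ G.τ * (4 ^ (roundI G L).τ * (roundI G L).viol x) ≤ 1) :
    G.viol (decA G L x) ≤
      4 * 10 ^ 7 * (G.b / 2 ^ L.n) * 2 ^ (10 * L.u) * (4 ^ (roundI G L).τ * (roundI G L).viol x) := by
  obtain ⟨T, hT, hS⟩ := trace_exists h x
  have hd : decA G L x = T.dec := by
    funext t a
    have h1 : (fun a : Addr (G.b + 2) G.β L.σ => T.X0 a.1 a.2) = x (2 ^ (roundI G L).τ - 1) :=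
      funext fun a => hT a.1 a.2
    simp only [decA, Trace.dec, Trace.hh, Trace.op, fr, h1]
  generalize 4 ^ (roundI G L).τ * (roundI G L).viol x = θ at hv hS ⊢
  have hB0 : ∀ t, 0 ≤ 𝔼 y, T.bt y t := fun t => expect_nonneg fun _ _ => av_ind_nonneg _
  have hB := (expect_bt h T).le.trans hS
  have hB1 : ∀ t < 2 ^ L.τ, (𝔼 y, T.bt y t) ≤ 2 ^ G.τ * θ := fun t ht => by
    have h1 := WS.single_le (h := fun t : Fin (2 ^ L.τ) => 𝔼 y, T.bt y t) (fun t => hB0 t) ⟨t, ht⟩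
    rw [Fintype.card_fin, Nat.cast_pow, Nat.cast_ofNat] at h1
    rw [← h.hτ]
    exact h1.trans (mul_le_mul_of_nonneg_left hB (by positivity))
  have hμ : ∀ t < 2 ^ L.τ, T.mu t ≤ 1 / 2000 := fun t ht => by
    have h1 := mul_le_mul_of_nonneg_left (add_le_add (hB1 t ht)
      (hB1 (L.pr t) (Nat.mod_lt _ (Nat.two_pow_pos _)))) (show (0 : ℝ) ≤ 2 ^ (10 * L.u) by positivity)
    unfold Trace.mu
    linarith
  have hc : ∀ f : ℕ → ℝ, (𝔼 t : Fin (2 ^ G.τ), f t) = 𝔼 t : Fin (2 ^ L.τ), f t := fun f => by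
    rw [h.hτ]
  rw [hd, Inst.viol, hc fun t => 𝔼 a : G.A, ind (¬ G.sat T.dec t a)]
  refine (expect_le_expect fun (t : Fin (2 ^ L.τ)) _ => time_bd h hE hU T t.2 (hμ t t.2)).trans ?_
  rw [← mul_expect]
  have h2 : (𝔼 t : Fin (2 ^ L.τ), T.mu t) ≤ 2 ^ (10 * L.u) * (θ + θ) := by
    unfold Trace.mu
    rw [← mul_expect, expect_add_distrib]
    exact mul_le_mul_of_nonneg_left (add_le_add hB
      ((expect_pr L fun t => 𝔼 y, T.bt y t).le.trans hB)) (by positivity)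
  exact (mul_le_mul_of_nonneg_left h2 (by positivity)).trans (le_of_eq (by ring))

theorem round (hE : ExpStmt) (hU : UnitStmt) : RoundStmt := by
  obtain ⟨ck, -, hck⟩ := hE
  obtain ⟨κ, hκ⟩ : ∃ κ : ℕ, 100000 ≤ κ := ⟨_, le_rfl⟩
  obtain ⟨C0, hC0⟩ : ∃ C0, C0 = 12 * (ck + 2) + 2 * 2 ^ κ + 8 := ⟨_, rfl⟩
  have hC1 : 1 ≤ C0 := by omega
  obtain ⟨Cp, hCp⟩ := length_prog κ ck
  obtain ⟨Cs, hCs⟩ := sigma_le κ ck
  obtain ⟨K, hK⟩ : ∃ K, K = 2 * Cp * C0 ^ Cp := ⟨_, rfl⟩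
  obtain ⟨C, c1, c2, c3, c4, c5, c6⟩ : ∃ C, 40000000 * K ^ 2 ≤ C ∧ K ≤ C ∧ 2 * Cp ≤ C ∧
      Cs * C0 ≤ C ∧ C0 * κ ≤ C ∧ C0 ≤ C :=
    ⟨40000000 * K ^ 2 + K + 2 * Cp + Cs * C0 + C0 * κ + C0, by omega⟩
  have hT : ∀ (G : Inst 2) (c : ℕ), 1 ≤ c →
      2 ^ (roundI G ⟨κ, C0 * c, ck, G.τ⟩).τ ≤ K * (G.b + G.τ + c) ^ Cp := fun G c hc => by
    have h1 := hCp (C0 * c) G.τ G.b (by omega) (Nat.mul_pos hC1 hc)
    have h2 : G.b + G.τ + C0 * c ≤ C0 * (G.b + G.τ + c) := by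
      rw [mul_add C0 (G.b + G.τ)]
      exact Nat.add_le_add_right (Nat.le_mul_of_pos_left _ hC1) _
    calc _ ≤ 2 * (((Lo.mk κ (C0 * c) ck G.τ).prog G.b).length + 1) := two_pow_size _
      _ ≤ 2 * (Cp * (C0 * (G.b + G.τ + c)) ^ Cp) :=
          Nat.mul_le_mul_left _ (h1.trans (Nat.mul_le_mul_left _ (Nat.pow_le_pow_left h2 _)))
      _ = _ := by rw [hK, mul_pow]; ring
  have hu : ∀ c τ : ℕ, 1 ≤ c → (Lo.mk κ (C0 * c) ck τ).u ≤ 73 * (C0 * c) := fun c τ hc => by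
    have := Nat.le_mul_of_pos_right C0 hc
    simp only [Lo.u, Lo.M, Lo.k]
    omega
  have hG : PT fun x : RIn C => x.1.1 := (pt_val PT.id).fst
  have hc : PT fun x : RIn C => C0 * x.1.2 := PT.mul (PT.const _) (pt_val PT.id).snd
  have g1 : ∀ x : RIn C, 1 ≤ C0 * x.1.2 := fun x => Nat.mul_pos hC1 x.2.2.2.2.1
  have g2 : ∀ x : RIn C, C0 * x.1.2 ≤ x.1.1.β := fun x =>
    (Nat.mul_le_mul_right _ c6).trans (x.2.2.2.2.2.trans x.2.1.le)
  refine ⟨WW κ, 800 * C0, C, fun x => roundI x.1.1 ⟨κ, C0 * x.1.2, ck, x.1.1.τ⟩, by omega,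
    fun x => ⟨x.2.1, rfl, rfl, rfl, ?_, ?_⟩,
    pt_roundI κ ck (by omega) hG hc (fun x => x.2.1) (fun x => x.2.2.1) (fun x => x.2.2.2.1) g1 g2,
    _, pt_decA κ ck (by omega) hG hc (fun x => x.2.1) (fun x => x.2.2.1) (fun x => x.2.2.2.1) g1 g2,
    fun x s hv => ?_⟩
  · refine (hCs _ _ (g1 x)).trans (Nat.add_le_add_left ?_ _)
    rw [← mul_assoc]
    exact Nat.mul_le_mul_right _ c4
  · have := x.2.2.2.2.1
    exact (hT _ _ this).trans (Nat.mul_le_mul c2 (Nat.pow_le_pow_right (by omega) (by omega)))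
  · obtain ⟨⟨G, c⟩, hg, hσ, hb, h1, h2⟩ := x
    dsimp only at hv hg hσ hb h1 h2 ⊢
    rw [Inst.violA_mkAsg]
    have h3 := hu c G.τ h1
    have h4 : C0 * c * 100000 ≤ C0 * c * κ := Nat.mul_le_mul_left _ hκ
    have hA : Ass G ⟨κ, C0 * c, ck, G.τ⟩ := by
      refine ⟨hg, hσ, rfl, by dsimp only; omega, Nat.mul_pos hC1 h1, ?_, ?_⟩
      · change C0 * c * κ ≤ G.k0
        rw [mul_right_comm]
        exact (Nat.mul_le_mul_right _ c5).trans h2
      · change _ ≤ C0 * c * κ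
        omega
    set L : Lo := ⟨κ, C0 * c, ck, G.τ⟩ with hL
    set v := (roundI G L).violA s with hv'
    have hv0 : 0 ≤ v := Inst.viol_nonneg _ _
    have h5 : (4 * 10 ^ 7 * 2 ^ (10 * L.u) * 4 ^ (roundI G L).τ : ℝ) ≤
        rLoss (800 * C0) C G.b G.τ c := by
      have h6 : 4 ^ (roundI G L).τ ≤ K ^ 2 * (G.b + G.τ + c) ^ C := by
        calc _ = (2 ^ (roundI G L).τ) ^ 2 := by rw [← pow_mul, mul_comm, pow_mul]; norm_num
          _ ≤ (K * (G.b + G.τ + c) ^ Cp) ^ 2 := Nat.pow_le_pow_left (hT G c h1) _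
          _ ≤ _ := by
              rw [mul_pow, ← pow_mul]
              exact Nat.mul_le_mul_left _ (Nat.pow_le_pow_right (by omega) (by omega))
      have h7 : 2 ^ (10 * L.u) ≤ 2 ^ (800 * C0 * c) :=
        Nat.pow_le_pow_right two_pos (by rw [mul_assoc]; omega)
      have h8 : 40000000 * 2 ^ (10 * L.u) * 4 ^ (roundI G L).τ ≤
          C * (G.b + G.τ + c) ^ C * 2 ^ (800 * C0 * c) :=
        calc _ ≤ 40000000 * 2 ^ (800 * C0 * c) * (K ^ 2 * (G.b + G.τ + c) ^ C) :=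
              Nat.mul_le_mul (Nat.mul_le_mul_left _ h7) h6
          _ = 40000000 * K ^ 2 * (G.b + G.τ + c) ^ C * 2 ^ (800 * C0 * c) := by ring
          _ ≤ _ := Nat.mul_le_mul_right _ (Nat.mul_le_mul_right _ c1)
      rw [rLoss, show (4 * 10 ^ 7 : ℝ) = 40000000 by norm_num]
      exact_mod_cast h8
    have h9 : (2 : ℝ) ^ (100 * (800 * C0) * c) ≤ 2 ^ L.n := by
      refine pow_le_pow_right₀ one_le_two ?_
      change _ ≤ C0 * c * κ
      calc _ = C0 * c * 80000 := by ring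
        _ ≤ _ := Nat.mul_le_mul_left _ (by omega)
    refine (round_sound hA hck hU ((roundI G L).val s) ?_).trans ?_
    · refine le_trans ?_ hv
      change 4000 * 2 ^ (10 * L.u) * 2 ^ G.τ * (4 ^ (roundI G L).τ * v) ≤ _
      calc _ = v * 2 ^ G.τ * (4000 * 2 ^ (10 * L.u) * 4 ^ (roundI G L).τ) := by ring
        _ ≤ v * 2 ^ G.τ * (4 * 10 ^ 7 * 2 ^ (10 * L.u) * 4 ^ (roundI G L).τ) := by
            gcongr; norm_num
        _ ≤ _ := by gcongr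
    · change 4 * 10 ^ 7 * (G.b / 2 ^ L.n) * 2 ^ (10 * L.u) * (4 ^ (roundI G L).τ * v) ≤ _
      have h10 : (0 : ℝ) ≤ rLoss (800 * C0) C G.b G.τ c := le_trans (by positivity) h5
      calc _ = v * (4 * 10 ^ 7 * 2 ^ (10 * L.u) * 4 ^ (roundI G L).τ) * G.b / 2 ^ L.n := by ring
        _ ≤ _ := by gcongr

end Vale.Agent.P330.Amp
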