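import Vale.Agent.P330.SanB

/-! The sanitizer (task San): `san = sweep ++ sanMid ++ sanEnd` (`runs_append`); combine
`sweep_spec`, `sanMid_complete`, `sanEnd_pass` and `sanEnd_all`, `sanMid_sound` (with
`B = 6 * 2 ^ κ * 2 ^ (-u)`; a version has at most `2 ^ κ` times the error of the bundle); the rest
is arithmetic with `12 M + 2 * 2 ^ κ + 8 ≤ u`, `3 κ ≤ 2 * 2 ^ κ`. -/

namespace Vale.Agent.P330.Amp

open Vale.Agent.Lib.H23 Vale.Agent.P325 Finset
open scoped BigOperators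

variable {σ κ u M v : ℕ} {ds : List Dim} {orc : ℕ → Vec σ → Bool} {S : Vec σ → Prop}
  {X Y : Vec σ → Val} {z0 : Vec σ}

lemma san_pw {a b : ℕ} (h : a ≤ b) : (2 : ℝ) ^ a ≤ 2 ^ b := pow_le_pow_right₀ (by norm_num) h

lemma san_lt (M : ℕ) : (M : ℝ) + 1 ≤ 2 ^ M := by
  have : M + 1 ≤ 2 ^ M := Nat.lt_two_pow_self
  exact_mod_cast this

lemma san_kappa (κ : ℕ) : 3 * κ ≤ 2 * 2 ^ κ := by
  induction κ with
  | zero => simp
  | succ n ih =>
    rcases n with _ | _ | n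
    · simp
    · simp
    · have : n + 1 + 1 < 2 ^ (n + 1 + 1) := Nat.lt_two_pow_self
      rw [pow_succ 2 (n + 1 + 1)]
      omega

lemma san_half {a b c : ℕ} (h : a + c ≤ b) : (2 : ℝ) ^ a * (1 / 2) ^ b ≤ (1 / 2) ^ c := by
  rw [one_div_pow, one_div_pow, mul_one_div, div_le_div_iff₀ (by positivity) (by positivity),
    one_mul, ← pow_add]
  exact san_pw h

lemma san_eV (κ M : ℕ) : eV M / (4 * 2 ^ κ) = (1 / 2) ^ (6 * M + 2 + κ) := by
  rw [eV, pow_add, pow_add, pow_mul, one_div_pow (a := (2 : ℝ)) κ]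
  norm_num
  field_simp

lemma san_beta {a b c : ℕ} {β : ℝ} (hβ : β ≤ (1 / 2) ^ b) (h : a + c ≤ b) :
    2 ^ a * β ≤ (1 / 2) ^ c :=
  (mul_le_mul_of_nonneg_left hβ (by positivity)).trans (san_half h)

lemma san_split (hr : Runs κ orc S (san κ u v ds) X Y) :
    ∃ X1 X2, Runs κ orc S (sweep (fun _ => 1) (vd κ v :: ds)) X X1 ∧
      Runs κ orc S (sanMid (vd κ v :: ds)) X1 X2 ∧ Runs κ orc S (sanEnd κ u v ds) X2 Y := by
  have e : san κ u v ds = sweep (fun _ => 1) (vd κ v :: ds) ++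
      (sanMid (vd κ v :: ds) ++ sanEnd κ u v ds) := by
    simp only [san, sanMid, sanEnd, vd, List.append_assoc]
  rw [e, runs_append] at hr
  obtain ⟨X1, h1, h2⟩ := hr
  rw [runs_append] at h2
  obtain ⟨X2, h2, h3⟩ := h2
  exact ⟨X1, X2, h1, h2, h3⟩

lemma san_sigma (hl : Lay σ κ u (vd κ v :: ds)) : u + 2 ≤ σ ∧ v + κ ≤ σ := by
  have := hl.1 (vd κ v) List.mem_cons_self
  simp only [vd] at this
  omega

lemma san_inR (r : Vec κ) : InR (pos (vd κ v :: ds)) z0 (put z0 v κ r) :=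
  InR.put (P := pos (vd κ v :: ds)) InR.refl
    (fun _ h1 h2 => ⟨vd κ v, List.mem_cons_self, h1, h2⟩) r

lemma san_polyL {F : Vec σ → ZMod 2} (h : PolyL (vd κ v :: ds) z0 F) (r : Vec κ) :
    PolyL ds (put z0 v κ r) F :=
  h.sub (fun _ he => List.mem_cons_of_mem _ he) (san_inR r)

lemma san_ind (p : Prop) : 0 ≤ ind p := by
  unfold ind
  split_ifs <;> norm_num

lemma san_ind_le {p q : Prop} (h : p → q) : ind p ≤ ind q := by
  unfold ind
  split_ifs with h1 h2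
  · exact le_rfl
  · exact absurd (h h1) h2
  · norm_num
  · exact le_rfl

lemma san_err (F : Vec σ → ZMod 2) (r : Vec κ) :
    err ds X F (put z0 v κ r) ≤ 2 ^ κ * err (vd κ v :: ds) X F z0 := by
  have := av_slice (f := fun z => ind (X z ≠ pz (F z))) (P := pos ds) (Q := pos (vd κ v :: ds))
    (fun _ => san_ind _) (List.range' v κ) (fun j hj => by
      obtain ⟨e, he, h1, h2⟩ := hj
      rcases List.mem_cons.1 he with rfl | he
      · exact Or.inr (List.mem_range'_1.2 ⟨h1, h2⟩)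
      · exact Or.inl ⟨e, he, h1, h2⟩)
    (pos_mono fun _ he => List.mem_cons_of_mem _ he) (san_inR (z0 := z0) r)
  rwa [List.length_range'] at this

lemma san_get (hl : Lay σ κ u (vd κ v :: ds)) (r : Vec κ) {z : Vec σ}
    (hz : InR (pos ds) (put z0 v κ r) z) : get z v κ = r := by
  rw [hz.get, get_put (san_sigma hl).2]
  rintro j h1 h2 ⟨e, he, h3, h4⟩
  have := (List.pairwise_cons.1 hl.2).1 e he
  simp only [vd] at this
  omega

theorem san_valid (hp : Par κ u M) (hl : Lay σ κ u (vd κ v :: ds)) (hd : ds.length + 1 ≤ M)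
    (h0 : Home u z0) (hr : Runs κ orc S (san κ u v ds) X Y)
    (hβ : flt u S (pos (vd κ v :: ds)) z0 ≤ (1 / 2) ^ (4 * u)) {F : Vec σ → ZMod 2}
    (hF : Valid (eV M) (vd κ v :: ds) X z0 F) :
    ∃ F', PolyL (vd κ v :: ds) z0 F' ∧ (∀ z, InR (pos (vd κ v :: ds)) z0 z → HP ds z → F' z = F z) ∧
      err (vd κ v :: ds) Y F' z0 ≤ 2 ^ (3 * u) * flt u S (pos (vd κ v :: ds)) z0 := by
  obtain ⟨X1, X2, r1, r2, r3⟩ := san_split hr
  have hκ := hp.hκ
  have hM := hp.hM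
  have hu := hp.hu
  have hd' : (vd κ v :: ds).length ≤ M := hd
  have b0 := flt_nonneg (u := u) (P := pos (vd κ v :: ds)) (z := z0) S
  obtain ⟨F', e1, hL, hag⟩ := sweep_spec (by omega) hl h0 hF.1 (hF.2.trans_lt (by
    refine lt_of_lt_of_le ?_ (pow_le_pow_of_le_one (by norm_num) (by norm_num) hd')
    exact pow_lt_pow_left₀ (by norm_num) (by norm_num) (by omega))) r1
  have e2 := sanMid_complete hp hl hd' (san_sigma hl).1 h0 r2 hL
  have e3 := av_le_flt (u := u) (P := pos (vd κ v :: ds)) (z := z0) S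
  have e7 := fun hf => sanEnd_pass hp hl hd h0 r3 hβ hf F'
  generalize flt u S (pos (vd κ v :: ds)) z0 = β at *
  have e4 : err (vd κ v :: ds) X1 F' z0 ≤ 2 ^ (5 * M + (u + 4)) * β := by
    refine e1.trans ?_
    rw [pow_add, mul_assoc]
    refine mul_le_mul ?_ (e3.trans (mul_le_mul_of_nonneg_right (san_pw (by omega)) b0))
      (av_ind_nonneg _) (by positivity)
    rw [pow_mul]
    norm_num
    exact pow_le_pow_right₀ (by norm_num) hd
  have e5 : (M + 1 : ℝ) * 2 ^ 2 ^ κ * (err (vd κ v :: ds) X1 F' z0 + 2 ^ (u + 4) * β) ≤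
      2 ^ (2 * u) * β := by
    have h1 : (2 : ℝ) ^ (u + 4) * β ≤ 2 ^ (5 * M + (u + 4)) * β :=
      mul_le_mul_of_nonneg_right (san_pw (by omega)) b0
    calc _ ≤ (2 : ℝ) ^ M * 2 ^ 2 ^ κ * (2 ^ 1 * (2 ^ (5 * M + (u + 4)) * β)) :=
          mul_le_mul (mul_le_mul_of_nonneg_right (san_lt M) (by positivity)) (by linarith)
            (add_nonneg err_nonneg (by positivity)) (by positivity)
      _ = 2 ^ (M + 2 ^ κ + 1 + (5 * M + (u + 4))) * β := by
          rw [pow_add 2 (M + 2 ^ κ + 1), pow_add 2 (M + 2 ^ κ), pow_add 2 M]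
          ring
      _ ≤ _ := mul_le_mul_of_nonneg_right (san_pw (by omega)) b0
  have e6 := e2.trans e5
  replace e7 := e7 ((av_mono fun z _ => san_ind_le Or.inr).trans
    (e6.trans (san_beta hβ (by omega))))
  refine ⟨F', hL, fun z hz hH => hag z hz fun e he h1 => ?_, ?_⟩
  · rcases List.mem_cons.1 he with rfl | he
    · exact absurd h1 (by simp [vd])
    · exact hH e he h1
  · have e8 : err (vd κ v :: ds) X2 F' z0 ≤ 2 ^ (2 * u) * β :=
      (av_mono fun z _ => san_ind_le Or.inl).trans e6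
    have h1 : (2 : ℝ) ^ (2 * u) * β ≤ 2 ^ (2 * u + 4) * β :=
      mul_le_mul_of_nonneg_right (san_pw (by omega)) b0
    have h2 : (2 : ℝ) ^ (2 * u + 4 + 1) * β ≤ 2 ^ (3 * u) * β :=
      mul_le_mul_of_nonneg_right (san_pw (by omega)) b0
    rw [pow_succ] at h2
    linarith

theorem san_all (hp : Par κ u M) (hl : Lay σ κ u (vd κ v :: ds)) (hd : ds.length + 1 ≤ M)
    (h0 : Home u z0) (hr : Runs κ orc S (san κ u v ds) X Y)
    (hβ : flt u S (pos (vd κ v :: ds)) z0 ≤ (1 / 2) ^ (4 * u)) :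
    ∃ r0 : Vec κ, ∀ r ≠ r0, OKL (eV M / (4 * 2 ^ κ)) ds Y (put z0 v κ r) := by
  obtain ⟨X1, X2, -, r2, r3⟩ := san_split hr
  have hM := hp.hM
  have hu := hp.hu
  have hk := san_kappa κ
  have hd' : (vd κ v :: ds).length ≤ M := hd
  obtain ⟨r0, h⟩ := sanEnd_all hp hl hd h0 r3 hβ
  refine ⟨r0, fun r hr => ?_⟩
  rw [san_eV]
  rcases h r hr with h | ⟨h1, h2⟩
  · exact ⟨_, PolyL.zero, h.trans (pow_le_pow_of_le_one (by norm_num) (by norm_num) (by omega))⟩
  have hM' : (M : ℝ) ≤ 2 ^ M := by linarith [san_lt M]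
  have hq : (0 : ℝ) < (1 / 2) ^ u := by positivity
  have hκ1 : (1 : ℝ) ≤ 2 ^ κ := one_le_pow₀ (by norm_num)
  obtain ⟨F, hL, e1⟩ := sanMid_sound hp hl hd' (san_sigma hl).1 h0 r2
    (B := 6 * 2 ^ κ * (1 / 2) ^ u) (by
      have h3 := san_beta (a := 2 ^ κ + (u + 4)) (c := u) hβ (by omega)
      rw [pow_add] at h3
      nlinarith) (by
      have h3 := san_half (a := M + κ + 2 ^ κ + 8 * M + 5) (b := u) (c := 0) (by omega)
      rw [pow_zero, pow_add, pow_add, pow_add, pow_add, pow_mul] at h3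
      refine le_trans ?_ h3
      have h4 : (0 : ℝ) ≤ 2 ^ κ * 2 ^ 2 ^ κ * 256 ^ M * (1 / 2) ^ u := by positivity
      have h5 := mul_le_mul_of_nonneg_right hM' h4
      have h6 : (0 : ℝ) ≤ 2 ^ M * (2 ^ κ * 2 ^ 2 ^ κ * 256 ^ M * (1 / 2) ^ u) := by positivity
      norm_num at h5 h6 ⊢
      nlinarith)
  refine ⟨F, san_polyL hL r, (h2 F).trans ?_⟩
  have e2 := (san_err (X := X2) F r).trans (mul_le_mul_of_nonneg_left e1 (by positivity))
  have h3 := san_half (a := κ + κ + (5 * M + M) + 4) (b := u) (c := 6 * M + 2 + κ) (by omega)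
  refine le_trans ?_ h3
  have h4 : (32 : ℝ) ^ M * M + 2 ≤ 2 * 2 ^ (5 * M + M) := by
    have h5 : (2 : ℝ) ^ 1 ≤ 2 ^ (5 * M + M) := san_pw (by omega)
    have h6 : (32 : ℝ) ^ M * M ≤ 2 ^ (5 * M + M) := by
      rw [pow_add, pow_mul]
      norm_num
      exact hM'
    linarith
  have h5 : (1 : ℝ) ≤ 2 ^ (κ + κ + (5 * M + M)) := one_le_pow₀ (by norm_num)
  have h6 : (2 : ℝ) ^ κ * ((32 ^ M * M + 2) * (6 * 2 ^ κ * (1 / 2) ^ u)) ≤
      2 ^ κ * (2 * 2 ^ (5 * M + M) * (6 * 2 ^ κ * (1 / 2) ^ u)) :=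
    mul_le_mul_of_nonneg_left (mul_le_mul_of_nonneg_right h4 (by positivity)) (by positivity)
  have h7 : (2 : ℝ) ^ κ * (2 * 2 ^ (5 * M + M) * (6 * 2 ^ κ * (1 / 2) ^ u)) =
      12 * (2 ^ (κ + κ + (5 * M + M)) * (1 / 2) ^ u) := by
    rw [pow_add 2 (κ + κ), pow_add 2 κ]
    ring
  have h8 := mul_le_mul_of_nonneg_right h5 hq.le
  rw [pow_add _ _ 4]
  linarith

/-- both together: the number of bad versions and the messages. -/
theorem san_vers (hp : Par κ u M) (hl : Lay σ κ u (vd κ v :: ds)) (hd : ds.length + 1 ≤ M)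
    (h0 : Home u z0) (hr : Runs κ orc S (san κ u v ds) X Y)
    (hβ : flt u S (pos (vd κ v :: ds)) z0 ≤ (1 / 2) ^ (4 * u)) :
    ∃ (r0 : Vec κ) (F' : Vec σ → ZMod 2),
      (∀ r, (r ≠ r0 ∨ OK (eV M) (vd κ v :: ds) X z0) → PolyL ds (put z0 v κ r) F' ∧
        err ds Y F' (put z0 v κ r) ≤ eV M / (4 * 2 ^ κ)) ∧
      ∀ z y, InR (pos (vd κ v :: ds)) z0 z → HP ds z → Msg (eV M) (vd κ v :: ds) X z y → F' z = y := by
  have hM := hp.hM
  have hu := hp.hu
  have hk := san_kappa κ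
  by_cases hO : OK (eV M) (vd κ v :: ds) X z0
  · obtain ⟨F, hF⟩ := hO
    obtain ⟨F', hL, hag, he⟩ := san_valid hp hl hd h0 hr hβ hF
    refine ⟨0, F', fun r _ => ⟨san_polyL hL r, (san_err F' r).trans ?_⟩, fun z y hz hH hm =>
      (hag z hz hH).trans ((hF.msg_iff hl hM hd hz).1 hm)⟩
    rw [san_eV]
    exact san_beta (he.trans (san_beta (c := u) hβ (by omega))) (by omega)
  · obtain ⟨r0, h⟩ := san_all hp hl hd h0 hr hβ
    have h' : ∀ r, ∃ G : Vec σ → ZMod 2, r ≠ r0 → PolyL ds (put z0 v κ r) G ∧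
        err ds Y G (put z0 v κ r) ≤ eV M / (4 * 2 ^ κ) := fun r => by
      by_cases hr : r = r0
      · exact ⟨0, fun h => absurd hr h⟩
      · obtain ⟨G, hG⟩ := h r hr
        exact ⟨G, fun _ => hG⟩
    choose G hG using h'
    refine ⟨r0, fun z => G (get z v κ) z, fun r hr => ?_, fun z y hz _ hm =>
      absurd ((OK_base hz).1 hm.ok) hO⟩
    obtain ⟨h1, h2⟩ := hG r (hr.resolve_right hO)
    refine ⟨h1.congr fun z hz => by rw [san_get hl r hz], le_trans (le_of_eq ?_) h2⟩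
    exact av_congr fun z hz => by simp only [san_get hl r hz]

end Vale.Agent.P330.Amp
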