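import Vale.Agent.P330.Sweep
import Vale.Agent.P330.LTC

/-! The front part of the sanitizer after the sweep: purification of the symbols and line tests
(task SanA). `reg z i = put z 0 2 (ofN 2 i)` is the register `i` of the home point `z`.
Plan. After `pur 0, pur 1` at most one of the four registers of a fault free point is not pure, and
all four are `pv γ` if register 0 was. So after `vote`: register 0 is pure, or registers 1 and 2 are
pure true. The tests keep registers 0, 1 (pure values are copied) and a pure true in register 2,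
and set register 2 to pure true on lines with a pure true in register 1 or with pure symbols
that do not form a codeword. A point `z` is clean if none of its four registers is in `S`;
the density of unclean home points is at most `4 * 2 ^ (u+2) * flt` and a line has at most
`2 ^ 2 ^ κ` points. Soundness: `x z = 1` iff register 0 is pure true after the vote; apply `ltc`. -/

namespace Vale.Agent.P330.Amp

open Vale.Agent.Lib.H23 Vale.Agent.P325 Finset
open scoped BigOperators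

variable {σ κ u M v : ℕ} {ds : List Dim} {orc : ℕ → Vec σ → Bool} {S : Vec σ → Prop}
  {X Y : Vec σ → Val} {z0 : Vec σ}

def reg (z : Vec σ) (i : ℕ) : Vec σ := put z 0 2 (ofN 2 i)

/-- purification, vote and tests. -/
def sanMid (ds : List Dim) : List Ins :=
  [.pur 0, .pur 1, .cell .vote 0 0 0 0 nc] ++ ds.map fun e => .cell (.test e.1) e.2.1 e.2.2 0 0 nc

namespace SanA

theorem put0 (z : Vec σ) (ρ : Vec 2) : put (put z 0 2 ρ) 0 1 0 = put z 0 2 ![0, ρ 1] := by
  funext j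
  obtain ⟨j, hj⟩ := j
  rcases j with _ | _ | j <;> simp [put]

theorem put1 (z : Vec σ) (ρ : Vec 2) : put (put z 0 2 ρ) 1 1 0 = put z 0 2 ![ρ 0, 0] := by
  funext j
  obtain ⟨j, hj⟩ := j
  rcases j with _ | _ | j <;> simp [put]

theorem toN_one (s : Vec 1) : toN s = 1 ↔ s 0 = 1 := by revert s; decide

theorem fld0 (hσ : 2 ≤ σ) (z : Vec σ) (ρ : Vec 2) : fld (put z 0 2 ρ) 0 1 = 1 ↔ ρ 0 = 1 := by
  have : 0 < σ := by omega
  rw [fld, toN_one]
  simp [get, put, this]

theorem fld1 (hσ : 2 ≤ σ) (z : Vec σ) (ρ : Vec 2) : fld (put z 0 2 ρ) 1 1 = 1 ↔ ρ 1 = 1 := by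
  have : 1 < σ := by omega
  rw [fld, toN_one]
  simp [get, put, this]

theorem rd_some (v : Val) : ∃ c0 : ZMod 2, ∀ c, c ≠ c0 → ∃ γ, rd (decide (c = 1)) v = some γ := by
  revert v; decide

theorem vec2 (ρ : Vec 2) : ρ = ![ρ 0, ρ 1] := by revert ρ; decide

theorem cnt (ρ0 : Vec 2) (γ : Bool) (r : Vec 2 → Bool) (h : ∀ ρ, ρ ≠ ρ0 → r ρ = γ) :
    decide (3 ≤ (univ.filter fun ρ => r ρ = true).card) = γ := by
  cases γ
  · have : (univ.filter fun ρ => r ρ = true) ⊆ {ρ0} := by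
      intro ρ hρ
      rw [mem_singleton]
      by_contra hc
      rw [mem_filter, h ρ hc] at hρ
      exact absurd hρ.2 (by decide)
    have := card_le_card this
    rw [card_singleton] at this
    exact decide_eq_false (by omega)
  · have : univ.erase ρ0 ⊆ univ.filter fun ρ => r ρ = true := fun ρ hρ =>
      mem_filter.2 ⟨mem_univ _, h ρ (ne_of_mem_erase hρ)⟩
    have := card_le_card this
    rw [card_erase_of_mem (mem_univ _), card_univ, show Fintype.card (Vec 2) = 4 by decide] at this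
    exact decide_eq_true (by omega)

/-- no register of `z` is faulty. -/
def Cl (S : Vec σ → Prop) (z : Vec σ) : Prop := ∀ ρ : Vec 2, ¬ S (put z 0 2 ρ)

theorem vote (hσ : 2 ≤ σ) {z : Vec σ} (hz : Home u z) (hc : Cl S z)
    (hr : Runs κ orc S [.pur 0, .pur 1, .cell .vote 0 0 0 0 nc] X Y) :
    (∀ γ, X z = pv γ → Y z = pv γ ∧ ∀ ρ : Vec 2, ρ ≠ 0 → Y (put z 0 2 ρ) = pv false) ∧
      ((∃ γ, Y z = pv γ) ∨ ∀ ρ : Vec 2, ρ ≠ 0 → Y (put z 0 2 ρ) = pv true) := by
  obtain ⟨X1, h1, X2, h2, X3, h3, rfl⟩ := hr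
  have a1 : ∀ (c : ZMod 2) γ, rd (decide (c = 1)) (X z) = some γ →
      X1 (put z 0 2 ![c, 0]) = pv γ := by
    intro c γ h
    refine h1 _ (hc _) γ ?_
    rw [put0, decide_eq_decide.2 (fld0 hσ z _)]
    have e : (![0, (![c, 0] : Vec 2) 1] : Vec 2) = 0 := by
      change (![0, 0] : Vec 2) = 0
      decide
    rw [e, hz.put_reg]
    exact h
  have a2 : ∀ (ρ : Vec 2) γ, rd (decide (ρ 1 = 1)) (X1 (put z 0 2 ![ρ 0, 0])) = some γ →
      X2 (put z 0 2 ρ) = pv γ := by
    intro ρ γ h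
    refine h2 _ (hc _) γ ?_
    rw [put1, decide_eq_decide.2 (fld1 hσ z _)]
    exact h
  have a3 : ∀ (ρ : Vec 2) γ, (∀ r : Vec 2 → Bool, (∀ ρ' δ, X2 (put z 0 2 ρ') = pv δ → r ρ' = δ) →
      (if ρ = 0 then decide (3 ≤ (univ.filter fun ρ' => r ρ' = true).card)
        else decide (∃ ρ' ρ'', r ρ' ≠ r ρ'')) = γ) → X3 (put z 0 2 ρ) = pv γ := by
    intro ρ γ h
    refine HF.pure (h3 _ (hc ρ)) fun r hr => ?_
    have := h (fun ρ' => r (ρ', get (put z 0 2 ρ) 0 0, get (put z 0 2 ρ) 0 0)) fun ρ' δ e =>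
      hr _ δ (by rw [put_zero, put_zero, put_put]; exact e)
    rw [← this, get_put (by omega)]
    simp only [kf]
  have a4 : ∀ (ρ0 : Vec 2) γ, (∀ ρ, ρ ≠ ρ0 → X2 (put z 0 2 ρ) = pv γ) → X3 z = pv γ := by
    intro ρ0 γ h
    rw [← hz.put_reg]
    refine a3 0 γ fun r hr => ?_
    rw [if_pos rfl]
    exact cnt ρ0 γ r fun ρ hρ => hr ρ γ (h ρ hρ)
  constructor
  · intro γ hγ
    have b : ∀ ρ, X2 (put z 0 2 ρ) = pv γ := fun ρ =>
      a2 ρ γ (by rw [a1 (ρ 0) γ (by rw [hγ, rd_pv]), rd_pv])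
    refine ⟨a4 0 γ fun ρ _ => b ρ, fun ρ hρ => a3 ρ false fun r hr => ?_⟩
    rw [if_neg hρ]
    refine decide_eq_false ?_
    rintro ⟨ρ', ρ'', hne⟩
    exact hne ((hr ρ' γ (b ρ')).trans (hr ρ'' γ (b ρ'')).symm)
  · obtain ⟨c0, hc0⟩ := rd_some (X z)
    obtain ⟨c1, hc1⟩ := rd_some (X1 (put z 0 2 ![c0, 0]))
    have b : ∀ ρ : Vec 2, ρ ≠ ![c0, c1] → ∃ δ, X2 (put z 0 2 ρ) = pv δ := by
      intro ρ hρ
      by_cases h0 : ρ 0 = c0
      · obtain ⟨δ, hδ⟩ := hc1 (ρ 1) fun h => hρ (by rw [vec2 ρ, h0, h])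
        exact ⟨δ, a2 ρ δ (by rw [h0]; exact hδ)⟩
      · obtain ⟨δ, hδ⟩ := hc0 (ρ 0) h0
        exact ⟨δ, a2 ρ δ (by rw [a1 _ δ hδ, rd_pv])⟩
    by_cases hall : ∃ γ, ∀ ρ : Vec 2, ρ ≠ ![c0, c1] → X2 (put z 0 2 ρ) = pv γ
    · obtain ⟨γ, hγ⟩ := hall
      exact Or.inl ⟨γ, a4 _ γ hγ⟩
    · push Not at hall
      obtain ⟨ρ1, e1, n1⟩ := hall true
      obtain ⟨ρ2, e2, n2⟩ := hall false
      obtain ⟨δ1, d1⟩ := b ρ1 e1
      obtain ⟨δ2, d2⟩ := b ρ2 e2
      refine Or.inr fun ρ hρ => a3 ρ true fun r hr => ?_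
      rw [if_neg hρ]
      refine decide_eq_true ⟨ρ1, ρ2, ?_⟩
      rw [hr ρ1 δ1 d1, hr ρ2 δ2 d2]
      cases δ1
      · cases δ2
        · exact absurd d2 n2
        · decide
      · exact absurd d1 n1

/-- the test instruction of a dimension. -/
abbrev tst (e : Dim) : Ins := .cell (.test e.1) e.2.1 e.2.2 0 0 nc

/-- the input cells of a test. -/
abbrev N (y : Vec σ) (ρ : Vec 2) (e : Dim) (s : Vec e.2.2) : Vec σ := put (put y 0 2 ρ) e.2.1 e.2.2 s

open Classical in
theorem step {e : Dim} {y : Vec σ} (h : (tst e).sat κ orc X Y y) {γ : Bool}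
    (hf : ∀ (b : Bool) (r : Vec 2 → Vec e.2.2 → Bool), (∀ δ, X y = pv δ → b = δ) →
      (∀ ρ s δ, X (N y ρ e s) = pv δ → r ρ s = δ) →
      (if get y 0 2 = ofN 2 2 then decide (b = true ∨ (∃ s, r (ofN 2 1) s = true) ∨
        ¬ LoC e.1 fun s => b2 (r 0 s)) else b) = γ) : Y y = pv γ := by
  refine HF.pure h fun r hr => ?_
  have := hf (r (get y 0 2, get y e.2.1 e.2.2, get y 0 0)) (fun ρ s => r (ρ, s, get y 0 0))
    (fun δ e' => hr _ δ (by rw [put_zero, put_get, put_get]; exact e'))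
    fun ρ s δ e' => hr _ δ (by rw [put_zero]; exact e')
  rw [← this]
  simp only [kf]

theorem keep1 {e : Dim} {y : Vec σ} (h : (tst e).sat κ orc X Y y) {γ : Bool}
    (hγ : get y 0 2 ≠ ofN 2 2 ∨ γ = true) (hX : X y = pv γ) : Y y = pv γ := by
  classical
  refine step h fun b r hb _ => ?_
  split_ifs with h2
  · obtain rfl := hγ.resolve_left (not_not.2 h2)
    exact decide_eq_true (Or.inl (hb _ hX))
  · exact hb _ hX

theorem keep {l : List Dim} (hr : Runs κ orc S (l.map tst) X Y) {y : Vec σ} (hy : ¬ S y) {γ : Bool}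
    (hγ : get y 0 2 ≠ ofN 2 2 ∨ γ = true) (hX : X y = pv γ) : Y y = pv γ := by
  induction l generalizing X with
  | nil => obtain rfl := hr; exact hX
  | cons e l ih =>
    obtain ⟨Z, h1, h2⟩ := hr
    exact ih h2 (keep1 (h1 y hy) hγ hX)

theorem get_N (hσ : 2 ≤ σ) {e : Dim} (he : 2 ≤ e.2.1) (y : Vec σ) (ρ : Vec 2) (s : Vec e.2.2) :
    get (N y ρ e s) 0 2 = ρ := by
  rw [get_put_disj (Or.inr (by omega)), get_put (by omega)]

theorem tests_true (hσ : 2 ≤ σ) {l : List Dim} (hr : Runs κ orc S (l.map tst) X Y) {y : Vec σ}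
    (hy : ¬ S y) (h2 : get y 0 2 = ofN 2 2) {e : Dim} (he : e ∈ l) (he2 : 2 ≤ e.2.1)
    (hc : ∀ ρ s, ¬ S (N y ρ e s))
    (h : (∃ s, X (N y (ofN 2 1) e s) = pv true) ∨
      ∃ x : Vec e.2.2 → Bool, (∀ s, X (N y 0 e s) = pv (x s)) ∧ ¬ LoC e.1 fun s => b2 (x s)) :
    Y y = pv true := by
  classical
  induction l generalizing X with
  | nil => cases he
  | cons e' l ih =>
    obtain ⟨Z, h1, h3⟩ := hr
    rcases List.mem_cons.1 he with rfl | he'
    · refine keep h3 hy (Or.inr rfl) (step (h1 y hy) fun b r _ hr => ?_)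
      rw [if_pos h2]
      refine decide_eq_true (Or.inr ?_)
      rcases h with ⟨s, hs⟩ | ⟨x, hx, hx'⟩
      · exact Or.inl ⟨s, hr _ _ _ hs⟩
      · refine Or.inr ?_
        rw [show r 0 = x from funext fun s => hr _ _ _ (hx s)]
        exact hx'
    · refine ih h3 he' ?_
      rcases h with ⟨s, hs⟩ | ⟨x, hx, hx'⟩
      · exact Or.inl ⟨s, keep1 (h1 _ (hc _ s)) (Or.inr rfl) hs⟩
      · refine Or.inr ⟨x, fun s => keep1 (h1 _ (hc _ s)) (Or.inl ?_) (hx s), hx'⟩
        rw [get_N hσ he2]; decide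

theorem tests_false (hσ : 2 ≤ σ) {l : List Dim} (hr : Runs κ orc S (l.map tst) X Y) {y : Vec σ}
    (hy : ¬ S y) (h2 : get y 0 2 = ofN 2 2) (hX : X y = pv false)
    (h : ∀ e ∈ l, 2 ≤ e.2.1 ∧ (∀ ρ s, ¬ S (N y ρ e s)) ∧ (∀ s, X (N y (ofN 2 1) e s) = pv false) ∧
      ∃ x : Vec e.2.2 → Bool, (∀ s, X (N y 0 e s) = pv (x s)) ∧ LoC e.1 fun s => b2 (x s)) :
    Y y = pv false := by
  classical
  induction l generalizing X with
  | nil => obtain rfl := hr; exact hX
  | cons e' l ih =>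
    obtain ⟨Z, h1, h3⟩ := hr
    refine ih h3 (step (h1 y hy) fun b r hb hr => ?_) fun e he => ?_
    · obtain ⟨-, -, k1, x, hx, hx'⟩ := h e' List.mem_cons_self
      rw [if_pos h2]
      refine decide_eq_false ?_
      rintro (k | ⟨s, k⟩ | k)
      · rw [hb _ hX] at k; cases k
      · rw [hr _ _ _ (k1 s)] at k; cases k
      · rw [show r 0 = x from funext fun s => hr _ _ _ (hx s)] at k
        exact k hx'
    · obtain ⟨k0, hc, k1, x, hx, hx'⟩ := h e (List.mem_cons_of_mem _ he)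
      refine ⟨k0, hc, fun s => keep1 (h1 _ (hc _ s)) (Or.inl ?_) (k1 s), x,
        fun s => keep1 (h1 _ (hc _ s)) (Or.inl ?_) (hx s), hx'⟩
      · rw [get_N hσ k0]; decide
      · rw [get_N hσ k0]; decide

theorem N_reg {e : Dim} (he : 2 ≤ e.2.1) (z : Vec σ) (ρ : Vec 2) (s : Vec e.2.2) :
    N (reg z 2) ρ e s = put (put z e.2.1 e.2.2 s) 0 2 ρ := by
  rw [N, reg, put_put, put_comm (Or.inl (by omega))]

theorem ind_or {p a b : Prop} (h : p → a ∨ b) : ind p ≤ ind a + ind b := by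
  by_cases hp : p
  · rcases h hp with k | k
    · rw [ind_of hp, ind_of k]; linarith [ind_nonneg b]
    · rw [ind_of hp, ind_of k]; linarith [ind_nonneg a]
  · rw [ind_of_not hp]; linarith [ind_nonneg a, ind_nonneg b]

theorem av_or {P : Set ℕ} {p a b : Vec σ → Prop} (h : ∀ z, InR P z0 z → p z → a z ∨ b z) :
    av P (fun z => ind (p z)) z0 ≤ av P (fun z => ind (a z)) z0 + av P (fun z => ind (b z)) z0 := by
  rw [← av_add]
  exact av_mono fun z hz => ind_or (h z hz)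

theorem ind_ex {ι : Type} [Fintype ι] (q : ι → Prop) : ind (∃ i, q i) ≤ ∑ i, ind (q i) := by
  by_cases h : ∃ i, q i
  · obtain ⟨i, hi⟩ := h
    rw [ind_of ⟨i, hi⟩, ← ind_of hi]
    exact single_le_sum (f := fun i => ind (q i)) (fun j _ => ind_nonneg _) (mem_univ i)
  · rw [ind_of_not h]
    exact sum_nonneg fun _ _ => ind_nonneg _

theorem av_line (hl : Lay σ κ u ds) {e : Dim} (he : e ∈ ds) (q : Vec σ → Prop) :
    av (pos ds) (fun z => ind (∃ s, q (put z e.2.1 e.2.2 s))) z0 ≤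
      2 ^ 2 ^ κ * av (pos ds) (fun z => ind (q z)) z0 := by
  obtain ⟨-, h2, -, h4⟩ := hl.1 e he
  have h5 : av (pos ds) (av (Set.Ico e.2.1 (e.2.1 + e.2.2)) fun z => ind (q z)) z0 =
      av (pos ds) (fun z => ind (q z)) z0 := by
    rw [av_av]
    exact av_set fun j _ => ⟨fun h => h.elim id fun h => ⟨e, he, h⟩, Or.inl⟩
  rw [← h5, ← av_mul]
  refine av_mono fun z _ => (ind_ex _).trans ?_
  rw [av_Ico h2, ← card_smul_expect, card_univ, nsmul_eq_mul]
  refine mul_le_mul_of_nonneg_right ?_ (expect_nonneg fun _ _ => ind_nonneg _)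
  rw [Fintype.card_fun, ZMod.card, Fintype.card_fin, Nat.cast_pow, Nat.cast_ofNat]
  exact pow_le_pow_right₀ one_le_two h4

theorem av_cl (hl : Lay σ κ u ds) :
    av (pos ds) (fun z => ind (¬ Cl S z)) z0 ≤ 2 ^ (u + 4) * flt u S (pos ds) z0 := by
  have h1 : ∀ ρ : Vec 2, av (pos ds) (fun z => ind (S (put z 0 2 ρ))) z0 ≤
      2 ^ (u + 2) * flt u S (pos ds) z0 := by
    intro ρ
    rw [av_put (f := fun z => ind (S z)) fun j _ hj hj' => by have := (hl.mem_pos hj').1; omega]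
    refine (av_le_flt (u := u) S).trans (le_of_eq ?_)
    unfold flt
    have k : InR (pos ds ∪ Set.Iio (u + 2)) z0 (put z0 0 2 ρ) :=
      InR.refl.put (fun j _ hj => Or.inr (Set.mem_Iio.2 (by omega))) ρ
    rw [av_base k]
  calc _ ≤ av (pos ds) (fun z => ∑ ρ : Vec 2, ind (S (put z 0 2 ρ))) z0 :=
        av_mono fun z _ => (ind_mono fun h => by
          unfold Cl at h; push Not at h; exact h).trans (ind_ex _)
    _ ≤ ∑ ρ : Vec 2, 2 ^ (u + 2) * flt u S (pos ds) z0 := by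
        rw [av_sum]; exact sum_le_sum fun ρ _ => h1 ρ
    _ = _ := by
        rw [sum_const, card_univ, show Fintype.card (Vec 2) = 4 by decide, nsmul_eq_mul]
        ring

theorem av_ex {P : Set ℕ} (l : List Dim) (q : Dim → Vec σ → Prop) {c : ℝ}
    (h : ∀ e ∈ l, av P (fun z => ind (q e z)) z0 ≤ c) :
    av P (fun z => ind (∃ e ∈ l, q e z)) z0 ≤ l.length * c := by
  induction l with
  | nil => simp [ind, av_const]
  | cons e l ih =>
    have h1 := av_or (P := P) (z0 := z0) (p := fun z => ∃ e' ∈ e :: l, q e' z) (a := q e)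
      (b := fun z => ∃ e' ∈ l, q e' z) fun z _ hz => by simpa using hz
    have h2 := ih fun e' he' => h e' (List.mem_cons_of_mem _ he')
    have h3 := h e List.mem_cons_self
    rw [List.length_cons, Nat.cast_succ]
    linarith

theorem inR_put {e : Dim} (he : e ∈ ds) {z : Vec σ} (hz : InR (pos ds) z0 z) (s : Vec e.2.2) :
    InR (pos ds) z0 (put z e.2.1 e.2.2 s) := hz.put (fun _ h1 h2 => ⟨e, he, h1, h2⟩) s

end SanA

open SanA in
/-- completeness. -/
theorem sanMid_complete (hp : Par κ u M) (hl : Lay σ κ u ds) (hd : ds.length ≤ M) (hσ : u + 2 ≤ σ)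
    (h0 : Home u z0) (hr : Runs κ orc S (sanMid ds) X Y) {F : Vec σ → ZMod 2} (hF : PolyL ds z0 F) :
    av (pos ds) (fun z => ind (Y z ≠ pz (F z) ∨ Y (reg z 2) ≠ pv false)) z0 ≤
      (M + 1) * 2 ^ 2 ^ κ * (err ds X F z0 + 2 ^ (u + 4) * flt u S (pos ds) z0) := by
  obtain ⟨W, r1, r2⟩ := runs_append.1 hr
  have hσ2 : 2 ≤ σ := by omega
  let bad : Vec σ → Prop := fun z => X z ≠ pz (F z) ∨ ¬ Cl S z
  have hb : av (pos ds) (fun z => ind (bad z)) z0 ≤
      err ds X F z0 + 2 ^ (u + 4) * flt u S (pos ds) z0 :=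
    (av_or fun _ _ h => h).trans (add_le_add le_rfl (av_cl hl))
  have hv : ∀ z, InR (pos ds) z0 z → ¬ bad z → Cl S z ∧ W z = pz (F z) ∧
      ∀ ρ : Vec 2, ρ ≠ 0 → W (put z 0 2 ρ) = pv false := fun z hz h => by
    have hc : Cl S z := not_not.1 fun k => h (Or.inr k)
    exact ⟨hc, (vote hσ2 (hl.home h0 hz) hc r1).1 _ (not_not.1 fun k => h (Or.inl k))⟩
  have key : ∀ z, InR (pos ds) z0 z → (Y z ≠ pz (F z) ∨ Y (reg z 2) ≠ pv false) →
      bad z ∨ ∃ e ∈ ds, ∃ s, bad (put z e.2.1 e.2.2 s) := by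
    intro z hz h
    by_contra hc
    push Not at hc
    obtain ⟨c1, c2, c3⟩ := hv z hz hc.1
    have hh := hl.home h0 hz
    rcases h with h | h
    · refine h (keep r2 ?_ (Or.inl ?_) c2)
      · rw [← hh.put_reg]; exact c1 0
      · rw [hh.get_reg]; decide
    · refine h (tests_false hσ2 r2 (c1 _) (get_put (by omega) _) (c3 _ (by decide)) fun e he => ?_)
      have he2 : 2 ≤ e.2.1 := by have := (hl.1 e he).1; omega
      have k := fun s => hv _ (inR_put he hz s) (hc.2 e he s)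
      refine ⟨he2, fun ρ s => ?_, fun s => ?_, fun s => decide (F (put z e.2.1 e.2.2 s) = 1),
        fun s => ?_, ?_⟩
      · rw [N_reg he2]; exact (k s).1 ρ
      · rw [N_reg he2]; exact (k s).2.2 _ (by decide)
      · rw [N_reg he2, (hl.home h0 (inR_put he hz s)).put_reg]; exact (k s).2.1
      · simp only [b2_decide]; exact hF e he z hz
  have h1 := av_or key
  have h2 := av_ex (P := pos ds) (z0 := z0) ds (fun e z => ∃ s, bad (put z e.2.1 e.2.2 s))
    fun e he => av_line hl he bad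
  have h3 : 0 ≤ av (pos ds) (fun z => ind (bad z)) z0 := av_ind_nonneg _
  have h4 : (1 : ℝ) ≤ 2 ^ 2 ^ κ := one_le_pow₀ one_le_two
  have h5 : (ds.length : ℝ) ≤ M := by exact_mod_cast hd
  have h6 := mul_le_mul_of_nonneg_right h5 (mul_nonneg (zero_le_one.trans h4) h3)
  have h7 := mul_le_mul_of_nonneg_right h4 h3
  refine le_trans ?_ (mul_le_mul_of_nonneg_left hb (by positivity))
  linarith

open SanA in
/-- soundness. -/
theorem sanMid_sound (hp : Par κ u M) (hl : Lay σ κ u ds) (hd : ds.length ≤ M) (hσ : u + 2 ≤ σ)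
    (h0 : Home u z0) (hr : Runs κ orc S (sanMid ds) X Y) {B : ℝ}
    (hB : av (pos ds) (fun z => ind (Y (reg z 2) = pv true)) z0 +
      2 ^ 2 ^ κ * 2 ^ (u + 4) * flt u S (pos ds) z0 ≤ B)
    (h : M * B * 4 * 2 ^ 2 ^ κ * 256 ^ M ≤ 1) :
    ∃ F, PolyL ds z0 F ∧ err ds Y F z0 ≤ (32 ^ M * M + 2) * B := by
  classical
  obtain ⟨W, r1, r2⟩ := runs_append.1 hr
  have hσ2 : 2 ≤ σ := by omega
  let x : Vec σ → Bool := fun z => decide (W z = pv true)
  have hv : ∀ z, InR (pos ds) z0 z → Cl S z →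
      W z = pv (x z) ∨ ∀ ρ : Vec 2, ρ ≠ 0 → W (put z 0 2 ρ) = pv true := fun z hz hc => by
    refine (vote hσ2 (hl.home h0 hz) hc r1).2.imp_left ?_
    rintro ⟨γ, hγ⟩
    simp only [x, hγ, pv_inj]
    cases γ <;> rfl
  have h4 : (1 : ℝ) ≤ 2 ^ 2 ^ κ := one_le_pow₀ one_le_two
  have hcl := av_cl (S := S) (z0 := z0) hl
  have hcl0 : 0 ≤ av (pos ds) (fun z => ind (¬ Cl S z)) z0 := av_ind_nonneg _
  have hcl1 := mul_le_mul_of_nonneg_left hcl (zero_le_one.trans h4)
  have hcl2 := mul_le_mul_of_nonneg_right h4 hcl0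
  have hY0 : 0 ≤ av (pos ds) (fun z => ind (Y (reg z 2) = pv true)) z0 := av_ind_nonneg _
  have hB0 : 0 ≤ B := by linarith
  have h1 : ∀ e ∈ ds,
      av (pos ds) (fun z => ind (¬ LoC e.1 (line (fun z => b2 (x z)) z e))) z0 ≤ B := by
    intro e he
    have he2 : 2 ≤ e.2.1 := by have := (hl.1 e he).1; omega
    have k1 := av_or (P := pos ds) (z0 := z0)
      (p := fun z => ¬ LoC e.1 (line (fun z => b2 (x z)) z e))
      (a := fun z => Y (reg z 2) = pv true) (b := fun z => ∃ s, ¬ Cl S (put z e.2.1 e.2.2 s))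
      fun z hz hn => by
        by_cases hc : ∃ s, ¬ Cl S (put z e.2.1 e.2.2 s)
        · exact Or.inr hc
        push Not at hc
        have hz' : Cl S z := by have := hc (get z e.2.1 e.2.2); rwa [put_get] at this
        refine Or.inl (tests_true hσ2 r2 (hz' _) (get_put (by omega) _) he he2
          (fun ρ s => by rw [N_reg he2]; exact hc s ρ) ?_)
        by_cases ha : ∀ s, W (put z e.2.1 e.2.2 s) = pv (x (put z e.2.1 e.2.2 s))
        · refine Or.inr ⟨fun s => x (put z e.2.1 e.2.2 s), fun s => ?_, hn⟩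
          rw [N_reg he2, (hl.home h0 (inR_put he hz s)).put_reg]; exact ha s
        · push Not at ha
          obtain ⟨s, hs⟩ := ha
          refine Or.inl ⟨s, ?_⟩
          rw [N_reg he2]
          exact (hv _ (inR_put he hz s) (hc s)).resolve_left hs _ (by decide)
    have k2 := av_line (z0 := z0) hl he fun z => ¬ Cl S z
    linarith
  have h5 : (ds.length : ℝ) ≤ M := by exact_mod_cast hd
  have h2 : (ds.map fun e =>
      av (pos ds) (fun z => ind (¬ LoC e.1 (line (fun z => b2 (x z)) z e))) z0).sum ≤ M * B := by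
    refine (List.sum_le_card_nsmul _ B fun c hc => ?_).trans ?_
    · obtain ⟨e, he, rfl⟩ := List.mem_map.1 hc
      exact h1 e he
    · rw [List.length_map, nsmul_eq_mul]
      exact mul_le_mul_of_nonneg_right h5 hB0
  obtain ⟨F, hF, hx⟩ := ltc hl z0 _ h2 (le_trans (mul_le_mul_of_nonneg_left
    (pow_le_pow_right₀ (by norm_num) hd) (by positivity)) h)
  refine ⟨F, hF, ?_⟩
  have k1 := av_or (P := pos ds) (z0 := z0) (p := fun z => Y z ≠ pz (F z))
    (a := fun z => b2 (x z) ≠ F z) (b := fun z => Y z ≠ pv (x z)) fun z _ hn => by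
      by_contra hc
      push Not at hc
      exact hn (by rw [hc.2, ← hc.1, pz_b2])
  have k2 := av_or (P := pos ds) (z0 := z0) (p := fun z => Y z ≠ pv (x z))
    (a := fun z => Y (reg z 2) = pv true) (b := fun z => ¬ Cl S z) fun z hz hn => by
      by_cases hc : Cl S z
      · have hh := hl.home h0 hz
        rcases hv z hz hc with k | k
        · refine absurd (keep r2 ?_ (Or.inl ?_) k) hn
          · rw [← hh.put_reg]; exact hc 0
          · rw [hh.get_reg]; decide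
        · exact Or.inl (keep r2 (hc _) (Or.inr rfl) (k _ (by decide)))
      · exact Or.inr hc
  have k3 : (32 : ℝ) ^ ds.length * (M * B) ≤ 32 ^ M * (M * B) :=
    mul_le_mul_of_nonneg_right (pow_le_pow_right₀ (by norm_num) hd) (by positivity)
  unfold err
  linarith

end Vale.Agent.P330.Amp
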