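import Vale.Agent.P330.SanA
import Vale.Agent.P330.Bitonic

/-! The back part of the sanitizer: purification of the flags, sorting, selection (task SanB).
Plan. `D = vd κ v :: ds`, region `Q = pos D ∪ [2, u + 2)` at register 2. After the `u` purification
layers, for a home point `z` whose column `{U}` is fault free at most one of the `2 ^ u` copies of
the flag is not pure and all copies are `pv γ` if the flag was. (Count columns with a fault:
density `≤ 2 ^ (u+2) flt`.) Shadows `g1 = [pure true]`, `g0 = not [pure false]`, densities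
`n1 ≤ n0 ≤ n1 + 2 ^ (-u) + 2 ^ (u+2) flt`. `noisy_lower` for `g1`, `noisy_upper` for `g0`, `bitonic`;
the rank of the cell read by version `r` lies in `[(4 r + 2) 2 ^ n, (4 r + 3) 2 ^ n)`, `n` = number of
bits of `D` (`rank_append`, `rank_range'`). Version `r` is high if `4 r + 3 ≤ 2 ^ u n1` (output zero),
low if `2 ^ u n0 ≤ 4 r + 2` (output = register 0); at most one `r` is neither. The number of stages
is at most `u ^ 4 ≤ 2 ^ u`. Register 0 of fault free home points is copied (pure values). -/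

namespace Vale.Agent.P330.Amp

open Vale.Agent.Lib.H23 Vale.Agent.P325 Finset
open scoped BigOperators

variable {σ κ u M v : ℕ} {ds : List Dim} {orc : ℕ → Vec σ → Bool} {S : Vec σ → Prop}
  {X Y : Vec σ → Val} {z0 : Vec σ}

/-- purification of the flags, sorting and selection. -/
def sanEnd (κ u v : ℕ) (ds : List Dim) : List Ins :=
  ((List.range u).map fun j => .pur (j + 2)) ++
    ((stages (bitsOf (vd κ v :: ds) ++ List.range' 2 u)).map fun s =>
      .cell .cmpB s.1 1 0 0 fun _ => s.2) ++ [.cell .sel 2 (κ + 2) v κ nc]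

theorem sb_runs_map {α : Type} (l : List α) (f : α → Ins) (h : Runs κ orc S (l.map f) X Y) :
    ∃ Z : ℕ → Vec σ → Val, Z 0 = X ∧ Z l.length = Y ∧
      ∀ t, ∀ ht : t < l.length, ∀ z, ¬ S z → (f l[t]).sat κ orc (Z t) (Z (t + 1)) z := by
  rw [List.map_eq_flatMap] at h
  obtain ⟨Z, h1, h2, h3⟩ := runs_flatMap l (fun a => [f a]) h
  exact ⟨Z, h1, h2, fun t ht => runs_single.1 (h3 t ht)⟩

theorem sb_put0 {y y' : Vec σ} {j : ℕ} (hy : ∀ i : Fin σ, i.val = j + 2 → y i = 0)
    (h : InR (Set.Ico 2 (2 + (j + 1))) y y') : InR (Set.Ico 2 (2 + j)) y (put y' (j + 2) 1 0) := by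
  intro i hi
  unfold put
  split_ifs with h1
  · exact (hy i (by omega)).symm
  · exact h i fun h2 => hi ⟨h2.1, by have := h2.2; omega⟩

/-- purification of a fault free column. -/
theorem sb_pur {Z : ℕ → Vec σ → Val} {y : Vec σ}
    (hZ : ∀ t < u, ∀ z, ¬ S z → (Ins.pur (t + 2)).sat κ orc (Z t) (Z (t + 1)) z)
    (hy : ∀ i : Fin σ, 2 ≤ i.val → i.val < u + 2 → y i = 0)
    (hS : ∀ y', InR (Set.Ico 2 (2 + u)) y y' → ¬ S y') (j : ℕ) (hj : j ≤ u) :
    (∀ γ, Z 0 y = pv γ → ∀ y', InR (Set.Ico 2 (2 + j)) y y' → Z j y' = pv γ) ∧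
      ∃ y0, ∀ y', InR (Set.Ico 2 (2 + j)) y y' → y' ≠ y0 → ∃ γ, Z j y' = pv γ := by
  induction j with
  | zero =>
    have e : ∀ y', InR (Set.Ico 2 (2 + 0)) y y' → y' = y := fun y' h =>
      funext fun i => h i (by simp)
    exact ⟨fun γ h y' h' => by rw [e y' h', h], y, fun y' h h' => absurd (e y' h) h'⟩
  | succ j ih =>
    obtain ⟨h1, y0, h2⟩ := ih (by omega)
    have h3 : ∀ y', InR (Set.Ico 2 (2 + (j + 1))) y y' → ∀ γ,
        rd (decide (fld y' (j + 2) 1 = 1)) (Z j (put y' (j + 2) 1 0)) = some γ →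
        Z (j + 1) y' = pv γ := fun y' h =>
      hZ j (by omega) y' (hS y' (h.mono (Set.Ico_subset_Ico_right (by omega))))
    have h4 := fun y' => sb_put0 (y := y) (y' := y') (j := j) fun i hi => hy i (by omega) (by omega)
    refine ⟨fun γ h y' h' => h3 y' h' γ (by rw [h1 γ h _ (h4 y' h'), rd_pv]),
      put y0 (j + 2) 1 (ofN 1 (if Z j y0 ≤ 1 then 0 else 1)), fun y' h h' => ?_⟩
    by_cases h5 : put y' (j + 2) 1 0 = y0
    · have h6 : fld y' (j + 2) 1 ≠ if Z j y0 ≤ 1 then 0 else 1 := fun h6 => h' (by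
        rw [← h6, ← h5, put_put, ofN_fld, put_get])
      have h7 : fld y' (j + 2) 1 < 2 ^ 1 := fld_lt
      have h8 := h3 y' h
      rw [h5] at h8
      by_cases h9 : Z j y0 ≤ 1
      · rw [if_pos h9] at h6
        exact ⟨false, h8 _ (by rw [show fld y' (j + 2) 1 = 1 by omega]; simp [rd, h9])⟩
      · rw [if_neg h9] at h6
        refine ⟨true, h8 _ ?_⟩
        rw [decide_eq_false h6]
        revert h9
        generalize Z j y0 = a
        revert a
        decide
    · obtain ⟨γ, h6⟩ := h2 _ (h4 y' h) h5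
      exact ⟨γ, h3 y' h γ (by rw [h6, rd_pv])⟩

theorem sb_cmp_copy {p : ℕ} {c : Fin 4 → Cond} {z : Vec σ} {γ : Bool}
    (h : (Ins.cell .cmpB p 1 0 0 c).sat κ orc X Y z) (hz : get z 0 2 ≠ ofN 2 2)
    (hX : X z = pv γ) : Y z = pv γ := by
  refine HF.pure h fun r hr => ?_
  simp only [kf, if_neg hz]
  exact hr _ _ (by simp only [put_get, hX])

theorem sb_cmp_true {s : ℕ × Cond} {z : Vec σ}
    (h : (Ins.cell .cmpB s.1 1 0 0 fun _ => s.2).sat κ orc X Y z) (hz : get z 0 2 = ofN 2 2)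
    (hX : cst orc s (fun y => decide (X y = pv true)) z = true) : Y z = pv true := by
  refine HF.pure h fun r hr => ?_
  have e : ∀ a, X (put z s.1 1 (ofN 1 a)) = pv true → r (get z 0 2, ofN 1 a, get z 0 0) = true :=
    fun a ha => hr _ _ (by simp only [put_get, put_zero, ha])
  simp only [kf, if_pos hz]
  unfold cst at hX
  change (if xor (decide (fld z s.1 1 = 1)) (s.2.ev orc z) then _ else _) = true
  split_ifs at hX ⊢
  · rw [Bool.and_eq_true, decide_eq_true_eq, decide_eq_true_eq] at hX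
    rw [e 0 hX.1, e 1 hX.2]; rfl
  · rw [Bool.or_eq_true, decide_eq_true_eq, decide_eq_true_eq] at hX
    rw [Bool.or_eq_true]
    exact hX.imp (e 0) (e 1)

theorem sb_cmp_false {s : ℕ × Cond} {z : Vec σ}
    (h : (Ins.cell .cmpB s.1 1 0 0 fun _ => s.2).sat κ orc X Y z) (hz : get z 0 2 = ofN 2 2)
    (hX : cst orc s (fun y => decide (X y ≠ pv false)) z = false) : Y z = pv false := by
  refine HF.pure h fun r hr => ?_
  have e : ∀ a, ¬ X (put z s.1 1 (ofN 1 a)) ≠ pv false →
      r (get z 0 2, ofN 1 a, get z 0 0) = false :=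
    fun a ha => hr _ _ (by simp only [put_get, put_zero, not_not.1 ha])
  simp only [kf, if_pos hz]
  unfold cst at hX
  change (if xor (decide (fld z s.1 1 = 1)) (s.2.ev orc z) then _ else _) = false
  split_ifs at hX ⊢
  · rw [Bool.and_eq_false_iff, decide_eq_false_iff_not, decide_eq_false_iff_not] at hX
    rw [Bool.and_eq_false_iff]
    exact hX.imp (e 0) (e 1)
  · rw [Bool.or_eq_false_iff, decide_eq_false_iff_not, decide_eq_false_iff_not] at hX
    rw [e 0 hX.1, e 1 hX.2]; rfl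

/-- the flag read by the home point `z`. -/
def sbFl (κ v : ℕ) (z : Vec σ) : Vec σ := put (reg z 2) 2 (κ + 2) (ofN _ (4 * fld z v κ + 2))

theorem sb_sel {z : Vec σ} (h : (Ins.cell .sel 2 (κ + 2) v κ nc).sat κ orc X Y z) (hz : Home u z)
    (hv : κ + 4 ≤ v) : (X (sbFl κ v z) = pv true → Y z = pv false) ∧
      (X (sbFl κ v z) = pv false → ∀ γ, X z = pv γ → Y z = pv γ) := by
  have e : put (put (put z 0 2 (ofN 2 2)) 2 (κ + 2) (ofN _ (4 * toN (get z v κ) + 2))) v κ
      (get z v κ) = sbFl κ v z := by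
    rw [put_comm (Or.inl (by omega)), put_comm (w := 2) (Or.inl (by omega)), put_get]; rfl
  refine ⟨fun h1 => HF.pure h fun r hr => ?_, fun h1 γ h2 => HF.pure h fun r hr => ?_⟩
  · simp only [kf]
    rw [hr (ofN 2 2, ofN _ (4 * toN (get z v κ) + 2), get z v κ) true (by rw [e, h1])]
    simp
  · simp only [kf]
    rw [hr (ofN 2 2, ofN _ (4 * toN (get z v κ) + 2), get z v κ) false (by rw [e, h1]),
      hr (0, get z 2 (κ + 2), get z v κ) γ (by simp only [hz.put_reg, put_get, h2])]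
    simp

theorem sb_pt_le {f : Vec σ → ℝ} (hf : ∀ z, 0 ≤ f z) {y y' : Vec σ}
    (h : InR (Set.Ico 2 (2 + u)) y y') : f y' ≤ 2 ^ u * av (Set.Ico 2 (2 + u)) f y := by
  have := av_slice (P := ∅) hf (List.range' 2 u) (fun j hj => Or.inr (List.mem_range'_1.2 hj))
    (Set.empty_subset _) h
  rwa [av_empty, List.length_range'] at this

theorem sb_single (hσ : u + 2 ≤ σ) (y y0 : Vec σ) :
    av (Set.Ico 2 (2 + u)) (fun z => ind (z = y0)) y ≤ (1 / 2) ^ u := by
  classical
  rw [av_Ico (by omega)]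
  refine le_trans (expect_le_expect (g := fun s => ind (s = get y0 2 u)) fun s _ =>
    ind_mono fun h => by rw [← h, get_put (by omega)]) (le_of_eq ?_)
  simp [Fintype.expect_eq_sum_div_card, ind_eq_ite, ZMod.card]

theorem sb_pow4 {u : ℕ} (h : 16 ≤ u) : u ^ 4 ≤ 2 ^ u := by
  induction u, h using Nat.le_induction with
  | base => norm_num
  | succ u h ih =>
    have h1 : u ^ 4 = u * u ^ 3 := by ring
    have h2 : u ^ 3 = u * u ^ 2 := by ring
    have h3 : u ^ 2 = u * u := by ring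
    have h4 : (u + 1) ^ 4 = u ^ 4 + 4 * u ^ 3 + 6 * u ^ 2 + 4 * u + 1 := by ring
    have h5 := Nat.mul_le_mul_right (u ^ 3) h
    have h6 := Nat.mul_le_mul_right (u ^ 2) h
    have h7 := Nat.mul_le_mul_right u h
    rw [pow_succ 2]; omega

theorem sb_small {β : ℝ} {a : ℕ} (hβ : β ≤ (1 / 2) ^ (4 * u)) (ha : a ≤ 3 * u) :
    2 ^ a * β ≤ (1 / 2) ^ u := by
  refine (mul_le_mul_of_nonneg_left hβ (by positivity)).trans ?_
  rw [show 4 * u = 3 * u + u by ring, pow_add, ← mul_assoc]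
  refine mul_le_of_le_one_left (by positivity) ?_
  rw [one_div_pow, mul_one_div, div_le_one (by positivity)]
  exact pow_le_pow_right₀ one_le_two ha

theorem sb_core {D : List Dim} (hp : Par κ u M) (hl : Lay σ κ u D) (hd : D.length ≤ M)
    (hv : u + 2 ≤ v) (hσ : u + 2 ≤ σ) (h0 : Home u z0)
    (hr : Runs κ orc S (((List.range u).map fun j => .pur (j + 2)) ++
      ((stages (bitsOf D ++ List.range' 2 u)).map fun s => .cell .cmpB s.1 1 0 0 fun _ => s.2) ++
        [.cell .sel 2 (κ + 2) v κ nc]) X Y) (hβ : flt u S (pos D) z0 ≤ (1 / 2) ^ (4 * u)) :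
    ∃ (n1 n0 : ℝ) (B : Vec σ → Prop),
      av (pos D) (fun z => ind (B z)) z0 ≤ 2 ^ (2 * u + 4) * flt u S (pos D) z0 ∧
      (∀ z, InR (pos D) z0 z → ¬ B z →
        (4 * (fld z v κ : ℝ) + 3 ≤ 2 ^ u * n1 → Y z = pv false) ∧
        (2 ^ u * n0 ≤ 4 * (fld z v κ : ℝ) + 2 → ∀ γ, X z = pv γ → Y z = pv γ)) ∧
      n0 ≤ n1 + 2 * (1 / 2) ^ u ∧
      n0 ≤ av (pos D) (fun z => ind (X (reg z 2) ≠ pv false)) z0 + (1 / 2) ^ u ∧
      av (pos D) (fun z => ind (X (reg z 2) = pv true)) z0 ≤ n0 + (1 / 2) ^ u := by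
  classical
  have hκ : κ < 2 ^ κ := Nat.lt_two_pow_self
  have hu := hp.hu
  have hM := hp.hM
  have hκ6 := hp.hκ
  obtain ⟨X2, hr1, hr3⟩ := runs_append.1 hr
  obtain ⟨X1, hr1, hr2⟩ := runs_append.1 hr1
  obtain ⟨Z, hZ0, hZ1, hZ⟩ := sb_runs_map _ _ hr1
  obtain ⟨W, hW0, hW1, hW⟩ := sb_runs_map _ _ hr2
  have hsel := runs_single.1 hr3
  simp only [List.length_range, List.getElem_range] at hZ1 hZ
  set β := flt u S (pos D) z0 with hβd
  have hβ0 : 0 ≤ β := flt_nonneg S
  set bs := bitsOf D ++ List.range' 2 u with hbs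
  set I : Set ℕ := Set.Ico 2 (2 + u) with hI
  set Q : Set ℕ := {j | j ∈ bs} with hQ
  have hQ' : Q = pos D ∪ I := Set.ext fun j => by
    simp only [hQ, hbs, hI, Set.mem_ofPred_eq, List.mem_append, mem_bitsOf, List.mem_range'_1,
      Set.mem_union, Set.mem_Ico]
  have hP : ∀ j ∈ pos D, u + 2 ≤ j ∧ j < σ := fun j hj => hl.mem_pos hj
  have hQ2 : ∀ j ∈ Q, 2 ≤ j ∧ j < σ := fun j hj => by
    rcases hQ' ▸ hj with h | h
    · have := hP j h; omega
    · have := h.1; have := h.2; omega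
  have hnd : bs.Nodup := List.Nodup.append hl.nodup (List.nodup_range') fun j h1 h2 => by
    have := hP j (mem_bitsOf.1 h1); have := List.mem_range'_1.1 h2; omega
  have lift : ∀ f : Vec σ → ℝ, av (pos D) (fun z => av I f (reg z 2)) z0 = av Q f (reg z0 2) :=
    fun f => by
      rw [hQ', ← av_av]
      exact av_put (fun j _ h2 h3 => by have := hP j h3; omega) _
  have hreg : ∀ z, InR Q (reg z0 2) z → get z 0 2 = ofN 2 2 := fun z hz => by
    rw [hz.get fun j _ h2 h3 => by have := hQ2 j h3; omega]; exact get_put (by omega) _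
  have he : av Q (fun z => ind (S z)) (reg z0 2) ≤ 2 ^ 2 * β :=
    av_slice (fun _ => ind_nonneg _) [0, 1] (fun j hj => by
      rcases hj with h | h
      · exact Or.inl (hQ' ▸ Or.inl h)
      · by_cases h2 : j < 2
        · right; simp; omega
        · exact Or.inl (hQ' ▸ Or.inr ⟨by omega, by have : j < u + 2 := h; omega⟩))
      (hQ' ▸ Set.union_subset_union_right _ fun j hj => by
        have := hj.2; change j < u + 2; omega)
      (InR.refl.put (fun j _ h => Or.inr (by change j < u + 2; omega)) _)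
  -- columns
  have hcol : ∀ z, InR (pos D) z0 z → (∀ y', InR I (reg z 2) y' → ¬ S y') →
      (∀ γ, X (reg z 2) = pv γ → ∀ y', InR I (reg z 2) y' → X1 y' = pv γ) ∧
      ∃ y0, ∀ y', InR I (reg z 2) y' → y' ≠ y0 → ∃ γ, X1 y' = pv γ := fun z hz hS => by
    have := sb_pur hZ (y := reg z 2) (fun i h1 h2 => by
      rw [reg, put, dif_neg (by omega)]; exact hl.home h0 hz i h2) hS u le_rfl
    rwa [hZ0, hZ1] at this
  have hfc : av (pos D) (fun z => ind (∃ y', InR I (reg z 2) y' ∧ S y')) z0 ≤ (1 / 2) ^ u := by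
    refine le_trans (av_mono (g := fun z => 2 ^ u * av I (fun y => ind (S y)) (reg z 2))
      fun z _ => ?_) ?_
    · by_cases h : ∃ y', InR I (reg z 2) y' ∧ S y'
      · obtain ⟨y', h1, h2⟩ := h
        exact (ind_le_one _).trans ((ind_of h2).ge.trans
          (sb_pt_le (f := fun y => ind (S y)) (fun _ => ind_nonneg _) h1))
      · rw [ind_of_not h]; exact mul_nonneg (by positivity) (av_ind_nonneg _)
    · rw [av_mul, lift]
      refine (mul_le_mul_of_nonneg_left he (by positivity)).trans ?_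
      rw [← mul_assoc, ← pow_add]
      exact sb_small hβ (by omega)
  have hcmp : ∀ (f g : Vec σ → ℝ) (c : ℝ), (∀ z, f z ≤ 1) → (∀ z, 0 ≤ g z) → 0 ≤ c →
      (∀ z, InR (pos D) z0 z → (∀ y', InR I (reg z 2) y' → ¬ S y') → f z ≤ g z + c) →
      av (pos D) f z0 ≤ av (pos D) g z0 + c + (1 / 2) ^ u := fun f g c h1 h2 h3 h4 => by
    refine le_trans (av_mono (g := fun z => g z + c + ind (∃ y', InR I (reg z 2) y' ∧ S y'))
      fun z hz => ?_) (by rw [av_add, av_add, av_const]; linarith)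
    by_cases h : ∃ y', InR I (reg z 2) y' ∧ S y'
    · rw [ind_of h]; linarith [h1 z, h2 z]
    · rw [ind_of_not h, add_zero]; exact h4 z hz fun y' h5 h6 => h ⟨y', h5, h6⟩
  -- sorting
  have hst : ∀ s ∈ stages bs, s.1 ∈ Q ∧ s.1 < σ ∧
      ∀ z t, s.2.ev orc (put z s.1 1 t) = s.2.ev orc z := fun s hs => by
    obtain ⟨h1, h2⟩ := stages_mem (orc := orc) hnd hs
    exact ⟨h1, (hQ2 _ h1).2, fun z t => h2 _ _ fun j _ hj => by
      rw [fld, fld, get_put_disj (by omega)]⟩
  have hlow := noisy_lower (z0 := reg z0 2) (stages bs) hst (fun t y => decide (W t y = pv true))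
    fun t ht => le_trans (av_mono fun z hz => ind_mono fun h => by
      by_contra h1
      simpa [sb_cmp_true (hW t ht z h1) (hreg z hz) h.1] using h.2) he
  have hup := noisy_upper (z0 := reg z0 2) (stages bs) hst (fun t y => decide (W t y ≠ pv false))
    fun t ht => le_trans (av_mono fun z hz => ind_mono fun h => by
      by_contra h1
      simpa [sb_cmp_false (hW t ht z h1) (hreg z hz) h.2] using h.1) he
  simp only [hW0, hW1] at hlow hup
  have hL : ((stages bs).length : ℝ) ≤ 2 ^ u := by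
    have h1 := length_stages bs
    have h2 := hl.length_bitsOf
    have h3 : bs.length = (bitsOf D).length + u := by simp [hbs]
    have h4 : D.length * 2 ^ κ ≤ M * u := Nat.mul_le_mul hd (by omega)
    have h5 : (M + 1) * u ≤ u * u := Nat.mul_le_mul_right _ (by omega)
    have h6 : bs.length ^ 2 ≤ (u * u) ^ 2 := Nat.pow_le_pow_left (by nlinarith) 2
    have h7 := sb_pow4 (u := u) (by omega)
    exact_mod_cast h1.trans (h6.trans (le_trans (le_of_eq (by ring)) h7))
  have hfl : ∀ z : Vec σ, InR I (reg z 2) (sbFl κ v z) := fun z =>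
    InR.refl.put (fun j h1 h2 => Set.mem_Ico.2 ⟨h1, by omega⟩) _
  have hmis : ∀ q : Vec σ → Prop, av Q (fun y => ind (q y)) (reg z0 2) ≤
      (stages bs).length * (2 ^ 2 * β) →
      av (pos D) (fun z => ind (q (sbFl κ v z))) z0 ≤ 2 ^ (2 * u + 2) * β := fun q h => by
    refine (av_mono fun z _ => sb_pt_le (f := fun y => ind (q y)) (fun _ => ind_nonneg _)
      (hfl z)).trans ?_
    rw [av_mul, lift]
    refine (mul_le_mul_of_nonneg_left (h.trans (mul_le_mul_of_nonneg_right hL (by positivity)))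
      (by positivity)).trans (le_of_eq (by ring))
  refine ⟨av Q (fun y => ind (X1 y = pv true)) (reg z0 2),
    av Q (fun y => ind (X1 y ≠ pv false)) (reg z0 2), fun z => S z ∨
      ((stages bs).foldl (fun g s => cst orc s g) (fun y => decide (X1 y = pv true)) (sbFl κ v z)
        = true ∧ decide (X2 (sbFl κ v z) = pv true) = false) ∨
      (decide (X2 (sbFl κ v z) ≠ pv false) = true ∧ (stages bs).foldl (fun g s => cst orc s g)
        (fun y => decide (X1 y ≠ pv false)) (sbFl κ v z) = false), ?_, fun z hz hB => ?_, ?_, ?_, ?_⟩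
  · refine (av_mono fun z _ => (ind_or_le _ _).trans (add_le_add le_rfl (ind_or_le _ _))).trans ?_
    rw [av_add, av_add]
    have h1 := av_le_flt (P := pos D) (z := z0) (u := u) S
    have h2 := hmis _ hlow
    have h3 := hmis _ hup
    have h4 : (2 : ℝ) ^ (u + 2) * β ≤ 2 ^ (2 * u + 2) * β :=
      mul_le_mul_of_nonneg_right (pow_le_pow_right₀ one_le_two (by omega)) hβ0
    have h5 : (2 : ℝ) ^ (2 * u + 4) * β = 4 * (2 ^ (2 * u + 2) * β) := by ring
    have h6 : (0 : ℝ) ≤ 2 ^ (2 * u + 2) * β := by positivity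
    linarith
  · have hz' := hl.home h0 hz
    obtain ⟨hS, hB⟩ := not_or.1 hB
    obtain ⟨hB1, hB0⟩ := not_or.1 hB
    obtain ⟨s1, s2⟩ := sb_sel (hsel z hS) hz' (by omega)
    have hr : fld z v κ < 2 ^ κ := fld_lt
    have hQz : InR Q (reg z0 2) (sbFl κ v z) :=
      ((hz.put_put _).mono (hQ' ▸ Set.subset_union_left)).trans
        ((hfl z).mono (hQ' ▸ Set.subset_union_right))
    have h1 : fld (sbFl κ v z) 2 u = 4 * fld z v κ + 2 := by
      have e : fld z (2 + (κ + 2)) (u - (κ + 2)) = 0 := by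
        rw [fld, show get z (2 + (κ + 2)) (u - (κ + 2)) = ofN _ 0 from ?_, toN_ofN, Nat.zero_mod]
        rw [ofN_zero]
        funext i
        rw [get]
        split_ifs
        · exact hz' _ (by have := i.2; simp only; omega)
        · rfl
      have e' : get (sbFl κ v z) (2 + (κ + 2)) (u - (κ + 2)) =
          get z (2 + (κ + 2)) (u - (κ + 2)) := by
        rw [sbFl, reg, get_put_disj (Or.inl le_rfl), get_put_disj (Or.inl (by omega))]
      have e2 : fld (sbFl κ v z) (2 + (κ + 2)) (u - (κ + 2)) = 0 := by rw [fld, e']; exact e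
      rw [show u = κ + 2 + (u - (κ + 2)) by omega, fld_add, e2, mul_zero, add_zero, sbFl,
        fld_put (by omega) (by rw [pow_add]; omega)]
    have h2 : (rank bs (sbFl κ v z) : ℝ) =
        rank (bitsOf D) (sbFl κ v z) + 2 ^ (bitsOf D).length * (4 * fld z v κ + 2) := by
      rw [hbs, rank_append, rank_range', h1]; push_cast; ring
    have h3 : (rank (bitsOf D) (sbFl κ v z) : ℝ) < 2 ^ (bitsOf D).length := by
      exact_mod_cast rank_lt _ _
    have h4 : (2 : ℝ) ^ bs.length = 2 ^ (bitsOf D).length * 2 ^ u := by simp [hbs, pow_add]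
    have h5 : (0 : ℝ) < 2 ^ (bitsOf D).length := by positivity
    rw [bitonic hnd fun j hj => (hQ2 j hj).2, av_base hQz, h2, h4] at hB1 hB0
    simp only [decide_eq_true_eq, decide_eq_false_iff_not, not_and, not_not] at hB1 hB0
    refine ⟨fun h => s1 (hB1 (by nlinarith)), fun h γ hγ => s2 ?_ γ ?_⟩
    · by_contra h6
      have h7 := hB0 h6
      have h8 : (0 : ℝ) ≤ rank (bitsOf D) (sbFl κ v z) := Nat.cast_nonneg _
      nlinarith
    · have h6 : ∀ t ≤ u, Z t z = pv γ := fun t ht => by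
        induction t with
        | zero => rw [hZ0, hγ]
        | succ t ih =>
          refine hZ t ht z hS γ ?_
          rw [show put z (t + 2) 1 0 = z from funext fun i => by
            unfold put; split_ifs; exacts [(hz' i (by omega)).symm, rfl], ih (by omega), rd_pv]
      have h7 : ∀ t ≤ (stages bs).length, W t z = pv γ := fun t ht => by
        induction t with
        | zero => rw [hW0, ← hZ1, h6 u le_rfl]
        | succ t ih =>
          exact sb_cmp_copy (hW t ht z hS) (by rw [hz'.get_reg]; decide) (ih (by omega))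
      rw [← hW1, h7 _ le_rfl]
  · rw [← lift, ← lift, two_mul, ← add_assoc]
    refine hcmp _ _ _ (fun _ => av_ind_le_one _) (fun _ => av_ind_nonneg _) (by positivity)
      fun z hz hS => ?_
    obtain ⟨y0, h⟩ := (hcol z hz hS).2
    refine le_trans (av_mono fun y hy => (ind_mono fun h1 => ?_).trans
      (ind_or_le (X1 y = pv true) (y = y0))) ?_
    · by_contra h2
      obtain ⟨γ, h3⟩ := h y hy (not_or.1 h2).2
      cases γ
      exacts [h1 h3, h2 (Or.inl h3)]
    · rw [av_add]; exact add_le_add le_rfl (sb_single hσ _ _)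
  · rw [← lift]
    refine le_trans (hcmp _ _ 0 (fun _ => av_ind_le_one _) (fun _ => ind_nonneg _) le_rfl
      fun z hz hS => ?_) (by rw [add_zero])
    rw [add_zero]
    exact av_le fun y hy => ind_mono fun h1 h2 => h1 ((hcol z hz hS).1 _ h2 y hy)
  · rw [← lift]
    refine le_trans (hcmp _ _ 0 (fun _ => ind_le_one _) (fun _ => av_ind_nonneg _) le_rfl
      fun z hz hS => ?_) (by rw [add_zero])
    rw [add_zero, ← av_const (P := I) (z0 := reg z 2) (ind _)]
    exact av_mono fun y hy => ind_mono fun h1 => by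
      rw [(hcol z hz hS).1 _ h1 y hy]; decide

/-- few flags: everything is passed on. -/
theorem sanEnd_pass (hp : Par κ u M) (hl : Lay σ κ u (vd κ v :: ds)) (hd : ds.length + 1 ≤ M)
    (h0 : Home u z0) (hr : Runs κ orc S (sanEnd κ u v ds) X Y)
    (hβ : flt u S (pos (vd κ v :: ds)) z0 ≤ (1 / 2) ^ (4 * u))
    (hf : av (pos (vd κ v :: ds)) (fun z => ind (X (reg z 2) ≠ pv false)) z0 ≤ (1 / 2) ^ u)
    (F : Vec σ → ZMod 2) : err (vd κ v :: ds) Y F z0 ≤
      err (vd κ v :: ds) X F z0 + 2 ^ (2 * u + 4) * flt u S (pos (vd κ v :: ds)) z0 := by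
  obtain ⟨hv1, hv2, -, -⟩ := hl.1 _ List.mem_cons_self
  simp only [vd] at hv1 hv2
  obtain ⟨n1, n0, B, h1, h2, -, h3, -⟩ := sb_core hp hl hd hv1 (by omega) h0 hr hβ
  have h4 : (2 : ℝ) ^ u * (1 / 2) ^ u = 1 := by rw [← mul_pow]; simp
  have h5 : 2 ^ u * n0 ≤ 2 ^ u * (2 * (1 / 2) ^ u) :=
    mul_le_mul_of_nonneg_left (by linarith) (by positivity)
  refine le_trans (av_mono fun z hz => (ind_mono fun h => ?_).trans
    (ind_or_le (X z ≠ pz (F z)) (B z))) (by rw [av_add]; exact add_le_add le_rfl h1)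
  by_contra h6
  obtain ⟨h7, h8⟩ := not_or.1 h6
  exact h ((h2 z hz h8).2 (by linarith [Nat.cast_nonneg (α := ℝ) (fld z v κ)]) _ (not_not.1 h7))

/-- all versions but one are zero or are passed on with few flags. -/
theorem sanEnd_all (hp : Par κ u M) (hl : Lay σ κ u (vd κ v :: ds)) (hd : ds.length + 1 ≤ M)
    (h0 : Home u z0) (hr : Runs κ orc S (sanEnd κ u v ds) X Y)
    (hβ : flt u S (pos (vd κ v :: ds)) z0 ≤ (1 / 2) ^ (4 * u)) :
    ∃ r0 : Vec κ, ∀ r ≠ r0, err ds Y (fun _ => 0) (put z0 v κ r) ≤ (1 / 2) ^ u ∨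
      (av (pos (vd κ v :: ds)) (fun z => ind (X (reg z 2) = pv true)) z0 ≤ 5 * 2 ^ κ * (1 / 2) ^ u ∧
        ∀ F, err ds Y F (put z0 v κ r) ≤ err ds X F (put z0 v κ r) + (1 / 2) ^ u) := by
  obtain ⟨hv1, hv2, -, -⟩ := hl.1 _ List.mem_cons_self
  simp only [vd] at hv1 hv2
  obtain ⟨n1, n0, B, h1, h2, h3, -, h4⟩ := sb_core hp hl hd hv1 (by omega) h0 hr hβ
  have hκ : κ < 2 ^ κ := Nat.lt_two_pow_self
  have hu := hp.hu
  have h5 : (2 : ℝ) ^ u * (1 / 2) ^ u = 1 := by rw [← mul_pow]; simp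
  have h6 : 2 ^ u * n0 ≤ 2 ^ u * (n1 + 2 * (1 / 2) ^ u) :=
    mul_le_mul_of_nonneg_left h3 (by positivity)
  have hpos : pos (vd κ v :: ds) = Set.Ico v (v + κ) ∪ pos ds := pos_cons
  have hin : ∀ r, InR (pos (vd κ v :: ds)) z0 (put z0 v κ r) := fun r =>
    InR.refl.put (fun j h h' => hpos ▸ Or.inl ⟨h, h'⟩) r
  have hB : ∀ r, av (pos ds) (fun z => ind (B z)) (put z0 v κ r) ≤ (1 / 2) ^ u := fun r => by
    refine (av_slice (fun _ => ind_nonneg _) (List.range' v κ) (fun j hj => ?_)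
      (hpos ▸ Set.subset_union_right) (hin r)).trans ?_
    · exact (hpos ▸ hj).symm.imp id List.mem_range'_1.2
    · refine (mul_le_mul_of_nonneg_left h1 (by positivity)).trans ?_
      rw [← mul_assoc, ← pow_add, List.length_range']
      exact sb_small hβ (by omega)
  have hz : ∀ r z, InR (pos ds) (put z0 v κ r) z →
      InR (pos (vd κ v :: ds)) z0 z ∧ fld z v κ = toN r := fun r z h =>
    ⟨(hin r).trans (h.mono (hpos ▸ Set.subset_union_right)), by
      rw [fld, h.get (p := v) (w := κ) fun j j1 j2 =>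
        Lay.disj (ds := [vd κ v]) hl ⟨_, List.mem_cons_self, j1, j2⟩, get_put hv2]⟩
  have key : ∀ r : Vec κ, 4 * (toN r : ℝ) + 3 ≤ 2 ^ u * n1 ∨ 2 ^ u * n0 ≤ 4 * (toN r : ℝ) + 2 →
      err ds Y (fun _ => 0) (put z0 v κ r) ≤ (1 / 2) ^ u ∨
      (av (pos (vd κ v :: ds)) (fun z => ind (X (reg z 2) = pv true)) z0 ≤ 5 * 2 ^ κ * (1 / 2) ^ u ∧
        ∀ F, err ds Y F (put z0 v κ r) ≤ err ds X F (put z0 v κ r) + (1 / 2) ^ u) := by
    rintro r (h | h)
    · refine Or.inl (le_trans (av_mono fun z hz' => ind_mono fun h7 => ?_) (hB r))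
      by_contra h8
      exact h7 ((h2 z (hz r z hz').1 h8).1 ((hz r z hz').2 ▸ h))
    · refine Or.inr ⟨?_, fun F => le_trans (av_mono fun z hz' => (ind_mono fun h7 => ?_).trans
        (ind_or_le (X z ≠ pz (F z)) (B z))) (by rw [av_add]; exact add_le_add le_rfl (hB r))⟩
      · have h7 : (toN r : ℝ) + 1 ≤ 2 ^ κ := by exact_mod_cast toN_lt r
        have h8 : (0 : ℝ) < (1 / 2) ^ u := by positivity
        have h9 : n0 = 2 ^ u * n0 * (1 / 2) ^ u := by rw [mul_right_comm, h5, one_mul]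
        have h10 := mul_le_mul_of_nonneg_right h h8.le
        have h11 : (0 : ℝ) ≤ toN r := Nat.cast_nonneg _
        nlinarith
      · by_contra h8
        obtain ⟨h9, h10⟩ := not_or.1 h8
        exact h7 ((h2 z (hz r z hz').1 h10).2 ((hz r z hz').2 ▸ h) _ (not_not.1 h9))
  by_cases h : ∃ r0 : Vec κ,
      ¬ (4 * (toN r0 : ℝ) + 3 ≤ 2 ^ u * n1 ∨ 2 ^ u * n0 ≤ 4 * (toN r0 : ℝ) + 2)
  · obtain ⟨r0, h⟩ := h
    refine ⟨r0, fun r hr' => key r ?_⟩
    by_contra h'
    simp only [not_or, not_le] at h h'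
    have h7 : (toN r : ℝ) < toN r0 + 1 := by linarith [h.1, h'.2]
    have h8 : (toN r0 : ℝ) < toN r + 1 := by linarith [h.2, h'.1]
    have h9 : toN r < toN r0 + 1 := by exact_mod_cast h7
    have h10 : toN r0 < toN r + 1 := by exact_mod_cast h8
    exact hr' (by rw [← ofN_toN r, ← ofN_toN r0, show toN r = toN r0 by omega])
  · exact ⟨0, fun r _ => key r (not_not.1 fun h' => h ⟨r, h'⟩)⟩

end Vale.Agent.P330.Amp
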