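import Vale.Agent.P330.InstPT

/-! Pure circuits as instances without blocks (task Seq).
Plan. Let `n = C.length`, `σ = size n + 2`, `τ = size n + 1`, `b = β = k0 = 0`. Register `(z, ρ)` is the
address with number `4 z + ρ`. All reads use the low window except where stated; input 0 is always
`Tr 0` and every register that is not written copies input 0 (pure values persist, `rd_pv`).
Time `2 z` (`z < n`): register `(z,0)` is written: for `Nor a b` it reads `(a,0)`, `(b,0)`
(translations `4 z ^^^ 4 a`, ...), for `Up a` it copies `(a,1)`, for `Down a` it copies `(a,2)`.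
Time `2 z + 1`: `(z,1)` copies `(z,0)` through the low window (input 1), `(z,2)` through the
high window (input 2). Decoder: the value of node `z` is the value of `(z,0)` at time `2 z`.
A pure value of a register persists cyclically until the register is written again. -/

namespace Vale.Agent.P330.Amp

open Vale.Agent.Lib.H23 Vale.Agent.P333 Vale.Agent.P325 Finset Matrix
open scoped BigOperators

namespace Seq

/-- the four labels. -/
def labF (k : ℕ) : Code ((Fin 3 → Bool) → Bool) :=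
  if k = 0 then ⟨fun r => r 0⟩ else if k = 1 then ⟨fun r => r 1⟩ else if k = 2 then ⟨fun r => r 2⟩
  else ⟨fun r => !(r 1 || r 2)⟩

/-- the gate number `z`. -/
def gt (C : PC) (z : ℕ) : ℕ × ℕ × ℕ := C.getD z (0, 0, 0)

/-- the label of register `m` at time `t`. -/
def sel (C : PC) (t m : ℕ) : ℕ :=
  if t % 2 = 0 then (if m = 2 * t then (if (gt C (t / 2)).1 = 0 then 3 else 1) else 0)
  else if m + 1 = 2 * t then 1 else if m = 2 * t then 2 else 0

/-- the register read by the first input of a gate. -/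
def rg1 (g : ℕ × ℕ × ℕ) : ℕ := 4 * g.2.1 + (if g.1 = 0 then 0 else if g.1 = 1 then 1 else 2)

def tr1 (C : PC) (t : ℕ) : ℕ := if t % 2 = 0 then 2 * t ^^^ rg1 (gt C (t / 2)) else 1

def tr2 (C : PC) (t : ℕ) : ℕ := if t % 2 = 0 then 2 * t ^^^ 4 * (gt C (t / 2)).2.2 else 2

def R (C : PC) : Inst 3 where
  b := 0
  β := 0
  σ := C.length.size + 2
  τ := C.length.size + 1
  k0 := 0
  gens := fun _ => 0
  op t := ![.Tr 0, .Tr (tr1 C t), .Tr (tr2 C t)]
  win t := ![false, false, decide (t % 2 = 1)]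
  lab t a := (labF (sel C t (toN a.2))).val

def D (p : PC × Asg) : List ℕ :=
  (List.range p.1.length).map fun z => p.2.getD (2 * z * 2 ^ (p.1.length.size + 2) + 4 * z) 0 % 4

theorem two_pow_size (n : ℕ) : 2 ^ n.size ≤ 2 * n + 1 := by
  rcases h : n.size with _ | k
  · simp
  · have : 2 ^ k ≤ n := Nat.lt_size.1 (by omega)
    rw [pow_succ]; omega

section pt

variable {X : Type} [Enc X]

theorem pt_gt {C : X → PC} {z : X → ℕ} (hC : PT C) (hz : PT z) : PT fun x => gt (C x) (z x) :=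
  PT.getD hC hz (PT.const _)

theorem pt_even {t : X → ℕ} (ht : PT t) (c : ℕ) : PT fun x => decide (t x % 2 = c) :=
  pt_decEq (pt_mod ht (PT.const 2)) (PT.const c)

theorem pt_sel {C : X → PC} {t m : X → ℕ} (hC : PT C) (ht : PT t) (hm : PT m) :
    PT fun x => sel (C x) (t x) (m x) := by
  have h2 : PT fun x => 2 * t x := PT.mul (PT.const 2) ht
  have hg := pt_gt hC (PT.div ht (PT.const 2))
  exact pt_ite (pt_even ht 0) (pt_ite (pt_decEq hm h2) (pt_ite (pt_decEq hg.fst (PT.const 0))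
    (PT.const 3) (PT.const 1)) (PT.const 0)) (pt_ite (pt_decEq (PT.add hm (PT.const 1)) h2)
    (PT.const 1) (pt_ite (pt_decEq hm h2) (PT.const 2) (PT.const 0)))

theorem pt_labF {k : X → ℕ} (hk : PT k) : PT fun x => labF (k x) :=
  pt_ite (pt_decEq hk (PT.const 0)) (PT.const _) (pt_ite (pt_decEq hk (PT.const 1)) (PT.const _)
    (pt_ite (pt_decEq hk (PT.const 2)) (PT.const _) (PT.const _)))

theorem pt_tr1 {C : X → PC} {t : X → ℕ} (hC : PT C) (ht : PT t) : PT fun x => tr1 (C x) (t x) := by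
  have hg := pt_gt hC (PT.div ht (PT.const 2))
  exact pt_ite (pt_even ht 0) (pt_xor (PT.mul (PT.const 2) ht) (PT.add (PT.mul (PT.const 4)
    hg.snd.fst) (pt_ite (pt_decEq hg.fst (PT.const 0)) (PT.const 0)
      (pt_ite (pt_decEq hg.fst (PT.const 1)) (PT.const 1) (PT.const 2))))) (PT.const 1)

theorem pt_tr2 {C : X → PC} {t : X → ℕ} (hC : PT C) (ht : PT t) : PT fun x => tr2 (C x) (t x) := by
  have hg := pt_gt hC (PT.div ht (PT.const 2))
  exact pt_ite (pt_even ht 0) (pt_xor (PT.mul (PT.const 2) ht) (PT.mul (PT.const 4) hg.snd.snd))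
    (PT.const 2)

theorem pu_sz {C : X → PC} (hC : PT C) (c : ℕ) : PU fun x => (C x).length.size + c :=
  (pu_size hC.length).add (PU.const c)

theorem pu_pw {C : X → PC} (hC : PT C) (c : ℕ) : PU fun x => 2 ^ ((C x).length.size + c) :=
  PU.of_le ((((PU.const 2).mul (PU.len hC)).add (PU.const 1)).mul (PU.const (2 ^ c)))
    (pt_two_pow (pu_sz hC c)) fun x => by
      rw [pow_add]
      exact Nat.mul_le_mul_right _ (two_pow_size _)

end pt

theorem pt_R : PT R := by
  refine pt_inst (PU.const 0) (PU.const 0) (pu_sz PT.id 2) (pu_sz PT.id 1) (PT.const 0)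
    (PT.const (R []).gtab) (pu_pw PT.id 1) (pu_pw PT.id 2) (fun i => ?_) (fun i => ?_) ?_
  · have h := pt_val (PT.id (α := {p : PC × ℕ // p.2 < 2 ^ (R p.1).τ}))
    fin_cases i
    · exact PT.const (Op.Tr 0)
    · exact pt_opTr (pt_tr1 h.fst h.snd)
    · exact pt_opTr (pt_tr2 h.fst h.snd)
  · have h := pt_val (PT.id (α := {p : PC × ℕ // p.2 < 2 ^ (R p.1).τ}))
    fin_cases i
    · exact PT.const false
    · exact PT.const false
    · exact pt_even h.snd 1
  · have h := pt_val (PT.id (α := {p : PC × ℕ × ℕ // p.2.1 < 2 ^ (R p.1).τ ∧ p.2.2 < (R p.1).nA}))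
    refine (pt_labF (pt_sel h.fst h.snd.fst h.snd.snd)).congr fun p => ?_
    change labF (sel _ _ (toN (unidx 0 0 _ p.1.2.2).2)) = _
    rw [toN_unidx_small, Nat.mod_eq_of_lt (b := 2 ^ (p.1.1.length.size + 2)) p.2.2]

theorem pt_D : PT D := by
  have h1 : PT fun p : (PC × Asg) × ℕ => p.1.1 := PT.fst'.fst
  exact PT.map (pt_mod (PT.getD PT.fst'.snd (PT.add (PT.mul (PT.mul (PT.const 2) PT.snd')
    (pu_pw h1 2).pt) (PT.mul (PT.const 4) PT.snd')) (PT.const 0)) (PT.const 4))
    (pt_rangeLen PT.fst')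

theorem cyc {T w : ℕ} {P : ℕ → Prop} (hw : w < T) (h0 : P w)
    (hs : ∀ t < T, t ≠ w → P ((t + T - 1) % T) → P t) : ∀ t < T, P t := by
  have step : ∀ t, t + 1 < T → t + 1 ≠ w → P t → P (t + 1) := fun t h1 h2 h3 =>
    hs _ h1 h2 (by rwa [show t + 1 + T - 1 = t + T by omega, Nat.add_mod_right,
      Nat.mod_eq_of_lt (by omega)])
  have h1 : ∀ t, w ≤ t → t < T → P t := fun t ht => by
    induction t, ht using Nat.le_induction with
    | base => exact fun _ => h0
    | succ t ht ih => exact fun h => step t h (by omega) (ih (by omega))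
  intro t
  induction t with
  | zero =>
    intro h
    rcases eq_or_ne 0 w with rfl | h2
    · exact h0
    · refine hs 0 h h2 (h1 _ ?_ (Nat.mod_lt _ h))
      rw [Nat.mod_eq_of_lt (by omega)]; omega
  | succ t ih =>
    intro h
    rcases eq_or_ne (t + 1) w with rfl | h2
    · exact h0
    · exact step t h h2 (ih (by omega))

/-- the address of a register. -/
def ad (C : PC) (m : ℕ) : (R C).A := unidx 0 0 (C.length.size + 2) m

theorem act_ad (C : PC) (v m : ℕ) : act (R C).gens (.Tr v) (ad C m) = ad C (m ^^^ v) :=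
  Prod.ext (funext fun l => l.elim0) (ofN_xor _ _ _).symm

section sound

variable {C : PC} {x : ℕ → (R C).A → Val} (h : ∀ t < 2 ^ (R C).τ, ∀ a, (R C).sat x t a)
include h

theorem key {t m : ℕ} (ht : t < 2 ^ (R C).τ) (hm : m < 2 ^ (C.length.size + 2)) (β : Bool)
    (hβ : ∀ r : Fin 3 → Bool,
      (∀ γ, rd false (x ((R C).prev t) (ad C m)) = some γ → r 0 = γ) →
      (∀ γ, rd false (x ((R C).prev t) (ad C (m ^^^ tr1 C t))) = some γ → r 1 = γ) →
      (∀ γ, rd (decide (t % 2 = 1)) (x ((R C).prev t) (ad C (m ^^^ tr2 C t))) = some γ → r 2 = γ) →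
      (labF (sel C t m)).val r = β) : x t (ad C m) = pv β := by
  refine h t ht (ad C m) β fun r hr => ?_
  change (labF (sel _ _ (toN (unidx 0 0 _ m).2))).val r = β
  rw [toN_unidx_small, Nat.mod_eq_of_lt hm]
  refine hβ r (fun γ e => hr 0 γ ?_) (fun γ e => hr 1 γ ?_) (fun γ e => hr 2 γ ?_)
  · exact (congrArg (fun a => rd false (x ((R C).prev t) a)) (act_zero (R C).gens (ad C m))).trans e
  · rw [← e, ← act_ad]; rfl
  · rw [← e, ← act_ad]; rfl

theorem persist {w m : ℕ} (hw : w < 2 ^ (R C).τ) (hm : m < 2 ^ (C.length.size + 2))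
    (hs : ∀ t, t ≠ w → sel C t m = 0) {β : Bool} (h0 : x w (ad C m) = pv β) (t : ℕ) :
    x ((R C).prev t) (ad C m) = pv β :=
  cyc (P := fun t => x t (ad C m) = pv β) hw h0 (fun t ht hne e => key h ht hm β
    fun r h0 _ _ => by
      rw [hs t hne]
      exact h0 β (by rw [show x ((R C).prev t) (ad C m) = pv β from e, rd_pv])) _
    ((R C).prev_lt t)

theorem reg0 {a : ℕ} (ha : a < C.length) {β : Bool} (h0 : x (2 * a) (ad C (4 * a)) = pv β)
    (t : ℕ) : rd false (x ((R C).prev t) (ad C (4 * a))) = some β := by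
  have h1 : C.length < 2 ^ C.length.size := Nat.lt_size_self _
  have h4 : 2 ^ (C.length.size + 2) = 2 ^ C.length.size * 4 := pow_add _ _ _
  rw [persist h (w := 2 * a) (by change _ < 2 ^ (_ + 1); omega) (by omega) (fun t ht => ?_) h0,
    rd_pv]
  unfold sel
  split_ifs <;> omega

theorem reg1 {a : ℕ} (ha : a < C.length) {β : Bool}
    (h0 : rd false (x (2 * a) (ad C (4 * a))) = some β) (t : ℕ) :
    rd false (x ((R C).prev t) (ad C (4 * a + 1))) = some β := by
  have h1 : C.length < 2 ^ C.length.size := Nat.lt_size_self _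
  have h4 : 2 ^ (C.length.size + 2) = 2 ^ C.length.size * 4 := pow_add _ _ _
  have h2 : 2 * a + 1 < 2 ^ (R C).τ := by change _ < 2 ^ (_ + 1); omega
  rw [persist h h2 (β := β) (by omega) (fun t ht => ?_)
    (key h h2 (by omega) β fun r _ h1 _ => ?_), rd_pv]
  · unfold sel
    split_ifs <;> omega
  · rw [show sel C (2 * a + 1) (4 * a + 1) = 1 by unfold sel; split_ifs <;> omega]
    refine h1 β ?_
    rw [(R C).prev_succ h2, show tr1 C (2 * a + 1) = 1 from if_neg (by omega),
      show (4 * a + 1) ^^^ 1 = 4 * a from Nat.xor_one_of_odd ⟨2 * a, by omega⟩, h0]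

theorem reg2 {a : ℕ} (ha : a < C.length) {β : Bool}
    (h0 : rd true (x (2 * a) (ad C (4 * a))) = some β) (t : ℕ) :
    rd false (x ((R C).prev t) (ad C (4 * a + 2))) = some β := by
  have h1 : C.length < 2 ^ C.length.size := Nat.lt_size_self _
  have h4 : 2 ^ (C.length.size + 2) = 2 ^ C.length.size * 4 := pow_add _ _ _
  have h2 : 2 * a + 1 < 2 ^ (R C).τ := by change _ < 2 ^ (_ + 1); omega
  have h3 : (4 * a + 2) ^^^ 2 = 4 * a := by
    have e : (2 * a + 1) ^^^ 1 = 2 * a := Nat.xor_one_of_odd ⟨a, rfl⟩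
    have e' := Nat.shiftLeft_xor_distrib (a := 2 * a + 1) (b := 1) (i := 1)
    rw [e, Nat.shiftLeft_eq, Nat.shiftLeft_eq, Nat.shiftLeft_eq] at e'
    rw [show 4 * a + 2 = (2 * a + 1) * 2 ^ 1 by omega, show 4 * a = 2 * a * 2 ^ 1 by omega, e']
  rw [persist h h2 (β := β) (by omega) (fun t ht => ?_)
    (key h h2 (by omega) β fun r _ _ h1 => ?_), rd_pv]
  · unfold sel
    split_ifs <;> omega
  · rw [show sel C (2 * a + 1) (4 * a + 2) = 2 by unfold sel; split_ifs <;> omega]
    refine h1 β ?_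
    rw [(R C).prev_succ h2, show tr2 C (2 * a + 1) = 2 from if_neg (by omega), h3,
      decide_eq_true (show (2 * a + 1) % 2 = 1 by omega), h0]

theorem gate {z : ℕ} (hz : z < C.length) (β : Bool)
    (hβ : ∀ r : Fin 3 → Bool,
      (∀ γ, rd false (x ((R C).prev (2 * z)) (ad C (rg1 (gt C z)))) = some γ → r 1 = γ) →
      (∀ γ, rd false (x ((R C).prev (2 * z)) (ad C (4 * (gt C z).2.2))) = some γ → r 2 = γ) →
      (labF (if (gt C z).1 = 0 then 3 else 1)).val r = β) : x (2 * z) (ad C (4 * z)) = pv β := by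
  have h1 : C.length < 2 ^ C.length.size := Nat.lt_size_self _
  have h4 : 2 ^ (C.length.size + 2) = 2 ^ C.length.size * 4 := pow_add _ _ _
  have e1 : 2 * z % 2 = 0 := by omega
  have e2 : 2 * z / 2 = z := by omega
  have e3 : 2 * (2 * z) = 4 * z := by omega
  refine key h (by change _ < 2 ^ (_ + 1); omega) (by omega) β fun r _ h1 h2 => ?_
  rw [tr1, if_pos e1, e2, e3, Nat.xor_xor_cancel_left] at h1
  rw [tr2, if_pos e1, e2, e3, Nat.xor_xor_cancel_left, e1] at h2
  rw [sel, if_pos e1, e2, e3, if_pos rfl]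
  exact hβ r h1 h2

theorem sound {z : ℕ} (hz : z < C.length) (ha : (gt C z).2.1 < C.length)
    (hb : (gt C z).2.2 < C.length) :
    ok (gt C z).1 (x (2 * (gt C z).2.1) (ad C (4 * (gt C z).2.1)))
      (x (2 * (gt C z).2.2) (ad C (4 * (gt C z).2.2))) (x (2 * z) (ad C (4 * z))) := by
  have p0 : ∀ v : Val, (v : ℕ) = 0 ↔ v = pv false := by decide
  have p3 : ∀ v : Val, 3 ≤ (v : ℕ) ↔ v = pv true := by decide
  have p2 : ∀ v : Val, 2 ≤ (v : ℕ) → rd false v = some true := by decide
  have p1 : ∀ v : Val, (v : ℕ) ≤ 1 → rd true v = some false := by decide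
  unfold ok
  split_ifs with k0 k1
  · have e : rg1 (gt C z) = 4 * (gt C z).2.1 := by simp [rg1, k0]
    simp only [p0, p3]
    refine ⟨fun hh => gate h hz _ fun r h1 h2 => ?_, fun hh => gate h hz _ fun r h1 h2 => ?_⟩
    · rw [if_pos k0]
      change (!(r 1 || r 2)) = true
      rw [h1 _ (e ▸ reg0 h ha hh.1 _), h2 _ (reg0 h hb hh.2 _)]; rfl
    · rw [if_pos k0]
      change (!(r 1 || r 2)) = false
      rcases hh with hh | hh
      · rw [h1 _ (e ▸ reg0 h ha hh _)]; rfl
      · rw [h2 _ (reg0 h hb hh _)]; simp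
  · have e : rg1 (gt C z) = 4 * (gt C z).2.1 + 1 := by simp [rg1, k1]
    simp only [p0, p3]
    refine ⟨fun hh => gate h hz _ fun r h1 _ => ?_, fun hh => gate h hz _ fun r h1 _ => ?_⟩
    · rw [if_neg k0]
      exact h1 _ (e ▸ reg1 h ha (p2 _ hh) _)
    · rw [if_neg k0]
      exact h1 _ (e ▸ reg1 h ha (by rw [hh, rd_pv]) _)
  · have e : rg1 (gt C z) = 4 * (gt C z).2.1 + 2 := by simp [rg1, k0, k1]
    simp only [p0, p3]
    refine ⟨fun hh => gate h hz _ fun r h1 _ => ?_, fun hh => gate h hz _ fun r h1 _ => ?_⟩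
    · rw [if_neg k0]
      exact h1 _ (e ▸ reg2 h ha (by rw [hh, rd_pv]) _)
    · rw [if_neg k0]
      exact h1 _ (e ▸ reg2 h ha (p1 _ hh) _)

end sound

theorem D_getD (C : PC) (s : Asg) {z : ℕ} (hz : z < C.length) :
    (D (C, s)).getD z 0 = (R C).val s (2 * z) (ad C (4 * z)) := by
  have h1 : C.length < 2 ^ C.length.size := Nat.lt_size_self _
  have h4 : 2 ^ (C.length.size + 2) = 2 ^ C.length.size * 4 := pow_add _ _ _
  have e : idx (ad C (4 * z)) = 4 * z := idx_unidx (by change _ < 2 ^ (C.length.size + 2); omega)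
  rw [List.getD_eq_getElem _ _ (by simpa [D] using hz), Inst.val, e]
  simp only [D, List.getElem_map, List.getElem_range]
  rfl

end Seq

theorem seq : SeqStmt := by
  refine ⟨Seq.R, Seq.D, Seq.pt_R, Seq.pt_D, fun C => ⟨rfl, fun hC s hs z hz => ?_⟩⟩
  have hg : Seq.gt C z ∈ C := by
    rw [Seq.gt, List.getD_eq_getElem _ _ hz]
    exact List.getElem_mem _
  obtain ⟨ha, hb⟩ := hC.2 _ hg
  have h := Seq.sound ((Seq.R C).viol_eq_zero.1 hs) hz ha hb
  rw [← Seq.D_getD C s hz, ← Seq.D_getD C s ha, ← Seq.D_getD C s hb] at h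
  exact h

end Vale.Agent.P330.Amp
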