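import Vale.Agent.P330.SimPath

/-! Simulation lemma, shared by `Absorb` and `Merge` (data `SimD`, conditions `SimD.OK` and the
simulating instance `SimD.inst` are in `SimDefs.lean`). -/

namespace Vale.Agent.P330.Amp

open Vale.Agent.Lib.H23 Vale.Agent.P333 Vale.Agent.P325 Finset Matrix
open scoped BigOperators

/-- a number below `N` where `f` is least. -/
def argMin (N : ℕ) (f : ℕ → ℕ) : ℕ :=
  ((List.range N).filter fun p => (List.range N).all fun q => decide (f p ≤ f q)).headD 0

theorem argMin_le {N q : ℕ} (f : ℕ → ℕ) (hq : q < N) : f (argMin N f) ≤ f q := by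
  obtain ⟨p, hp, hm⟩ := exists_min_image (range N) f ⟨q, mem_range.mpr hq⟩
  have h1 : p ∈ (List.range N).filter fun p => (List.range N).all fun q => decide (f p ≤ f q) := by
    simpa using ⟨mem_range.mp hp, fun q hq => hm q (mem_range.mpr hq)⟩
  have h2 : argMin N f ∈
      (List.range N).filter fun p => (List.range N).all fun q => decide (f p ≤ f q) := by
    unfold argMin
    generalize (List.range N).filter (fun p => (List.range N).all fun q => decide (f p ≤ f q)) = l
      at h1 ⊢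
    cases l with
    | nil => simp at h1
    | cons a l => simp
  simp only [List.mem_filter, List.all_eq_true, List.mem_range, decide_eq_true_eq] at h2
  exact h2.2 q hq

variable {X : Type} [Enc X]

theorem pt_argMin {N : X → ℕ} {f : X → ℕ → ℕ} (hN : PU N) (hf : PT fun p : X × ℕ => f p.1 p.2) :
    PT fun x => argMin (N x) (f x) :=
  PT.headD (pt_filter (f := fun x p => (List.range (N x)).all fun q => decide (f x p ≤ f x q))
    (PT.all (f := fun (z : X × ℕ) q => decide (f z.1 z.2 ≤ f z.1 q))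
      (pt_decLe (hf.comp PT.fst') (hf.comp (PT.pair PT.fst'.fst PT.snd'))) (hN.comp PT.fst')) hN)
    (PT.const 0)

theorem pt_decOr {p q : X → Prop} [DecidablePred p] [DecidablePred q]
    (hp : PT fun x => decide (p x)) (hq : PT fun x => decide (q x)) :
    PT fun x => decide (p x ∨ q x) := (PT.or hp hq).congr fun _ => by simp

section

variable {src : X → Inst 2} {D : (x : X) → SimD (src x)}

theorem pt_trk (hβ : PU fun x => (D x).β) (hh : PT fun x => (D x).h) (hD : ∀ x, (D x).OK)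
    {Y : Type} [Enc Y] {x : Y → X} {m : Y → ℕ} (hx : PT x) (hm : PT m) :
    PT fun y => (D (x y)).trk (unidx _ _ _ (m y)) :=
  (pt_testBit hm (PT.mul (hh.comp hx) (hβ.pt.comp hx))).congr fun y => by
    have h := (hD (x y)).one_le
    unfold SimD.trk
    rw [toN_unidx_blk _ _ (hD (x y)).h_lt, Nat.testBit_mod_two_pow, Nat.testBit_div_two_pow]
    simp [show 0 < (D (x y)).β by omega]

theorem pt_simInst (hD : ∀ x, (D x).OK) (hs : PT src) (hb : PU fun x => (D x).b)
    (hβ : PU fun x => (D x).β) (hL : PU fun x => 2 ^ (D x).lam)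
    (hA : PU fun x => 2 ^ ((D x).b * (D x).β)) (hh : PT fun x => (D x).h)
    (hg : PT fun x => (D x).inst.gtab) (hw : PT fun p : X × Op => (D p.1).wd p.2)
    (hdn : PT fun p : X × ℕ => idx ((D p.1).dn (unidx _ _ _ p.2))) :
    PT fun x => (D x).inst := by
  have hlam : PU fun x => (D x).lam :=
    hL.of_le ((PT.sub (PT.size hL.pt) (PT.const 1)).congr fun x => by simp [Nat.size_pow])
      fun x => Nat.lt_two_pow_self.le
  have hdiv : ∀ x t, t < 2 ^ (D x).inst.τ → t / 2 ^ (D x).lam < 2 ^ (src x).τ := fun x t h =>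
    Nat.div_lt_of_lt_mul (by rw [mul_comm, ← pow_add]; exact h)
  refine pt_inst hb hβ (PU.const 0) ((pu_τ hs).add hlam) (pt_k0 (G := src) hs) hg
    (PT.congr ((pu_T hs).mul hL) fun x => congrArg List.range (pow_add 2 _ _))
    (PT.congr hA fun x => by simp [Inst.nA, SimD.inst]) (fun j => ?_) (fun j => ?_) ?_
  · have hx : PT fun p : {p : X × ℕ // p.2 < 2 ^ (D p.1).inst.τ} => p.1.1 := (pt_val PT.id).fst
    have ht : PT fun p : {p : X × ℕ // p.2 < 2 ^ (D p.1).inst.τ} => p.1.2 := (pt_val PT.id).snd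
    have hl := hL.pt.comp hx
    refine pt_ite (pt_decOr (pt_decEq (pt_mod ht hl) (PT.const 0))
      (pt_decEq (PT.add (pt_mod ht hl) (PT.const 1)) hl)) ?_
      (PT.getD (hw.comp (PT.pair hx (pt_nop (hs.comp hx) (PT.div ht hl)
        (fun p => hdiv _ _ p.2) j))) (PT.sub (pt_mod ht hl) (PT.const 1)) (PT.const _))
    unfold SimD.sw
    split_ifs
    · exact PT.const _
    · exact pt_opN (hh.comp hx)
  · have hx : PT fun p : {p : X × ℕ // p.2 < 2 ^ (D p.1).inst.τ} => p.1.1 := (pt_val PT.id).fst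
    have ht : PT fun p : {p : X × ℕ // p.2 < 2 ^ (D p.1).inst.τ} => p.1.2 := (pt_val PT.id).snd
    have hl := hL.pt.comp hx
    exact pt_ite (pt_decEq (pt_mod ht hl) (PT.const 0))
      (pt_win (hs.comp hx) (PT.div ht hl) (fun p => hdiv _ _ p.2) j) (PT.const _)
  · have hp : PT fun p : {p : X × ℕ × ℕ // p.2.1 < 2 ^ (D p.1).inst.τ ∧ p.2.2 < (D p.1).inst.nA} =>
        p.1 := pt_val PT.id
    have hx := hp.fst
    have ht := hp.snd.fst
    have hm := hp.snd.snd
    have hl := hL.pt.comp hx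
    refine (pt_ite (pt_decEq (PT.add (pt_mod ht hl) (PT.const 1)) hl)
      (pt_lab (hs.comp hx) (PT.div ht hl) (hdn.comp (PT.pair hx hm)) (fun p => hdiv _ _ p.2.1)
        fun p => idx_lt _)
      (pt_mk (fun (β : Bool) (r : Fin 2 → Bool) => r (if β then 1 else 0))
        (pt_codeBool (pt_trk hβ hh hD hx hm)))).congr fun p => ?_
    rw [unidx_idx]
    simp only [SimD.inst]
    split_ifs <;> rfl

end

theorem sim {X : Type} [Enc X] {src : X → Inst 2} (D : (x : X) → SimD (src x))
    (hD : ∀ x, (D x).OK) (hs : PT src) (hb : PU fun x => (D x).b) (hβ : PU fun x => (D x).β)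
    (hL : PU fun x => 2 ^ (D x).lam) (hA : PU fun x => 2 ^ ((D x).b * (D x).β))
    (hh : PT fun x => (D x).h) (hg : PT fun x => (D x).inst.gtab)
    (hw : PT fun p : X × Op => (D p.1).wd p.2)
    (hup : PT fun p : X × ℕ => idx ((D p.1).up (unidx _ _ _ p.2)))
    (hdn : PT fun p : X × ℕ => idx ((D p.1).dn (unidx _ _ _ p.2))) :
    Red src (fun x => (D x).inst) fun x v' v => v ≤ 4 * 2 ^ (D x).lam * v' := by
  have hR := pt_simInst hD hs hb hβ hL hA hh hg hw hdn
  let cand : (X × Asg) × ℕ → Asg := fun z =>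
    (src z.1.1).mkAsg ((D z.1.1).dec ((D z.1.1).inst.val z.1.2) (unidx _ _ _ z.2))
  have hc : PT cand := by
    refine pt_mkAsg (G := fun z : (X × Asg) × ℕ => src z.1.1) (hs.comp PT.fst'.fst) ?_
    have hp : PT fun p : {p : ((X × Asg) × ℕ) × ℕ × ℕ //
        p.2.1 < 2 ^ (src p.1.1.1).τ ∧ p.2.2 < (src p.1.1.1).nA} => p.1 := pt_val PT.id
    have hx := hp.fst.fst.fst
    have hq := hp.fst.snd
    have hl := hL.pt.comp hx
    have he : PT fun p : {p : ((X × Asg) × ℕ) × ℕ × ℕ //
        p.2.1 < 2 ^ (src p.1.1.1).τ ∧ p.2.2 < (src p.1.1.1).nA} =>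
        idx ((D p.1.1.1.1).emb (unidx _ _ _ p.1.1.2) (unidx _ _ _ p.1.2.2)) := by
      refine (pt_xor (pt_ite (p := fun p : {p : ((X × Asg) × ℕ) × ℕ × ℕ //
          p.2.1 < 2 ^ (src p.1.1.1).τ ∧ p.2.2 < (src p.1.1.1).nA} =>
          (D p.1.1.1.1).trk (unidx _ _ _ p.1.1.2) = true)
        ((pt_trk hβ hh hD hx hq).congr fun _ => by simp)
        (pt_actN (hR.comp hx) (pt_opN (hh.comp hx)) hq) (pt_actN (hR.comp hx) (PT.const (.Tr 0)) hq))
        (hup.comp (PT.pair hx (pt_xor hp.snd.snd (hdn.comp (PT.pair hx hq)))))).congr fun p => ?_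
      unfold SimD.emb Inst.actN
      rw [idx_add, act_zero]
      congr 1
      · split_ifs <;> rfl
      · dsimp only
        conv_rhs => rw [← idx_unidx p.2.2, ← idx_add, unidx_idx]
    refine (pt_valN (hR.comp hx) hp.fst.fst.snd (PT.add (PT.mul hp.snd.fst hl)
      (PT.sub hl (PT.const 1))) he fun p => idx_lt _).congr fun p => ?_
    exact congrArg (fun c => (((D p.1.1.1.1).inst.val p.1.1.1.2 _ c : Val) : ℕ)) (unidx_idx _).symm
  refine ⟨hR, fun z => cand (z, argMin (D z.1).inst.nA fun p => (src z.1).cnt (cand (z, p))),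
    hc.comp (PT.pair PT.id (pt_argMin (pu_nA (hR.comp PT.fst'))
      (pt_cnt (hs.comp PT.fst'.fst) hc))), fun x s => ?_⟩
  refine le_trans ?_ ((hD x).expect_viol ((D x).inst.val s))
  rw [expect_addr]
  refine le_expect univ_nonempty fun m _ => ?_
  rw [← Inst.violA_mkAsg, Inst.violA_eq, Inst.violA_eq]
  gcongr
  exact argMin_le (fun p => (src x).cnt (cand ((x, s), p))) m.2

end Vale.Agent.P330.Amp
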