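import Vale.Agent.P330.InstB

/-! Words in the wiring maps: action, block calculus, the Whitehead word. A word acts by `foldr`:
the last letter acts first. -/

namespace Vale.Agent.P330.Amp

open Vale.Agent.Lib.H23 Vale.Agent.P325 Finset Matrix
open scoped BigOperators

variable {b β σ : ℕ}

/-- action of a word on the blocks. -/
def actBW (g : Fin 7 → Mat β) (w : List Op) (x : Big b β) : Big b β := w.foldr (actB g) x

/-- action of a word on the addresses. -/
def actW (g : Fin 7 → Mat β) (w : List Op) (a : Addr b β σ) : Addr b β σ := w.foldr (act g) a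

section basic

variable (g : Fin 7 → Mat β)

@[simp] theorem actBW_nil (x : Big b β) : actBW g [] x = x := rfl

@[simp] theorem actBW_cons (o : Op) (w : List Op) (x : Big b β) :
    actBW g (o :: w) x = actB g o (actBW g w x) := rfl

@[simp] theorem actBW_append (w w' : List Op) (x : Big b β) :
    actBW g (w ++ w') x = actBW g w (actBW g w' x) := List.foldr_append

@[simp] theorem actW_nil (a : Addr b β σ) : actW g [] a = a := rfl

@[simp] theorem actW_cons (o : Op) (w : List Op) (a : Addr b β σ) :
    actW g (o :: w) a = act g o (actW g w a) := rfl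

@[simp] theorem actW_append (w w' : List Op) (a : Addr b β σ) :
    actW g (w ++ w') a = actW g w (actW g w' a) := List.foldr_append

theorem actW_fst (w : List Op) (a : Addr b β σ) : (actW g w a).1 = actBW g w a.1 := by
  induction w with
  | nil => rfl
  | cons o w ih => rw [actW_cons, actBW_cons, ← ih]; rfl

/-- without small bits only the blocks matter. -/
theorem actW_zero (w : List Op) (a : Addr b β 0) : actW g w a = (actBW g w a.1, a.2) :=
  Prod.ext (actW_fst g w a) (Subsingleton.elim _ _)

theorem expect_actW (w : List Op) (f : Addr b β σ → ℝ) : (𝔼 a, f (actW g w a)) = 𝔼 a, f a := by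
  induction w generalizing f with
  | nil => rfl
  | cons o w ih => exact (ih fun a => f (act g o a)).trans (expect_act g o f)

theorem actBW_reverse (w : List Op) (x : Big b β) : actBW g w.reverse (actBW g w x) = x := by
  induction w generalizing x with
  | nil => rfl
  | cons o w ih => simp [actB_actB, ih]

end basic

/-! ### blocks -/

theorem blk_val (x : Big b β) (l : Fin b) : blk x l = x l := dif_pos l.2

theorem blk_of_le (x : Big b β) {l : ℕ} (h : b ≤ l) : blk x l = 0 := dif_neg (by omega)

theorem big_ext {x y : Big b β} (h : ∀ l < b, blk x l = blk y l) : x = y :=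
  funext fun l => by rw [← blk_val x, ← blk_val y, h l l.2]

theorem blk_add (x y : Big b β) (l : ℕ) : blk (x + y) l = blk x l + blk y l := by
  unfold blk; split_ifs <;> simp

theorem blk_zero (l : ℕ) : blk (0 : Big b β) l = 0 := by
  unfold blk; split_ifs <;> simp

theorem blk_addBlk_self (x : Big b β) {l : ℕ} (h : l < b) (v : Vec β) :
    blk (addBlk x l v) l = blk x l + v := by simp [blk, addBlk, h]

theorem blk_addBlk_ne' (x : Big b β) {l m : ℕ} (h : m ≠ l) (v : Vec β) :
    blk (addBlk x l v) m = blk x m := by simp [blk, addBlk, h]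

theorem blk_addBlk (x : Big b β) {l : ℕ} (h : l < b) (v : Vec β) (m : ℕ) :
    blk (addBlk x l v) m = if m = l then blk x l + v else blk x m := by
  split_ifs with e
  · rw [e, blk_addBlk_self x h]
  · exact blk_addBlk_ne' x e v

theorem addBlk_addBlk' (x : Big b β) (l : ℕ) (v w : Vec β) :
    addBlk (addBlk x l v) l w = addBlk x l (v + w) := by
  funext i; simp only [addBlk]; split_ifs <;> simp [add_assoc]

theorem addBlk_eq_add (x : Big b β) (l : ℕ) (v : Vec β) : addBlk x l v = x + addBlk 0 l v := by
  funext i; simp only [addBlk, Pi.add_apply]; split_ifs <;> simp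

theorem actB_E (g : Fin 7 → Mat β) {l l' : ℕ} (h : l ≠ l') (ρ : Fin 7) (x : Big b β) :
    actB g (.E l l' ρ) x = addBlk x l (g ρ *ᵥ blk x l') := if_neg h

theorem actB_N (g : Fin 7 → Mat β) (l : ℕ) (x : Big b β) :
    actB g (.N l) x = addBlk x l (ofN β 1) := rfl

theorem vec_add_add_cancel {n : ℕ} (v w : Vec n) : v + w + w = v := by
  rw [add_assoc, vec_add_self, add_zero]

theorem vec_add_add_cancel' {n : ℕ} (v w : Vec n) : v + w + v = w := by
  rw [add_right_comm, vec_add_self, zero_add]

/-- multiply block `l` by `u` and block `h` by `u'`. -/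
def mulBlk (x : Big b β) (l h : ℕ) (u u' : Mat β) : Big b β :=
  fun i => if i.val = l then u *ᵥ x i else if i.val = h then u' *ᵥ x i else x i

theorem blk_mulBlk (x : Big b β) (l h : ℕ) (u u' : Mat β) (m : ℕ) :
    blk (mulBlk x l h u u') m =
      if m = l then u *ᵥ blk x m else if m = h then u' *ᵥ blk x m else blk x m := by
  unfold blk mulBlk; split_ifs <;> simp_all

theorem mulBlk_mulBlk (x : Big b β) (l h : ℕ) (u u' v v' : Mat β) :
    mulBlk (mulBlk x l h u u') l h v v' = mulBlk x l h (v * u) (v' * u') := by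
  funext i; simp only [mulBlk]; split_ifs <;> simp

theorem mulBlk_one (x : Big b β) (l h : ℕ) : mulBlk x l h 1 1 = x := by
  funext i; simp [mulBlk]

theorem mulBlk_addBlk (x : Big b β) (l h : ℕ) (u u' : Mat β) (v : Vec β) :
    mulBlk (addBlk x l v) l h u u' = addBlk (mulBlk x l h u u') l (u *ᵥ v) := by
  funext i; simp only [mulBlk, addBlk]; split_ifs <;> simp [mulVec_add]

/-! ### the Whitehead word -/

/-- six letters: block `l` times `g ρ'`, block `h` times `g ρ`, if `g ρ * g ρ' = 1`. -/
def wh (l h : ℕ) (ρ ρ' : Fin 7) : List Op :=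
  [.E l h 0, .E h l 0, .E l h 0, .E l h ρ, .E h l ρ', .E l h ρ]

/-- block `l` times `g⁻¹`, block `h` times `g`. -/
def dw (l h : ℕ) : List Op := wh l h 1 2

/-- block `l` times `g`, block `h` times `g⁻¹`. -/
def dwInv (l h : ℕ) : List Op := wh l h 2 1

theorem actBW_wh {g : Fin 7 → Mat β} (g0 : g 0 = 1) {ρ ρ' : Fin 7} (hρ : g ρ * g ρ' = 1) {l h : ℕ}
    (hl : l < b) (hh : h < b) (hne : l ≠ h) (x : Big b β) :
    actBW g (wh l h ρ ρ') x = mulBlk x l h (g ρ') (g ρ) := by
  have hρ' : g ρ' * g ρ = 1 := mul_eq_one_comm.mp hρ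
  have hne' := hne.symm
  refine big_ext fun m _ => ?_
  simp only [wh, actBW_cons, actBW_nil, actB_E g hne, actB_E g hne', blk_addBlk _ hl,
    blk_addBlk _ hh, blk_mulBlk, if_true, if_neg hne, if_neg hne', g0, one_mulVec, mulVec_add,
    mulVec_mulVec, hρ, hρ', one_mul]
  by_cases e : m = l
  · simp only [e, if_true]
    generalize g ρ *ᵥ blk x h = q', g ρ' *ᵥ blk x l = p'
    generalize blk x l = p, blk x h = q
    funext i
    simp only [Pi.add_apply]
    generalize p i = a, q i = c, p' i = a', q' i = c'
    revert a c a' c'; decide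
  · by_cases e' : m = h
    · simp only [e', if_true, if_neg hne']
      generalize g ρ *ᵥ blk x h = q', g ρ' *ᵥ blk x l = p'
      generalize blk x l = p, blk x h = q
      funext i
      simp only [Pi.add_apply]
      generalize p i = a, q i = c, p' i = a', q' i = c'
      revert a c a' c'; decide
    · simp only [if_neg e, if_neg e']

theorem actBW_dw {g : Fin 7 → Mat β} (g0 : g 0 = 1) (g12 : g 1 * g 2 = 1) {l h : ℕ}
    (hl : l < b) (hh : h < b) (hne : l ≠ h) (x : Big b β) :
    actBW g (dw l h) x = mulBlk x l h (g 2) (g 1) := actBW_wh g0 g12 hl hh hne x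

theorem actBW_dwInv {g : Fin 7 → Mat β} (g0 : g 0 = 1) (g12 : g 1 * g 2 = 1) {l h : ℕ}
    (hl : l < b) (hh : h < b) (hne : l ≠ h) (x : Big b β) :
    actBW g (dwInv l h) x = mulBlk x l h (g 1) (g 2) :=
  actBW_wh g0 (mul_eq_one_comm.mp g12) hl hh hne x

/-- the word `w` repeated `s` times. -/
def rep (s : ℕ) (w : List Op) : List Op := (List.range s).flatMap fun _ => w

theorem rep_succ (s : ℕ) (w : List Op) : rep (s + 1) w = rep s w ++ w := by
  simp [rep, List.range_succ]

theorem length_rep (s : ℕ) (w : List Op) : (rep s w).length = s * w.length := by simp [rep]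

theorem mem_rep {s : ℕ} {w : List Op} {o : Op} (h : o ∈ rep s w) : o ∈ w := by
  obtain ⟨_, _, h⟩ := List.mem_flatMap.mp h
  exact h

theorem actBW_rep_wh {g : Fin 7 → Mat β} (g0 : g 0 = 1) {ρ ρ' : Fin 7} (hρ : g ρ * g ρ' = 1)
    {l h : ℕ} (hl : l < b) (hh : h < b) (hne : l ≠ h) (s : ℕ) (x : Big b β) :
    actBW g (rep s (wh l h ρ ρ')) x = mulBlk x l h (g ρ' ^ s) (g ρ ^ s) := by
  induction s generalizing x with
  | zero => simp [rep, mulBlk_one]
  | succ s ih =>
    rw [rep_succ, actBW_append, actBW_wh g0 hρ hl hh hne, ih, mulBlk_mulBlk, pow_succ, pow_succ]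

end Vale.Agent.P330.Amp
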