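import Vale.Agent.P330.InstPT
import Vale.Agent.P330.Word

/-! The simulation of an instance on a larger address space without small bits: definitions and
small tools (shared by `Absorb` and `Merge`). -/

namespace Vale.Agent.P330.Amp

open Vale.Agent.Lib.H23 Vale.Agent.P333 Vale.Agent.P325 Finset Matrix
open scoped BigOperators

/-- the block numbers of a wiring map are below `b`. -/
def Op.InR (b : ℕ) : Op → Prop
  | .E l l' _ => l < b ∧ l' < b
  | .N l => l < b
  | .Tr _ => True

/-- the wiring map does not write to block `h`. -/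
def Op.Avoid (h : ℕ) : Op → Prop
  | .E l _ _ => l ≠ h
  | .N l => l ≠ h
  | .Tr _ => True

theorem nrm_inR (b σ : ℕ) (o : Op) : (nrm b σ o).InR b := by
  cases o <;> simp only [nrm] <;> first | trivial | (split_ifs with h <;> first | exact h | trivial)

theorem blk_actB_of_avoid {b β h : ℕ} (g : Fin 7 → Mat β) {o : Op} (ho : o.Avoid h) (x : Big b β) :
    blk (actB g o x) h = blk x h := by
  cases o with
  | E l l' ρ =>
    simp only [actB]
    split_ifs
    · rfl
    · exact blk_addBlk_ne' x (Ne.symm ho) _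
  | N l => exact blk_addBlk_ne' x (Ne.symm ho) _
  | Tr v => rfl

/-- Data of a simulation of `G`: new parameters, a track block `h`, an additive embedding `up` of
the old addresses with an additive left inverse `dn`, and a word for every old wiring map. -/
structure SimD (G : Inst 2) where
  b : ℕ
  β : ℕ
  lam : ℕ
  h : ℕ
  gens : Fin 7 → Mat β
  up : G.A → Addr b β 0
  dn : Addr b β 0 → G.A
  wd : Op → List Op

namespace SimD

variable {G : Inst 2} (D : SimD G)

structure OK : Prop where
  one_le : 1 ≤ D.β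
  h_lt : D.h < D.b
  up_add : ∀ a a', D.up (a + a') = D.up a + D.up a'
  dn_add : ∀ c c', D.dn (c + c') = D.dn c + D.dn c'
  dn_up : ∀ a, D.dn (D.up a) = a
  up_h : ∀ a, blk (D.up a).1 D.h = 0
  dn_h : ∀ v, D.dn (addBlk 0 D.h v, 0) = 0
  len : ∀ o : Op, o.InR G.b → (D.wd o).length + 2 ≤ 2 ^ D.lam
  keep : ∀ o : Op, o.InR G.b → ∀ o' ∈ D.wd o, o'.Avoid D.h
  word : ∀ o : Op, o.InR G.b → ∀ c,
    actW D.gens (D.wd o) c = c + D.up (act G.gens o (D.dn c) + D.dn c)

/-- the track of a new address. -/
def trk (c : Addr D.b D.β 0) : Bool := (toN (blk c.1 D.h)).testBit 0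

/-- change to track `j`. -/
def sw (j : Fin 2) : Op := if j = 0 then .Tr 0 else .N D.h

/-- The simulating instance: time `t * 2 ^ lam + i`; sublayer `0` copies the old values to both
tracks through the old windows, the middle sublayers move the values along the words, the last
sublayer applies the old label. -/
def inst : Inst 2 where
  b := D.b
  β := D.β
  σ := 0
  τ := G.τ + D.lam
  k0 := G.k0
  gens := D.gens
  op t j := if t % 2 ^ D.lam = 0 ∨ t % 2 ^ D.lam + 1 = 2 ^ D.lam then D.sw j
    else (D.wd (G.nop (t / 2 ^ D.lam) j)).getD (t % 2 ^ D.lam - 1) (.Tr 0)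
  win t j := if t % 2 ^ D.lam = 0 then G.win (t / 2 ^ D.lam) j else false
  lab t c := if t % 2 ^ D.lam + 1 = 2 ^ D.lam then G.lab (t / 2 ^ D.lam) (D.dn c)
    else fun r => r (if D.trk c then 1 else 0)

/-- the new address on track `0` with padding from `p` and content `a`. -/
def emb (p : Addr D.b D.β 0) (a : G.A) : Addr D.b D.β 0 :=
  (if D.trk p then act D.gens (.N D.h) p else p) + D.up (a + D.dn p)

/-- the old assignment read off at the padding `p`. -/
def dec (y : ℕ → D.inst.A → Val) (p : Addr D.b D.β 0) (t : ℕ) (a : G.A) : Val :=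
  y (t * 2 ^ D.lam + (2 ^ D.lam - 1)) (D.emb p a)

end SimD

/-! ### bits of addresses -/

section bits

variable {b β σ : ℕ}

theorem bitA_small (a : Addr b β σ) (j : Fin σ) : bitA a j = decide (a.2 j = 1) := dif_pos j.2

theorem bitA_blk (a : Addr b β σ) (l : Fin b) (i : Fin β) :
    bitA a (σ + l * β + i) = decide (a.1 l i = 1) := by
  have hβ : 0 < β := i.pos
  have e : σ + l * β + i - σ = i + l * β := by omega
  unfold bitA
  rw [dif_neg (by omega), e, Nat.add_mul_div_right _ _ hβ, Nat.add_mul_mod_self_right,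
    Nat.div_eq_of_lt i.2, Nat.mod_eq_of_lt i.2, zero_add, blk_val, testBit_toN]

/-- a bit position is a small bit or a coordinate of a block. -/
theorem pos_cases {j : ℕ} (hj : j < σ + b * β) :
    (∃ i : Fin σ, j = i) ∨ ∃ (l : Fin b) (i : Fin β), j = σ + l * β + i := by
  by_cases h : j < σ
  · exact Or.inl ⟨⟨j, h⟩, rfl⟩
  · have hβ : 0 < β := Nat.pos_of_ne_zero fun e => by subst e; omega
    refine Or.inr ⟨⟨(j - σ) / β, Nat.div_lt_of_lt_mul (by rw [mul_comm]; omega)⟩,
      ⟨(j - σ) % β, Nat.mod_lt _ hβ⟩, ?_⟩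
    have := Nat.div_add_mod' (j - σ) β
    simp only
    omega

theorem decide_add (u v : ZMod 2) :
    decide (u + v = 1) = xor (decide (u = 1)) (decide (v = 1)) := by revert u v; decide

theorem bitA_unidx (m : ℕ) {j : ℕ} (hj : j < σ + b * β) : bitA (unidx b β σ m) j = m.testBit j := by
  rcases pos_cases hj with ⟨i, rfl⟩ | ⟨l, i, rfl⟩
  · rw [bitA_small]; exact decide_b2 _
  · rw [bitA_blk]; exact decide_b2 _

theorem bitA_add (a c : Addr b β σ) (j : ℕ) : bitA (a + c) j = xor (bitA a j) (bitA c j) := by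
  unfold bitA
  split_ifs with h
  · exact decide_add _ _
  · rw [Prod.fst_add, blk_add, toN_add, Nat.testBit_xor]

theorem testBit_idx' (a : Addr b β σ) (j : ℕ) :
    (idx a).testBit j = (decide (j < σ + b * β) && bitA a j) := by
  unfold idx
  rw [Nat.testBit_ofBits]
  split_ifs with h <;> simp [h]

theorem idx_add (a c : Addr b β σ) : idx (a + c) = idx a ^^^ idx c :=
  Nat.eq_of_testBit_eq fun j => by
    rw [Nat.testBit_xor, testBit_idx', testBit_idx', testBit_idx', bitA_add]
    cases decide (j < σ + b * β) <;> simp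

theorem idx_unidx_mod (m : ℕ) : idx (unidx b β σ m) = m % 2 ^ (σ + b * β) :=
  Nat.eq_of_testBit_eq fun j => by
    rw [testBit_idx', Nat.testBit_mod_two_pow]
    by_cases h : j < σ + b * β
    · rw [bitA_unidx m h]
    · simp [h]

end bits

section pt

variable {X : Type} [Enc X]

/-- the number of an address with computable bits. -/
theorem pt_idx {b β σ : X → ℕ} {a : (x : X) → Addr (b x) (β x) (σ x)}
    (hn : PU fun x => σ x + b x * β x) {f : X → ℕ → Bool} (hf : PT fun p : X × ℕ => f p.1 p.2)
    (e : ∀ x j, j < σ x + b x * β x → bitA (a x) j = f x j) : PT fun x => idx (a x) :=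
  (pt_ofBits hn hf).congr fun x => by
    unfold idx
    congr 1
    funext j
    exact e x j j.2

theorem getD_ofFn {α : Type} {n : ℕ} (f : Fin n → α) (i : Fin n) (d : α) :
    (List.ofFn f).getD i d = f i := by
  rw [List.getD_eq_getElem _ _ (by simp), List.getElem_ofFn]

/-- an entry of the table of generators. -/
def gent {W : ℕ} (G : Inst W) (ρ : Fin 7) (i j : ℕ) : Bool :=
  ((G.gtab.getD ρ []).getD i []).getD j false

theorem gent_eq {W : ℕ} (G : Inst W) (ρ : Fin 7) (i j : Fin G.β) :
    gent G ρ i j = decide (G.gens ρ i j = 1) := by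
  simp only [gent, Inst.gtab, getD_ofFn]

theorem pt_gent {W : ℕ} {G : X → Inst W} (hG : PT G) (ρ : Fin 7) {i j : X → ℕ} (hi : PT i)
    (hj : PT j) : PT fun x => gent (G x) ρ (i x) (j x) :=
  PT.getD (PT.getD (PT.getD (pt_gtab hG) (PT.const _) (PT.const _)) hi (PT.const _)) hj
    (PT.const _)

/-- the table of generators with computable entries. -/
theorem pt_gtab_of {W : ℕ} {R : X → Inst W} (hβ : PU fun x => (R x).β)
    {f : X → Fin 7 → ℕ → ℕ → Bool} (hf : ∀ ρ, PT fun p : (X × ℕ) × ℕ => f p.1.1 ρ p.1.2 p.2)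
    (e : ∀ x ρ (i j : Fin (R x).β), decide ((R x).gens ρ i j = 1) = f x ρ i j) :
    PT fun x => (R x).gtab := by
  refine (pt_mapConst (List.finRange 7) fun ρ =>
    PT.map (f := fun x i => (List.range (R x).β).map (f x ρ i))
      (PT.map (f := fun (p : X × ℕ) j => f p.1 ρ p.2 j) (hf ρ) (hβ.comp PT.fst')) hβ).congr
    fun x => ?_
  unfold Inst.gtab
  rw [List.ofFn_eq_map]
  refine List.map_congr_left fun ρ _ => List.ext_getElem (by simp) fun i h1 h2 => ?_
  refine List.ext_getElem (by simp) fun j h3 h4 => ?_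
  simp [e]

end pt

end Vale.Agent.P330.Amp
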