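import Vale.Agent.P330.SimDefs

/-! The violation of the decoded assignments of a simulation, on average over the padding. -/

namespace Vale.Agent.P330.Amp

open Vale.Agent.Lib.H23 Vale.Agent.P333 Vale.Agent.P325 Finset Matrix
open scoped BigOperators

theorem addr_add_self {b β σ : ℕ} (a : Addr b β σ) : a + a = 0 :=
  Prod.ext (funext fun _ => vec_add_self _) (vec_add_self _)

theorem nop_inR {W : ℕ} (G : Inst W) (t : ℕ) (j : Fin W) : (G.nop t j).InR G.b := nrm_inR _ _ _

theorem act_nop {W : ℕ} (G : Inst W) (t : ℕ) (j : Fin W) (a : G.A) :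
    act G.gens (G.nop t j) a = act G.gens (G.op t j) a := act_nrm _ _ _

theorem HF.mono {ι : Type} {ρ ρ' : ι → Option Bool} {f : (ι → Bool) → Bool} {y : Val}
    (h : HF ρ' f y) (e : ∀ i γ, ρ i = some γ → ρ' i = some γ) : HF ρ f y :=
  fun β hβ => h β fun r hr => hβ r fun i γ hi => hr i γ (e i γ hi)

theorem HF.copy {ι : Type} {ρ : ι → Option Bool} {j : ι} {y : Val} {γ : Bool}
    (h : HF ρ (fun r => r j) y) (e : ρ j = some γ) : y = pv γ := h γ fun _ hr => hr j γ e

theorem expect_range (T : ℕ) (V : ℕ → ℝ) : (𝔼 t : Fin T, V t) = (∑ t ∈ range T, V t) / T := by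
  rw [Fintype.expect_eq_sum_div_card, Fintype.card_fin, Fin.sum_univ_eq_sum_range]

theorem sum_range_mul' (T L : ℕ) (V : ℕ → ℝ) :
    ∑ t ∈ range (T * L), V t = ∑ t ∈ range T, ∑ i ∈ range L, V (t * L + i) := by
  induction T with
  | zero => simp
  | succ T ih => rw [Nat.succ_mul, sum_range_add, ih, sum_range_succ]

theorem expect_layers (T L : ℕ) (V : ℕ → ℝ) (hL : 0 < L) :
    (𝔼 t : Fin T, ∑ i ∈ range L, V (t * L + i)) = L * 𝔼 t : Fin (T * L), V t := by
  rw [expect_range T fun t => ∑ i ∈ range L, V (t * L + i), expect_range, sum_range_mul']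
  have : (L : ℝ) ≠ 0 := by positivity
  push_cast
  rcases eq_or_ne (T : ℝ) 0 with h | h
  · simp [h]
  · field_simp

namespace SimD

variable {G : Inst 2} {D : SimD G}

/-- the track flip as an address. -/
def eh (D : SimD G) : Addr D.b D.β 0 := (addBlk 0 D.h (ofN D.β 1), 0)

theorem act_N (c : Addr D.b D.β 0) : act D.gens (.N D.h) c = c + D.eh :=
  Prod.ext (addBlk_eq_add _ _ _) (Subsingleton.elim _ _)

theorem trk_congr {c c' : Addr D.b D.β 0} (e : blk c.1 D.h = blk c'.1 D.h) : D.trk c = D.trk c' := by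
  unfold trk; rw [e]

namespace OK

variable (hD : D.OK)
include hD

theorem two_le : 2 ≤ 2 ^ D.lam := le_trans (by omega) (hD.len (.Tr 0) trivial)

theorem trk_flip (c : Addr D.b D.β 0) : D.trk (c + D.eh) = !D.trk c := by
  have h1 : 1 % 2 ^ D.β = 1 := Nat.mod_eq_of_lt (Nat.one_lt_two_pow (by have := hD.one_le; omega))
  unfold trk
  rw [← act_N]
  change (toN (blk (addBlk c.1 D.h (ofN D.β 1)) D.h)).testBit 0 = _
  rw [blk_addBlk_self _ hD.h_lt, toN_add, toN_ofN, h1, Nat.testBit_xor]
  simp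

theorem trk_up (c : Addr D.b D.β 0) (a : G.A) : D.trk (c + D.up a) = D.trk c :=
  trk_congr (by rw [Prod.fst_add, blk_add, hD.up_h, add_zero])

theorem dn_eh (c : Addr D.b D.β 0) : D.dn (c + D.eh) = D.dn c := by
  rw [hD.dn_add, eh, hD.dn_h, add_zero]

theorem trk_emb (p : Addr D.b D.β 0) (a : G.A) : D.trk (D.emb p a) = false := by
  unfold emb
  rw [hD.trk_up]
  split_ifs with h
  · rw [act_N, hD.trk_flip, h]; rfl
  · simpa using h

theorem dn_emb (p : Addr D.b D.β 0) (a : G.A) : D.dn (D.emb p a) = a := by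
  have : D.dn (if D.trk p then act D.gens (.N D.h) p else p) = D.dn p := by
    split_ifs
    · rw [act_N, hD.dn_eh]
    · rfl
  unfold emb
  rw [hD.dn_add, this, hD.dn_up, add_left_comm, addr_add_self, add_zero]

theorem emb_add (p : Addr D.b D.β 0) (a a' : G.A) :
    D.emb p a + D.up (a' + a) = D.emb p a' := by
  unfold emb
  rw [add_assoc, ← hD.up_add]
  congr 2
  rw [add_comm a' a, add_add_add_comm, addr_add_self, zero_add, add_comm]

theorem trk_sw {e : Addr D.b D.β 0} (he : D.trk e = false) (j : Fin 2) :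
    (if D.trk (act D.gens (D.sw j) e) then 1 else 0 : Fin 2) = j := by
  fin_cases j
  · simp [sw, act_zero, he]
  · simp [sw, act_N, hD.trk_flip, he]

theorem sw_word {o : Op} (ho : o.InR G.b) (p : Addr D.b D.β 0) (a : G.A) (j : Fin 2) :
    act D.gens (D.sw j) (actW D.gens (D.wd o) (act D.gens (D.sw j) (D.emb p a))) =
      D.emb p (act G.gens o a) := by
  rw [hD.word o ho]
  unfold sw
  split_ifs
  · rw [act_zero, act_zero, hD.dn_emb, hD.emb_add]
  · rw [act_N, act_N, hD.dn_eh, hD.dn_emb, add_right_comm, add_assoc (D.emb p a), addr_add_self,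
      add_zero, hD.emb_add]

theorem trk_drop {o : Op} (ho : o.InR G.b) (i : ℕ) (c : Addr D.b D.β 0) :
    D.trk (actW D.gens ((D.wd o).drop i) c) = D.trk c := by
  have key : ∀ w : List Op, (∀ o' ∈ w, o'.Avoid D.h) → D.trk (actW D.gens w c) = D.trk c := by
    intro w hw
    induction w with
    | nil => rfl
    | cons o' w ih =>
      rw [← ih fun o'' h => hw o'' (List.mem_cons_of_mem _ h)]
      exact trk_congr (blk_actB_of_avoid _ (hw o' List.mem_cons_self) _)
  exact key _ fun o' h => hD.keep o ho o' (List.mem_of_mem_drop h)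

end OK

theorem time_div (t : ℕ) {i : ℕ} (hi : i < 2 ^ D.lam) : (t * 2 ^ D.lam + i) / 2 ^ D.lam = t := by
  rw [add_comm, Nat.add_mul_div_right _ _ (by positivity), Nat.div_eq_of_lt hi, zero_add]

theorem time_mod (t : ℕ) {i : ℕ} (hi : i < 2 ^ D.lam) : (t * 2 ^ D.lam + i) % 2 ^ D.lam = i := by
  rw [add_comm, Nat.add_mul_mod_self_right, Nat.mod_eq_of_lt hi]

theorem time_lt {t i : ℕ} (ht : t < 2 ^ G.τ) (hi : i < 2 ^ D.lam) :
    t * 2 ^ D.lam + i < 2 ^ D.inst.τ := by
  change _ < 2 ^ (G.τ + D.lam)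
  rw [pow_add]
  nlinarith [Nat.mul_le_mul_right (2 ^ D.lam) (Nat.succ_le_of_lt ht)]

theorem prev_mid {t i : ℕ} (ht : t < 2 ^ G.τ) (hi : i + 1 < 2 ^ D.lam) :
    D.inst.prev (t * 2 ^ D.lam + (i + 1)) = t * 2 ^ D.lam + i :=
  D.inst.prev_succ (time_lt ht hi)

theorem prev_first {t : ℕ} (ht : t < 2 ^ G.τ) :
    D.inst.prev (t * 2 ^ D.lam + 0) = G.prev t * 2 ^ D.lam + (2 ^ D.lam - 1) := by
  have hL : 0 < 2 ^ D.lam := by positivity
  cases t with
  | zero =>
    have hT : 0 < 2 ^ G.τ := by positivity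
    rw [zero_mul, add_zero, Inst.prev_zero, Inst.prev_zero]
    change 2 ^ (G.τ + D.lam) - 1 = _
    rw [pow_add, Nat.sub_mul, one_mul]
    have := Nat.le_mul_of_pos_left (2 ^ D.lam) hT
    omega
  | succ s =>
    have e : (s + 1) * 2 ^ D.lam + 0 = s * 2 ^ D.lam + (2 ^ D.lam - 1) + 1 := by
      rw [Nat.succ_mul]; omega
    rw [G.prev_succ ht, e, Inst.prev_succ]
    rw [← e]
    exact time_lt ht hL

/-- the new address of sublayer `i` on the path of input `j`. -/
def path (D : SimD G) (t : ℕ) (j : Fin 2) (i : ℕ) (e : Addr D.b D.β 0) : Addr D.b D.β 0 :=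
  actW D.gens ((D.wd (G.nop t j)).drop i) (act D.gens (D.sw j) e)

theorem act_path (t : ℕ) (j : Fin 2) (i : ℕ) (e : Addr D.b D.β 0) :
    act D.gens ((D.wd (G.nop t j)).getD i (.Tr 0)) (D.path t j (i + 1) e) = D.path t j i e := by
  unfold path
  by_cases h : i < (D.wd (G.nop t j)).length
  · rw [List.getD_eq_getElem _ _ h, List.drop_eq_getElem_cons h, actW_cons]
  · rw [List.getD_eq_default _ _ (by omega), act_zero, List.drop_of_length_le (by omega),
      List.drop_of_length_le (by omega)]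

namespace OK

variable (hD : D.OK)
include hD

/-- a pure reading of an old input is carried along the path. -/
theorem carry {y : ℕ → D.inst.A → Val} {t : ℕ} (ht : t < 2 ^ G.τ) {p : Addr D.b D.β 0} {a : G.A}
    {j : Fin 2} (hs : ∀ i < 2 ^ D.lam, D.inst.sat y (t * 2 ^ D.lam + i) (D.path t j i (D.emb p a)))
    {γ : Bool} (hγ : rd (G.win t j) (D.dec y p (G.prev t) (act G.gens (G.op t j) a)) = some γ)
    {i : ℕ} (hi : i + 1 < 2 ^ D.lam) :
    y (t * 2 ^ D.lam + i) (D.path t j i (D.emb p a)) = pv γ := by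
  have hlab : ∀ i, i + 1 < 2 ^ D.lam →
      D.inst.lab (t * 2 ^ D.lam + i) (D.path t j i (D.emb p a)) = fun r => r j := by
    intro i hi
    simp only [inst]
    rw [time_mod t (by omega), if_neg (by omega), path, hD.trk_drop (nop_inR G t j),
      hD.trk_sw (hD.trk_emb p a)]
  induction i with
  | zero =>
    have h := hs 0 (by omega)
    unfold Inst.sat at h
    rw [hlab 0 hi] at h
    refine h.copy ?_
    rw [prev_first ht, ← hγ]
    simp only [inst]
    rw [time_mod t (by omega), time_div t (by omega), if_pos rfl, if_pos (Or.inl rfl), path,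
      List.drop_zero, hD.sw_word (nop_inR G t j), act_nop]
    rfl
  | succ i ih =>
    have h := hs (i + 1) (by omega)
    unfold Inst.sat at h
    rw [hlab _ hi] at h
    refine h.copy ?_
    rw [prev_mid ht (by omega)]
    simp only [inst]
    rw [time_mod t (by omega), time_div t (by omega), if_neg (by omega), if_neg (by omega),
      Nat.add_sub_cancel, act_path, ih (by omega), rd_pv]

theorem sat_dec {y : ℕ → D.inst.A → Val} {t : ℕ} (ht : t < 2 ^ G.τ) {p : Addr D.b D.β 0} {a : G.A}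
    (hs : ∀ j, ∀ i < 2 ^ D.lam, D.inst.sat y (t * 2 ^ D.lam + i) (D.path t j i (D.emb p a))) :
    G.sat (D.dec y p) t a := by
  obtain ⟨m, hm⟩ : ∃ m, 2 ^ D.lam = m + 2 := ⟨2 ^ D.lam - 2, by have := hD.two_le; omega⟩
  have hp : ∀ j i, m ≤ i → D.path t j i (D.emb p a) = act D.gens (D.sw j) (D.emb p a) := by
    intro j i hi
    have := hD.len _ (nop_inR G t j)
    rw [path, List.drop_of_length_le (by omega), actW_nil]
  have h := hs 0 (m + 1) (by omega)
  rw [hp 0 _ (by omega), sw, if_pos rfl, act_zero] at h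
  unfold Inst.sat at h ⊢
  rw [prev_mid ht (by omega)] at h
  simp only [inst] at h
  rw [time_mod t (by omega), time_div t (by omega), if_pos (by omega), hD.dn_emb] at h
  have e : D.dec y p t a = y (t * 2 ^ D.lam + (m + 1)) (D.emb p a) := by
    unfold dec; congr 2; omega
  rw [e]
  refine h.mono fun j γ hγ => ?_
  rw [if_neg (by omega), if_pos (Or.inr (by omega)), ← hp j m le_rfl,
    hD.carry ht (hs j) hγ (by omega), rd_pv]

theorem expect_emb (F : Addr D.b D.β 0 → ℝ) (hF : ∀ c, 0 ≤ F c) :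
    (𝔼 p, 𝔼 a, F (D.emb p a)) ≤ 2 * 𝔼 c, F c := by
  have inv : Function.Involutive fun q : Addr D.b D.β 0 × G.A =>
      (q.1 + D.up (q.2 + D.dn q.1), D.dn q.1) := by
    rintro ⟨p, a⟩
    have e : D.dn (p + D.up (a + D.dn p)) = a := by
      rw [hD.dn_add, hD.dn_up, add_left_comm, addr_add_self, add_zero]
    simp only [e, Prod.mk.injEq, and_true]
    rw [add_comm (D.dn p), add_assoc, addr_add_self, add_zero]
  have key : ∀ F : Addr D.b D.β 0 → ℝ, (𝔼 p, 𝔼 a, F (p + D.up (a + D.dn p))) = 𝔼 c, F c := by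
    intro F
    have h1 := Fintype.expect_bijective _ inv.bijective
      (fun q : Addr D.b D.β 0 × G.A => F (q.1 + D.up (q.2 + D.dn q.1))) (fun q => F q.1)
      fun _ => rfl
    rw [← univ_product_univ, expect_product, expect_product] at h1
    rw [h1]
    simp
  calc (𝔼 p, 𝔼 a, F (D.emb p a)) ≤ 𝔼 p, 𝔼 a, (F (p + D.up (a + D.dn p)) +
        F (act D.gens (.N D.h) (p + D.up (a + D.dn p)))) := by
        refine expect_le_expect fun p _ => expect_le_expect fun a _ => ?_
        unfold emb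
        split_ifs
        · rw [act_N, act_N, add_right_comm]; linarith [hF (p + D.up (a + D.dn p))]
        · linarith [hF (act D.gens (.N D.h) (p + D.up (a + D.dn p)))]
    _ = _ := by
        rw [key fun c => F c + F (act D.gens (.N D.h) c), expect_add_distrib, expect_act, two_mul]

theorem expect_viol (y : ℕ → D.inst.A → Val) :
    (𝔼 p, G.viol (D.dec y p)) ≤ 4 * 2 ^ D.lam * D.inst.viol y := by
  set V : ℕ → ℝ := fun t => 𝔼 c : Addr D.b D.β 0, ind (¬ D.inst.sat y t c) with hV
  have h1 : ∀ t < 2 ^ G.τ, (𝔼 p, 𝔼 a, ind (¬ G.sat (D.dec y p) t a)) ≤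
      4 * ∑ i ∈ range (2 ^ D.lam), V (t * 2 ^ D.lam + i) := by
    intro t ht
    set F : Addr D.b D.β 0 → ℝ := fun e => ∑ j, ∑ i ∈ range (2 ^ D.lam),
      ind (¬ D.inst.sat y (t * 2 ^ D.lam + i) (D.path t j i e)) with hF
    have hF0 : ∀ e, 0 ≤ F e := fun e => sum_nonneg fun _ _ => sum_nonneg fun _ _ => ind_nonneg _
    have h2 : (𝔼 e, F e) = 2 * ∑ i ∈ range (2 ^ D.lam), V (t * 2 ^ D.lam + i) := by
      have h3 : ∀ j i, (𝔼 e, ind (¬ D.inst.sat y (t * 2 ^ D.lam + i) (D.path t j i e))) =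
          V (t * 2 ^ D.lam + i) := fun j i =>
        (expect_act D.gens (D.sw j) fun c => ind (¬ D.inst.sat y (t * 2 ^ D.lam + i)
          (actW D.gens ((D.wd (G.nop t j)).drop i) c))).trans
          (expect_actW D.gens _ fun c => ind (¬ D.inst.sat y (t * 2 ^ D.lam + i) c))
      simp only [hF, expect_sum_comm, h3]
      simp
    calc _ ≤ 𝔼 p, 𝔼 a, F (D.emb p a) := by
          refine expect_le_expect fun p _ => expect_le_expect fun a _ => ?_
          by_cases h : G.sat (D.dec y p) t a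
          · rw [ind_of_not (not_not.mpr h)]; exact hF0 _
          · rw [ind_of h]
            by_contra hc
            refine h (hD.sat_dec ht fun j i hi => ?_)
            by_contra hn
            refine hc (le_trans ?_ (single_le_sum (f := fun j => ∑ i ∈ range (2 ^ D.lam),
              ind (¬ D.inst.sat y (t * 2 ^ D.lam + i) (D.path t j i (D.emb p a))))
              (fun _ _ => sum_nonneg fun _ _ => ind_nonneg _) (mem_univ j)))
            rw [← ind_of hn]
            exact single_le_sum (f := fun i =>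
              ind (¬ D.inst.sat y (t * 2 ^ D.lam + i) (D.path t j i (D.emb p a))))
              (fun _ _ => ind_nonneg _) (mem_range.mpr hi)
      _ ≤ _ := by linarith [hD.expect_emb F hF0]
  have h4 : D.inst.viol y = 𝔼 t : Fin (2 ^ G.τ * 2 ^ D.lam), V t := by
    rw [expect_range _ V, ← pow_add, ← expect_range _ V]; rfl
  unfold Inst.viol at *
  rw [expect_comm, h4]
  calc _ ≤ 𝔼 t : Fin (2 ^ G.τ), 4 * ∑ i ∈ range (2 ^ D.lam), V (t * 2 ^ D.lam + i) :=
        expect_le_expect fun t _ => h1 t t.2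
    _ = _ := by
        rw [← mul_expect, expect_layers _ _ V (by positivity)]
        push_cast
        ring

end OK

end SimD

end Vale.Agent.P330.Amp
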