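import Vale.Agent.P330.InstB

/-!
The tensor machine on the small bits: instructions, runs, bundles, programs (see notes/P330.md).
Positions `0, 1` are the register number, positions `2, ..., u + 1` are scratch bits; data at rest
sit at home points (all these bits are zero).
-/

namespace Vale.Agent.P330.Amp

open Vale.Agent.Lib.H23 Vale.Agent.P325 Finset
open scoped BigOperators

variable {σ : ℕ}

/-! ### fields and regions -/

/-- the bits `p, ..., p + w - 1`. -/
def get (z : Vec σ) (p w : ℕ) : Vec w := fun i => if h : p + i < σ then z ⟨p + i, h⟩ else 0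

/-- overwrite the bits `p, ..., p + w - 1`. -/
def put (z : Vec σ) (p w : ℕ) (s : Vec w) : Vec σ :=
  fun j => if h : p ≤ j ∧ j < p + w then s ⟨j - p, by omega⟩ else z j

def fld (z : Vec σ) (p w : ℕ) : ℕ := toN (get z p w)

open Classical in
/-- the bits in `P` from `y`, the others from `z`. -/
noncomputable def mix (P : Set ℕ) (z y : Vec σ) : Vec σ := fun j => if j.val ∈ P then y j else z j

/-- average over the bits in `P`. -/
noncomputable def av (P : Set ℕ) (f : Vec σ → ℝ) (z : Vec σ) : ℝ := 𝔼 y, f (mix P z y)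

/-- `z` agrees with `z0` outside `P`. -/
def InR (P : Set ℕ) (z0 z : Vec σ) : Prop := ∀ j : Fin σ, j.val ∉ P → z j = z0 j

def Home (u : ℕ) (z : Vec σ) : Prop := ∀ j : Fin σ, j.val < u + 2 → z j = 0

/-! ### codes -/

/-- degree at most `d`, by derivatives. -/
def Deg {w : ℕ} : ℕ → (Vec w → ZMod 2) → Prop
  | 0, P => ∀ s s', P s = P s'
  | d + 1, P => ∀ v, Deg d fun s => P (s + v) + P s

def IsLin {w : ℕ} (P : Vec w → ZMod 2) : Prop := ∀ s s', P (s + s') = P s + P s'

/-- a dimension: message (`true`) or copy (`false`), first position, width. -/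
abbrev Dim : Type := Bool × ℕ × ℕ

def pos (ds : List Dim) : Set ℕ := {j | ∃ e ∈ ds, e.2.1 ≤ j ∧ j < e.2.1 + e.2.2}

/-- the dimensions are disjoint, above the scratch bits, in range and of positive width at most `2 ^ κ`. -/
def Lay (σ κ u : ℕ) (ds : List Dim) : Prop :=
  (∀ e ∈ ds, u + 2 ≤ e.2.1 ∧ e.2.1 + e.2.2 ≤ σ ∧ 1 ≤ e.2.2 ∧ e.2.2 ≤ 2 ^ κ) ∧
    ds.Pairwise fun e e' => e.2.1 + e.2.2 ≤ e'.2.1 ∨ e'.2.1 + e'.2.2 ≤ e.2.1

/-- the line through `z` in the dimension `e`. -/
def line (F : Vec σ → ZMod 2) (z : Vec σ) (e : Dim) : Vec e.2.2 → ZMod 2 :=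
  fun s => F (put z e.2.1 e.2.2 s)

/-- tensor codeword of degree `d` in the message dimensions, on the region of `z0`. -/
def PolyD (d : ℕ) (ds : List Dim) (z0 : Vec σ) (F : Vec σ → ZMod 2) : Prop :=
  ∀ e ∈ ds, ∀ z, InR (pos ds) z0 z → Deg (if e.1 then d else 0) (line F z e)

/-- the low line code. -/
def LoC (m : Bool) {w : ℕ} (P : Vec w → ZMod 2) : Prop := if m then IsLin P else Deg 0 P

/-- tensor codeword that is linear in the message dimensions. -/
def PolyL (ds : List Dim) (z0 : Vec σ) (F : Vec σ → ZMod 2) : Prop :=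
  ∀ e ∈ ds, ∀ z, InR (pos ds) z0 z → LoC e.1 (line F z e)

def pz (y : ZMod 2) : Val := pv (decide (y = 1))

/-- fraction of the cells of the region that do not hold the pure value of `F`. -/
noncomputable def err (ds : List Dim) (X : Vec σ → Val) (F : Vec σ → ZMod 2) (z0 : Vec σ) : ℝ :=
  av (pos ds) (fun z => ind (X z ≠ pz (F z))) z0

/-- message points. -/
def HP (ds : List Dim) (z : Vec σ) : Prop :=
  ∀ e ∈ ds, e.1 = true → ∃ h < e.2.2, get z e.2.1 e.2.2 = ofN _ (2 ^ h)

noncomputable def eV (M : ℕ) : ℝ := (1 / 64) ^ M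

/-- valid bundle with codeword `F` and error `ε`. -/
def Valid (ε : ℝ) (ds : List Dim) (X : Vec σ → Val) (z0 : Vec σ) (F : Vec σ → ZMod 2) : Prop :=
  PolyD 3 ds z0 F ∧ err ds X F z0 ≤ ε

def OK (ε : ℝ) (ds : List Dim) (X : Vec σ → Val) (z : Vec σ) : Prop := ∃ F, Valid ε ds X z F

/-- valid with a codeword of the low code. -/
def OKL (ε : ℝ) (ds : List Dim) (X : Vec σ → Val) (z : Vec σ) : Prop :=
  ∃ F, PolyL ds z F ∧ err ds X F z ≤ ε

/-- the bundle through `z` is valid and its codeword has the value `y` at `z`. -/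
def Msg (ε : ℝ) (ds : List Dim) (X : Vec σ → Val) (z : Vec σ) (y : ZMod 2) : Prop :=
  ∃ F, Valid ε ds X z F ∧ F z = y

/-- density of the faults in the region given by `P` and the scratch bits. -/
noncomputable def flt (u : ℕ) (S : Vec σ → Prop) (P : Set ℕ) (z : Vec σ) : ℝ :=
  av (P ∪ Set.Iio (u + 2)) (fun y => ind (S y)) z

/-! ### instructions -/

inductive Cond
  | eq (p w v : ℕ)
  | orc (n : ℕ)

def Cond.ev (orc : ℕ → Vec σ → Bool) (z : Vec σ) : Cond → Bool
  | .eq p w v => decide (fld z p w = v)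
  | .orc n => orc n z

def Cond.ff : Cond := .eq 0 0 1

def Cond.tt : Cond := .eq 0 0 0

inductive Kind
  | dec (m : Fin 3)
  | vote
  | test (m : Bool)
  | cmpB
  | sel
  | bin (g : Bool)
  | bc (m : Bool)
  | mg
  | swp
  | flip
  | idle
  deriving DecidableEq, Fintype

inductive Ins
  | cell (kd : Kind) (p1 w1 p2 w2 : ℕ) (c : Fin 4 → Cond)
  | pur (j : ℕ)
  | mov (o : Op) (c : Cond)

/-- output maps of the line decoder: copy, normalize, split. -/
def nu (κ : ℕ) (m : Fin 3) {w : ℕ} (P : Vec w → ZMod 2) (s : Vec w) : ZMod 2 :=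
  if m = 0 then P s else if m = 1 then ∑ h : Fin w, s h * P (ofN w (2 ^ (h : ℕ)))
  else P (ofN w (2 ^ (toN s % 2 ^ κ)))

open Classical in
/-- the codeword near a line. -/
noncomputable def near (d : ℕ) {w : ℕ} (L : Vec w → Bool) : Vec w → ZMod 2 :=
  if h : ∃ P : Vec w → ZMod 2, Deg d P ∧ (𝔼 s, ind (b2 (L s) ≠ P s)) < 1 / 16 then h.choose else 0

/-- the slice that is broadcast. -/
def s0 (κ : ℕ) (m c : Bool) : ℕ :=
  if m then (if c then 9 * 2 ^ κ / 16 else 3 * 2 ^ κ / 8) else 2 ^ κ / 2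

/-- the polynomial with the coefficients `c`. -/
def anf (c : Fin 4 → ZMod 2) (x y : ZMod 2) : ZMod 2 := c 0 + c 1 * x + c 2 * y + c 3 * (x * y)

open Classical in
/-- the cell functions; `ρ, s1, s2` are the own register and coordinates, `r` the inputs. -/
noncomputable def kf (κ : ℕ) (kd : Kind) {w1 w2 : ℕ} (ρ : Vec 2) (s1 : Vec w1) (s2 : Vec w2)
    (c : Fin 4 → Bool) (r : Vec 2 × Vec w1 × Vec w2 → Bool) : Bool :=
  match kd with
  | .dec m => decide (nu κ m (near (if m = 0 then 0 else 3) fun s => r (0, s, s2)) s1 = 1)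
  | .vote => if ρ = 0 then decide (3 ≤ (univ.filter fun ρ' => r (ρ', s1, s2) = true).card)
      else decide (∃ ρ' ρ'', r (ρ', s1, s2) ≠ r (ρ'', s1, s2))
  | .test m => if ρ = ofN 2 2 then decide (r (ρ, s1, s2) = true ∨ (∃ s, r (ofN 2 1, s, s2) = true) ∨
      ¬ LoC m fun s => b2 (r (0, s, s2))) else r (ρ, s1, s2)
  | .cmpB => if ρ = ofN 2 2 then
      (if xor (decide (toN s1 = 1)) (c 0) then r (ρ, ofN _ 0, s2) && r (ρ, ofN _ 1, s2)
        else r (ρ, ofN _ 0, s2) || r (ρ, ofN _ 1, s2)) else r (ρ, s1, s2)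
  | .sel => r (0, s1, s2) && !r (ofN 2 2, ofN _ (4 * toN s2 + 2), s2)
  | .bin g =>
      let x := r (0, ofN _ 0, ofN _ (toN s1))
      let y := r (0, ofN _ 1, ofN _ (toN s1))
      if g then decide (anf (fun i => b2 (c i)) (b2 x) (b2 y) = 1)
      else if xor (decide (toN s1 = 1)) (c 0) then x && y else x || y
  | .bc m => r (0, ofN _ (s0 κ m (c 0)), ofN _ (toN s1))
  | .mg => decide (∑ h : Fin w1, s1 h * b2 (r (0, ofN _ (h + 2 ^ κ * (toN s1 / 2 ^ κ)), s2)) = 1)
  | .swp => r (ρ, ofN _ (toN s2), ofN _ (toN s1))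
  | .flip => if c 0 then r (ρ, s1 + ofN _ 1, s2) else r (ρ, s1, s2)
  | .idle => r (ρ, s1, s2)

/-- the node `z` obeys the instruction (moves are not seen at a fixed big address). -/
def Ins.sat (κ : ℕ) (orc : ℕ → Vec σ → Bool) (X Y : Vec σ → Val) (z : Vec σ) : Ins → Prop
  | .cell kd p1 w1 p2 w2 c =>
      HF (fun i : Vec 2 × Vec w1 × Vec w2 =>
          rd false (X (put (put (put z 0 2 i.1) p1 w1 i.2.1) p2 w2 i.2.2)))
        (kf κ kd (get z 0 2) (get z p1 w1) (get z p2 w2) fun n => (c n).ev orc z) (Y z)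
  | .pur j => ∀ γ, rd (decide (fld z j 1 = 1)) (X (put z j 1 0)) = some γ → Y z = pv γ
  | .mov _ _ => True

/-- a run of a program in which only the cells in `S` may be faulty. -/
def Runs (κ : ℕ) (orc : ℕ → Vec σ → Bool) (S : Vec σ → Prop) :
    List Ins → (Vec σ → Val) → (Vec σ → Val) → Prop
  | [], X, Y => X = Y
  | i :: l, X, Y => ∃ Z, (∀ z, ¬ S z → i.sat κ orc X Z z) ∧ Runs κ orc S l Z Y

/-- the node `(x, z)` obeys the instruction. -/
def Ins.satB {B : Type} (κ : ℕ) (ac : Op → B → B) (orc : B → ℕ → Vec σ → Bool)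
    (X Y : B → Vec σ → Val) (x : B) (z : Vec σ) (i : Ins) : Prop :=
  i.sat κ (orc x) (X x) (Y x) z ∧ ∀ o c, i = .mov o c →
    ∀ γ, X (if c.ev (orc x) z then ac o x else x) z = pv γ → Y x z = pv γ

/-- runs on all big addresses. -/
def RunsB {B : Type} (κ : ℕ) (ac : Op → B → B) (orc : B → ℕ → Vec σ → Bool)
    (S : B → Vec σ → Prop) : List Ins → (B → Vec σ → Val) → (B → Vec σ → Val) → Prop
  | [], X, Y => X = Y
  | i :: l, X, Y => ∃ Z, (∀ x z, ¬ S x z → i.satB κ ac orc X Z x z) ∧ RunsB κ ac orc S l Z Y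

/-! ### programs -/

def nc : Fin 4 → Cond := fun _ => .ff

/-- decode along all dimensions; `m` is the output map of the message dimensions. -/
def sweep (m : Dim → Fin 3) (ds : List Dim) : List Ins :=
  ds.map fun e => .cell (.dec (if e.1 then m e else 0)) e.2.1 e.2.2 0 0 nc

def bitsOf (ds : List Dim) : List ℕ := ds.flatMap fun e => List.range' e.2.1 e.2.2

/-- the bitonic network on the bit positions `bs` (least significant first): position of the
comparators and direction. -/
def stages (bs : List ℕ) : List (ℕ × Cond) :=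
  (List.range bs.length).flatMap fun i => (List.range (i + 1)).reverse.map fun j =>
    (bs.getD j 0, if i + 1 < bs.length then .eq (bs.getD (i + 1) 0) 1 1 else .ff)

/-- rank of a point in the sorted order. -/
def rank (bs : List ℕ) (z : Vec σ) : ℕ := Nat.ofBits fun i : Fin bs.length => decide (fld z bs[i] 1 = 1)

/-- the sanitizer of the bundle `(false, v, κ) :: ds`, versions along `v`. -/
def san (κ u v : ℕ) (ds : List Dim) : List Ins :=
  sweep (fun _ => 1) ((false, v, κ) :: ds) ++ [.pur 0, .pur 1, .cell .vote 0 0 0 0 nc] ++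
    (((false, v, κ) :: ds).map fun e => .cell (.test e.1) e.2.1 e.2.2 0 0 nc) ++
    ((List.range u).map fun j => .pur (j + 2)) ++
    ((stages (bitsOf ((false, v, κ) :: ds) ++ List.range' 2 u)).map fun s =>
      .cell .cmpB s.1 1 0 0 fun _ => s.2) ++
    [.cell .sel 2 (κ + 2) v κ nc]

/-- protected binary operation along the bit `j`. -/
def plBin (κ u v : ℕ) (ds : List Dim) (g : Bool) (j : ℕ) (c : Fin 4 → Cond) : List Ins :=
  san κ u v ds ++ [.cell (.bin g) j 1 v κ c]

/-- protected broadcast along the dimension at `q`. -/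
def plBc (κ u v : ℕ) (ds : List Dim) (m : Bool) (q : ℕ) (c : Cond) : List Ins :=
  san κ u v ds ++ [.cell (.bc m) q κ v κ fun _ => c]

/-- protected merge of the rows along the dimension at `a`, versions along `v`. -/
def plMg (κ u v a : ℕ) (ds : List Dim) : List Ins :=
  san κ u v ((false, a + κ, 2 ^ κ - κ) :: ds) ++ [.cell .mg a (2 ^ κ) 0 0 nc]

/-- sorting of words. -/
def wsort (κ u v : ℕ) (ds : List Dim) (bs : List ℕ) : List Ins :=
  (stages bs).flatMap fun s => plBin κ u v ds false s.1 fun _ => s.2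

/-- version dimension at `q`. -/
def vd (κ q : ℕ) : Dim := (false, q, κ)

/-- sort over the dimensions `qs` and `q` (most significant), then broadcast along `q`. -/
def sb (κ u v : ℕ) (ds : List Dim) (qs : List ℕ) (q : ℕ) (m : Bool) (c : Cond) : List Ins :=
  wsort κ u v ds (bitsOf ((qs ++ [q]).map (vd κ))) ++ plBc κ u v ds m q c

/-- the cascade over the threshold dimensions `ps`. -/
def cascade (κ u v : ℕ) (ds : List Dim) (qs : List ℕ) (q : ℕ) (c : Cond) :
    Bool → List ℕ → List Ins
  | _, [] => []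
  | m, p :: ps => sb κ u v ds (qs ++ ps ++ [p]) q m c ++ cascade κ u v ds qs q c false ps

/-- consensus in a group: cascade, then majority along every version dimension. -/
def group (κ u v : ℕ) (ds : List Dim) (qs : List ℕ) (q : ℕ) (ps : List ℕ) (c : Cond) : List Ins :=
  cascade κ u v ds qs q c true ps ++ (q :: qs).flatMap fun q' => sb κ u v ds [] q' false c

/-- copy dimensions of the rows that are not yet merged. -/
def cp (κ : ℕ) (l : List (ℕ × ℕ)) : List Dim :=
  l.flatMap fun a => [vd κ a.2, (false, a.1 + κ, 2 ^ κ - κ)]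

/-- message dimension at `a`. -/
def md (κ a : ℕ) : Dim := (true, a, 2 ^ κ)

/-- merge all rows; `l` lists the row dimensions with their version dimensions. -/
def mgs (κ u : ℕ) : List Dim → List (ℕ × ℕ) → List Ins
  | _, [] => []
  | ds, a :: l => plMg κ u a.2 a.1 (cp κ l ++ ds) ++ mgs κ u (md κ a.1 :: ds) l

/-- split along the dimensions at `es`. -/
def split (κ : ℕ) (es : List ℕ) (ds : List Dim) : List Ins :=
  sweep (fun e => if e.2.1 ∈ es then 2 else 1) (es.map (md κ) ++ ds)

/-- the message point named by the low bits of the dimensions at `es`. -/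
def spl (κ : ℕ) (es : List ℕ) (z : Vec σ) : Vec σ :=
  es.foldr (fun p y => put y p (2 ^ κ) (ofN _ (2 ^ fld z p κ))) z

/-- repeated sanitizing with fresh version dimensions. -/
def sans (κ u : ℕ) (ds : List Dim) : List ℕ → List Ins
  | [] => []
  | v :: vs => san κ u v (vs.map (vd κ) ++ ds) ++ sans κ u ds vs

/-- decrement of the counter at `p`. -/
def tick (p τ : ℕ) : List Ins :=
  (List.range τ).map fun i => .cell .flip (p + i) 1 0 0 fun _ => .eq p i 0

/-- exchange of two fields. -/
def swaps (a e n : ℕ) : List Ins := (List.range n).map fun i => .cell .swp (a + i) 1 (e + i) 1 nc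

def sw (a e n : ℕ) (z : Vec σ) : Vec σ := put (put z a n (get z e n)) e n (get z a n)

/-- standing assumptions on the parameters. -/
structure Par (κ u M : ℕ) : Prop where
  hκ : 6 ≤ κ
  hM : 1 ≤ M
  hu : 12 * M + 2 * 2 ^ κ + 8 ≤ u

end Vale.Agent.P330.Amp
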