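import Mathlib

/-! Definitions used in the statement of the PCP theorem for PPAD (polynomial size form). -/

namespace Vale.Agent.P330

/-- A gate of a Boolean circuit, reading the wires with the given numbers. -/
inductive BGate : Type
  | and (a b : ℕ) : BGate
  | or (a b : ℕ) : BGate
  | not (a : ℕ) : BGate

/-- The output of a gate, given the values `w` of the wires computed so far. -/
def BGate.eval (w : List Bool) : BGate → Bool
  | .and a b => w.getD a false && w.getD b false
  | .or a b => w.getD a false || w.getD b false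
  | .not a => !w.getD a false

/-- An explicitly listed Boolean circuit: the input bits are the first wires, every gate adds one
new wire, and `outs` lists the output wires. -/
structure BCircuit : Type where
  gates : List BGate
  outs : List ℕ

/-- The output string of a circuit on the input string `x`. -/
def BCircuit.eval (C : BCircuit) (x : List Bool) : List Bool :=
  C.outs.map fun o => (C.gates.foldl (fun w g => w ++ [g.eval w]) x).getD o false

/-- A pair of circuits. -/
structure EOL : Type where
  S : BCircuit
  P : BCircuit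

/-- The number of bits of a vertex. -/
def EOL.n (I : EOL) : ℕ := I.S.outs.length

/-- The string `0^n`. -/
def EOL.zero (I : EOL) : List Bool := List.replicate I.n false

/-- The pair is an End-of-Line instance. -/
def EOL.Valid (I : EOL) : Prop :=
  1 ≤ I.n ∧ I.P.outs.length = I.n ∧ I.P.eval I.zero = I.zero ∧ I.S.eval I.zero ≠ I.zero ∧
    I.P.eval (I.S.eval I.zero) = I.zero

/-- Solutions of an End-of-Line instance. -/
def EOL.Sol (I : EOL) (v : List Bool) : Prop :=
  v.length = I.n ∧ v ≠ I.zero ∧ (I.P.eval (I.S.eval v) ≠ v ∨ I.S.eval (I.P.eval v) ≠ v)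

/-- A gate of a generalized circuit; `z` is the output node, `a`, `b` are the input nodes. -/
inductive GGate : Type
  | const (α : ℚ) (z : ℕ) : GGate
  | scale (α : ℚ) (a z : ℕ) : GGate
  | copy (a z : ℕ) : GGate
  | add (a b z : ℕ) : GGate
  | sub (a b z : ℕ) : GGate
  | less (a b z : ℕ) : GGate
  | not (a z : ℕ) : GGate
  | or (a b z : ℕ) : GGate
  | and (a b z : ℕ) : GGate

/-- Kind, parameter, input nodes and output node of a gate. -/
def GGate.data : GGate → ℕ × ℚ × List ℕ × ℕ
  | .const α z => (0, α, [], z)
  | .scale α a z => (1, α, [a], z)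
  | .copy a z => (2, 0, [a], z)
  | .add a b z => (3, 0, [a, b], z)
  | .sub a b z => (4, 0, [a, b], z)
  | .less a b z => (5, 0, [a, b], z)
  | .not a z => (6, 0, [a], z)
  | .or a b z => (7, 0, [a, b], z)
  | .and a b z => (8, 0, [a, b], z)

/-- The gate is `ε`-satisfied by the assignment `x`. -/
def GGate.Sat (ε : ℚ) (x : ℕ → ℚ) : GGate → Prop
  | .const α z => |x z - α| ≤ ε
  | .scale α a z => |x z - α * x a| ≤ ε
  | .copy a z => |x z - x a| ≤ ε
  | .add a b z => |x z - min (x a + x b) 1| ≤ ε
  | .sub a b z => |x z - max (x a - x b) 0| ≤ ε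
  | .less a b z => (x a < x b - ε → 1 - ε ≤ x z) ∧ (x b + ε < x a → x z ≤ ε)
  | .not a z => (x a ≤ ε → 1 - ε ≤ x z) ∧ (1 - ε ≤ x a → x z ≤ ε)
  | .or a b z => (1 - ε ≤ x a ∨ 1 - ε ≤ x b → 1 - ε ≤ x z) ∧ (x a ≤ ε ∧ x b ≤ ε → x z ≤ ε)
  | .and a b z => (1 - ε ≤ x a ∧ 1 - ε ≤ x b → 1 - ε ≤ x z) ∧ (x a ≤ ε ∨ x b ≤ ε → x z ≤ ε)

/-- Nodes `0, …, nodes - 1` and a list of gates. -/
structure GCircuit : Type where
  nodes : ℕ
  gates : List GGate

/-- The data form a generalized circuit: there is a gate, parameters lie in `[0,1]`, gates use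
existing nodes, and no node is the output of two gates. -/
def GCircuit.Valid (G : GCircuit) : Prop :=
  G.gates ≠ [] ∧
    (∀ g ∈ G.gates, 0 ≤ g.data.2.1 ∧ g.data.2.1 ≤ 1 ∧ (∀ a ∈ g.data.2.2.1, a < G.nodes) ∧
      g.data.2.2.2 < G.nodes) ∧
    (G.gates.map fun g => g.data.2.2.2).Nodup

/-- Code of a bit. -/
def bBool : Bool → List Bool
  | false => [false]
  | true => [true, false, false]

/-- Code of a pair. -/
def bPair {α β : Type} (f : α → List Bool) (g : β → List Bool) (p : α × β) : List Bool :=
  true :: (f p.1 ++ g p.2)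

/-- Self-delimiting code of a list. -/
def bList {α : Type} (f : α → List Bool) : List α → List Bool
  | [] => [false]
  | a :: l => true :: (f a ++ bList f l)

/-- Code of a natural number: the list of its binary digits. -/
def bNat (n : ℕ) : List Bool := bList bBool n.bits

/-- Code of a rational number: sign, numerator and denominator in binary. -/
def bRat (q : ℚ) : List Bool :=
  bPair (bPair bBool bNat) bNat ((decide (q.num < 0), q.num.natAbs), q.den)

/-- Code of a Boolean gate: kind and input wires. -/
def bBGate : BGate → List Bool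
  | .and a b => bList bNat [0, a, b]
  | .or a b => bList bNat [1, a, b]
  | .not a => bList bNat [2, a]

/-- Code of a Boolean circuit. -/
def bBCircuit (C : BCircuit) : List Bool := bPair (bList bBGate) (bList bNat) (C.gates, C.outs)

/-- Code of an End-of-Line instance. -/
def codeEOL (I : EOL) : List Bool := bPair bBCircuit bBCircuit (I.S, I.P)

/-- Code of a generalized circuit. -/
def codeGC (G : GCircuit) : List Bool :=
  bPair bNat (bList fun g : GGate => bPair bNat (bPair bRat (bPair (bList bNat) bNat)) g.data)
    (G.nodes, G.gates)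

open Classical in
/-- Acceptable assignments: one rational in `[0,1]` for each node, total code length at most
`p(M)`, and at least a `1 - δ` fraction of the gates is `ε`-satisfied. -/
def GCircuit.Acceptable (G : GCircuit) (ε δ : ℚ) (p : Polynomial ℕ) (x : List ℚ) : Prop :=
  x.length = G.nodes ∧ (∀ r ∈ x, 0 ≤ r ∧ r ≤ 1) ∧
    (bList bRat x).length ≤ p.eval (codeGC G).length ∧
    (1 - δ) * G.gates.length ≤ (G.gates.countP fun g => decide (g.Sat ε fun v => x.getD v 0) : ℕ)

end Vale.Agent.P330
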