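import Vale.Agent.P330.Code

/-! Error elimination by decoding along all dimensions (task Sweep).
Plan. Ideal codewords `F 0 = F`, `F (i+1) z = nu κ (m e) (line (F i) z e) (get z e)`; `nu` is linear in
the line, so the conditions in the other dimensions persist (lines in different dimensions
commute, `put_comm`). General invariant for a run over a suffix of the dimensions: the cells that
do not hold `F i` lie in `R i ∪ B i`, where `R (i+1) z` = at least `1/32` of the line through `z` is in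
`R i`, `B (i+1) z` = `S z` or at least `1/32` of the line is in `B i`; `R 0` = wrong cells, `B 0 = ∅`
(`HF.pure`, `near_eq`; a cell that is not the right pure value counts as an error). Densities grow
by 32 (`av_markov`, `av_av`); `R i` is invariant along the first `i` dimensions, so at the end it is
everything or nothing, and its density is below one. `idealP`-free: only `Runs` is used. -/

namespace Vale.Agent.P330.Amp

open Vale.Agent.Lib.H23 Vale.Agent.P325 Finset
open scoped BigOperators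

variable {σ : ℕ}

theorem sw_ind_nonneg (p : Prop) : 0 ≤ ind p := by unfold ind; split_ifs <;> norm_num

theorem sw_ind_le_or {p q r : Prop} (h : p → q ∨ r) : ind p ≤ ind q + ind r := by
  unfold ind
  by_cases hp : p
  · rcases h hp with hq | hr
    · simp only [hp, hq, if_true]; split_ifs <;> norm_num
    · simp only [hp, hr, if_true]; split_ifs <;> norm_num
  · simp only [hp, if_false]; split_ifs <;> norm_num

theorem sw_ind_mono {p q : Prop} (h : p → q) : ind p ≤ ind q := by
  unfold ind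
  by_cases hp : p
  · simp [hp, h hp]
  · simp only [hp, if_false]; split_ifs <;> norm_num

theorem sw_b2_decide (y : ZMod 2) : b2 (decide (y = 1)) = y := by
  revert y; decide

/-- the mode of the decoder in the dimension `e`. -/
def swMode (m : Dim → Fin 3) (e : Dim) : Fin 3 := if e.1 then m e else 0

/-- one ideal step. -/
def swStep (κ : ℕ) (m : Dim → Fin 3) (e : Dim) (F : Vec σ → ZMod 2) (z : Vec σ) : ZMod 2 :=
  nu κ (swMode m e) (line F z e) (get z e.2.1 e.2.2)

/-- the ideal codeword after a sweep. -/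
def swIdl (κ : ℕ) (m : Dim → Fin 3) : List Dim → (Vec σ → ZMod 2) → Vec σ → ZMod 2
  | [], F => F
  | e :: l, F => swIdl κ m l (swStep κ m e F)

theorem swIdl_append (κ : ℕ) (m : Dim → Fin 3) (l l' : List Dim) (F : Vec σ → ZMod 2) :
    swIdl κ m (l ++ l') F = swIdl κ m l' (swIdl κ m l F) := by
  induction l generalizing F with
  | nil => rfl
  | cons e l ih => exact ih _

/-- a linear class of line functions. -/
structure SwLin {w : ℕ} (C : (Vec w → ZMod 2) → Prop) : Prop where
  zero : C fun _ => 0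
  add : ∀ P Q, C P → C Q → C fun s => P s + Q s
  smul : ∀ P c, C P → C fun s => c * P s

theorem SwLin.sum {w : ℕ} {C : (Vec w → ZMod 2) → Prop} (hC : SwLin C) {ι : Type} (t : Finset ι)
    {R : ι → Vec w → ZMod 2} (h : ∀ i, C (R i)) : C fun s => ∑ i ∈ t, R i s := by
  classical
  induction t using Finset.induction_on with
  | empty => simpa using hC.zero
  | insert a t ha ih =>
    simp only [Finset.sum_insert ha]
    exact hC.add _ _ (h a) ih

theorem swLin_deg (w d : ℕ) : SwLin (Deg (w := w) d) :=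
  ⟨Deg.const 0, fun _ _ h h' => h.add h', fun _ c h => h.smul c⟩

theorem swLin_loc (w : ℕ) (b : Bool) : SwLin (LoC (w := w) b) :=
  ⟨LoC.zero, fun _ _ h h' => h.add h', fun _ c h => h.smul c⟩

theorem swLin_true (w : ℕ) : SwLin (fun _ : Vec w → ZMod 2 => True) :=
  ⟨trivial, fun _ _ _ _ => trivial, fun _ _ _ => trivial⟩

theorem SwLin.nu {w w' : ℕ} {C : (Vec w' → ZMod 2) → Prop} (hC : SwLin C) (κ : ℕ) (k : Fin 3)
    (Q : Vec w → Vec w' → ZMod 2) (hQ : ∀ s, C (Q s)) (s1 : Vec w) :
    C fun s' => nu κ k (fun s => Q s s') s1 := by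
  unfold Amp.nu
  split_ifs
  · exact hQ s1
  · exact hC.sum _ fun h => hC.smul _ _ (hQ _)
  · exact hQ _

theorem sw_step_pres {κ : ℕ} {m : Dim → Fin 3} {P : Set ℕ} {z0 : Vec σ} {p w : ℕ}
    {C : (Vec w → ZMod 2) → Prop} (hC : SwLin C) {e : Dim}
    (he : ∀ j, e.2.1 ≤ j → j < e.2.1 + e.2.2 → j ∈ P) (hd : p + w ≤ e.2.1 ∨ e.2.1 + e.2.2 ≤ p)
    {G : Vec σ → ZMod 2} (hG : ∀ z, InR P z0 z → C fun s => G (put z p w s)) :
    ∀ z, InR P z0 z → C fun s => swStep κ m e G (put z p w s) := by
  intro z hz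
  have h1 : (fun s => swStep κ m e G (put z p w s)) = fun s' =>
      nu κ (swMode m e) (fun s => G (put (put z e.2.1 e.2.2 s) p w s')) (get z e.2.1 e.2.2) := by
    funext s'
    unfold swStep line
    rw [get_put_disj hd]
    congr 1
    funext s
    rw [put_comm hd]
  rw [h1]
  exact hC.nu κ _ (fun s s' => G (put (put z e.2.1 e.2.2 s) p w s'))
    (fun s => hG _ (hz.put he s)) _

theorem sw_pres {κ : ℕ} {m : Dim → Fin 3} {P : Set ℕ} {z0 : Vec σ} {p w : ℕ}
    {C : (Vec w → ZMod 2) → Prop} (hC : SwLin C) (l : List Dim)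
    (he : ∀ e ∈ l, ∀ j, e.2.1 ≤ j → j < e.2.1 + e.2.2 → j ∈ P)
    (hd : ∀ e ∈ l, p + w ≤ e.2.1 ∨ e.2.1 + e.2.2 ≤ p)
    {G : Vec σ → ZMod 2} (hG : ∀ z, InR P z0 z → C fun s => G (put z p w s)) :
    ∀ z, InR P z0 z → C fun s => swIdl κ m l G (put z p w s) := by
  induction l generalizing G with
  | nil => exact hG
  | cons e l ih =>
    exact ih (fun e' h => he e' (List.mem_cons_of_mem _ h)) (fun e' h => hd e' (List.mem_cons_of_mem _ h))
      (sw_step_pres hC (he e List.mem_cons_self) (hd e List.mem_cons_self) hG)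

theorem sw_estab {κ : ℕ} {m : Dim → Fin 3} {P : Set ℕ} {z0 : Vec σ} {p w : ℕ}
    {C : (Vec w → ZMod 2) → Prop} (hC : SwLin C) {e : Dim} {D : (Vec e.2.2 → ZMod 2) → Prop}
    (hD : SwLin D) (hp : e.2.1 ≤ p) (hw : p + w ≤ e.2.1 + e.2.2)
    (hs : ∀ G : Vec σ → ZMod 2, (∀ z, InR P z0 z → D (line G z e)) →
      ∀ z, InR P z0 z → C fun s => swStep κ m e G (put z p w s))
    (l : List Dim) (hel : e ∈ l)
    (he : ∀ e ∈ l, ∀ j, e.2.1 ≤ j → j < e.2.1 + e.2.2 → j ∈ P)
    (hd : l.Pairwise fun e e' => e.2.1 + e.2.2 ≤ e'.2.1 ∨ e'.2.1 + e'.2.2 ≤ e.2.1)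
    {G : Vec σ → ZMod 2} (hG : ∀ z, InR P z0 z → D (line G z e)) :
    ∀ z, InR P z0 z → C fun s => swIdl κ m l G (put z p w s) := by
  induction l generalizing G with
  | nil => simp at hel
  | cons e1 l ih =>
    rw [List.pairwise_cons] at hd
    by_cases h : e ∈ l
    · refine ih h (fun e' h => he e' (List.mem_cons_of_mem _ h)) hd.2 ?_
      exact sw_step_pres (p := e.2.1) (w := e.2.2) hD (he e1 List.mem_cons_self) (hd.1 e h).symm hG
    · have h1 : e = e1 := by simpa [h] using hel
      subst h1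
      refine sw_pres hC l (fun e' h => he e' (List.mem_cons_of_mem _ h)) (fun e' h' => ?_) (hs G hG)
      have := hd.1 e' h'
      omega

theorem sw_step_line {κ : ℕ} {m : Dim → Fin 3} {e : Dim} (hσ : e.2.1 + e.2.2 ≤ σ)
    (G : Vec σ → ZMod 2) (z : Vec σ) :
    (fun s => swStep κ m e G (put z e.2.1 e.2.2 s)) = nu κ (swMode m e) (line G z e) := by
  funext s
  unfold swStep line
  rw [get_put hσ]
  simp only [put_put]

/-- low code in a dimension with mode one or a copy dimension. -/
theorem sw_loc {κ : ℕ} {m : Dim → Fin 3} {P : Set ℕ} {z0 : Vec σ} {e : Dim}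
    (hσ : e.2.1 + e.2.2 ≤ σ) (hm : e.1 = true → m e = 1) (l : List Dim) (hel : e ∈ l)
    (he : ∀ e ∈ l, ∀ j, e.2.1 ≤ j → j < e.2.1 + e.2.2 → j ∈ P)
    (hd : l.Pairwise fun e e' => e.2.1 + e.2.2 ≤ e'.2.1 ∨ e'.2.1 + e'.2.2 ≤ e.2.1)
    {G : Vec σ → ZMod 2} (hG : ∀ z, InR P z0 z → Deg (if e.1 then 3 else 0) (line G z e)) :
    ∀ z, InR P z0 z → LoC e.1 (line (swIdl κ m l G) z e) := by
  refine sw_estab (p := e.2.1) (w := e.2.2) (swLin_loc _ e.1) (swLin_deg _ _) le_rfl le_rfl
    (fun G hG z hz => ?_) l hel he hd hG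
  rw [sw_step_line hσ]
  have h1 := hG z hz
  unfold swMode LoC
  by_cases h : e.1 = true
  · simp only [h, if_true, hm h]
    exact isLin_nu κ _
  · simp only [h] at h1 ⊢
    have : nu κ 0 (line G z e) = line G z e := by funext s; simp [Amp.nu]
    simpa [this] using h1

theorem sw_hp {κ : ℕ} {m : Dim → Fin 3} (l : List Dim) (hm : ∀ e ∈ l, e.1 = true → m e = 1)
    {z : Vec σ} (hz : HP l z) (G : Vec σ → ZMod 2) : swIdl κ m l G z = G z := by
  induction l generalizing G with
  | nil => rfl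
  | cons e l ih =>
    have h1 : swIdl κ m (e :: l) G z = swStep κ m e G z :=
      ih (fun e' h => hm e' (List.mem_cons_of_mem _ h))
        (fun e' h => hz e' (List.mem_cons_of_mem _ h)) _
    rw [h1]
    unfold swStep swMode
    by_cases h : e.1 = true
    · obtain ⟨k, hk, hg⟩ := hz e List.mem_cons_self h
      simp only [h, if_true, hm e List.mem_cons_self h]
      rw [hg, nu_basis κ _ hk, ← hg]
      unfold line
      rw [put_get]
    · simp only [h]
      simp [Amp.nu, line, put_get]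

theorem sw_get_spl {κ : ℕ} (es : List ℕ) (z : Vec σ) {p w : ℕ}
    (hd : ∀ q ∈ es, q + 2 ^ κ ≤ p ∨ p + w ≤ q) : get (spl κ es z) p w = get z p w := by
  induction es with
  | nil => rfl
  | cons q es ih =>
    have : spl κ (q :: es) z = put (spl κ es z) q (2 ^ κ) (ofN _ (2 ^ fld z q κ)) := rfl
    rw [this, get_put_disj (hd q List.mem_cons_self), ih fun q h => hd q (List.mem_cons_of_mem _ h)]

theorem sw_step_two {κ : ℕ} {m : Dim → Fin 3} {p : ℕ} (hm : m (md κ p) = 2) (G : Vec σ → ZMod 2)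
    (z : Vec σ) : swStep κ m (md κ p) G z = G (put z p (2 ^ κ) (ofN _ (2 ^ fld z p κ))) := by
  have h1 : swMode m (md κ p) = 2 := by simp [swMode, md] at hm ⊢; exact hm
  unfold swStep
  rw [h1, fld_low (w' := 2 ^ κ) (Nat.lt_two_pow_self).le]
  rfl

theorem sw_spl {κ : ℕ} {m : Dim → Fin 3} (es : List ℕ) (hm : ∀ p ∈ es, m (md κ p) = 2)
    (hd : (es.map (md κ)).Pairwise fun e e' => e.2.1 + e.2.2 ≤ e'.2.1 ∨ e'.2.1 + e'.2.2 ≤ e.2.1)
    (z : Vec σ) (G : Vec σ → ZMod 2) : swIdl κ m (es.map (md κ)) G z = G (spl κ es z) := by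
  induction es generalizing G with
  | nil => rfl
  | cons p es ih =>
    rw [List.map_cons, List.pairwise_cons] at hd
    have h1 : swIdl κ m ((p :: es).map (md κ)) G z = swStep κ m (md κ p) G (spl κ es z) :=
      ih (fun q h => hm q (List.mem_cons_of_mem _ h)) hd.2 _
    rw [h1, sw_step_two (hm p List.mem_cons_self)]
    have h2 : fld (spl κ es z) p κ = fld z p κ := by
      unfold fld
      rw [sw_get_spl]
      intro q hq
      have h3 := hd.1 (md κ q) (List.mem_map_of_mem hq)
      have h4 : κ < 2 ^ κ := Nat.lt_two_pow_self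
      simp only [md] at h3
      omega
    rw [h2]
    rfl

theorem sw_put_over {z : Vec σ} {p w p' w' : ℕ} (h1 : p ≤ p') (h2 : p' + w' ≤ p + w) (s : Vec w')
    (t : Vec w) : put (put z p' w' s) p w t = put z p w t := by
  funext j
  unfold put
  by_cases h : p ≤ j ∧ j < p + w
  · simp [h]
  · have h' : ¬ (p' ≤ j ∧ j < p' + w') := by omega
    simp [h, h']

theorem sw_inR_put {P : Set ℕ} {z z' : Vec σ} {p w : ℕ}
    (h : InR (Set.Ico p (p + w) ∪ P) z z') (s : Vec w) : InR P (put z p w s) (put z' p w s) := by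
  intro j hj
  unfold put
  by_cases h1 : p ≤ j ∧ j < p + w
  · simp [h1]
  · simp only [h1, dif_neg, not_false_eq_true]
    refine h j ?_
    rintro (h2 | h2)
    · exact h1 h2
    · exact hj h2

theorem sw_av_line {P : Set ℕ} {z0 : Vec σ} {p w : ℕ} (hσ : p + w ≤ σ)
    (he : ∀ j, p ≤ j → j < p + w → j ∈ P) (R : Vec σ → Prop) :
    av P (fun z => ind ((1 / 32 : ℝ) ≤ 𝔼 s, ind (R (put z p w s)))) z0 ≤
      32 * av P (fun z => ind (R z)) z0 := by
  have h1 := av_markov (P := P) (z0 := z0) (f := fun z => 𝔼 s, ind (R (put z p w s)))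
    (fun z => Finset.expect_nonneg fun s _ => sw_ind_nonneg _) (s := 1 / 32) (by norm_num)
  have h2 : (fun z => 𝔼 s, ind (R (put z p w s))) = av (Set.Ico p (p + w)) fun z => ind (R z) := by
    funext z; rw [av_Ico hσ]
  have h3 : P ∪ Set.Ico p (p + w) = P := Set.union_eq_left.2 fun j hj => he j hj.1 hj.2
  rw [h2, av_av, h3] at h1
  linarith

theorem sw_run {κ u : ℕ} {m : Dim → Fin 3} {P : Set ℕ} {z0 : Vec σ} {orc : ℕ → Vec σ → Bool}
    {S : Vec σ → Prop} (hP : ∀ j ∈ P, u + 2 ≤ j) (h0 : Home u z0) (l : List Dim)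
    (hσ : ∀ e ∈ l, e.2.1 + e.2.2 ≤ σ) (hm : ∀ e ∈ l, e.1 = true → m e ≠ 0)
    (he : ∀ e ∈ l, ∀ j, e.2.1 ≤ j → j < e.2.1 + e.2.2 → j ∈ P)
    (hd : l.Pairwise fun e e' => e.2.1 + e.2.2 ≤ e'.2.1 ∨ e'.2.1 + e'.2.2 ≤ e.2.1)
    {F : Vec σ → ZMod 2} (hF : ∀ e ∈ l, ∀ z, InR P z0 z → Deg (if e.1 then 3 else 0) (line F z e))
    {X Y : Vec σ → Val} {R B : Vec σ → Prop} {Q : Set ℕ}
    (hX : ∀ z, InR P z0 z → X z ≠ pz (F z) → R z ∨ B z)
    (hR : ∀ z z', InR Q z z' → R z → R z') (hr : Runs κ orc S (sweep m l) X Y) :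
    ∃ R' B' : Vec σ → Prop, (∀ z, InR P z0 z → Y z ≠ pz (swIdl κ m l F z) → R' z ∨ B' z) ∧
      (∀ z z', InR (pos l ∪ Q) z z' → R' z → R' z') ∧
      av P (fun z => ind (R' z)) z0 ≤ 32 ^ l.length * av P (fun z => ind (R z)) z0 ∧
      av P (fun z => ind (B' z)) z0 + av P (fun z => ind (S z)) z0 / 31 ≤
        32 ^ l.length * (av P (fun z => ind (B z)) z0 + av P (fun z => ind (S z)) z0 / 31) := by
  induction l generalizing F X R B Q with
  | nil =>
    have : X = Y := hr
    subst this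
    exact ⟨R, B, hX, by simpa [pos_nil] using hR, by simp, by simp⟩
  | cons e l ih =>
    obtain ⟨Z, hZ, hr⟩ := hr
    rw [List.pairwise_cons] at hd
    have hσe := hσ e List.mem_cons_self
    have hee := he e List.mem_cons_self
    obtain ⟨R', B', h1, h2, h3, h4⟩ := ih (fun e' h => hσ e' (List.mem_cons_of_mem _ h))
      (fun e' h => hm e' (List.mem_cons_of_mem _ h)) (fun e' h => he e' (List.mem_cons_of_mem _ h))
      hd.2 (F := swStep κ m e F) (X := Z)
      (R := fun z => (1 / 32 : ℝ) ≤ 𝔼 s, ind (R (put z e.2.1 e.2.2 s)))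
      (B := fun z => S z ∨ (1 / 32 : ℝ) ≤ 𝔼 s, ind (B (put z e.2.1 e.2.2 s)))
      (Q := Set.Ico e.2.1 (e.2.1 + e.2.2) ∪ Q)
      (fun e' h => sw_step_pres (p := e'.2.1) (w := e'.2.2) (swLin_deg _ _) hee (hd.1 e' h).symm
        (hF e' (List.mem_cons_of_mem _ h)))
      (by
        intro z hz hne
        by_contra hcon
        push Not at hcon
        obtain ⟨c1, c2, c3⟩ := hcon
        apply hne
        have hz0 : Home u z := hz.home hP h0
        have hs := hZ z c2
        refine HF.pure (v := fun i : Vec 2 × Vec e.2.2 × Vec 0 =>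
          X (put (put (put z 0 2 i.1) e.2.1 e.2.2 i.2.1) 0 0 i.2.2)) hs (fun r hr => ?_)
        have hdeg : Deg (if swMode m e = 0 then 0 else 3) (line F z e) := by
          have h5 := hF e List.mem_cons_self z hz
          unfold swMode
          by_cases h : e.1 = true
          · simpa [h, hm e List.mem_cons_self h] using h5
          · simpa [h] using h5
        have hn : near (if swMode m e = 0 then 0 else 3) (fun s => r (0, s, get z 0 0)) =
            line F z e := by
          refine near_eq hdeg (by split_ifs <;> omega) (lt_of_le_of_lt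
            (b := (𝔼 s, ind (R (put z e.2.1 e.2.2 s))) + 𝔼 s, ind (B (put z e.2.1 e.2.2 s))) ?_
            (by linarith))
          rw [← Finset.expect_add_distrib]
          refine Finset.expect_le_expect fun s _ => sw_ind_le_or fun hne' => ?_
          refine hX _ (hz.put hee s) fun heq => hne' ?_
          have h6 := hr (0, s, get z 0 0) (decide (F (put z e.2.1 e.2.2 s) = 1)) (by
            simp only [hz0.put_reg, put_zero]
            exact heq)
          rw [h6, sw_b2_decide]
          rfl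
        show decide (nu κ (swMode m e) (near (if swMode m e = 0 then 0 else 3)
          fun s => r (0, s, get z 0 0)) (get z e.2.1 e.2.2) = 1) = _
        rw [hn]
        rfl)
      (by
        intro z z' hzz hz
        refine hz.trans (Finset.expect_le_expect fun s _ => sw_ind_mono ?_)
        exact hR _ _ (sw_inR_put hzz s))
      hr
    refine ⟨R', B', h1, ?_, ?_, ?_⟩
    · intro z z' hzz
      refine h2 z z' (hzz.mono ?_)
      rw [pos_cons]
      rintro j ((hj | hj) | hj)
      · exact Or.inr (Or.inl hj)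
      · exact Or.inl hj
      · exact Or.inr (Or.inr hj)
    · refine h3.trans ?_
      rw [List.length_cons, pow_succ, mul_assoc]
      exact mul_le_mul_of_nonneg_left (sw_av_line hσe hee R) (by positivity)
    · refine h4.trans ?_
      rw [List.length_cons, pow_succ, mul_assoc]
      refine mul_le_mul_of_nonneg_left ?_ (by positivity)
      have h5 := sw_av_line (z0 := z0) hσe hee B
      have h6 : av P (fun z => ind (S z ∨ (1 / 32 : ℝ) ≤ 𝔼 s, ind (B (put z e.2.1 e.2.2 s)))) z0 ≤
          av P (fun z => ind (S z)) z0 +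
            av P (fun z => ind ((1 / 32 : ℝ) ≤ 𝔼 s, ind (B (put z e.2.1 e.2.2 s)))) z0 := by
        rw [← av_add]
        exact av_mono fun z _ => sw_ind_le_or id
      linarith

theorem sw_mem_pos {ds : List Dim} {e : Dim} (he : e ∈ ds) (j : ℕ) (h1 : e.2.1 ≤ j)
    (h2 : j < e.2.1 + e.2.2) : j ∈ pos ds := ⟨e, he, h1, h2⟩

theorem sw_err {κ u : ℕ} {m : Dim → Fin 3} {ds : List Dim} {orc : ℕ → Vec σ → Bool}
    {S : Vec σ → Prop} {X Y : Vec σ → Val} {z0 : Vec σ} {F : Vec σ → ZMod 2}
    (hl : Lay σ κ u ds) (h0 : Home u z0) (hm : ∀ e ∈ ds, e.1 = true → m e ≠ 0)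
    (hF : PolyD 3 ds z0 F) (he : err ds X F z0 < (1 / 32) ^ ds.length)
    (hr : Runs κ orc S (sweep m ds) X Y) :
    err ds Y (swIdl κ m ds F) z0 ≤ 32 ^ ds.length * av (pos ds) (fun z => ind (S z)) z0 := by
  obtain ⟨R', B', h1, h2, h3, h4⟩ := sw_run (κ := κ) (m := m) (P := pos ds) (z0 := z0) (orc := orc)
    (S := S) (fun j hj => (hl.mem_pos hj).1) h0 ds (fun e h => (hl.1 e h).2.1) hm
    (fun e h => sw_mem_pos h) hl.2 hF (X := X) (Y := Y) (R := fun z => X z ≠ pz (F z))
    (B := fun _ => False) (Q := ∅) (fun z _ h => Or.inl h)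
    (fun z z' h hz => by
      have : z' = z := funext fun j => h j (by simp)
      rwa [this]) hr
  have hno : ∀ z, InR (pos ds) z0 z → ¬ R' z := by
    intro z hz hR
    have h5 : av (pos ds) (fun z => ind (R' z)) z0 = 1 := by
      rw [← av_const (P := pos ds) (z0 := z0) 1]
      refine av_congr fun z' hz' => ?_
      have : R' z' := h2 z z' ((hz.symm.trans hz').mono Set.subset_union_left) hR
      simp [ind, this]
    have h6 : (32 : ℝ) ^ ds.length * err ds X F z0 < 32 ^ ds.length * (1 / 32) ^ ds.length :=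
      mul_lt_mul_of_pos_left he (by positivity)
    rw [← mul_pow] at h6
    norm_num at h6
    have h7 : av (pos ds) (fun z => ind (X z ≠ pz (F z))) z0 = err ds X F z0 := rfl
    rw [h5, h7] at h3
    linarith
  have h8 : err ds Y (swIdl κ m ds F) z0 ≤ av (pos ds) (fun z => ind (B' z)) z0 :=
    av_mono fun z hz => sw_ind_mono fun h => (h1 z hz h).resolve_left (hno z hz)
  have h9 : av (pos ds) (fun _ => ind False) z0 = 0 := by
    rw [av_const]; simp [ind]
  rw [h9] at h4
  have h10 := av_ind_nonneg (P := pos ds) (z0 := z0) S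
  have h11 : (0 : ℝ) ≤ 32 ^ ds.length * av (pos ds) (fun z => ind (S z)) z0 := by positivity
  have h12 : (32 : ℝ) ^ ds.length * (0 + av (pos ds) (fun z => ind (S z)) z0 / 31) =
    32 ^ ds.length * av (pos ds) (fun z => ind (S z)) z0 / 31 := by ring
  linarith

theorem split_spec {κ u : ℕ} {es : List ℕ} {ds : List Dim} {orc : ℕ → Vec σ → Bool}
    {S : Vec σ → Prop} {X Y : Vec σ → Val} {z0 : Vec σ} {F : Vec σ → ZMod 2}
    (hκ : 1 ≤ κ) (hl : Lay σ κ u (es.map (md κ) ++ ds)) (h0 : Home u z0)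
    (hF : PolyD 3 (es.map (md κ) ++ ds) z0 F)
    (he : err (es.map (md κ) ++ ds) X F z0 < (1 / 32) ^ (es.length + ds.length))
    (hr : Runs κ orc S (split κ es ds) X Y) :
    ∃ F', err (es.map (md κ) ++ ds) Y F' z0 ≤
        32 ^ (es.length + ds.length) * av (pos (es.map (md κ) ++ ds)) (fun z => ind (S z)) z0 ∧
      ∀ z, InR (pos (es.map (md κ) ++ ds)) z0 z →
        PolyL ((es.map fun p => ((false, p + κ, 2 ^ κ - κ) : Dim)) ++ ds) z F' ∧
        (HP ds z → F' z = F (spl κ es z)) := by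
  have hκ2 : κ < 2 ^ κ := Nat.lt_two_pow_self
  have hpw := hl.2
  rw [List.pairwise_append] at hpw
  have hm1 : ∀ e ∈ ds, e.1 = true → (fun e : Dim => if e.2.1 ∈ es then (2 : Fin 3) else 1) e = 1 := by
    intro e he _
    have : e.2.1 ∉ es := by
      intro h
      have h1 := hpw.2.2 (md κ e.2.1) (List.mem_map_of_mem h) e he
      have h2 := (hl.1 e (List.mem_append_right _ he)).2.2.1
      simp only [md] at h1
      omega
    simp [this]
  have hm2 : ∀ p ∈ es, (fun e : Dim => if e.2.1 ∈ es then (2 : Fin 3) else 1) (md κ p) = 2 := by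
    intro p hp
    simp [md, hp]
  refine ⟨swIdl κ (fun e : Dim => if e.2.1 ∈ es then (2 : Fin 3) else 1) (es.map (md κ) ++ ds) F,
    ?_, fun z hz => ⟨?_, fun hh => ?_⟩⟩
  · have h1 := sw_err (m := fun e : Dim => if e.2.1 ∈ es then (2 : Fin 3) else 1) hl h0
      (fun e _ _ => by split_ifs <;> decide) hF (by simpa using he) hr
    simpa using h1
  · have hsub : pos ((es.map fun p => ((false, p + κ, 2 ^ κ - κ) : Dim)) ++ ds) ⊆
        pos (es.map (md κ) ++ ds) := by
      rintro j ⟨e, he, h1, h2⟩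
      rcases List.mem_append.1 he with h | h
      · obtain ⟨p, hp, rfl⟩ := List.mem_map.1 h
        refine ⟨md κ p, List.mem_append_left _ (List.mem_map_of_mem hp), ?_, ?_⟩
        · simp only [md] at h1 ⊢; omega
        · simp only [md] at h2 ⊢; omega
      · exact ⟨e, List.mem_append_right _ h, h1, h2⟩
    intro e he z' hz'
    have hz'' := hz.trans (hz'.mono hsub)
    rcases List.mem_append.1 he with h | h
    · obtain ⟨p, hp, rfl⟩ := List.mem_map.1 h
      refine sw_estab (e := md κ p) (p := p + κ) (w := 2 ^ κ - κ) (swLin_loc _ false) (swLin_true _)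
        (by simp [md]) (by simp only [md]; omega) (fun G _ z _ => ?_) _
        (List.mem_append_left _ (List.mem_map_of_mem hp)) (fun e h => sw_mem_pos h) hl.2
        (fun _ _ => trivial) z' hz''
      intro s s'
      have h3 : ∀ s : Vec (2 ^ κ - κ), fld (put z (p + κ) (2 ^ κ - κ) s) p κ = fld z p κ := by
        intro s
        unfold fld
        rw [get_put_disj (Or.inr le_rfl)]
      have h4 := sw_step_two (σ := σ) (m := fun e : Dim => if e.2.1 ∈ es then (2 : Fin 3) else 1)
        (hm2 p hp) G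
      simp only [h4, h3]
      rw [sw_put_over (by omega) (by omega), sw_put_over (by omega) (by omega)]
    · exact sw_loc (hl.1 e (List.mem_append_right _ h)).2.1 (hm1 e h) _
        (List.mem_append_right _ h) (fun e h => sw_mem_pos h) hl.2
        (hF e (List.mem_append_right _ h)) z' hz''
  · rw [swIdl_append, sw_hp ds hm1 hh, sw_spl es hm2 hpw.1]

theorem sweep_spec {κ u : ℕ} {ds : List Dim} {orc : ℕ → Vec σ → Bool}
    {S : Vec σ → Prop} {X Y : Vec σ → Val} {z0 : Vec σ} {F : Vec σ → ZMod 2}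
    (hκ : 1 ≤ κ) (hl : Lay σ κ u ds) (h0 : Home u z0) (hF : PolyD 3 ds z0 F)
    (he : err ds X F z0 < (1 / 32) ^ ds.length) (hr : Runs κ orc S (sweep (fun _ => 1) ds) X Y) :
    ∃ F', err ds Y F' z0 ≤ 32 ^ ds.length * av (pos ds) (fun z => ind (S z)) z0 ∧
      PolyL ds z0 F' ∧ ∀ z, InR (pos ds) z0 z → HP ds z → F' z = F z := by
  refine ⟨swIdl κ (fun _ => 1) ds F, sw_err hl h0 (fun _ _ _ => by decide) hF he hr,
    fun e he z hz => ?_, fun z _ hh => sw_hp ds (fun _ _ _ => rfl) hh F⟩
  exact sw_loc (hl.1 e he).2.1 (fun _ => rfl) ds he (fun e h => sw_mem_pos h) hl.2 (hF e he) z hz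

end Vale.Agent.P330.Amp
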