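import Vale.Agent.P330.InstB
import Vale.Agent.P325.Four

/-! The sampler lemma (task Unit).
Plan. `S y = 𝔼 j a, φ (y + L a j) j` has mean `μ`. Fourier in `y`: for a character `χ ≠ 1` the
coefficient is `𝔼 j, φhat j χ * ψ j`, `ψ j = 𝔼 a, χ (L a j)`, and `𝔼 j, ψ j ^ 2` is the probability
that the linear forms `χ ∘ L a`, `χ ∘ L a'` in `j` agree, at most `b / 2 ^ m`: a relation
`∑ l ≤ b, ξ l ∘ α ^ l = 0` with `ξ ≠ 0` holds for at most `b` of the commuting matrices `α = alpha g m a`,
whose differences `alpha g m (a ^^^ a')` are units (induction, divided differences). So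
`Var S ≤ (b / 2 ^ m) 𝔼 φ ^ 2 ≤ (b / 2 ^ m) μ`; Chebyshev with `s - μ ≥ s / 2`. -/

namespace Vale.Agent.P330.Amp

open Vale.Agent.Lib.H23 Vale.Agent.P333 Vale.Agent.P325 Finset Matrix
open scoped BigOperators

namespace UnitA

section roots

variable {R M : Type*} [Ring R] [AddCommGroup M] [Module R M]

/-- evaluation of a polynomial with coefficients in a module -/
def P (n : ℕ) (ξ : ℕ → M) (r : R) : M := ∑ l ∈ range n, r ^ l • ξ l

theorem P_succ (n : ℕ) (ξ : ℕ → M) (r : R) :
    P (n + 1) ξ r = ξ 0 + r • P n (fun l => ξ (l + 1)) r := by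
  unfold P
  rw [sum_range_succ', pow_zero, one_smul, add_comm, smul_sum]
  simp only [pow_succ', mul_smul]

theorem P_zero_of (n : ℕ) {ξ : ℕ → M} (h : ∀ i < n, ξ i = 0) (r : R) : P n ξ r = 0 :=
  sum_eq_zero fun l hl => by rw [h l (mem_range.1 hl), smul_zero]

theorem exists_div (r0 : R) (n : ℕ) : ∀ ξ : ℕ → M, ∃ η : ℕ → M,
    (∀ r : R, Commute r r0 → P (n + 1) ξ r = P (n + 1) ξ r0 + (r - r0) • P n η r) ∧
    ((∀ i < n, η i = 0) → ∀ i < n, ξ (i + 1) = 0) := by
  induction n with
  | zero => intro ξ; exact ⟨ξ, fun r _ => by simp [P], fun _ i hi => absurd hi (by omega)⟩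
  | succ n ih =>
    intro ξ
    obtain ⟨η, h1, h2⟩ := ih fun l => ξ (l + 1)
    refine ⟨fun i => Nat.casesOn i (P (n + 1) (fun l => ξ (l + 1)) r0) η, fun r hr => ?_,
      fun h i hi => ?_⟩
    · have hc : r * (r - r0) = (r - r0) * r := ((Commute.refl r).sub_right hr).eq
      rw [P_succ (n + 1) ξ r, P_succ (n + 1) ξ r0, h1 r hr, P_succ n _ r]
      change _ = _ + (r - r0) • (P (n + 1) (fun l => ξ (l + 1)) r0 + r • P n η r)
      rw [smul_add, smul_add, smul_smul, smul_smul, hc, sub_smul]
      abel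
    · have h3 := h2 fun j hj => h (j + 1) (by omega)
      rcases i with _ | i
      · have h4 : P (n + 1) (fun l => ξ (l + 1)) r0 = 0 := h 0 (by omega)
        rwa [P_succ, P_zero_of n h3, smul_zero, add_zero] at h4
      · exact h3 i (by omega)

theorem eq_zero_of_roots {ι : Type*} (r : ι → R) (hc : ∀ a a', Commute (r a) (r a'))
    (hi : ∀ a a', a ≠ a' → ∀ x : M, (r a - r a') • x = 0 → x = 0) (n : ℕ) :
    ∀ (ξ : ℕ → M) (S : Finset ι), n ≤ S.card → (∀ a ∈ S, P n ξ (r a) = 0) → ∀ i < n, ξ i = 0 := by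
  classical
  induction n with
  | zero => intro _ _ _ _ i hi; omega
  | succ n ih =>
    intro ξ S hS h
    obtain ⟨a0, ha0⟩ : S.Nonempty := card_pos.1 (by omega)
    obtain ⟨η, h1, h2⟩ := exists_div (r a0) n ξ
    have h3 := h2 (ih η (S.erase a0) (by rw [card_erase_of_mem ha0]; omega) fun a ha => by
      have e := h1 (r a) (hc a a0)
      rw [h a (mem_of_mem_erase ha), h a0 ha0, zero_add] at e
      exact hi a a0 (ne_of_mem_erase ha) _ e.symm)
    intro i hi
    rcases i with _ | i
    · have h4 := h a0 ha0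
      rwa [P_succ, P_zero_of n h3, smul_zero, add_zero] at h4
    · exact h3 i (by omega)

end roots

variable {b β : ℕ}

/-- the pairing on blocks -/
def bb (χ x : Big b β) : ZMod 2 := ∑ l, χ l ⬝ᵥ x l

theorem perf_bb : Perf (bb : Big b β → Big b β → ZMod 2) := by
  have h : ∀ S : Big b β, (∀ x, bb S x = 0) → S = 0 := by
    intro S hS
    funext l i
    have := hS (Pi.single l (Pi.single i 1))
    rw [bb, sum_eq_single l (fun l' _ hl => by simp [hl]) (by simp)] at this
    simpa using this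
  refine ⟨fun S T x => by simp [bb, sum_add_distrib],
    fun S x y => by simp [bb, sum_add_distrib], h, fun x hx => h x fun S => ?_⟩
  rw [← hx S]
  exact sum_congr rfl fun l _ => dotProduct_comm _ _

theorem alpha_sub (g : Mat β) (m a a' : ℕ) :
    alpha g m a - alpha g m a' = alpha g m (a ^^^ a') := by
  unfold alpha
  rw [← sum_sub_distrib]
  refine sum_congr rfl fun s _ => ?_
  rw [Nat.testBit_xor]
  cases a.testBit s <;> cases a'.testBit s <;> simp
  ext i j
  simp

theorem alpha_comm (g : Mat β) (m a a' : ℕ) : Commute (alpha g m a) (alpha g m a') := by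
  refine Commute.sum_left _ _ _ fun s _ => Commute.sum_right _ _ _ fun t _ => ?_
  split_ifs
  · exact Commute.pow_pow_self g s t
  all_goals simp

/-- the linear form `χ ∘ L a` as a vector -/
def form (g : Mat β) (m : ℕ) (χ : Big b β) (a : ℕ) : Vec β :=
  ∑ l : Fin b, χ l ᵥ* alpha g m a ^ (l.val + 1)

theorem bb_Lv (g : Mat β) (m : ℕ) (χ : Big b β) (a : ℕ) (j : Vec β) :
    bb χ (Lv b g m a j) = form g m χ a ⬝ᵥ j := by
  rw [bb, form, sum_dotProduct]
  exact sum_congr rfl fun l _ => dotProduct_mulVec _ _ _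

open Classical in
theorem card_form_le {g : Mat β} {m : ℕ} (hu : ∀ a, 0 < a → a < 2 ^ m → IsUnit (alpha g m a))
    {χ : Big b β} (hχ : χ ≠ 0) (c : Vec β) :
    (univ.filter fun a : Fin (2 ^ m) => form g m χ a = c).card ≤ b := by
  by_contra hlt
  apply hχ
  let r : Fin (2 ^ m) → Module.End (ZMod 2) (Vec β) := fun a =>
    Matrix.toLinAlgEquiv' (alpha g m a)ᵀ
  let ξ : ℕ → Vec β := fun i => Nat.casesOn i (-c) fun l => blk χ l
  have key := eq_zero_of_roots r (fun a a' => by
      have : Commute (alpha g m a)ᵀ (alpha g m a')ᵀ := by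
        rw [Commute, SemiconjBy, ← transpose_mul, ← transpose_mul, (alpha_comm g m a a').eq]
      exact this.map _)
    (fun a a' haa x hx => by
      have hne : (a : ℕ) ^^^ a' ≠ 0 := fun h => haa (Fin.ext (Nat.xor_eq_zero_iff.1 h))
      have h1 := ((isUnit_transpose _).2
        (hu _ (Nat.pos_of_ne_zero hne) (Nat.xor_lt_two_pow a.2 a'.2))).map
        (Matrix.toLinAlgEquiv' (R := ZMod 2) (n := Fin β))
      rw [← alpha_sub, transpose_sub, map_sub] at h1
      exact h1.smul_eq_zero.1 hx)
    (b + 1) ξ _ (not_le.1 hlt) (fun a ha => by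
      rw [mem_filter] at ha
      rw [P, sum_range_succ', pow_zero, one_smul, ← Fin.sum_univ_eq_sum_range
        (fun l => r a ^ (l + 1) • ξ (l + 1))]
      change _ + -c = 0
      rw [← ha.2, add_neg_eq_zero, form]
      refine sum_congr rfl fun l _ => ?_
      change (r a ^ (l.val + 1)) (blk χ l) = _
      rw [blk, dif_pos l.2, ← map_pow, ← transpose_pow, toLinAlgEquiv'_apply, mulVec_transpose])
  funext l
  have := key (l + 1) (by omega)
  change blk χ l = 0 at this
  rwa [blk, dif_pos l.2] at this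

theorem expect_psi_sq {g : Mat β} {m : ℕ} (hu : ∀ a, 0 < a → a < 2 ^ m → IsUnit (alpha g m a))
    {χ : Big b β} (hχ : χ ≠ 0) :
    (𝔼 j, (𝔼 a : Fin (2 ^ m), chi (bb χ (Lv b g m a j))) ^ 2) ≤ (b : ℝ) / 2 ^ m := by
  classical
  simp only [sq, Fintype.expect_mul_expect, bb_Lv]
  rw [expect_comm]
  refine expect_le univ_nonempty fun a _ => ?_
  rw [expect_comm]
  simp only [perf_dot.orth2]
  rw [expect_eq_sum_div_card, card_univ, Fintype.card_fin]
  push_cast
  refine div_le_div_of_nonneg_right ?_ (by positivity)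
  have h := card_form_le hu hχ (form g m χ a)
  have e : ∑ a' : Fin (2 ^ m), ind (form g m χ a = form g m χ a')
      = ((univ.filter fun a' : Fin (2 ^ m) => form g m χ a' = form g m χ a).card : ℝ) := by
    rw [card_filter]
    push_cast
    refine sum_congr rfl fun a' _ => ?_
    by_cases h : form g m χ a' = form g m χ a
    · rw [if_pos h, ind_pos h.symm]
    · rw [if_neg h, ind_neg fun e => h e.symm]
  rw [e]
  exact_mod_cast h

/-- the variance in terms of Fourier coefficients -/
theorem var_eq_sum {W V : Type*} [AddCommGroup W] [AddCommGroup V] [Fintype W] [Fintype V]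
    [DecidableEq W] {p : W → V → ZMod 2} (h : Perf p) (S : V → ℝ) :
    (𝔼 y, (S y - 𝔼 z, S z) ^ 2) = ∑ χ ∈ univ.erase 0, hatB p S χ ^ 2 := by
  have : Nonempty V := ⟨0⟩
  have h0 : hatB p S 0 = 𝔼 z, S z := by simp [hatB, h.zero_left]
  have h1 := h.parseval S
  rw [← add_sum_erase _ _ (mem_univ 0), h0] at h1
  simp only [sub_sq, expect_add_distrib, expect_sub_distrib, ← expect_mul, ← mul_expect,
    Fintype.expect_const]
  linarith

theorem cheb {V : Type*} [Fintype V] (F : V → ℝ) (p : V → Prop) {t : ℝ} (ht : 0 < t)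
    (h : ∀ y, p y → t ≤ |F y|) : (𝔼 y, ind (p y)) ≤ (𝔼 y, F y ^ 2) / t ^ 2 := by
  rw [expect_div]
  refine expect_le_expect fun y _ => ?_
  by_cases hp : p y
  · rw [ind_pos hp, le_div_iff₀ (by positivity), one_mul, ← sq_abs (F y)]
    exact pow_le_pow_left₀ ht.le (h y hp) 2
  · rw [ind_neg hp]
    positivity

end UnitA

open UnitA in
theorem unit : UnitStmt := by
  intro b β m g hu φ hφ s hs hμ
  classical
  set μ := 𝔼 x, 𝔼 j, φ x j with hμdef
  set S : Big b β → ℝ := fun y => 𝔼 j, 𝔼 a : Fin (2 ^ m), φ (y + Lv b g m a j) j with hS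
  have hmean : (𝔼 y, S y) = μ := by
    simp only [hS, hμdef]
    rw [expect_comm, expect_comm univ univ fun x j => φ x j]
    refine expect_congr rfl fun j _ => ?_
    rw [expect_comm]
    simp only [expect_add_right' fun x => φ x j]
    exact Fintype.expect_const _
  have hhat : ∀ χ, hatB bb S χ
      = 𝔼 j, hatB bb (fun x => φ x j) χ * 𝔼 a : Fin (2 ^ m), chi (bb χ (Lv b g m a j)) := by
    intro χ
    simp only [mul_expect, ← perf_bb.hatB_shift]
    simp only [hatB, hS, expect_mul]
    rw [expect_comm]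
    refine expect_congr rfl fun j _ => ?_
    rw [expect_comm]
  have hvar : (𝔼 y, (S y - μ) ^ 2) ≤ (b : ℝ) / 2 ^ m * μ := by
    rw [← hmean, var_eq_sum perf_bb, hmean]
    calc ∑ χ ∈ univ.erase 0, hatB bb S χ ^ 2
        ≤ ∑ χ ∈ univ.erase 0, (b : ℝ) / 2 ^ m * 𝔼 j, hatB bb (fun x => φ x j) χ ^ 2 := by
          refine sum_le_sum fun χ hχ => ?_
          rw [hhat, mul_comm]
          refine (expect_mul_sq_le_sq_mul_sq _ _ _).trans ?_
          exact mul_le_mul_of_nonneg_left (expect_psi_sq hu (ne_of_mem_erase hχ))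
            (expect_nonneg fun _ _ => sq_nonneg _)
      _ ≤ ∑ χ, (b : ℝ) / 2 ^ m * 𝔼 j, hatB bb (fun x => φ x j) χ ^ 2 :=
          sum_le_sum_of_subset_of_nonneg (erase_subset _ _) fun χ _ _ =>
            mul_nonneg (by positivity) (expect_nonneg fun _ _ => sq_nonneg _)
      _ = (b : ℝ) / 2 ^ m * 𝔼 j, 𝔼 x, φ x j ^ 2 := by
          rw [← mul_sum, ← expect_sum_comm]
          simp only [perf_bb.parseval]
      _ ≤ _ := by
          refine mul_le_mul_of_nonneg_left ?_ (by positivity)
          rw [hμdef, expect_comm]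
          refine expect_le_expect fun x _ => expect_le_expect fun j _ => ?_
          have := hφ x j
          nlinarith [this.1, this.2]
  have h := cheb (fun y => S y - μ) (fun y => s ≤ S y) (half_pos hs)
    (fun y hy => le_trans (by linarith) (le_abs_self _))
  refine h.trans ((div_le_div_of_nonneg_right hvar (by positivity)).trans (le_of_eq ?_))
  field_simp
  norm_num

end Vale.Agent.P330.Amp
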