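import Vale.Agent.P330.PL

/-! Sorting of words and the sort-and-broadcast stage (task WSort).
Plan. `runs_flatMap` gives states `Z t`. A pair (along the comparator bit) is calm if its fault
density is `≤ 2 ^ (-4 u - 1)`; the density of pairs that are not calm is `≤ ν` (`av_markov`,
`av_flt`). `plBin_ok`: `nOK (Z (t+1)) ≤ nOK (Z t) + ν` (the comparator coefficients do not see the
bundle: `stages_mem`, `polyD_of_const`). For a message point `z` let `g t y = [Msg (Z t) y 1]` on the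
region of the positions `bs` through `z`; `plBin_valid` gives `g (t+1) y = cst (g t) y` if the pair is
calm and both sources are valid (`Valid.msg_iff`). `noisy_lower`, `noisy_upper`, `bitonic`.
For `sb`: lines along `q` that are calm; `plBc_valid`, `plBc_ok`, `av_put_le`. -/

namespace Vale.Agent.P330.Amp

open Vale.Agent.Lib.H23 Vale.Agent.P325 Finset
open scoped BigOperators

variable {σ κ u M v : ℕ} {ds : List Dim} {orc : ℕ → Vec σ → Bool} {S : Vec σ → Prop}
  {X Y : Vec σ → Val} {z0 : Vec σ}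

/-- density of invalid bundles. -/
noncomputable def nOK (M : ℕ) (D : List Dim) (B : Set ℕ) (X : Vec σ → Val) (z : Vec σ) : ℝ :=
  av B (fun y => ind (¬ OK (eV M) D X y)) z

/-- density of the bundles with the message one at the message point `z`. -/
noncomputable def frac (M : ℕ) (D : List Dim) (B : Set ℕ) (X : Vec σ → Val) (z : Vec σ) : ℝ :=
  av B (fun y => ind (Msg (eV M) D X y 1)) z

namespace WS

variable {Q D : List Dim} {j : ℕ} {y : Vec σ}

theorem disj_dim {p w : ℕ} {e : Dim} (hw : 1 ≤ w) (he : 1 ≤ e.2.2) (hD : e ∈ D)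
    (h : ∀ i, p ≤ i → i < p + w → i ∉ pos D) : p + w ≤ e.2.1 ∨ e.2.1 + e.2.2 ≤ p := by
  by_contra hc
  rw [not_or, not_le, not_le] at hc
  rcases le_total p e.2.1 with h1 | h1
  · exact h e.2.1 h1 hc.1 ⟨e, hD, le_rfl, by omega⟩
  · exact h p le_rfl (by omega) ⟨e, hD, h1, hc.2⟩

theorem lay_right (hl : Lay σ κ u (Q ++ D)) : Lay σ κ u D :=
  hl.sublist (List.sublist_append_right _ _)

theorem lay_left (hl : Lay σ κ u (Q ++ D)) : Lay σ κ u Q :=
  hl.sublist (List.sublist_append_left _ _)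

theorem bit_disj (hl : Lay σ κ u (Q ++ D)) (hj : j ∈ pos Q) {e : Dim} (he : e ∈ D) :
    j + 1 ≤ e.2.1 ∨ e.2.1 + e.2.2 ≤ j :=
  disj_dim le_rfl ((lay_right hl).1 e he).2.2.1 he fun i h1 h2 => by
    rw [show i = j by omega]
    exact hl.disj hj

theorem lay_bit (hl : Lay σ κ u (Q ++ D)) (hj : j ∈ pos Q) : Lay σ κ u ((false, j, 1) :: D) := by
  have h1 := (lay_left hl).mem_pos hj
  refine ⟨fun e he => ?_, List.pairwise_cons.2 ⟨fun e he => bit_disj hl hj he, (lay_right hl).2⟩⟩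
  rcases List.mem_cons.1 he with rfl | he
  · exact ⟨h1.1, h1.2, le_rfl, Nat.one_le_two_pow⟩
  · exact (lay_right hl).1 e he

theorem fld_of_inR {P : Set ℕ} {z z' : Vec σ} (h : InR P z z') (hj : j ∉ P) :
    fld z' j 1 = fld z j 1 := by
  unfold fld
  rw [h.get fun i h1 h2 => by rwa [show i = j by omega]]

theorem hp_of_inR (hl : Lay σ κ u (Q ++ vd κ v :: ds)) (hH : HP ds z0) (hy : InR (pos Q) z0 y) :
    HP ds y := fun e he h1 => by
  obtain ⟨h, hh, h2⟩ := hH e he h1
  refine ⟨h, hh, ?_⟩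
  rw [← h2]
  exact hy.get fun i a b hi => hl.disj hi ⟨e, List.mem_cons_of_mem _ he, a, b⟩

theorem union_pos {e : Dim} (he : ∀ i, e.2.1 ≤ i → i < e.2.1 + e.2.2 → i ∈ pos Q) :
    pos Q ∪ pos (e :: D) = pos (Q ++ D) := by
  rw [pos_cons, pos_append, ← Set.union_assoc,
    Set.union_eq_self_of_subset_right fun i hi => he i hi.1 hi.2]

/-- an average is the average of the averages along a field inside the region. -/
theorem av_line {P : Set ℕ} {p w : ℕ} (hσ : p + w ≤ σ) (hp : ∀ i, p ≤ i → i < p + w → i ∈ P)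
    (f : Vec σ → ℝ) : av P (fun y => 𝔼 s, f (put y p w s)) z0 = av P f z0 := by
  have h1 : (fun y => 𝔼 s, f (put y p w s)) = av (Set.Ico p (p + w)) f :=
    funext fun y => (av_Ico hσ).symm
  rw [h1, av_av, Set.union_eq_self_of_subset_right fun i hi => hp i hi.1 hi.2]

/-- few lines are not calm. -/
theorem av_calm {e : Dim} (he : ∀ i, e.2.1 ≤ i → i < e.2.1 + e.2.2 → i ∈ pos Q) (k : ℕ) :
    av (pos Q) (fun y => ind (¬ flt u S (pos (e :: D)) y ≤ (1 / 2) ^ k)) z0 ≤
      2 ^ k * flt u S (pos (Q ++ D)) z0 := by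
  calc _ ≤ av (pos Q) (fun y => ind ((1 / 2) ^ k ≤ flt u S (pos (e :: D)) y)) z0 :=
        av_mono fun y _ => ind_mono fun h => (not_le.1 h).le
    _ ≤ av (pos Q) (flt u S (pos (e :: D))) z0 / (1 / 2) ^ k :=
        av_markov (fun _ => flt_nonneg S) (by positivity)
    _ = _ := by
        rw [av_flt, union_pos he, one_div, inv_pow, div_inv_eq_mul, mul_comm]

theorem single_le {ι : Type} [Fintype ι] {h : ι → ℝ} (h0 : ∀ i, 0 ≤ h i) (a : ι) :
    h a ≤ Fintype.card ι * 𝔼 i, h i := by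
  rw [Fintype.card_mul_expect]
  exact single_le_sum (fun i _ => h0 i) (mem_univ a)

theorem expect_ind_le {ι : Type} [Fintype ι] (q : ι → Prop) : (𝔼 i, ind (q i)) ≤ 1 := by
  rcases isEmpty_or_nonempty ι with h | h
  · simp
  · exact expect_le univ_nonempty fun i _ => ind_le_one _

/-- the comparator coefficients do not see the bundle. -/
theorem coef_const (hl : Lay σ κ u (Q ++ D)) {s : ℕ × Cond} (hs : s ∈ stages (bitsOf Q))
    (z : Vec σ) (i : Fin 4) : PolyD 1 D z fun z => coef orc false s.1 (fun _ => s.2) z i := by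
  obtain ⟨h1, h2⟩ := stages_mem (σ := σ) (orc := orc) (lay_left hl).nodup hs
  refine polyD_of_const fun z' hz => ?_
  have h3 : ∀ j ∈ bitsOf Q, fld z' j 1 = fld z j 1 := fun j hj =>
    fld_of_inR hz (hl.disj (mem_bitsOf.1 hj))
  simp only [coef, Bool.false_eq_true, if_false]
  rw [h3 _ h1, h2 z' z fun j hj _ => h3 j hj]

theorem step_ok (hp : Par κ u M) (hl : Lay σ κ u (Q ++ vd κ v :: ds)) (hd : ds.length + 1 ≤ M)
    (h0 : Home u z0) {s : ℕ × Cond} (hs : s ∈ stages (bitsOf Q))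
    (hr : Runs κ orc S (plBin κ u v ds false s.1 fun _ => s.2) X Y) :
    nOK M (vd κ v :: ds) (pos Q) Y z0 ≤ nOK M (vd κ v :: ds) (pos Q) X z0 +
      2 ^ (4 * u + 1) * flt u S (pos (Q ++ vd κ v :: ds)) z0 := by
  have hj : s.1 ∈ pos Q :=
    mem_bitsOf.1 (stages_mem (σ := σ) (orc := orc) (lay_left hl).nodup hs).1
  have hσ : s.1 + 1 ≤ σ := ((lay_left hl).mem_pos hj).2
  have hi : ∀ i, s.1 ≤ i → i < s.1 + 1 → i ∈ pos Q := fun i h1 h2 => by
    rwa [show i = s.1 by omega]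
  unfold nOK
  rw [← av_line hσ hi, ← av_line hσ hi fun y => ind (¬ OK (eV M) (vd κ v :: ds) X y)]
  refine le_trans ?_ (add_le_add le_rfl (av_calm (e := (false, s.1, 1)) hi (4 * u + 1)))
  rw [← av_add]
  refine av_mono fun y hy => ?_
  by_cases hc : flt u S (pos ((false, s.1, 1) :: vd κ v :: ds)) y ≤ (1 / 2) ^ (4 * u + 1)
  · exact (plBin_ok hp (lay_bit hl hj) hd ((lay_left hl).home h0 hy) hr hc
      fun i t => coef_const hl hs _ i).trans (le_add_of_nonneg_right (ind_nonneg _))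
  · rw [ind_of hc]
    exact (expect_ind_le _).trans
      (le_add_of_nonneg_left (expect_nonneg fun _ _ => ind_nonneg _))

theorem steps_ok (hp : Par κ u M) (hl : Lay σ κ u (Q ++ vd κ v :: ds)) (hd : ds.length + 1 ≤ M)
    (h0 : Home u z0) {Z : ℕ → Vec σ → Val}
    (hr : ∀ t, ∀ ht : t < (stages (bitsOf Q)).length, Runs κ orc S (plBin κ u v ds false
      (stages (bitsOf Q))[t].1 fun _ => (stages (bitsOf Q))[t].2) (Z t) (Z (t + 1)))
    {t : ℕ} (ht : t ≤ (stages (bitsOf Q)).length) :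
    nOK M (vd κ v :: ds) (pos Q) (Z t) z0 ≤ nOK M (vd κ v :: ds) (pos Q) (Z 0) z0 +
      ((bitsOf Q).length : ℝ) ^ 2 * (2 ^ (4 * u + 1) * flt u S (pos (Q ++ vd κ v :: ds)) z0) := by
  have hν : 0 ≤ 2 ^ (4 * u + 1) * flt u S (pos (Q ++ vd κ v :: ds)) z0 :=
    mul_nonneg (by positivity) (flt_nonneg S)
  have h1 : ∀ t ≤ (stages (bitsOf Q)).length, nOK M (vd κ v :: ds) (pos Q) (Z t) z0 ≤
      nOK M (vd κ v :: ds) (pos Q) (Z 0) z0 +
        t * (2 ^ (4 * u + 1) * flt u S (pos (Q ++ vd κ v :: ds)) z0) := by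
    intro t
    induction t with
    | zero => intro _; simp
    | succ t ih =>
      intro ht
      have h2 := step_ok hp hl hd h0 (List.getElem_mem _) (hr t ht)
      have h3 := ih (by omega)
      push_cast
      linarith
  refine (h1 t ht).trans (add_le_add le_rfl (mul_le_mul_of_nonneg_right ?_ hν))
  exact_mod_cast ht.trans (length_stages _)

theorem small (hp : Par κ u M) {β : ℝ} (hβ : β ≤ (1 / 2) ^ (4 * u + 1)) :
    2 ^ 1 * (2 ^ (3 * u + κ + 3) * β) ≤ eV M := by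
  have h1 := hp.hu
  have h2 : κ < 2 ^ κ := Nat.lt_two_pow_self
  obtain ⟨r, hr⟩ : ∃ r, 4 * u + 1 = (3 * u + κ + 4) + (6 * M + r) := ⟨u - (κ + 3 + 6 * M), by omega⟩
  have h3 : (1 / 2 : ℝ) ^ (6 * M) = eV M := by
    rw [eV, pow_mul]; norm_num
  calc _ ≤ 2 ^ 1 * (2 ^ (3 * u + κ + 3) * (1 / 2) ^ (4 * u + 1) : ℝ) := by gcongr
    _ = (2 * (1 / 2)) ^ (3 * u + κ + 4) * ((1 / 2) ^ (6 * M) * (1 / 2) ^ r) := by
        rw [hr, mul_pow, pow_add _ (3 * u + κ + 4), pow_add _ (6 * M)]; ring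
    _ ≤ _ := by
        rw [h3, show (2 * (1 / 2) : ℝ) = 1 by norm_num, one_pow, one_mul]
        exact mul_le_of_le_one_right (eV_pos M).le (pow_le_one₀ (by norm_num) (by norm_num))

theorem anf_cmp (c : Bool) (a b : ZMod 2) :
    (anf (if c then ![0, 0, 0, 1] else ![0, 1, 1, 1]) a b = 1) ↔
      (if c then decide (a = 1) && decide (b = 1) else decide (a = 1) || decide (b = 1)) = true := by
  revert c a b
  decide

open Classical in
/-- the messages as a Boolean array. -/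
noncomputable def mb (M : ℕ) (D : List Dim) (X : Vec σ → Val) (y : Vec σ) : Bool :=
  decide (Msg (eV M) D X y 1)

theorem mb_eq (hl : Lay σ κ u D) (hM : 1 ≤ M) (hd : D.length ≤ M) {F : Vec σ → ZMod 2}
    (h : Valid (eV M) D X y F) : mb M D X y = decide (F y = 1) := by
  unfold mb
  exact decide_eq_decide.2 (h.msg_iff hl hM hd InR.refl)

theorem step_msg (hp : Par κ u M) (hl : Lay σ κ u (Q ++ vd κ v :: ds)) (hd : ds.length + 1 ≤ M)
    (h0 : Home u y) (hH : HP ds y) {s : ℕ × Cond} (hs : s ∈ stages (bitsOf Q))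
    (hr : Runs κ orc S (plBin κ u v ds false s.1 fun _ => s.2) X Y)
    (hc : flt u S (pos ((false, s.1, 1) :: vd κ v :: ds)) y ≤ (1 / 2) ^ (4 * u + 1))
    (hO : ∀ t, OK (eV M) (vd κ v :: ds) X (put y s.1 1 t)) :
    mb M (vd κ v :: ds) Y y = cst orc s (mb M (vd κ v :: ds) X) y := by
  have hj : s.1 ∈ pos Q :=
    mem_bitsOf.1 (stages_mem (σ := σ) (orc := orc) (lay_left hl).nodup hs).1
  have hσ : s.1 + 1 ≤ σ := ((lay_left hl).mem_pos hj).2
  have hD := lay_right hl
  have hdis : ∀ e ∈ vd κ v :: ds, s.1 + 1 ≤ e.2.1 ∨ e.2.1 + e.2.2 ≤ s.1 :=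
    fun e he => bit_disj hl hj he
  choose G hG using hO
  have hget : ∀ t z, InR (pos (vd κ v :: ds)) (put y s.1 1 t) z → get z s.1 1 = t := fun t z hz => by
    rw [hz.get fun i h1 h2 => by rw [show i = s.1 by omega]; exact hl.disj hj, get_put hσ]
  have hF : ∀ t, Valid (eV M) (vd κ v :: ds) X (put y s.1 1 t) fun z => G (get z s.1 1) z := by
    intro t
    refine ⟨(hG t).1.congr fun z hz => by rw [hget t z hz], le_of_eq_of_le ?_ (hG t).2⟩
    exact av_congr fun z hz => by simp only [hget t z hz]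
  obtain ⟨F', h1, h2, h3⟩ := plBin_valid hp (lay_bit hl hj) hd h0 hr hc hF
  have hV : Valid (eV M) (vd κ v :: ds) Y y fun z => anf (coef orc false s.1 (fun _ => s.2) z)
      (F' (put z s.1 1 (ofN _ 0))) (F' (put z s.1 1 (ofN _ 1))) := by
    refine ⟨PolyD.anf (fun i => coef_const hl hs y i) ((h1 _).comp_put hdis).polyD
      ((h1 _).comp_put hdis).polyD, ?_⟩
    refine le_trans ?_ (small hp hc)
    refine le_trans (av_slice (Q := pos ((false, s.1, 1) :: vd κ v :: ds)) (z0 := y)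
      (fun _ => ind_nonneg _) [s.1] (fun i hi => ?_)
      (pos_mono fun e he => List.mem_cons_of_mem _ he) InR.refl) ?_
    · rw [pos_cons] at hi
      rcases hi with hi | hi
      · exact Or.inr (List.mem_singleton.2 (by have := hi.1; have := hi.2; dsimp only at *; omega))
      · exact Or.inl hi
    · exact mul_le_mul_of_nonneg_left h3 (by positivity)
  have hM := hp.hM
  have h4 : ∀ t, mb M (vd κ v :: ds) X (put y s.1 1 t) = decide (F' (put y s.1 1 t) = 1) := by
    intro t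
    rw [mb_eq hD hM hd (hF t), h2 _ (InR.refl.put (fun i a b => ?_) t)
      (hH.put (fun e he _ => hdis e (List.mem_cons_of_mem _ he)) t)]
    rw [pos_cons]
    exact Or.inl ⟨a, b⟩
  rw [mb_eq hD hM hd hV, cst, h4, h4, Bool.eq_iff_iff, decide_eq_true_iff]
  simp only [coef, Bool.false_eq_true, if_false]
  exact anf_cmp _ _ _

theorem step_mis (hp : Par κ u M) (hl : Lay σ κ u (Q ++ vd κ v :: ds)) (hd : ds.length + 1 ≤ M)
    (h0 : Home u z0) (hH : HP ds z0) {s : ℕ × Cond} (hs : s ∈ stages (bitsOf Q))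
    (hr : Runs κ orc S (plBin κ u v ds false s.1 fun _ => s.2) X Y) :
    av (pos Q) (fun y => ind (mb M (vd κ v :: ds) Y y ≠ cst orc s (mb M (vd κ v :: ds) X) y)) z0 ≤
      2 * nOK M (vd κ v :: ds) (pos Q) X z0 +
        2 ^ (4 * u + 1) * flt u S (pos (Q ++ vd κ v :: ds)) z0 := by
  have hj : s.1 ∈ pos Q :=
    mem_bitsOf.1 (stages_mem (σ := σ) (orc := orc) (lay_left hl).nodup hs).1
  have hσ : s.1 + 1 ≤ σ := ((lay_left hl).mem_pos hj).2
  have hi : ∀ i, s.1 ≤ i → i < s.1 + 1 → i ∈ pos Q := fun i h1 h2 => by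
    rwa [show i = s.1 by omega]
  unfold nOK
  rw [← av_line hσ hi fun y => ind (¬ OK (eV M) (vd κ v :: ds) X y), ← av_mul]
  refine le_trans ?_ (add_le_add le_rfl (av_calm (e := (false, s.1, 1)) hi (4 * u + 1)))
  rw [← av_add]
  refine av_mono fun y hy => ?_
  have hn : 0 ≤ 2 * 𝔼 t, ind (¬ OK (eV M) (vd κ v :: ds) X (put y s.1 1 t)) :=
    mul_nonneg zero_le_two (expect_nonneg fun _ _ => ind_nonneg _)
  by_cases hc : flt u S (pos ((false, s.1, 1) :: vd κ v :: ds)) y ≤ (1 / 2) ^ (4 * u + 1)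
  · by_cases hO : ∀ t, OK (eV M) (vd κ v :: ds) X (put y s.1 1 t)
    · rw [ind_of_not (not_not.2 (step_msg hp hl hd ((lay_left hl).home h0 hy)
        (hp_of_inR hl hH hy) hs hr hc hO))]
      exact add_nonneg hn (ind_nonneg _)
    · obtain ⟨t, ht⟩ := not_forall.1 hO
      have h1 := single_le (fun t => ind_nonneg (¬ OK (eV M) (vd κ v :: ds) X (put y s.1 1 t))) t
      rw [ind_of ht, show Fintype.card (Vec 1) = 2 by simp, Nat.cast_ofNat] at h1
      exact ((ind_le_one _).trans h1).trans (le_add_of_nonneg_right (ind_nonneg _))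
  · rw [ind_of hc]
    exact (ind_le_one _).trans (le_add_of_nonneg_left hn)

theorem s0_lt (κ : ℕ) (m c : Bool) : s0 κ m c < 2 ^ κ := by
  have : 0 < 2 ^ κ := Nat.two_pow_pos κ
  unfold s0
  split_ifs <;> omega

end WS

open WS

theorem wsort_ok {qs : List ℕ} (hp : Par κ u M) (hl : Lay σ κ u (qs.map (vd κ) ++ vd κ v :: ds))
    (hd : ds.length + 1 ≤ M) (h0 : Home u z0)
    (hr : Runs κ orc S (wsort κ u v ds (bitsOf (qs.map (vd κ)))) X Y) :
    nOK M (vd κ v :: ds) (pos (qs.map (vd κ))) Y z0 ≤ nOK M (vd κ v :: ds) (pos (qs.map (vd κ))) X z0 +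
      (qs.length * κ) ^ 2 * (2 ^ (4 * u + 1) * flt u S (pos (qs.map (vd κ) ++ vd κ v :: ds)) z0) := by
  obtain ⟨Z, rfl, rfl, hZ⟩ := runs_flatMap _ _ hr
  have h := steps_ok hp hl hd h0 hZ le_rfl
  rwa [length_bitsOf_vd, Nat.cast_mul] at h

open Classical in
theorem wsort_msg {qs : List ℕ} (hp : Par κ u M) (hl : Lay σ κ u (qs.map (vd κ) ++ vd κ v :: ds))
    (hd : ds.length + 1 ≤ M) (h0 : Home u z0) (hH : HP ds z0)
    (hr : Runs κ orc S (wsort κ u v ds (bitsOf (qs.map (vd κ)))) X Y) :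
    av (pos (qs.map (vd κ))) (fun y => ind (¬ Msg (eV M) (vd κ v :: ds) Y y
      (b2 (decide ((rank (bitsOf (qs.map (vd κ))) y : ℝ) < 2 ^ (qs.length * κ) *
        frac M (vd κ v :: ds) (pos (qs.map (vd κ))) X z0))))) z0 ≤
      5 * (qs.length * κ + 1) ^ 4 * (nOK M (vd κ v :: ds) (pos (qs.map (vd κ))) X z0 +
        2 ^ (4 * u + 1) * flt u S (pos (qs.map (vd κ) ++ vd κ v :: ds)) z0) := by
  obtain ⟨Z, rfl, rfl, hZ⟩ := runs_flatMap _ _ hr
  set Q := qs.map (vd κ) with hQ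
  set D := vd κ v :: ds with hD
  set l := stages (bitsOf Q) with hl'
  set ν := 2 ^ (4 * u + 1) * flt u S (pos (Q ++ D)) z0 with hν
  set N := nOK M D (pos Q) (Z 0) z0 with hN
  have hn : ((bitsOf Q).length : ℝ) = qs.length * κ := by
    rw [hQ, length_bitsOf_vd, Nat.cast_mul]
  set n : ℝ := qs.length * κ with hn'
  have hν0 : 0 ≤ ν := mul_nonneg (by positivity) (flt_nonneg S)
  have hN0 : 0 ≤ N := av_ind_nonneg _
  have hn0 : 0 ≤ n := by positivity
  have hok : ∀ t ≤ l.length, nOK M D (pos Q) (Z t) z0 ≤ N + n ^ 2 * ν := fun t ht => by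
    have h := steps_ok hp hl hd h0 hZ ht
    rwa [hn] at h
  have hmis : ∀ t, ∀ ht : t < l.length, av (pos Q)
      (fun y => ind (mb M D (Z (t + 1)) y ≠ cst orc l[t] (mb M D (Z t)) y)) z0 ≤
        2 * (N + n ^ 2 * ν) + ν := fun t ht => by
    have h1 := step_mis hp hl hd h0 hH (List.getElem_mem _) (hZ t ht)
    have h2 := hok t ht.le
    linarith
  have hP : ∀ s ∈ l, s.1 ∈ pos Q ∧ s.1 < σ ∧
      ∀ z t, s.2.ev orc (put z s.1 1 t) = s.2.ev orc z := fun s hs => by
    obtain ⟨h1, h2⟩ := stages_mem (σ := σ) (orc := orc) (lay_left hl).nodup hs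
    refine ⟨mem_bitsOf.1 h1, ((lay_left hl).mem_pos (mem_bitsOf.1 h1)).2, fun z t =>
      h2 _ _ fun j _ hj => ?_⟩
    unfold fld
    rw [get_put_disj (by omega)]
  have hlo := noisy_lower (z0 := z0) l hP (fun t => mb M D (Z t)) (e := 2 * (N + n ^ 2 * ν) + ν)
    fun t ht => le_trans (av_mono fun y _ => ind_mono fun h e => by
      rw [h.1, h.2] at e; exact Bool.false_ne_true e) (hmis t ht)
  have hup := noisy_upper (z0 := z0) l hP (fun t => mb M D (Z t)) (e := 2 * (N + n ^ 2 * ν) + ν)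
    fun t ht => le_trans (av_mono fun y _ => ind_mono fun h e => by
      rw [h.1, h.2] at e; exact Bool.false_ne_true e.symm) (hmis t ht)
  have hL : (l.length : ℝ) ≤ n ^ 2 := by
    rw [← hn]; exact_mod_cast length_stages _
  have he0 : 0 ≤ 2 * (N + n ^ 2 * ν) + ν := by positivity
  have hfin := hok _ le_rfl
  refine le_trans (b := nOK M D (pos Q) (Z l.length) z0 + (av (pos Q) (fun z => ind
    (l.foldl (fun g s => cst orc s g) (mb M D (Z 0)) z = true ∧ mb M D (Z l.length) z = false)) z0 +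
      av (pos Q) (fun z => ind (mb M D (Z l.length) z = true ∧
        l.foldl (fun g s => cst orc s g) (mb M D (Z 0)) z = false)) z0)) ?_ ?_
  · unfold nOK
    rw [← av_add, ← av_add]
    refine av_mono fun y hy => ?_
    have hb : l.foldl (fun g s => cst orc s g) (mb M D (Z 0)) y =
        decide ((rank (bitsOf Q) y : ℝ) < 2 ^ (qs.length * κ) * frac M D (pos Q) (Z 0) z0) := by
      rw [hl', bitonic (lay_left hl).nodup
        (fun j hj => ((lay_left hl).mem_pos (mem_bitsOf.1 hj)).2)]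
      refine decide_eq_decide.2 ?_
      rw [show {j | j ∈ bitsOf Q} = pos Q from Set.ext fun j => mem_bitsOf, av_base hy,
        hQ, length_bitsOf_vd, frac]
      simp only [mb, decide_eq_true_eq]
    rw [← hb]
    refine le_trans (ind_mono fun hm => ?_) ((ind_or_le _ _).trans
      (add_le_add le_rfl (ind_or_le _ _)))
    by_contra hc
    rw [not_or, not_or, not_not] at hc
    obtain ⟨⟨F, hF⟩, h1, h2⟩ := hc
    refine hm ⟨F, hF, ?_⟩
    rw [← b2_decide (F y), ← mb_eq (lay_right hl) hp.hM hd hF]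
    congr 1
    revert h1 h2
    cases mb M D (Z l.length) y <;> cases l.foldl (fun g s => cst orc s g) (mb M D (Z 0)) y <;> simp
  · have h1 := mul_le_mul_of_nonneg_right hL he0
    have h2 : 1 + 4 * n ^ 2 ≤ 5 * (n + 1) ^ 4 := by nlinarith [pow_nonneg hn0 3, pow_nonneg hn0 4]
    have h3 : 3 * n ^ 2 + 4 * n ^ 4 ≤ 5 * (n + 1) ^ 4 := by
      nlinarith [pow_nonneg hn0 3, pow_nonneg hn0 4, pow_nonneg hn0 2]
    have h4 := mul_le_mul_of_nonneg_right h2 hN0
    have h5 := mul_le_mul_of_nonneg_right h3 hν0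
    nlinarith

theorem sb_ok {qs : List ℕ} {q : ℕ} {m c0 : Bool} {c : Cond} (hp : Par κ u M)
    (hl : Lay σ κ u ((qs ++ [q]).map (vd κ) ++ vd κ v :: ds)) (hd : ds.length + 1 ≤ M)
    (h0 : Home u z0) (hr : Runs κ orc S (sb κ u v ds qs q m c) X Y)
    (hc : ∀ z, InR (pos ((qs ++ [q]).map (vd κ) ++ vd κ v :: ds)) z0 z → c.ev orc z = c0) :
    av (pos ((qs ++ [q]).map (vd κ))) (fun y => ind (¬ OKL (eV M / 2) (vd κ v :: ds) Y y)) z0 ≤
      nOK M (vd κ v :: ds) (pos ((qs ++ [q]).map (vd κ))) X z0 + (((qs.length + 1) * κ) ^ 2 + 1) *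
        (2 ^ (4 * u + κ) * flt u S (pos ((qs ++ [q]).map (vd κ) ++ vd κ v :: ds)) z0) := by
  obtain ⟨Z, h1, h2⟩ := runs_append.1 hr
  have h3 := wsort_ok hp hl hd h0 h1
  set Q := (qs ++ [q]).map (vd κ) with hQ
  have hq : vd κ q ∈ Q := List.mem_map_of_mem (by simp)
  have hi : ∀ i, q ≤ i → i < q + κ → i ∈ pos Q := fun i a b => ⟨_, hq, a, b⟩
  have hσ : q + κ ≤ σ := ((lay_left hl).1 _ hq).2.1
  have hl2 : Lay σ κ u (vd κ q :: vd κ v :: ds) :=
    hl.sublist ((List.singleton_sublist.2 hq).append_right _)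
  have hβ := flt_nonneg (u := u) (P := pos (Q ++ vd κ v :: ds)) (z := z0) S
  have h4 : (2 : ℝ) ^ (4 * u + 1) ≤ 2 ^ (4 * u + κ) :=
    pow_le_pow_right₀ one_le_two (by have := hp.hκ; omega)
  have h5 : av (pos Q) (fun y => ind (¬ OKL (eV M / 2) (vd κ v :: ds) Y y)) z0 ≤
      nOK M (vd κ v :: ds) (pos Q) Z z0 +
        2 ^ (4 * u + κ) * flt u S (pos (Q ++ vd κ v :: ds)) z0 := by
    rw [← av_line hσ hi]
    have h6 := av_put_le (P := pos Q) (z0 := z0)
      (f := fun y => ind (¬ OK (eV M) (vd κ v :: ds) Z y)) (fun _ => ind_nonneg _) hi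
      (ofN _ (s0 κ m c0))
    have h7 : av (pos Q) (fun y => (2 ^ κ)⁻¹ * ind (¬ OK (eV M) (vd κ v :: ds) Z
        (put y q κ (ofN _ (s0 κ m c0))))) z0 ≤ nOK M (vd κ v :: ds) (pos Q) Z z0 := by
      rw [av_mul, inv_mul_le_iff₀ (by positivity)]
      exact h6
    refine le_trans ?_ (add_le_add h7 (av_calm (e := vd κ q) hi (4 * u + κ)))
    rw [← av_add]
    refine av_mono fun y hy => ?_
    by_cases hc' : flt u S (pos (vd κ q :: vd κ v :: ds)) y ≤ (1 / 2) ^ (4 * u + κ)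
    · refine (plBc_ok hp hl2 hd ((lay_left hl).home h0 hy) h2 hc' fun z hz => hc z ?_).trans ?_
      · rw [← union_pos (e := vd κ q) hi]
        exact (hy.mono Set.subset_union_left).trans (hz.mono Set.subset_union_right)
      · rw [div_eq_inv_mul]
        exact le_add_of_nonneg_right (ind_nonneg _)
    · rw [ind_of hc']
      exact (expect_ind_le _).trans
        (le_add_of_nonneg_left (mul_nonneg (by positivity) (ind_nonneg _)))
  rw [List.length_append, List.length_singleton, Nat.cast_add, Nat.cast_one] at h3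
  have h8 := mul_le_mul_of_nonneg_left (mul_le_mul_of_nonneg_right h4 hβ)
    (sq_nonneg (((qs.length : ℝ) + 1) * κ))
  linarith

open Classical in
theorem sb_msg {qs : List ℕ} {q : ℕ} {m c0 : Bool} {c : Cond} (hp : Par κ u M)
    (hl : Lay σ κ u ((qs ++ [q]).map (vd κ) ++ vd κ v :: ds)) (hd : ds.length + 1 ≤ M)
    (h0 : Home u z0) (hH : HP ds z0) (hr : Runs κ orc S (sb κ u v ds qs q m c) X Y)
    (hc : ∀ z, InR (pos ((qs ++ [q]).map (vd κ) ++ vd κ v :: ds)) z0 z → c.ev orc z = c0) :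
    av (pos ((qs ++ [q]).map (vd κ))) (fun y => ind (¬ Msg (eV M) (vd κ v :: ds) Y y
      (b2 (decide (((rank (bitsOf (qs.map (vd κ))) y + 2 ^ (qs.length * κ) * s0 κ m c0 : ℕ) : ℝ) <
        2 ^ ((qs.length + 1) * κ) * frac M (vd κ v :: ds) (pos ((qs ++ [q]).map (vd κ))) X z0))))) z0
      ≤ 6 * 2 ^ κ * ((qs.length + 1) * κ + 1) ^ 4 *
        (nOK M (vd κ v :: ds) (pos ((qs ++ [q]).map (vd κ))) X z0 +
          2 ^ (4 * u + κ) * flt u S (pos ((qs ++ [q]).map (vd κ) ++ vd κ v :: ds)) z0) := by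
  obtain ⟨Z, h1, h2⟩ := runs_append.1 hr
  have h3 := wsort_msg hp hl hd h0 hH h1
  have hb : bitsOf ((qs ++ [q]).map (vd κ)) = bitsOf (qs.map (vd κ)) ++ List.range' q κ := by
    simp [bitsOf, vd]
  have hl3 : Lay σ κ u (qs.map (vd κ) ++ [vd κ q]) := by
    have := lay_left hl
    rwa [List.map_append] at this
  set Q := (qs ++ [q]).map (vd κ) with hQ
  have hq : vd κ q ∈ Q := List.mem_map_of_mem (by simp)
  have hi : ∀ i, q ≤ i → i < q + κ → i ∈ pos Q := fun i a b => ⟨_, hq, a, b⟩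
  have hσ : q + κ ≤ σ := ((lay_left hl).1 _ hq).2.1
  have hl2 : Lay σ κ u (vd κ q :: vd κ v :: ds) :=
    hl.sublist ((List.singleton_sublist.2 hq).append_right _)
  have hβ := flt_nonneg (u := u) (P := pos (Q ++ vd κ v :: ds)) (z := z0) S
  have h4 : (2 : ℝ) ^ (4 * u + 1) ≤ 2 ^ (4 * u + κ) :=
    pow_le_pow_right₀ one_le_two (by have := hp.hκ; omega)
  have hrk : ∀ y : Vec σ, rank (bitsOf Q) (put y q κ (ofN _ (s0 κ m c0))) =
      rank (bitsOf (qs.map (vd κ))) y + 2 ^ (qs.length * κ) * s0 κ m c0 := fun y => by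
    rw [hb, rank_append, rank_range', fld_put hσ (s0_lt _ _ _), length_bitsOf_vd]
    congr 1
    refine rank_congr fun j hj => ?_
    unfold fld
    rw [get_put_disj (p := q) (w := κ)
      (bit_disj hl3 (mem_bitsOf.1 hj) (List.mem_singleton_self _)).symm]
  rw [List.length_append, List.length_singleton] at h3
  have h6 := (av_put_le (fun _ => ind_nonneg _) hi (ofN _ (s0 κ m c0))).trans
    (mul_le_mul_of_nonneg_left h3 (by positivity))
  simp only [hrk] at h6
  refine le_trans (b := _ + _) ?_ (le_trans (add_le_add h6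
    (av_calm (u := u) (S := S) (D := vd κ v :: ds) (z0 := z0) (e := vd κ q) hi (4 * u + κ))) ?_)
  · rw [← av_add]
    refine av_mono fun y hy => ?_
    refine le_trans (ind_mono fun hm => ?_) (ind_or_le _ _)
    by_contra hc'
    rw [not_or, not_not, not_not] at hc'
    refine hm (plBc_valid hp hl2 hd ((lay_left hl).home h0 hy) h2 hc'.2 (fun z hz => hc z ?_)
      InR.refl (hp_of_inR hl hH hy) hc'.1)
    rw [← union_pos (e := vd κ q) hi]
    exact (hy.mono Set.subset_union_left).trans (hz.mono Set.subset_union_right)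
  · push_cast
    have hN : 0 ≤ nOK M (vd κ v :: ds) (pos Q) X z0 := av_ind_nonneg _
    have h7 := mul_le_mul_of_nonneg_right h4 hβ
    set A : ℝ := 2 ^ κ * (((qs.length : ℝ) + 1) * κ + 1) ^ 4 with hA
    have hA1 : 1 ≤ A := one_le_mul_of_one_le_of_one_le (one_le_pow₀ one_le_two)
      (one_le_pow₀ (le_add_of_nonneg_left (by positivity)))
    set b1 := 2 ^ (4 * u + 1) * flt u S (pos (Q ++ vd κ v :: ds)) z0
    set bk := 2 ^ (4 * u + κ) * flt u S (pos (Q ++ vd κ v :: ds)) z0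
    have hbk : 0 ≤ bk := mul_nonneg (by positivity) hβ
    set N := nOK M (vd κ v :: ds) (pos Q) X z0
    have h8 : 5 * A * (N + b1) + bk ≤ 6 * A * (N + bk) := by nlinarith
    calc _ = 5 * A * (N + b1) + bk := by rw [hA]; ring
      _ ≤ _ := h8
      _ = _ := by rw [hA]; ring

end Vale.Agent.P330.Amp
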